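import Mathlib
import Vale.Agent.P268.Hol

set_option linter.all false

namespace AFastf035a4x5a
@[reducible] noncomputable def a0 {x1 : ℕ} : Module ℝ (Fin x1 → ℂ) := inferInstance
@[reducible] noncomputable def a1 : DistribMulAction ℝ ℂ := inferInstance
@[reducible] noncomputable def a2 : SMulZeroClass ℝ ℂ := inferInstance
@[reducible] noncomputable def a3 : DistribSMul ℝ ℂ := inferInstance
theorem a4 {x1 : ℕ} : OpensMeasurableSpace (Fin x1 → ℂ) := inferInstance
@[reducible] noncomputable def a5 {x1 : ℕ} : MeasureTheory.MeasureSpace (Fin x1 → ℂ) := inferInstance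
theorem a6 : ContinuousAdd ℂ := inferInstance
@[reducible] noncomputable def a7 : MulAction ℝ ℂ := inferInstance
theorem a8 : SecondCountableTopology ℂ := inferInstance
theorem a9 : TopologicalSpace.SeparableSpace ℂ := inferInstance
theorem a10 : IsTopologicalRing ℂ := inferInstance
theorem a11 : IsSemitopologicalSemiring ℂ := inferInstance
theorem a12 : IsSemitopologicalRing ℂ := inferInstance
theorem a13 : IsTopologicalAddGroup ℂ := inferInstance
theorem a14 : SigmaCompactSpace ℂ := inferInstance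
theorem a15 : ContinuousSMul ℝ ℂ := inferInstance
theorem a16 : TopologicalSpace.IsCompletelyMetrizableSpace ℂ := inferInstance
theorem a17 : PolishSpace ℂ := inferInstance
@[reducible] noncomputable def a18 {x1 : ℕ} : NormedSpace ℝ (Fin x1 → ℂ) := inferInstance
@[reducible] noncomputable def a19 : MeasureTheory.MeasureSpace ℂ := inferInstance
theorem a20 : IsTopologicalSemiring ℂ := inferInstance
@[reducible] noncomputable def a21 {x1 : ℕ} {x2 : Fin x1} : DistribMulAction ℝ ((fun a => ℂ) x2) := inferInstance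
theorem a22 : IsModuleTopology ℂ ℂ := inferInstance
theorem a23 : ContinuousSMul ℂ ℂ := inferInstance
theorem a24 {x1 : ℕ} : ContinuousSMul ℂ (Fin x1 → ℂ) := inferInstance
@[reducible] noncomputable def a25 {x1 : ℕ} : SMulZeroClass ℝ (Fin x1 → ℂ) := inferInstance
theorem a26 {x1 : ℕ} : ContinuousAdd (Fin x1 → ℂ) := inferInstance
@[reducible] noncomputable def a27 {x1 : ℕ} : DistribSMul ℝ (Fin x1 → ℂ) := inferInstance
theorem a28 : LocallyCompactSpace ℂ := inferInstance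
@[reducible] noncomputable def a29 {x1 : ℕ} : DistribMulAction ℝ (Fin x1 → ℂ) := inferInstance
@[reducible] def a30 : Monoid ℂ := inferInstance
@[reducible] noncomputable def a31 : NormedSpace ℝ ℝ := inferInstance
theorem a32 : WeaklyLocallyCompactSpace ℂ := inferInstance
theorem a33 : AddMonoidHomClass (ℂ →+* ℂ) ℂ ℂ := inferInstance
theorem a34 : AddLeftMono ℝ := inferInstance
@[reducible] def a35 : Pow ℂ ℕ := inferInstance
theorem a36 {x1 : ℕ} : FiniteDimensional ℝ (Fin x1 → ℂ) := inferInstance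
theorem a37 : DistribMulActionSemiHomClass (ℂ →+* ℂ) ⇑(RingHom.id ℚ≥0) ℂ ℂ := inferInstance
theorem a38 : ContinuousConstSMul ℂ ℂ := inferInstance
theorem a39 : SeparatelyContinuousMul ℂ := inferInstance
@[reducible] noncomputable def a40 {x1 : ℕ} : AddCommGroup ((Fin x1 → ℂ) →L[ℝ] ℂ) := inferInstance
theorem a41 {x1 : ℕ} : MulHomClass (MvPolynomial (Fin x1) ℂ →+* ℂ) (MvPolynomial (Fin x1) ℂ) ℂ := inferInstance
@[reducible] def a42 : NPow ℂ := inferInstance
theorem a43 : IsTopologicalDivisionRing ℂ := inferInstance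
@[reducible] noncomputable def a44 {x1 : ℕ} : AddCommMonoid ((Fin x1 → ℂ) →L[ℝ] ℂ) := inferInstance
theorem a45 : @MeasureTheory.Measure.IsAddHaarMeasure Complex (@AddCommGroup.toAddGroup Complex (@NormedAddCommGroup.toAddCommGroup Complex Complex.instNormedAddCommGroup)) (@UniformSpace.toTopologicalSpace Complex (@PseudoMetricSpace.toUniformSpace Complex (@SeminormedAddCommGroup.toPseudoMetricSpace Complex (@NormedAddCommGroup.toSeminormedAddCommGroup Complex Complex.instNormedAddCommGroup)))) (@MeasureTheory.MeasureSpace.toMeasurableSpace Complex (@measureSpaceOfInnerProductSpace Complex Complex.instNormedAddCommGroup instInnerProductSpaceRealComplex Complex.instFiniteDimensionalReal Complex.measurableSpace Complex.borelSpace)) (@MeasureTheory.volume Complex (@measureSpaceOfInnerProductSpace Complex Complex.instNormedAddCommGroup instInnerProductSpaceRealComplex Complex.instFiniteDimensionalReal Complex.measurableSpace Complex.borelSpace))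 := inferInstance
@[reducible] noncomputable def a46 {x1 : ℕ} : TopologicalSpace ((Fin x1 → ℂ) →L[ℝ] ℂ) := inferInstance
theorem a47 : ContinuousConstSMul ℝ ℂ := inferInstance
theorem a48 : TopologicalSpace.IsCompletelyPseudoMetrizableSpace ℂ := inferInstance
end AFastf035a4x5a
attribute [local instance] AFastf035a4x5a.a0 AFastf035a4x5a.a1 AFastf035a4x5a.a2 AFastf035a4x5a.a3
  AFastf035a4x5a.a4 AFastf035a4x5a.a5 AFastf035a4x5a.a6 AFastf035a4x5a.a7 AFastf035a4x5a.a8
  AFastf035a4x5a.a9 AFastf035a4x5a.a10 AFastf035a4x5a.a11 AFastf035a4x5a.a12 AFastf035a4x5a.a13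
  AFastf035a4x5a.a14 AFastf035a4x5a.a15 AFastf035a4x5a.a16 AFastf035a4x5a.a17 AFastf035a4x5a.a18
  AFastf035a4x5a.a19 AFastf035a4x5a.a20 AFastf035a4x5a.a21 AFastf035a4x5a.a22 AFastf035a4x5a.a23
  AFastf035a4x5a.a24 AFastf035a4x5a.a25 AFastf035a4x5a.a26 AFastf035a4x5a.a27 AFastf035a4x5a.a28
  AFastf035a4x5a.a29 AFastf035a4x5a.a30 AFastf035a4x5a.a31 AFastf035a4x5a.a32 AFastf035a4x5a.a33
  AFastf035a4x5a.a34 AFastf035a4x5a.a35 AFastf035a4x5a.a36 AFastf035a4x5a.a37 AFastf035a4x5a.a38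
  AFastf035a4x5a.a39 AFastf035a4x5a.a40 AFastf035a4x5a.a41 AFastf035a4x5a.a42 AFastf035a4x5a.a43
  AFastf035a4x5a.a44 AFastf035a4x5a.a45 AFastf035a4x5a.a46 AFastf035a4x5a.a47 AFastf035a4x5a.a48
namespace AFastf035a4x5b
@[reducible] noncomputable def a0 : Module ℝ ℂ := inferInstance
theorem a1 {x1 : ℕ} : AddHomClass (MvPolynomial (Fin x1) ℂ →+* ℂ) (MvPolynomial (Fin x1) ℂ) ℂ := inferInstance
theorem a2 : IsScalarTower ℝ ℝ ℂ := inferInstance
theorem a3 {x1 : ℕ} : AddMonoidHomClass (MvPolynomial (Fin x1) ℂ →+* ℂ) (MvPolynomial (Fin x1) ℂ) ℂ := inferInstance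
theorem a4 : SMulCommClass ℝ ℝ ℂ := inferInstance
@[reducible] noncomputable def a5 {x1 : ℕ} : Module ℝ ((Fin x1 → ℂ) →L[ℝ] ℂ) := inferInstance
@[reducible] noncomputable def a6 {x1 : ℕ} {x2 : Fin x1} : SemigroupAction ℝ ((fun a => ℂ) x2) := inferInstance
@[reducible] noncomputable def a7 {x1 : ℕ} : NormedSpace ℝ ((Fin x1 → ℂ) →L[ℝ] ℂ) := inferInstance
@[reducible] noncomputable def a8 {x1 : ℕ} {x2 : Fin x1} : MulAction ℝ ((fun a => ℂ) x2) := inferInstance
theorem a9 {x1 : Type} [x2 : Field x1] [x3 : Algebra ℂ x1] : AddHomClass (Derivation ℂ x1 x1) x1 x1 := inferInstance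
theorem a10 {x1 : Nat} : @MeasureTheory.Measure.IsNegInvariant (Fin x1 → Complex) (@MeasureTheory.MeasureSpace.toMeasurableSpace (Fin x1 → Complex) (@MeasureTheory.MeasureSpace.pi (Fin x1) (Fin.fintype x1) (fun a => Complex) fun i => @measureSpaceOfInnerProductSpace Complex Complex.instNormedAddCommGroup instInnerProductSpaceRealComplex Complex.instFiniteDimensionalReal Complex.measurableSpace Complex.borelSpace)) (@Pi.instNeg (Fin x1) (fun a => Complex) fun i => @NegZeroClass.toNeg Complex (@SubNegZeroMonoid.toNegZeroClass Complex (@SubtractionMonoid.toSubNegZeroMonoid Complex (@AddGroup.toSubtractionMonoid Complex (@AddCommGroup.toAddGroup Complex Complex.addCommGroup))))) (@MeasureTheory.volume (Fin x1 → Complex) (@MeasureTheory.MeasureSpace.pi (Fin x1) (Fin.fintype x1) (fun a => Complex) fun i => @measureSpaceOfInnerProductSpace Complex Complex.instNormedAddCommGroup instInnerProductSpaceRealComplex Complex.instFiniteDimensionalReal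 Complex.measurableSpace Complex.borelSpace)) := inferInstance
theorem a11 {x1 : ℕ} : BorelSpace (Fin x1 → ℂ) := inferInstance
theorem a12 : @MeasureTheory.Measure.IsNegInvariant Complex (@MeasureTheory.MeasureSpace.toMeasurableSpace Complex (@measureSpaceOfInnerProductSpace Complex Complex.instNormedAddCommGroup instInnerProductSpaceRealComplex Complex.instFiniteDimensionalReal Complex.measurableSpace Complex.borelSpace)) (@NegZeroClass.toNeg Complex (@SubNegZeroMonoid.toNegZeroClass Complex (@SubtractionMonoid.toSubNegZeroMonoid Complex (@SubtractionCommMonoid.toSubtractionMonoid Complex (@AddCommGroup.toDivisionAddCommMonoid Complex Complex.addCommGroup))))) (@MeasureTheory.volume Complex (@measureSpaceOfInnerProductSpace Complex Complex.instNormedAddCommGroup instInnerProductSpaceRealComplex Complex.instFiniteDimensionalReal Complex.measurableSpace Complex.borelSpace)) := inferInstance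
theorem a13 {x1 : ℕ} : ContinuousSMul ℝ (Fin x1 → ℂ) := inferInstance
theorem a14 : @MeasureTheory.Measure.InnerRegular Complex (@MeasureTheory.MeasureSpace.toMeasurableSpace Complex (@measureSpaceOfInnerProductSpace Complex Complex.instNormedAddCommGroup instInnerProductSpaceRealComplex Complex.instFiniteDimensionalReal Complex.measurableSpace Complex.borelSpace)) (@UniformSpace.toTopologicalSpace Complex (@PseudoMetricSpace.toUniformSpace Complex (@SeminormedRing.toPseudoMetricSpace Complex (@SeminormedCommRing.toSeminormedRing Complex (@NormedCommRing.toSeminormedCommRing Complex (@CommCStarAlgebra.toNormedCommRing Complex instCommCStarAlgebraComplex)))))) (@MeasureTheory.volume Complex (@measureSpaceOfInnerProductSpace Complex Complex.instNormedAddCommGroup instInnerProductSpaceRealComplex Complex.instFiniteDimensionalReal Complex.measurableSpace Complex.borelSpace)) := inferInstance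
@[reducible] noncomputable def a15 {x1 : ℕ} : SMulZeroClass (MvPolynomial (Fin x1) ℂ) (MvPolynomial (Fin x1) ℂ) := inferInstance
@[reducible] noncomputable def a16 {x1 : ℕ} : DistribMulAction (MvPolynomial (Fin x1) ℂ) (MvPolynomial (Fin x1) ℂ) := inferInstance
@[reducible] noncomputable def a17 {x1 : ℕ} : DistribSMul (MvPolynomial (Fin x1) ℂ) (MvPolynomial (Fin x1) ℂ) := inferInstance
theorem a18 : @MeasureTheory.SigmaFinite Complex (@MeasureTheory.MeasureSpace.toMeasurableSpace Complex (@measureSpaceOfInnerProductSpace Complex Complex.instNormedAddCommGroup instInnerProductSpaceRealComplex Complex.instFiniteDimensionalReal Complex.measurableSpace Complex.borelSpace)) (@MeasureTheory.volume Complex (@measureSpaceOfInnerProductSpace Complex Complex.instNormedAddCommGroup instInnerProductSpaceRealComplex Complex.instFiniteDimensionalReal Complex.measurableSpace Complex.borelSpace)) := inferInstance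
theorem a19 {x1 : Nat} : @MeasureTheory.Measure.IsAddLeftInvariant (Fin x1 → Complex) (@MeasureTheory.MeasureSpace.toMeasurableSpace (Fin x1 → Complex) (@MeasureTheory.MeasureSpace.pi (Fin x1) (Fin.fintype x1) (fun a => Complex) fun i => @measureSpaceOfInnerProductSpace Complex Complex.instNormedAddCommGroup instInnerProductSpaceRealComplex Complex.instFiniteDimensionalReal Complex.measurableSpace Complex.borelSpace)) (@Pi.instAdd (Fin x1) (fun a => Complex) fun i => @AddZero.toAdd Complex (@AddZeroClass.toAddZero Complex (@AddMonoid.toAddZeroClass Complex (@SubNegMonoid.toAddMonoid Complex (@AddGroup.toSubNegMonoid Complex (@AddGroupWithOne.toAddGroup Complex Complex.addGroupWithOne)))))) (@MeasureTheory.volume (Fin x1 → Complex) (@MeasureTheory.MeasureSpace.pi (Fin x1) (Fin.fintype x1) (fun a => Complex) fun i => @measureSpaceOfInnerProductSpace Complex Complex.instNormedAddCommGroup instInnerProductSpaceRealComplex Complex.instFiniteDimensionalReal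 Complex.measurableSpace Complex.borelSpace)) := inferInstance
@[reducible] noncomputable def a20 {x1 : ℕ} {x2 : Fin x1} : Module ℝ ((fun a => ℂ) x2) := inferInstance
theorem a21 {x1 : ℕ} : SemilinearMapClass ((Fin x1 → ℂ) →L[ℂ] ℂ) (RingHom.id ℂ) (Fin x1 → ℂ) ℂ := inferInstance
theorem a22 {x1 : Nat} : @MeasureTheory.IsLocallyFiniteMeasure (Fin x1 → Complex) (@MeasureTheory.MeasureSpace.toMeasurableSpace (Fin x1 → Complex) (@MeasureTheory.MeasureSpace.pi (Fin x1) (Fin.fintype x1) (fun a => Complex) fun i => @measureSpaceOfInnerProductSpace Complex Complex.instNormedAddCommGroup instInnerProductSpaceRealComplex Complex.instFiniteDimensionalReal Complex.measurableSpace Complex.borelSpace)) (@Pi.topologicalSpace (Fin x1) (fun a => Complex) fun i => @UniformSpace.toTopologicalSpace Complex (@PseudoMetricSpace.toUniformSpace Complex (@SeminormedRing.toPseudoMetricSpace Complex (@SeminormedCommRing.toSeminormedRing Complex (@NormedCommRing.toSeminormedCommRing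 Complex (@CommCStarAlgebra.toNormedCommRing Complex instCommCStarAlgebraComplex)))))) (@MeasureTheory.volume (Fin x1 → Complex) (@MeasureTheory.MeasureSpace.pi (Fin x1) (Fin.fintype x1) (fun a => Complex) fun i => @measureSpaceOfInnerProductSpace Complex Complex.instNormedAddCommGroup instInnerProductSpaceRealComplex Complex.instFiniteDimensionalReal Complex.measurableSpace Complex.borelSpace)) := inferInstance
theorem a23 {x1 : Nat} : @MeasureTheory.IsFiniteMeasureOnCompacts (Fin x1 → Complex) (@MeasureTheory.MeasureSpace.toMeasurableSpace (Fin x1 → Complex) (@MeasureTheory.MeasureSpace.pi (Fin x1) (Fin.fintype x1) (fun a => Complex) fun i => @measureSpaceOfInnerProductSpace Complex Complex.instNormedAddCommGroup instInnerProductSpaceRealComplex Complex.instFiniteDimensionalReal Complex.measurableSpace Complex.borelSpace)) (@Pi.topologicalSpace (Fin x1) (fun a => Complex) fun i => @UniformSpace.toTopologicalSpace Complex (@PseudoMetricSpace.toUniformSpace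 Complex (@SeminormedRing.toPseudoMetricSpace Complex (@SeminormedCommRing.toSeminormedRing Complex (@NormedCommRing.toSeminormedCommRing Complex (@CommCStarAlgebra.toNormedCommRing Complex instCommCStarAlgebraComplex)))))) (@MeasureTheory.volume (Fin x1 → Complex) (@MeasureTheory.MeasureSpace.pi (Fin x1) (Fin.fintype x1) (fun a => Complex) fun i => @measureSpaceOfInnerProductSpace Complex Complex.instNormedAddCommGroup instInnerProductSpaceRealComplex Complex.instFiniteDimensionalReal Complex.measurableSpace Complex.borelSpace)) := inferInstance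
theorem a24 {x1 : ℕ} : AddHomClass (Derivation ℂ (MvPolynomial (Fin x1) ℂ) (MvPolynomial (Fin x1) ℂ)) (MvPolynomial (Fin x1) ℂ) (MvPolynomial (Fin x1) ℂ) := inferInstance
theorem a25 {x1 : Nat} : @MeasureTheory.SFinite (Fin x1 → Complex) (@MeasureTheory.MeasureSpace.toMeasurableSpace (Fin x1 → Complex) (@MeasureTheory.MeasureSpace.pi (Fin x1) (Fin.fintype x1) (fun a => Complex) fun i => @measureSpaceOfInnerProductSpace Complex Complex.instNormedAddCommGroup instInnerProductSpaceRealComplex Complex.instFiniteDimensionalReal Complex.measurableSpace Complex.borelSpace)) (@MeasureTheory.volume (Fin x1 → Complex) (@MeasureTheory.MeasureSpace.pi (Fin x1) (Fin.fintype x1) (fun a => Complex) fun i => @measureSpaceOfInnerProductSpace Complex Complex.instNormedAddCommGroup instInnerProductSpaceRealComplex Complex.instFiniteDimensionalReal Complex.measurableSpace Complex.borelSpace)) := inferInstance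
theorem a26 {x1 : ℕ} : MulActionSemiHomClass ((Fin x1 → ℂ) →L[ℂ] ℂ) (⇑(RingHom.id ℂ)) (Fin x1 → ℂ) ℂ := inferInstance
end AFastf035a4x5b
attribute [local instance] AFastf035a4x5b.a0 AFastf035a4x5b.a1 AFastf035a4x5b.a2 AFastf035a4x5b.a3
  AFastf035a4x5b.a4 AFastf035a4x5b.a5 AFastf035a4x5b.a6 AFastf035a4x5b.a7 AFastf035a4x5b.a8
  AFastf035a4x5b.a9 AFastf035a4x5b.a10 AFastf035a4x5b.a11 AFastf035a4x5b.a12 AFastf035a4x5b.a13
  AFastf035a4x5b.a14 AFastf035a4x5b.a15 AFastf035a4x5b.a16 AFastf035a4x5b.a17 AFastf035a4x5b.a18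
  AFastf035a4x5b.a19 AFastf035a4x5b.a20 AFastf035a4x5b.a21 AFastf035a4x5b.a22 AFastf035a4x5b.a23
  AFastf035a4x5b.a24 AFastf035a4x5b.a25 AFastf035a4x5b.a26
section

/-!
P282: definitions for the analytic proof of the inequality (see notes 4720).
-/

open MeasureTheory Filter Topology
open scoped ENNReal NNReal ComplexConjugate

namespace Vale.Agent.P282.L2

/-! ### Wirtinger derivatives on `ℂⁿ` -/

/-- `∂f/∂z_j`. -/
noncomputable def dz {n : ℕ} (j : Fin n) (f : (Fin n → ℂ) → ℂ) (z : Fin n → ℂ) : ℂ :=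
  (fderiv ℝ f z (Pi.single j 1) - Complex.I * fderiv ℝ f z (Pi.single j Complex.I)) / 2

/-- `∂f/∂z̄_j`. -/
noncomputable def dzb {n : ℕ} (j : Fin n) (f : (Fin n → ℂ) → ℂ) (z : Fin n → ℂ) : ℂ :=
  (fderiv ℝ f z (Pi.single j 1) + Complex.I * fderiv ℝ f z (Pi.single j Complex.I)) / 2

/-! ### Finite étale covers of open subsets of `ℂⁿ`, as subsets of `ℂⁿ × ℂ` -/

/-- An `N`-sheeted étale cover `M = {(z, w) : z ∈ V, w ∈ fib z}` of an open set `V ⊆ ℂⁿ`. -/
structure Sheets (n N : ℕ) where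
  V : Set (Fin n → ℂ)
  fib : (Fin n → ℂ) → Finset ℂ
  isOpen : IsOpen V
  loc : ∀ z₀ ∈ V, ∃ (W : Set (Fin n → ℂ)) (s : Fin N → (Fin n → ℂ) → ℂ),
    IsOpen W ∧ z₀ ∈ W ∧ W ⊆ V ∧ (∀ i, DifferentiableOn ℂ (s i) W) ∧
    ∀ z ∈ W, Function.Injective (fun i => s i z) ∧ fib z = Finset.univ.image (fun i => s i z)

namespace Sheets

variable {n N : ℕ} (S : Sheets n N)

/-- The total space. -/
def M : Set ((Fin n → ℂ) × ℂ) := {q | q.1 ∈ S.V ∧ q.2 ∈ S.fib q.1}

/-- `s` is a holomorphic section of `M → V` over the open set `W`. -/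
structure IsSection (W : Set (Fin n → ℂ)) (s : (Fin n → ℂ) → ℂ) : Prop where
  isOpen : IsOpen W
  subset : W ⊆ S.V
  diff : DifferentiableOn ℂ s W
  mem : ∀ z ∈ W, s z ∈ S.fib z

/-- `X` is of class `C^k` along the sheets. -/
def CD (k : ℕ) (X : (Fin n → ℂ) × ℂ → ℂ) : Prop :=
  ∀ W s, S.IsSection W s → ContDiffOn ℝ k (fun z => X (z, s z)) W

/-- `X` is holomorphic along the sheets. -/
def Holo (X : (Fin n → ℂ) × ℂ → ℂ) : Prop :=
  ∀ W s, S.IsSection W s → DifferentiableOn ℂ (fun z => X (z, s z)) W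

open Classical in
/-- A local section through `q`. -/
noncomputable def sec (q : (Fin n → ℂ) × ℂ) : (Fin n → ℂ) → ℂ :=
  if h : ∃ s : (Fin n → ℂ) → ℂ, ∃ W, S.IsSection W s ∧ q.1 ∈ W ∧ s q.1 = q.2 then h.choose
  else fun _ => 0

/-- `∂/∂z_j` along the sheets. -/
noncomputable def D (j : Fin n) (X : (Fin n → ℂ) × ℂ → ℂ) (q : (Fin n → ℂ) × ℂ) : ℂ :=
  dz j (fun z => X (z, S.sec q z)) q.1

/-- `∂/∂z̄_j` along the sheets. -/
noncomputable def Db (j : Fin n) (X : (Fin n → ℂ) × ℂ → ℂ) (q : (Fin n → ℂ) × ℂ) : ℂ :=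
  dzb j (fun z => X (z, S.sec q z)) q.1

/-- `X` vanishes outside of a compact subset of `V`. -/
def Supp (X : (Fin n → ℂ) × ℂ → ℂ) : Prop :=
  ∃ C : Set (Fin n → ℂ), IsCompact C ∧ C ⊆ S.V ∧ ∀ q : (Fin n → ℂ) × ℂ, q.1 ∉ C → X q = 0

/-- Test functions. -/
def IsTest (X : (Fin n → ℂ) × ℂ → ℂ) : Prop := S.CD 2 X ∧ S.Supp X

/-- Sum over the fibers. -/
noncomputable def fsum (X : (Fin n → ℂ) × ℂ → ℂ) (z : Fin n → ℂ) : ℂ := ∑ w ∈ S.fib z, X (z, w)

/-- The pull back of Lebesgue measure to `M`. -/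
noncomputable def μ : Measure ((Fin n → ℂ) × ℂ) :=
  (volume.restrict S.V).bind fun z => ∑ w ∈ S.fib z, Measure.dirac (z, w)

/-- Levi form of a real function along the sheets. -/
noncomputable def levi (Φ : (Fin n → ℂ) × ℂ → ℝ) (β : Fin n → ℂ) (q : (Fin n → ℂ) × ℂ) : ℝ :=
  (∑ j, ∑ k, S.D j (S.Db k (fun q => (Φ q : ℂ))) q * β j * conj (β k)).re

end Sheets

/-- A plurisubharmonic exhaustion function of `V` with polynomially bounded gradient. -/
structure Exh {n : ℕ} (V : Set (Fin n → ℂ)) (p : (Fin n → ℂ) → ℝ) (C : ℝ) (k0 : ℕ) : Prop where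
  smooth : ContDiffOn ℝ 4 p V
  norm_sq_le : ∀ z ∈ V, ‖z‖ ^ 2 ≤ p z
  compact : ∀ c : ℝ, IsCompact {z | z ∈ V ∧ p z ≤ c}
  levi : ∀ z ∈ V, ∀ β : Fin n → ℂ, ∑ j, ‖β j‖ ^ 2 ≤
    (∑ j, ∑ k, dz j (dzb k (fun z => (p z : ℂ))) z * β j * conj (β k)).re
  grad : ∀ z ∈ V, ∑ j, ‖dz j (fun z => (p z : ℂ)) z‖ ^ 2 ≤ C * (1 + p z) ^ k0

/-! ### The algebraic cover -/

/-- The polynomial ring `ℂ[z₁, …, zₙ]`. -/
abbrev Pol (n : ℕ) : Type := MvPolynomial (Fin n) ℂ

/-- The value at `(z, w)` of a polynomial in `y` with coefficients in `ℂ[z]`. -/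
noncomputable def pev {n : ℕ} (f : Polynomial (Pol n)) (q : (Fin n → ℂ) × ℂ) : ℂ :=
  (f.map (MvPolynomial.eval q.1)).eval q.2

section cover

variable {n : ℕ} {K : Type} [Field K] [Algebra ℂ K] [Algebra (Pol n) K]

/-- `y` is a primitive element, integral over `ℂ[z]`, and `h ∈ ℂ[z]` is a multiple of its
discriminant and of the denominators of the integral closure of `ℂ[z]`. -/
structure Prim (n : ℕ) (K : Type) [Field K] [Algebra ℂ K] [Algebra (Pol n) K] where
  y : K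
  h : Pol n
  integral : IsIntegral (Pol n) y
  h0 : h ≠ 0
  gen : ∀ a : K, ∃ (f : Polynomial (Pol n)) (c : Pol n), c ≠ 0 ∧
    algebraMap (Pol n) K c * a = Polynomial.aeval y f
  denom : ∀ b : K, IsIntegral (Pol n) b →
    ∃ f : Polynomial (Pol n), algebraMap (Pol n) K h * b = Polynomial.aeval y f
  unram : ∃ f : Polynomial (Pol n),
    Polynomial.aeval y f * Polynomial.aeval y (Polynomial.derivative (minpoly (Pol n) y)) =
      algebraMap (Pol n) K h

/-- `a ∈ K` is regular on all of `M`: the elements of `ℂ[z][y, 1/h]`. -/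
def Prim.IsReg (E : Prim n K) (a : K) : Prop :=
  ∃ (f : Polynomial (Pol n)) (k : ℕ), algebraMap (Pol n) K E.h ^ k * a = Polynomial.aeval E.y f

open Classical in
/-- The value of `a ∈ K` at `q`. -/
noncomputable def Prim.ev (E : Prim n K) (a : K) (q : (Fin n → ℂ) × ℂ) : ℂ :=
  if h : E.IsReg a then pev h.choose q / (MvPolynomial.eval q.1 E.h) ^ h.choose_spec.choose else 0

/-- The sheets. -/
def Prim.IsSheets {N : ℕ} (E : Prim n K) (S : Sheets n N) : Prop :=
  (∀ z, z ∈ S.V ↔ MvPolynomial.eval z E.h ≠ 0) ∧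
  ∀ z w, w ∈ S.fib z ↔ ((minpoly (Pol n) E.y).map (MvPolynomial.eval z)).eval w = 0

/-- The integral closure of `ℂ[z]` in `K`. -/
abbrev IB (n : ℕ) (K : Type) [Field K] [Algebra (Pol n) K] : Type := integralClosure (Pol n) K

/-- A point of `Spec B`, `B` the integral closure of `ℂ[z]` in `K`, over the origin. -/
structure Pt (n : ℕ) (K : Type) [Field K] [Algebra (Pol n) K] where
  toFun : IB n K →+* ℂ
  map_alg : ∀ f : Pol n, toFun (algebraMap (Pol n) (IB n K) f) = MvPolynomial.eval 0 f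

/-- The filter of neighbourhoods of the point `x` on `M`. -/
noncomputable def Prim.nhd {N : ℕ} (E : Prim n K) (S : Sheets n N) (x : Pt n K) :
    Filter ((Fin n → ℂ) × ℂ) :=
  𝓟 S.M ⊓ ⨅ b : IB n K, comap (fun q => E.ev (b : K) q) (𝓝 (x.toFun b))

/-- A real valuation (written multiplicatively, `v f = exp (- ord f)`) over the local ring of `x`. -/
def Over (x : Pt n K) (v : Valuation K ℝ≥0) : Prop :=
  (∀ b : IB n K, v (b : K) ≤ 1) ∧ ∀ b : IB n K, x.toFun b ≠ 0 → v (b : K) = 1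

/-- The real valuation is centered at `x`. -/
def Centered (x : Pt n K) (v : Valuation K ℝ≥0) : Prop :=
  Over x v ∧ ∀ b : IB n K, x.toFun b = 0 → v (b : K) < 1

/-- The derivations `∂/∂z_j` of `K`. -/
def IsPartials (d : Fin n → Derivation ℂ K K) : Prop :=
  ∀ i j, d i (algebraMap (Pol n) K (MvPolynomial.X j)) = if i = j then 1 else 0

/-- Jacobian determinant. -/
noncomputable def jac (d : Fin n → Derivation ℂ K K) (b : Fin n → K) : K :=
  Matrix.det (Matrix.of fun i j => d i (b j))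

/-- The function `h` with `ω = h dlog b₁ ∧ ⋯ ∧ dlog bₙ`, where `dz₁ ∧ ⋯ ∧ dzₙ = J ω`. -/
noncomputable def hfun (d : Fin n → Derivation ℂ K K) (J : K) (b : Fin n → K) : K :=
  (∏ i, b i) / (J * jac d b)

/-- klt at `x`. -/
def Klt (x : Pt n K) (d : Fin n → Derivation ℂ K K) (J : K) : Prop :=
  ∀ v : Valuation K ℝ≥0, Over x v → (∃ b : IB n K, (b : K) ≠ 0 ∧ v (b : K) < 1) →
    ∃ b : Fin n → K, (∀ i, b i ≠ 0) ∧ jac d b ≠ 0 ∧ v (hfun d J b) < 1

/-- `b` vanishes to order at least `m` at the point `q` of `M`. -/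
def Prim.Van (E : Prim n K) (m : ℕ) (q : (Fin n → ℂ) × ℂ) (b : IB n K) : Prop :=
  ∃ e : IB n K, E.ev (e : K) q ≠ 0 ∧
    e * b ∈ (Ideal.span (Set.range fun i : Fin n =>
      algebraMap (Pol n) (IB n K) (MvPolynomial.X i - MvPolynomial.C (q.1 i)))) ^ m

/-- The limit along `U` of the ideals of functions vanishing to order `m` at `u.1` and `u.2`. -/
def Prim.Lim (E : Prim n K) (U : Filter (((Fin n → ℂ) × ℂ) × ((Fin n → ℂ) × ℂ))) (m : ℕ)
    (b : IB n K) : Prop :=
  ∃ (r : ℕ) (e : Fin r → IB n K) (c : ((Fin n → ℂ) × ℂ) × ((Fin n → ℂ) × ℂ) → Fin r → ℂ)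
    (c₀ : Fin r → ℂ), Tendsto c U (𝓝 c₀) ∧
    b = ∑ l, algebraMap (Pol n) (IB n K) (MvPolynomial.C (c₀ l)) * e l ∧
    ∀ᶠ u in U, E.Van m u.1 (∑ l, algebraMap (Pol n) (IB n K) (MvPolynomial.C (c u l)) * e l) ∧
      E.Van m u.2 (∑ l, algebraMap (Pol n) (IB n K) (MvPolynomial.C (c u l)) * e l)

end cover

end Vale.Agent.P282.L2
end
namespace AFastf035a4x201a
@[reducible] noncomputable def a0 {x1 : ℕ} : Algebra (Vale.Agent.P282.L2.Pol x1) (Polynomial (Vale.Agent.P282.L2.Pol x1)) := inferInstance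
@[reducible] noncomputable def a1 {x1 : ℕ} : Algebra (Vale.Agent.P282.L2.Pol x1) (OreLocalization (nonZeroDivisors (Vale.Agent.P282.L2.Pol x1)) (Vale.Agent.P282.L2.Pol x1)) := inferInstance
theorem a2 {x1 : ℕ} : IsLocalization (nonZeroDivisors (Vale.Agent.P282.L2.Pol x1)) (Localization (nonZeroDivisors (Vale.Agent.P282.L2.Pol x1))) := inferInstance
@[reducible] noncomputable def a3 {x1 : ℕ} {x2 : Type} [x3 : Field x2] [x4 : Algebra (FractionRing (Vale.Agent.P282.L2.Pol x1)) x2] : Module (FractionRing (Vale.Agent.P282.L2.Pol x1)) x2 := inferInstance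
@[reducible] noncomputable def a4 {x1 : ℕ} {x2 : Type} [x3 : Field x2] [x4 : Algebra (Vale.Agent.P282.L2.Pol x1) x2] : Module (Vale.Agent.P282.L2.Pol x1) x2 := inferInstance
@[reducible] noncomputable def a5 {x1 : Type} {x2 : ℕ} [x3 : Field x1] [x4 : Algebra (Vale.Agent.P282.L2.Pol x2) x1] : Zero ↥(integralClosure (Vale.Agent.P282.L2.Pol x2) x1) := inferInstance
end AFastf035a4x201a
attribute [local instance] AFastf035a4x201a.a0 AFastf035a4x201a.a1 AFastf035a4x201a.a2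
  AFastf035a4x201a.a3 AFastf035a4x201a.a4 AFastf035a4x201a.a5
namespace AFastf035a4x201b
@[reducible] noncomputable def a0 {x1 : ℕ} {x2 : Type} [x3 : Field x2] [x4 : Algebra (Vale.Agent.P282.L2.Pol x1) x2] : Algebra (Vale.Agent.P282.L2.Pol x1) ↥(integralClosure (Vale.Agent.P282.L2.Pol x1) x2) := inferInstance
@[reducible] def a1 {x1 : ℕ} {x2 : Type} [x3 : Field x2] [x4 : Algebra (Vale.Agent.P282.L2.Pol x1) x2] : SMul (Vale.Agent.P282.L2.Pol x1) x2 := inferInstance
theorem a2 {x1 : ℕ} : IsIntegrallyClosed (Vale.Agent.P282.L2.Pol x1) := inferInstance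
theorem a3 {x1 : ℕ} : IsIntegralClosure (Vale.Agent.P282.L2.Pol x1) (Vale.Agent.P282.L2.Pol x1) (FractionRing (Vale.Agent.P282.L2.Pol x1)) := inferInstance
@[reducible] noncomputable def a4 {x1 : Type} {x2 : ℕ} [x3 : Field x1] [x4 : Algebra (Vale.Agent.P282.L2.Pol x2) x1] [x5 : Algebra ℂ x1] [x6 : IsScalarTower ℂ (Vale.Agent.P282.L2.Pol x2) x1] : Algebra ℂ ↥(integralClosure (Vale.Agent.P282.L2.Pol x2) x1) := inferInstance
@[reducible] noncomputable def a5 {x1 : ℕ} : DistribMulAction (Vale.Agent.P282.L2.Pol x1) (Vale.Agent.P282.L2.Pol x1) := inferInstance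
theorem a6 {x1 : ℕ} {x2 : Type} [x3 : Field x2] [x4 : Algebra (Vale.Agent.P282.L2.Pol x1) x2] : AddHomClass (Polynomial (Vale.Agent.P282.L2.Pol x1) →ₐ[Vale.Agent.P282.L2.Pol x1] x2) (Polynomial (Vale.Agent.P282.L2.Pol x1)) x2 := inferInstance
theorem a7 {x1 : ℕ} {x2 : Type} [x3 : Field x2] [x4 : Algebra (Vale.Agent.P282.L2.Pol x1) x2] : LinearMapClass (Polynomial (Vale.Agent.P282.L2.Pol x1) →ₐ[Vale.Agent.P282.L2.Pol x1] x2) (Vale.Agent.P282.L2.Pol x1) (Polynomial (Vale.Agent.P282.L2.Pol x1)) x2 := inferInstance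
theorem a8 {x1 : ℕ} {x2 : Type} [x3 : Field x2] [x4 : Algebra (Vale.Agent.P282.L2.Pol x1) x2] [x5 : FaithfulSMul (Vale.Agent.P282.L2.Pol x1) x2] : Module.IsTorsionFree (Vale.Agent.P282.L2.Pol x1) x2 := inferInstance
@[reducible] noncomputable def a9 {x1 : ℕ} {x2 : Type} [x3 : Field x2] [x4 : Algebra (Vale.Agent.P282.L2.Pol x1) x2] [x5 : Algebra ℂ x2] [x6 : IsScalarTower ℂ (Vale.Agent.P282.L2.Pol x1) x2] : Module ℂ (Vale.Agent.P282.L2.IB x1 x2) := inferInstance
theorem a10 {x1 : ℕ} {x2 : Type} [x3 : Field x2] [x4 : Algebra (Vale.Agent.P282.L2.Pol x1) x2] : AddMonoidHomClass (Vale.Agent.P282.L2.IB x1 x2 →+* ℂ) (Vale.Agent.P282.L2.IB x1 x2) ℂ := inferInstance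
@[reducible] def a11 {x1 : ℕ} {x2 : Type} [x3 : Field x2] [x4 : Algebra (FractionRing (Vale.Agent.P282.L2.Pol x1)) x2] : SMul (FractionRing (Vale.Agent.P282.L2.Pol x1)) x2 := inferInstance
@[reducible] noncomputable def a12 {x1 : ℕ} {x2 : Type} [x3 : Field x2] [x4 : Algebra (Vale.Agent.P282.L2.Pol x1) x2] [x5 : Algebra ℂ x2] [x6 : IsScalarTower ℂ (Vale.Agent.P282.L2.Pol x1) x2] : SMul ℂ (Vale.Agent.P282.L2.IB x1 x2) := inferInstance
@[reducible] noncomputable def a13 {x1 : ℕ} {x2 : Type} [x3 : Field x2] [x4 : Algebra (Vale.Agent.P282.L2.Pol x1) x2] [x5 : Algebra ℂ x2] [x6 : IsScalarTower ℂ (Vale.Agent.P282.L2.Pol x1) x2] : DistribSMul ℂ (Vale.Agent.P282.L2.IB x1 x2) := inferInstance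
@[reducible] noncomputable def a14 {x1 : ℕ} {x2 : Type} [x3 : Field x2] [x4 : Algebra (Vale.Agent.P282.L2.Pol x1) x2] [x5 : Algebra ℂ x2] [x6 : IsScalarTower ℂ (Vale.Agent.P282.L2.Pol x1) x2] : SMulZeroClass ℂ (Vale.Agent.P282.L2.IB x1 x2) := inferInstance
theorem a15 {x1 : ℕ} {x2 : Type} [x3 : Field x2] : AddHomClass (Vale.Agent.P282.L2.Pol x1 →+* x2) (Vale.Agent.P282.L2.Pol x1) x2 := inferInstance
@[reducible] noncomputable def a16 {x1 : ℕ} {x2 : Type} [x3 : Field x2] [x4 : Algebra (Vale.Agent.P282.L2.Pol x1) x2] [x5 : Algebra ℂ x2] [x6 : IsScalarTower ℂ (Vale.Agent.P282.L2.Pol x1) x2] : DistribMulAction ℂ (Vale.Agent.P282.L2.IB x1 x2) := inferInstance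
@[reducible] noncomputable def a17 {x1 : ℕ} : SMul (Vale.Agent.P282.L2.Pol x1) (Polynomial (FractionRing (Vale.Agent.P282.L2.Pol x1))) := inferInstance
end AFastf035a4x201b
attribute [local instance] AFastf035a4x201b.a0 AFastf035a4x201b.a1 AFastf035a4x201b.a2
  AFastf035a4x201b.a3 AFastf035a4x201b.a4 AFastf035a4x201b.a5 AFastf035a4x201b.a6
  AFastf035a4x201b.a7 AFastf035a4x201b.a8 AFastf035a4x201b.a9 AFastf035a4x201b.a10
  AFastf035a4x201b.a11 AFastf035a4x201b.a12 AFastf035a4x201b.a13 AFastf035a4x201b.a14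
  AFastf035a4x201b.a15 AFastf035a4x201b.a16 AFastf035a4x201b.a17

section

namespace Vale.Agent.P282

/-- T3. Artin-Rees lifting of linear maps `A → P/I^M`. -/
theorem exists_lift {P A : Type} [CommRing P] [IsNoetherianRing P] [AddCommGroup A] [Module P A]
    [Module.Finite P A] (I : Ideal P) :
    ∃ M : ℕ, 1 ≤ M ∧ ∀ μ : A →ₗ[P] (P ⧸ I ^ M), ∃ ψ : A →ₗ[P] P,
      ∀ (a : A) (p : P), μ a = Ideal.Quotient.mk _ p → ψ a - p ∈ I := by
  classical
  obtain ⟨b, π, hπ⟩ := Module.Finite.exists_fin' P A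
  obtain ⟨a, k, hk⟩ := Submodule.fg_iff_exists_fin_generating_family.mp
    (IsNoetherian.noetherian (LinearMap.ker π))
  let E : (Fin b → P) →ₗ[P] (Fin a → P) :=
    LinearMap.pi fun i => ∑ j, (k i j) • LinearMap.proj j
  have hE : ∀ y i, E y i = ∑ j, k i j * y j := by
    intro y i
    simp [E]
  obtain ⟨c0, hc0⟩ := Ideal.exists_pow_inf_eq_pow_smul I (LinearMap.range E)
  refine ⟨c0 + 1, by omega, fun μ => ?_⟩
  choose m hm using fun j : Fin b => Ideal.Quotient.mk_surjective (μ (π (Pi.single j 1)))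
  have hμ : ∀ v : Fin b → P, μ (π v) = Ideal.Quotient.mk _ (∑ j, v j * m j) := by
    intro v
    have hv : v = ∑ j, v j • (Pi.single j 1 : Fin b → P) := by
      ext i; simp [Finset.sum_apply, Pi.single_apply]
    conv_lhs => rw [hv]
    rw [map_sum, map_sum, map_sum]
    refine Finset.sum_congr rfl fun j _ => ?_
    rw [map_smul, map_smul, ← hm j, map_mul, Algebra.smul_def]
    rfl
  have hEm : ∀ i, E m i ∈ I ^ (c0 + 1) := by
    intro i
    rw [hE, ← Ideal.Quotient.eq_zero_iff_mem, ← hμ]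
    have : k i ∈ LinearMap.ker π := by
      rw [← hk]; exact Submodule.subset_span ⟨i, rfl⟩
    rw [LinearMap.mem_ker.mp this, map_zero]
  have hEm' : E m ∈ I ^ (c0 + 1) • (⊤ : Submodule P (Fin a → P)) := by
    have hv : E m = ∑ i, (E m i) • (Pi.single i 1 : Fin a → P) := by
      ext i; simp [Finset.sum_apply, Pi.single_apply]
    rw [hv]
    exact Submodule.sum_mem _ fun i _ => Submodule.smul_mem_smul (hEm i) trivial
  have h1 : E m ∈ I ^ (c0 + 1) • ⊤ ⊓ LinearMap.range E := ⟨hEm', ⟨m, rfl⟩⟩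
  rw [hc0 (c0 + 1) (by omega)] at h1
  have h2 : E m ∈ I • LinearMap.range E := by
    rw [Nat.add_sub_cancel_left, pow_one] at h1
    exact Submodule.smul_mono le_rfl inf_le_right h1
  rw [LinearMap.range_eq_map, ← Submodule.map_smul''] at h2
  obtain ⟨y, hy, hyE⟩ := h2
  have hy' : ∀ j, y j ∈ I := by
    intro j
    have : (LinearMap.proj j : (Fin b → P) →ₗ[P] P) y ∈
        Submodule.map (LinearMap.proj j : (Fin b → P) →ₗ[P] P) (I • ⊤) := ⟨y, hy, rfl⟩
    rw [Submodule.map_smul''] at this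
    have h3 := Submodule.smul_mono (le_refl I) (le_top : Submodule.map
      (LinearMap.proj j : (Fin b → P) →ₗ[P] P) ⊤ ≤ ⊤) this
    simpa using h3
  let ψ' : (Fin b → P) →ₗ[P] P := ∑ j, (m j - y j) • LinearMap.proj j
  have hψ' : ∀ v, ψ' v = ∑ j, (m j - y j) * v j := by intro v; simp [ψ']
  have hker : LinearMap.ker π ≤ LinearMap.ker ψ' := by
    rw [← hk, Submodule.span_le]
    rintro _ ⟨i, rfl⟩
    rw [SetLike.mem_coe, LinearMap.mem_ker, hψ']
    have h4 : E y i = E m i := congrFun hyE i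
    rw [hE, hE] at h4
    have : ∑ j, (m j - y j) * k i j = ∑ j, k i j * m j - ∑ j, k i j * y j := by
      rw [← Finset.sum_sub_distrib]
      exact Finset.sum_congr rfl fun j _ => by ring
    rw [this, h4, sub_self]
  let ψ : A →ₗ[P] P := ((LinearMap.ker π).liftQ ψ' hker).comp
    (π.quotKerEquivOfSurjective hπ).symm.toLinearMap
  have hψ : ∀ v, ψ (π v) = ψ' v := by
    intro v
    have : (π.quotKerEquivOfSurjective hπ).symm (π v) = Submodule.Quotient.mk v := by
      rw [LinearEquiv.symm_apply_eq]; rfl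
    simp only [ψ, LinearMap.comp_apply, LinearEquiv.coe_coe, this]
    rfl
  refine ⟨ψ, fun x p hp => ?_⟩
  obtain ⟨v, rfl⟩ := hπ x
  rw [hμ, Ideal.Quotient.eq] at hp
  rw [hψ, hψ']
  have : ∑ j, (m j - y j) * v j - p = (∑ j, v j * m j - p) - ∑ j, v j * y j := by
    have h5 : ∑ j, (m j - y j) * v j = ∑ j, v j * m j - ∑ j, v j * y j := by
      rw [← Finset.sum_sub_distrib]
      exact Finset.sum_congr rfl fun j _ => by ring
    rw [h5]; ring
  rw [this]
  refine I.sub_mem (Ideal.pow_le_self (by omega) hp) (Ideal.sum_mem _ fun j _ =>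
    Ideal.mul_mem_left _ _ (hy' j))

end Vale.Agent.P282
end

section

open MeasureTheory Filter Topology
open scoped ENNReal NNReal ComplexConjugate

namespace Vale.Agent.P282.L2

variable {n : ℕ} {f g : (Fin n → ℂ) → ℂ} {z : Fin n → ℂ} {j k : Fin n}

theorem dz_congr (h : f =ᶠ[𝓝 z] g) : dz j f z = dz j g z := by
  rw [dz, dz, h.fderiv_eq]

theorem dzb_congr (h : f =ᶠ[𝓝 z] g) : dzb j f z = dzb j g z := by
  rw [dzb, dzb, h.fderiv_eq]

theorem dz_const (c : ℂ) : dz j (fun _ => c) z = 0 := by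
  simp [dz]

theorem dzb_const (c : ℂ) : dzb j (fun _ => c) z = 0 := by
  simp [dzb]

theorem dz_add (hf : DifferentiableAt ℝ f z) (hg : DifferentiableAt ℝ g z) :
    dz j (fun z => f z + g z) z = dz j f z + dz j g z := by
  simp only [dz, fderiv_fun_add hf hg, add_apply]
  ring

theorem dzb_add (hf : DifferentiableAt ℝ f z) (hg : DifferentiableAt ℝ g z) :
    dzb j (fun z => f z + g z) z = dzb j f z + dzb j g z := by
  simp only [dzb, fderiv_fun_add hf hg, add_apply]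
  ring

theorem dz_sum {ι : Type*} (s : Finset ι) {f : ι → (Fin n → ℂ) → ℂ}
    (hf : ∀ i ∈ s, DifferentiableAt ℝ (f i) z) :
    dz j (fun z => ∑ i ∈ s, f i z) z = ∑ i ∈ s, dz j (f i) z := by
  simp only [dz, fderiv_fun_sum hf, sum_apply]
  rw [Finset.mul_sum, ← Finset.sum_sub_distrib, Finset.sum_div]

theorem dzb_sum {ι : Type*} (s : Finset ι) {f : ι → (Fin n → ℂ) → ℂ}
    (hf : ∀ i ∈ s, DifferentiableAt ℝ (f i) z) :
    dzb j (fun z => ∑ i ∈ s, f i z) z = ∑ i ∈ s, dzb j (f i) z := by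
  simp only [dzb, fderiv_fun_sum hf, sum_apply]
  rw [Finset.mul_sum, ← Finset.sum_add_distrib, Finset.sum_div]

theorem dz_mul (hf : DifferentiableAt ℝ f z) (hg : DifferentiableAt ℝ g z) :
    dz j (fun z => f z * g z) z = dz j f z * g z + f z * dz j g z := by
  simp only [dz, fderiv_fun_mul hf hg, add_apply,
    smul_apply, smul_eq_mul]
  ring

theorem dzb_mul (hf : DifferentiableAt ℝ f z) (hg : DifferentiableAt ℝ g z) :
    dzb j (fun z => f z * g z) z = dzb j f z * g z + f z * dzb j g z := by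
  simp only [dzb, fderiv_fun_mul hf hg, add_apply,
    smul_apply, smul_eq_mul]
  ring

theorem wirt_fderiv_conj_apply (v : Fin n → ℂ) :
    fderiv ℝ (fun z => conj (f z)) z v = conj (fderiv ℝ f z v) := by
  have h := ContinuousLinearEquiv.comp_fderiv (Complex.conjCLE) (f := f) (x := z)
  have h2 : (fun z => conj (f z)) = (Complex.conjCLE ∘ f) := by
    funext w; simp
  rw [h2, h]
  simp

theorem wirt_conj_two : conj (2 : ℂ) = 2 := Complex.conj_ofNat 2

theorem dz_conj : dz j (fun z => conj (f z)) z = conj (dzb j f z) := by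
  simp only [dz, dzb, wirt_fderiv_conj_apply, map_div₀, map_add, map_mul, Complex.conj_I, wirt_conj_two]
  ring

theorem dzb_conj : dzb j (fun z => conj (f z)) z = conj (dz j f z) := by
  simp only [dz, dzb, wirt_fderiv_conj_apply, map_div₀, map_sub, map_mul, Complex.conj_I, wirt_conj_two]
  ring

theorem wirt_fderiv_comp_real_apply {φ : ℝ → ℝ} {u : (Fin n → ℂ) → ℝ} (hu : DifferentiableAt ℝ u z)
    (hφ : DifferentiableAt ℝ φ (u z)) (v : Fin n → ℂ) :
    fderiv ℝ (fun z => ((φ (u z) : ℝ) : ℂ)) z v =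
      ((deriv φ (u z) : ℝ) : ℂ) * fderiv ℝ (fun z => (u z : ℂ)) z v := by
  have h1 : HasFDerivAt (fun z => (u z : ℂ)) (Complex.ofRealCLM.comp (fderiv ℝ u z)) z :=
    Complex.ofRealCLM.hasFDerivAt.comp z hu.hasFDerivAt
  have h2 : HasFDerivAt (fun z => φ (u z)) (deriv φ (u z) • fderiv ℝ u z) z :=
    hφ.hasDerivAt.comp_hasFDerivAt z hu.hasFDerivAt
  have h3 : HasFDerivAt (fun z => ((φ (u z) : ℝ) : ℂ))
      (Complex.ofRealCLM.comp (deriv φ (u z) • fderiv ℝ u z)) z :=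
    Complex.ofRealCLM.hasFDerivAt.comp z h2
  rw [h1.fderiv, h3.fderiv]
  simp

/-- Chain rule for a real function of a real function. -/
theorem dz_comp_real {φ : ℝ → ℝ} {u : (Fin n → ℂ) → ℝ} (hu : DifferentiableAt ℝ u z)
    (hφ : DifferentiableAt ℝ φ (u z)) :
    dz j (fun z => ((φ (u z) : ℝ) : ℂ)) z = ((deriv φ (u z) : ℝ) : ℂ) * dz j (fun z => (u z : ℂ)) z := by
  simp only [dz, wirt_fderiv_comp_real_apply hu hφ]
  ring

theorem dzb_comp_real {φ : ℝ → ℝ} {u : (Fin n → ℂ) → ℝ} (hu : DifferentiableAt ℝ u z)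
    (hφ : DifferentiableAt ℝ φ (u z)) :
    dzb j (fun z => ((φ (u z) : ℝ) : ℂ)) z =
      ((deriv φ (u z) : ℝ) : ℂ) * dzb j (fun z => (u z : ℂ)) z := by
  simp only [dzb, wirt_fderiv_comp_real_apply hu hφ]
  ring

theorem wirt_fderiv_real_of_complex (hf : DifferentiableAt ℂ f z) (v : Fin n → ℂ) :
    fderiv ℝ f z v = fderiv ℂ f z v := by
  have h := hf.hasFDerivAt.restrictScalars ℝ
  rw [h.fderiv]
  rfl

theorem wirt_single_I (j : Fin n) : (Pi.single j Complex.I : Fin n → ℂ) = Complex.I • Pi.single j 1 := by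
  rw [← Pi.single_smul]
  simp

theorem dzb_holo (hf : DifferentiableAt ℂ f z) : dzb j f z = 0 := by
  simp only [dzb, wirt_fderiv_real_of_complex hf, wirt_single_I, map_smul, smul_eq_mul]
  rw [← mul_assoc, Complex.I_mul_I]
  ring

theorem dz_holo (hf : DifferentiableAt ℂ f z) : dz j f z = fderiv ℂ f z (Pi.single j 1) := by
  simp only [dz, wirt_fderiv_real_of_complex hf, wirt_single_I, map_smul, smul_eq_mul]
  rw [← mul_assoc, Complex.I_mul_I]
  ring

theorem wirt_pi_decomp (v : Fin n → ℂ) :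
    v = ∑ j, ((v j).re • (Pi.single j 1 : Fin n → ℂ) + (v j).im • (Pi.single j Complex.I : Fin n → ℂ)) := by
  funext i
  simp only [Finset.sum_apply, Pi.add_apply, Pi.smul_apply]
  rw [Finset.sum_eq_single i]
  · simp only [Pi.single_eq_same, Complex.real_smul]
    rw [mul_one, Complex.re_add_im]
  · intro b _ hb
    simp [Pi.single_eq_of_ne (Ne.symm hb)]
  · intro h
    exact absurd (Finset.mem_univ i) h

/-- A real differentiable function with vanishing `∂̄` is complex differentiable. -/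
theorem holo_of_dzb {W : Set (Fin n → ℂ)} (hW : IsOpen W) (hf : DifferentiableOn ℝ f W)
    (h : ∀ z ∈ W, ∀ j, dzb j f z = 0) : DifferentiableOn ℂ f W := by
  intro z hz
  have hd : DifferentiableAt ℝ f z := (hf z hz).differentiableAt (hW.mem_nhds hz)
  set A := fderiv ℝ f z with hA
  have h1 : ∀ j, A (Pi.single j Complex.I) = Complex.I * A (Pi.single j 1) := by
    intro j
    have h2 := h z hz j
    rw [dzb, ← hA] at h2
    have h3 : A (Pi.single j 1) + Complex.I * A (Pi.single j Complex.I) = 0 := by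
      have := congrArg (fun t => t * 2) h2
      simpa using this
    have h4 : Complex.I * (A (Pi.single j 1) + Complex.I * A (Pi.single j Complex.I)) = 0 := by
      rw [h3, mul_zero]
    rw [mul_add, ← mul_assoc, Complex.I_mul_I] at h4
    linear_combination -h4
  have hAv : ∀ v : Fin n → ℂ, A v = ∑ j, v j * A (Pi.single j 1) := by
    intro v
    conv_lhs => rw [wirt_pi_decomp v]
    rw [map_sum]
    refine Finset.sum_congr rfl fun j _ => ?_
    rw [map_add, map_smul, map_smul, h1 j, Complex.real_smul, Complex.real_smul]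
    conv_rhs => rw [← Complex.re_add_im (v j)]
    ring
  have hlin : ∀ (c : ℂ) (v : Fin n → ℂ), A (c • v) = c • A v := by
    intro c v
    rw [hAv, hAv v, smul_eq_mul, Finset.mul_sum]
    refine Finset.sum_congr rfl fun j _ => ?_
    rw [Pi.smul_apply, smul_eq_mul]
    ring
  let B : (Fin n → ℂ) →L[ℂ] ℂ :=
    { toFun := A
      map_add' := fun x y => map_add A x y
      map_smul' := fun c x => by simpa using hlin c x
      cont := A.continuous }
  have hB : HasFDerivAt f B z := by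
    have h5 := hd.hasFDerivAt
    rw [hasFDerivAt_iff_tendsto] at h5 ⊢
    exact h5
  exact hB.differentiableAt.differentiableWithinAt

theorem wirt_contDiffOn_fderiv_apply {W : Set (Fin n → ℂ)} (hW : IsOpen W) {m : ℕ}
    (hf : ContDiffOn ℝ (m + 1 : ℕ) f W) (v : Fin n → ℂ) :
    ContDiffOn ℝ m (fun z => fderiv ℝ f z v) W := by
  have h : ContDiffOn ℝ m (fderiv ℝ f) W :=
    hf.fderiv_of_isOpen hW (by push_cast; exact le_rfl)
  exact h.clm_apply contDiffOn_const

theorem contDiffOn_dz {W : Set (Fin n → ℂ)} (hW : IsOpen W) {m : ℕ}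
    (hf : ContDiffOn ℝ (m + 1 : ℕ) f W) : ContDiffOn ℝ m (dz j f) W := by
  have h1 := wirt_contDiffOn_fderiv_apply hW hf (Pi.single j 1)
  have h2 := wirt_contDiffOn_fderiv_apply hW hf (Pi.single j Complex.I)
  exact (h1.sub (contDiffOn_const.mul h2)).div_const 2

theorem contDiffOn_dzb {W : Set (Fin n → ℂ)} (hW : IsOpen W) {m : ℕ}
    (hf : ContDiffOn ℝ (m + 1 : ℕ) f W) : ContDiffOn ℝ m (dzb j f) W := by
  have h1 := wirt_contDiffOn_fderiv_apply hW hf (Pi.single j 1)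
  have h2 := wirt_contDiffOn_fderiv_apply hW hf (Pi.single j Complex.I)
  exact (h1.add (contDiffOn_const.mul h2)).div_const 2

theorem differentiableOn_dz_holo {W : Set (Fin n → ℂ)} (hW : IsOpen W)
    (hf : DifferentiableOn ℂ f W) : DifferentiableOn ℂ (dz j f) W := by
  refine (Vale.Agent.P268.differentiableOn_fderiv_apply hW hf (Pi.single j 1)).congr fun z hz => ?_
  exact dz_holo ((hf z hz).differentiableAt (hW.mem_nhds hz))

theorem wirt_fderiv_fderiv_apply {W : Set (Fin n → ℂ)} (hW : IsOpen W) (hf : ContDiffOn ℝ 2 f W)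
    (hz : z ∈ W) (a b : Fin n → ℂ) :
    DifferentiableAt ℝ (fun w => fderiv ℝ f w a) z ∧
    fderiv ℝ (fun w => fderiv ℝ f w a) z b = fderiv ℝ (fderiv ℝ f) z b a := by
  have h1 : ContDiffOn ℝ 1 (fderiv ℝ f) W := hf.fderiv_of_isOpen hW (by norm_num)
  have h2 : DifferentiableAt ℝ (fderiv ℝ f) z :=
    ((h1 z hz).contDiffAt (hW.mem_nhds hz)).differentiableAt one_ne_zero
  have h3 : HasFDerivAt (fun w => fderiv ℝ f w a)
      ((ContinuousLinearMap.apply ℝ ℂ a).comp (fderiv ℝ (fderiv ℝ f) z)) z :=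
    (ContinuousLinearMap.apply ℝ ℂ a).hasFDerivAt.comp z h2.hasFDerivAt
  exact ⟨h3.differentiableAt, by rw [h3.fderiv]; rfl⟩

theorem wirt_second_symm {W : Set (Fin n → ℂ)} (hW : IsOpen W) (hf : ContDiffOn ℝ 2 f W)
    (hz : z ∈ W) (a b : Fin n → ℂ) :
    fderiv ℝ (fderiv ℝ f) z b a = fderiv ℝ (fderiv ℝ f) z a b := by
  have h : ContDiffAt ℝ 2 f z := (hf z hz).contDiffAt (hW.mem_nhds hz)
  exact (h.isSymmSndFDerivAt (by simp)) b a

theorem wirt_fderiv_dzb {W : Set (Fin n → ℂ)} (hW : IsOpen W) (hf : ContDiffOn ℝ 2 f W)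
    (hz : z ∈ W) (k : Fin n) (v : Fin n → ℂ) :
    fderiv ℝ (dzb k f) z v = (fderiv ℝ (fderiv ℝ f) z v (Pi.single k 1) +
      Complex.I * fderiv ℝ (fderiv ℝ f) z v (Pi.single k Complex.I)) / 2 := by
  obtain ⟨h1, h1'⟩ := wirt_fderiv_fderiv_apply hW hf hz (Pi.single k 1) v
  obtain ⟨h2, h2'⟩ := wirt_fderiv_fderiv_apply hW hf hz (Pi.single k Complex.I) v
  have h3 := ((h1.hasFDerivAt.add (h2.hasFDerivAt.const_mul Complex.I)).mul_const (2 : ℂ)⁻¹)
  have h4 : dzb k f = fun w => (fderiv ℝ f w (Pi.single k 1) +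
      Complex.I * fderiv ℝ f w (Pi.single k Complex.I)) * 2⁻¹ := by
    funext w; rw [dzb, div_eq_mul_inv]
  rw [h4]
  erw [h3.fderiv]
  simp only [smul_apply, add_apply, smul_eq_mul, h1', h2']
  ring

theorem wirt_fderiv_dz {W : Set (Fin n → ℂ)} (hW : IsOpen W) (hf : ContDiffOn ℝ 2 f W)
    (hz : z ∈ W) (k : Fin n) (v : Fin n → ℂ) :
    fderiv ℝ (dz k f) z v = (fderiv ℝ (fderiv ℝ f) z v (Pi.single k 1) -
      Complex.I * fderiv ℝ (fderiv ℝ f) z v (Pi.single k Complex.I)) / 2 := by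
  obtain ⟨h1, h1'⟩ := wirt_fderiv_fderiv_apply hW hf hz (Pi.single k 1) v
  obtain ⟨h2, h2'⟩ := wirt_fderiv_fderiv_apply hW hf hz (Pi.single k Complex.I) v
  have h3 := ((h1.hasFDerivAt.sub (h2.hasFDerivAt.const_mul Complex.I)).mul_const (2 : ℂ)⁻¹)
  have h4 : dz k f = fun w => (fderiv ℝ f w (Pi.single k 1) -
      Complex.I * fderiv ℝ f w (Pi.single k Complex.I)) * 2⁻¹ := by
    funext w; rw [dz, div_eq_mul_inv]
  rw [h4]
  erw [h3.fderiv]
  simp only [smul_apply, sub_apply, smul_eq_mul, h1', h2']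
  ring

theorem dz_dzb_comm {W : Set (Fin n → ℂ)} (hW : IsOpen W) (hf : ContDiffOn ℝ 2 f W) (hz : z ∈ W) :
    dz j (dzb k f) z = dzb k (dz j f) z := by
  rw [dz, dzb]
  simp only [wirt_fderiv_dz hW hf hz, wirt_fderiv_dzb hW hf hz]
  rw [wirt_second_symm hW hf hz (Pi.single k 1) (Pi.single j 1),
    wirt_second_symm hW hf hz (Pi.single k Complex.I) (Pi.single j 1),
    wirt_second_symm hW hf hz (Pi.single k 1) (Pi.single j Complex.I),
    wirt_second_symm hW hf hz (Pi.single k Complex.I) (Pi.single j Complex.I)]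
  ring

theorem dzb_dzb_comm {W : Set (Fin n → ℂ)} (hW : IsOpen W) (hf : ContDiffOn ℝ 2 f W) (hz : z ∈ W) :
    dzb j (dzb k f) z = dzb k (dzb j f) z := by
  rw [dzb, dzb]
  simp only [wirt_fderiv_dzb hW hf hz]
  rw [wirt_second_symm hW hf hz (Pi.single k 1) (Pi.single j 1),
    wirt_second_symm hW hf hz (Pi.single k Complex.I) (Pi.single j 1),
    wirt_second_symm hW hf hz (Pi.single k 1) (Pi.single j Complex.I),
    wirt_second_symm hW hf hz (Pi.single k Complex.I) (Pi.single j Complex.I)]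
  ring

theorem dz_dz_comm {W : Set (Fin n → ℂ)} (hW : IsOpen W) (hf : ContDiffOn ℝ 2 f W) (hz : z ∈ W) :
    dz j (dz k f) z = dz k (dz j f) z := by
  rw [dz, dz]
  simp only [wirt_fderiv_dz hW hf hz]
  rw [wirt_second_symm hW hf hz (Pi.single k 1) (Pi.single j 1),
    wirt_second_symm hW hf hz (Pi.single k Complex.I) (Pi.single j 1),
    wirt_second_symm hW hf hz (Pi.single k 1) (Pi.single j Complex.I),
    wirt_second_symm hW hf hz (Pi.single k Complex.I) (Pi.single j Complex.I)]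
  ring

theorem wirt_integrable_fderiv_apply (hf : ContDiff ℝ 1 f) (hs : HasCompactSupport f)
    (v : Fin n → ℂ) : Integrable (fun z => fderiv ℝ f z v) := by
  have hc : Continuous (fun z => fderiv ℝ f z v) :=
    (hf.continuous_fderiv one_ne_zero).clm_apply continuous_const
  refine hc.integrable_of_hasCompactSupport ?_
  exact hs.fderiv_apply ℝ v

theorem wirt_integral_fderiv_apply (hf : ContDiff ℝ 1 f) (hs : HasCompactSupport f)
    (v : Fin n → ℂ) : ∫ z, fderiv ℝ f z v = 0 := by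
  have h := integral_mul_fderiv_eq_neg_fderiv_mul_of_integrable (𝕜 := ℂ)
    (μ := (volume : Measure (Fin n → ℂ))) (f := fun _ => (1 : ℂ)) (g := f) (v := v)
    (by simp) (by simpa using wirt_integrable_fderiv_apply hf hs v)
    (by simpa using hf.continuous.integrable_of_hasCompactSupport hs)
    (fun x _ => differentiableAt_const _)
    (fun x _ => (hf.differentiable one_ne_zero) x)
  simpa using h

theorem integral_dz (hf : ContDiff ℝ 1 f) (hs : HasCompactSupport f) :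
    ∫ z, dz j f z = 0 := by
  have h1 := wirt_integrable_fderiv_apply hf hs (Pi.single j 1)
  have h2 := (wirt_integrable_fderiv_apply hf hs (Pi.single j Complex.I)).const_mul Complex.I
  simp only [dz]
  rw [integral_div, integral_sub h1 h2, integral_const_mul, wirt_integral_fderiv_apply hf hs,
    wirt_integral_fderiv_apply hf hs]
  simp

theorem integral_dzb (hf : ContDiff ℝ 1 f) (hs : HasCompactSupport f) :
    ∫ z, dzb j f z = 0 := by
  have h1 := wirt_integrable_fderiv_apply hf hs (Pi.single j 1)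
  have h2 := (wirt_integrable_fderiv_apply hf hs (Pi.single j Complex.I)).const_mul Complex.I
  simp only [dzb]
  rw [integral_div, integral_add h1 h2, integral_const_mul, wirt_integral_fderiv_apply hf hs,
    wirt_integral_fderiv_apply hf hs]
  simp

end Vale.Agent.P282.L2
end

section

open MeasureTheory Filter Topology
open scoped ENNReal NNReal ComplexConjugate

namespace Vale.Agent.P282.L2

namespace Sheets

variable {n N : ℕ} {S : Sheets n N} {X Y : (Fin n → ℂ) × ℂ → ℂ} {q : (Fin n → ℂ) × ℂ}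
  {j k : Fin n} {m : ℕ} {W W' : Set (Fin n → ℂ)} {s s' : (Fin n → ℂ) → ℂ}

theorem exists_section (hq : q ∈ S.M) : ∃ s W, S.IsSection W s ∧ q.1 ∈ W ∧ s q.1 = q.2 := by
  obtain ⟨W, σ, hW, hqW, hWV, hσ, hfib⟩ := S.loc q.1 hq.1
  have h2 : q.2 ∈ Finset.univ.image (fun i => σ i q.1) := by
    rw [← (hfib q.1 hqW).2]
    exact hq.2
  obtain ⟨i, -, hi⟩ := Finset.mem_image.1 h2
  refine ⟨σ i, W, ⟨hW, hWV, hσ i, fun z hz => ?_⟩, hqW, hi⟩
  rw [(hfib z hz).2]
  exact Finset.mem_image_of_mem _ (Finset.mem_univ i)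

theorem germ_aux (h : S.IsSection W s) {z : Fin n → ℂ} (hz : z ∈ W)
    {W₀ : Set (Fin n → ℂ)} {σ : Fin N → (Fin n → ℂ) → ℂ} (hW₀ : IsOpen W₀) (hz₀ : z ∈ W₀)
    (hσ : ∀ i, DifferentiableOn ℂ (σ i) W₀)
    (hfib : ∀ z ∈ W₀, Function.Injective (fun i => σ i z) ∧
      S.fib z = Finset.univ.image (fun i => σ i z)) {i : Fin N} (hi : σ i z = s z) :
    s =ᶠ[𝓝 z] σ i := by
  have hc : ContinuousAt s z := h.diff.continuousOn.continuousAt (h.isOpen.mem_nhds hz)
  have hcσ : ∀ i, ContinuousAt (σ i) z := fun i =>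
    (hσ i).continuousOn.continuousAt (hW₀.mem_nhds hz₀)
  have hne : ∀ᶠ z' in 𝓝 z, ∀ l : Fin N, l ≠ i → s z' ≠ σ l z' := by
    rw [Filter.eventually_all]
    intro l
    by_cases hl : l = i
    · exact Filter.Eventually.of_forall fun z' h' => absurd hl h'
    · have h1 : s z ≠ σ l z := by
        rw [← hi]
        intro h2
        exact hl ((hfib z hz₀).1 h2.symm)
      filter_upwards [hc.ne_iff_eventually_ne (hcσ l) |>.1 h1] with z' h2 _ using h2
  filter_upwards [hne, h.isOpen.mem_nhds hz, hW₀.mem_nhds hz₀] with z' h1 h2 h3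
  have h4 := h.mem z' h2
  rw [(hfib z' h3).2] at h4
  obtain ⟨l, -, hl⟩ := Finset.mem_image.1 h4
  by_cases hli : l = i
  · rw [← hl, hli]
  · exact absurd hl.symm (h1 l hli)

/-- Sections through the same point agree near it. -/
theorem IsSection.germ (h : S.IsSection W s) (h' : S.IsSection W' s') {z : Fin n → ℂ}
    (hz : z ∈ W) (hz' : z ∈ W') (hs : s z = s' z) : s =ᶠ[𝓝 z] s' := by
  obtain ⟨W₀, σ, hW₀, hz₀, -, hσ, hfib⟩ := S.loc z (h.subset hz)
  have h2 := h.mem z hz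
  rw [(hfib z hz₀).2] at h2
  obtain ⟨i, -, hi⟩ := Finset.mem_image.1 h2
  exact (germ_aux h hz hW₀ hz₀ hσ hfib hi).trans
    (germ_aux h' hz' hW₀ hz₀ hσ hfib (hi.trans hs)).symm

theorem IsSection.mem_M (h : S.IsSection W s) {z : Fin n → ℂ} (hz : z ∈ W) : (z, s z) ∈ S.M :=
  ⟨h.subset hz, h.mem z hz⟩

theorem sec_spec (hq : q ∈ S.M) : ∃ W, S.IsSection W (S.sec q) ∧ q.1 ∈ W ∧ S.sec q q.1 = q.2 := by
  have h := exists_section hq
  unfold sec
  rw [dif_pos h]
  exact h.choose_spec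

theorem sec_germ (h : S.IsSection W s) {z : Fin n → ℂ} (hz : z ∈ W) :
    S.sec (z, s z) =ᶠ[𝓝 z] s := by
  obtain ⟨W', h', hz', hs⟩ := sec_spec (h.mem_M hz)
  exact h'.germ h hz' hz hs

theorem sec_comp_germ (h : S.IsSection W s) {z : Fin n → ℂ} (hz : z ∈ W) :
    (fun z' => X (z', S.sec (z, s z) z')) =ᶠ[𝓝 z] fun z' => X (z', s z') := by
  filter_upwards [sec_germ h hz] with z' h'
  rw [h']

theorem D_apply (h : S.IsSection W s) {z : Fin n → ℂ} (hz : z ∈ W) :
    S.D j X (z, s z) = dz j (fun z => X (z, s z)) z :=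
  dz_congr (sec_comp_germ h hz)

theorem Db_apply (h : S.IsSection W s) {z : Fin n → ℂ} (hz : z ∈ W) :
    S.Db j X (z, s z) = dzb j (fun z => X (z, s z)) z :=
  dzb_congr (sec_comp_germ h hz)

/-- Every point of the total space is on a section. -/
theorem exists_section' (hq : q ∈ S.M) : ∃ s W, S.IsSection W s ∧ ∃ z ∈ W, q = (z, s z) := by
  obtain ⟨s, W, h, hz, hs⟩ := exists_section hq
  exact ⟨s, W, h, q.1, hz, by rw [hs]⟩

theorem CD.mono {m' : ℕ} (hX : S.CD m X) (h : m' ≤ m) : S.CD m' X :=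
  fun W s hs => (hX W s hs).of_le (by exact_mod_cast h)

theorem CD.D (hX : S.CD (m + 1) X) : S.CD m (S.D j X) := fun W s hs =>
  (contDiffOn_dz hs.isOpen (hX W s hs)).congr fun _ hz => D_apply hs hz

theorem CD.Db (hX : S.CD (m + 1) X) : S.CD m (S.Db j X) := fun W s hs =>
  (contDiffOn_dzb hs.isOpen (hX W s hs)).congr fun _ hz => Db_apply hs hz

theorem CD.add (hX : S.CD m X) (hY : S.CD m Y) : S.CD m (fun q => X q + Y q) :=
  fun W s hs => (hX W s hs).add (hY W s hs)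

theorem CD.mul (hX : S.CD m X) (hY : S.CD m Y) : S.CD m (fun q => X q * Y q) :=
  fun W s hs => (hX W s hs).mul (hY W s hs)

theorem CD.conj (hX : S.CD m X) : S.CD m (fun q => conj (X q)) := fun W s hs =>
  (Complex.conjCLE.contDiff.of_le le_top).comp_contDiffOn (hX W s hs)

theorem CD.sum {ι : Type*} (t : Finset ι) {X : ι → (Fin n → ℂ) × ℂ → ℂ}
    (hX : ∀ i ∈ t, S.CD m (X i)) : S.CD m (fun q => ∑ i ∈ t, X i q) := fun W s hs =>
  ContDiffOn.sum fun i hi => hX i hi W s hs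

theorem CD.const (c : ℂ) : S.CD m (fun _ => c) := fun _ _ _ => contDiffOn_const

/-- Functions of `z` only. -/
theorem CD.fst {f : (Fin n → ℂ) → ℂ} (hf : ContDiffOn ℝ m f S.V) : S.CD m (fun q => f q.1) :=
  fun _ _ hs => hf.mono hs.subset

theorem CD.re_section {u : (Fin n → ℂ) × ℂ → ℝ} (hu : S.CD m (fun q => (u q : ℂ)))
    (hs : S.IsSection W s) : ContDiffOn ℝ m (fun z => u (z, s z)) W := by
  have h := (Complex.reCLM.contDiff (n := (m : WithTop ℕ∞))).comp_contDiffOn (hu W s hs)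
  refine h.congr fun z _ => ?_
  simp

theorem CD.comp_real {φ : ℝ → ℝ} (hφ : ContDiff ℝ m φ) {u : (Fin n → ℂ) × ℂ → ℝ}
    (hu : S.CD m (fun q => (u q : ℂ))) : S.CD m (fun q => ((φ (u q) : ℝ) : ℂ)) := fun W s hs =>
  (Complex.ofRealCLM.contDiff (n := (m : WithTop ℕ∞))).comp_contDiffOn
    (hφ.comp_contDiffOn (CD.re_section hu hs))

theorem CD.log {u : (Fin n → ℂ) × ℂ → ℝ} (hu : S.CD m (fun q => (u q : ℂ)))
    (hpos : ∀ q ∈ S.M, 0 < u q) : S.CD m (fun q => ((Real.log (u q) : ℝ) : ℂ)) := fun W s hs =>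
  (Complex.ofRealCLM.contDiff (n := (m : WithTop ℕ∞))).comp_contDiffOn
    ((CD.re_section hu hs).log fun _ hz => (hpos _ (hs.mem_M hz)).ne')

theorem CD.congr (hX : S.CD m X) (h : ∀ q ∈ S.M, Y q = X q) : S.CD m Y := fun W s hs =>
  (hX W s hs).congr fun _ hz => h _ (hs.mem_M hz)

theorem congr_section (h : ∀ q ∈ S.M, Y q = X q) (hs : S.IsSection W s) {z : Fin n → ℂ}
    (hz : z ∈ W) : (fun z => Y (z, s z)) =ᶠ[𝓝 z] fun z => X (z, s z) := by
  filter_upwards [hs.isOpen.mem_nhds hz] with z' hz' using h _ (hs.mem_M hz')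

theorem D_congr (h : ∀ q ∈ S.M, Y q = X q) (hq : q ∈ S.M) : S.D j Y q = S.D j X q := by
  obtain ⟨s, W, hs, z, hz, rfl⟩ := exists_section' hq
  rw [D_apply hs hz, D_apply hs hz, dz_congr (congr_section h hs hz)]

theorem Db_congr (h : ∀ q ∈ S.M, Y q = X q) (hq : q ∈ S.M) : S.Db j Y q = S.Db j X q := by
  obtain ⟨s, W, hs, z, hz, rfl⟩ := exists_section' hq
  rw [Db_apply hs hz, Db_apply hs hz, dzb_congr (congr_section h hs hz)]

theorem CD.diffAt (hX : S.CD 1 X) (hs : S.IsSection W s) {z : Fin n → ℂ} (hz : z ∈ W) :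
    DifferentiableAt ℝ (fun z => X (z, s z)) z :=
  ((hX W s hs).contDiffAt (hs.isOpen.mem_nhds hz)).differentiableAt (by norm_num)

theorem D_add (hX : S.CD 1 X) (hY : S.CD 1 Y) (hq : q ∈ S.M) :
    S.D j (fun q => X q + Y q) q = S.D j X q + S.D j Y q := by
  obtain ⟨s, W, hs, z, hz, rfl⟩ := exists_section' hq
  rw [D_apply hs hz, D_apply hs hz, D_apply hs hz]
  exact dz_add (hX.diffAt hs hz) (hY.diffAt hs hz)

theorem Db_add (hX : S.CD 1 X) (hY : S.CD 1 Y) (hq : q ∈ S.M) :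
    S.Db j (fun q => X q + Y q) q = S.Db j X q + S.Db j Y q := by
  obtain ⟨s, W, hs, z, hz, rfl⟩ := exists_section' hq
  rw [Db_apply hs hz, Db_apply hs hz, Db_apply hs hz]
  exact dzb_add (hX.diffAt hs hz) (hY.diffAt hs hz)

theorem D_sum {ι : Type*} (t : Finset ι) {X : ι → (Fin n → ℂ) × ℂ → ℂ}
    (hX : ∀ i ∈ t, S.CD 1 (X i)) (hq : q ∈ S.M) :
    S.D j (fun q => ∑ i ∈ t, X i q) q = ∑ i ∈ t, S.D j (X i) q := by
  obtain ⟨s, W, hs, z, hz, rfl⟩ := exists_section' hq
  rw [D_apply hs hz, Finset.sum_congr rfl fun i _ => D_apply (j := j) (X := X i) hs hz]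
  exact dz_sum t fun i hi => (hX i hi).diffAt hs hz

theorem Db_sum {ι : Type*} (t : Finset ι) {X : ι → (Fin n → ℂ) × ℂ → ℂ}
    (hX : ∀ i ∈ t, S.CD 1 (X i)) (hq : q ∈ S.M) :
    S.Db j (fun q => ∑ i ∈ t, X i q) q = ∑ i ∈ t, S.Db j (X i) q := by
  obtain ⟨s, W, hs, z, hz, rfl⟩ := exists_section' hq
  rw [Db_apply hs hz, Finset.sum_congr rfl fun i _ => Db_apply (j := j) (X := X i) hs hz]
  exact dzb_sum t fun i hi => (hX i hi).diffAt hs hz

theorem D_mul (hX : S.CD 1 X) (hY : S.CD 1 Y) (hq : q ∈ S.M) :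
    S.D j (fun q => X q * Y q) q = S.D j X q * Y q + X q * S.D j Y q := by
  obtain ⟨s, W, hs, z, hz, rfl⟩ := exists_section' hq
  rw [D_apply hs hz, D_apply hs hz, D_apply hs hz]
  exact dz_mul (hX.diffAt hs hz) (hY.diffAt hs hz)

theorem Db_mul (hX : S.CD 1 X) (hY : S.CD 1 Y) (hq : q ∈ S.M) :
    S.Db j (fun q => X q * Y q) q = S.Db j X q * Y q + X q * S.Db j Y q := by
  obtain ⟨s, W, hs, z, hz, rfl⟩ := exists_section' hq
  rw [Db_apply hs hz, Db_apply hs hz, Db_apply hs hz]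
  exact dzb_mul (hX.diffAt hs hz) (hY.diffAt hs hz)

theorem D_conj : S.D j (fun q => conj (X q)) q = conj (S.Db j X q) := dz_conj

theorem Db_conj : S.Db j (fun q => conj (X q)) q = conj (S.D j X q) := dzb_conj

theorem D_fst {f : (Fin n → ℂ) → ℂ} : S.D j (fun q => f q.1) q = dz j f q.1 := rfl

theorem Db_fst {f : (Fin n → ℂ) → ℂ} : S.Db j (fun q => f q.1) q = dzb j f q.1 := rfl

theorem re_diffAt {u : (Fin n → ℂ) × ℂ → ℝ} (hu : S.CD 1 (fun q => (u q : ℂ)))
    (hs : S.IsSection W s) {z : Fin n → ℂ} (hz : z ∈ W) :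
    DifferentiableAt ℝ (fun z => u (z, s z)) z :=
  ((CD.re_section hu hs).contDiffAt (hs.isOpen.mem_nhds hz)).differentiableAt (by norm_num)

theorem D_comp_real {φ : ℝ → ℝ} {u : (Fin n → ℂ) × ℂ → ℝ}
    (hu : S.CD 1 (fun q => (u q : ℂ))) (hq : q ∈ S.M) (hφ : DifferentiableAt ℝ φ (u q)) :
    S.D j (fun q => ((φ (u q) : ℝ) : ℂ)) q = ((deriv φ (u q) : ℝ) : ℂ) * S.D j (fun q => (u q : ℂ)) q := by
  obtain ⟨s, W, hs, z, hz, rfl⟩ := exists_section' hq
  rw [D_apply hs hz, D_apply hs hz]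
  exact dz_comp_real (re_diffAt hu hs hz) hφ

theorem Db_comp_real {φ : ℝ → ℝ} {u : (Fin n → ℂ) × ℂ → ℝ}
    (hu : S.CD 1 (fun q => (u q : ℂ))) (hq : q ∈ S.M) (hφ : DifferentiableAt ℝ φ (u q)) :
    S.Db j (fun q => ((φ (u q) : ℝ) : ℂ)) q =
      ((deriv φ (u q) : ℝ) : ℂ) * S.Db j (fun q => (u q : ℂ)) q := by
  obtain ⟨s, W, hs, z, hz, rfl⟩ := exists_section' hq
  rw [Db_apply hs hz, Db_apply hs hz]
  exact dzb_comp_real (re_diffAt hu hs hz) hφ

theorem D_Db_comm (hX : S.CD 2 X) (hq : q ∈ S.M) : S.D j (S.Db k X) q = S.Db k (S.D j X) q := by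
  obtain ⟨s, W, hs, z, hz, rfl⟩ := exists_section' hq
  have h1 : (fun z => S.Db k X (z, s z)) =ᶠ[𝓝 z] dzb k (fun z => X (z, s z)) := by
    filter_upwards [hs.isOpen.mem_nhds hz] with z' hz' using Db_apply hs hz'
  have h2 : (fun z => S.D j X (z, s z)) =ᶠ[𝓝 z] dz j (fun z => X (z, s z)) := by
    filter_upwards [hs.isOpen.mem_nhds hz] with z' hz' using D_apply hs hz'
  rw [D_apply hs hz, Db_apply hs hz, dz_congr h1, dzb_congr h2]
  exact dz_dzb_comm hs.isOpen (hX W s hs) hz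

theorem Db_Db_comm (hX : S.CD 2 X) (hq : q ∈ S.M) : S.Db j (S.Db k X) q = S.Db k (S.Db j X) q := by
  obtain ⟨s, W, hs, z, hz, rfl⟩ := exists_section' hq
  have h1 : (fun z => S.Db k X (z, s z)) =ᶠ[𝓝 z] dzb k (fun z => X (z, s z)) := by
    filter_upwards [hs.isOpen.mem_nhds hz] with z' hz' using Db_apply hs hz'
  have h2 : (fun z => S.Db j X (z, s z)) =ᶠ[𝓝 z] dzb j (fun z => X (z, s z)) := by
    filter_upwards [hs.isOpen.mem_nhds hz] with z' hz' using Db_apply hs hz'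
  rw [Db_apply hs hz, Db_apply hs hz, dzb_congr h1, dzb_congr h2]
  exact dzb_dzb_comm hs.isOpen (hX W s hs) hz

theorem Holo.Db (hX : S.Holo X) (hq : q ∈ S.M) : S.Db j X q = 0 := by
  obtain ⟨s, W, hs, z, hz, rfl⟩ := exists_section' hq
  rw [Db_apply hs hz]
  exact dzb_holo ((hX W s hs).differentiableAt (hs.isOpen.mem_nhds hz))

theorem contDiffOn_real_of_holo {f : (Fin n → ℂ) → ℂ} (hW : IsOpen W)
    (hf : DifferentiableOn ℂ f W) (m : ℕ) : ContDiffOn ℝ m f W := by
  induction m generalizing f with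
  | zero => exact_mod_cast contDiffOn_zero.2 hf.continuousOn
  | succ m ih =>
    rw [Nat.cast_add, Nat.cast_one, contDiffOn_succ_iff_fderiv_of_isOpen hW]
    refine ⟨hf.restrictScalars ℝ, by simp, ?_⟩
    rw [contDiffOn_clm_apply]
    intro v
    have h1 : ContDiffOn ℝ m (fun z => ∑ j, v j * dz j f z) W :=
      ContDiffOn.sum fun j _ => contDiffOn_const.mul (ih (differentiableOn_dz_holo hW hf))
    refine h1.congr fun z hz => ?_
    have h2 : DifferentiableAt ℂ f z := hf.differentiableAt (hW.mem_nhds hz)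
    have h3 : fderiv ℝ f z v = fderiv ℂ f z v := by
      rw [h2.fderiv_restrictScalars ℝ]
      rfl
    rw [h3]
    have h4 : v = ∑ j, v j • (Pi.single j (1 : ℂ) : Fin n → ℂ) := by
      ext l
      simp [Finset.sum_apply, Pi.single_apply]
    conv_lhs => rw [h4]
    rw [map_sum]
    refine Finset.sum_congr rfl fun j _ => ?_
    rw [map_smul, dz_holo h2, smul_eq_mul]

theorem Holo.CD (hX : S.Holo X) (m : ℕ) : S.CD m X := fun W s hs =>
  contDiffOn_real_of_holo hs.isOpen (hX W s hs) m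

theorem Holo.D (hX : S.Holo X) : S.Holo (S.D j X) := fun W s hs =>
  (differentiableOn_dz_holo hs.isOpen (hX W s hs)).congr fun _ hz => D_apply hs hz

theorem Holo.mul (hX : S.Holo X) (hY : S.Holo Y) : S.Holo (fun q => X q * Y q) :=
  fun W s hs => (hX W s hs).mul (hY W s hs)

theorem Holo.add (hX : S.Holo X) (hY : S.Holo Y) : S.Holo (fun q => X q + Y q) :=
  fun W s hs => (hX W s hs).add (hY W s hs)

theorem Holo.const (c : ℂ) : S.Holo (fun _ => c) := fun _ _ _ => differentiableOn_const _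

theorem Holo.snd : S.Holo (fun q => q.2) := fun _ _ hs => hs.diff

theorem Holo.fst {f : (Fin n → ℂ) → ℂ} (hf : DifferentiableOn ℂ f S.V) :
    S.Holo (fun q => f q.1) := fun _ _ hs => hf.mono hs.subset

theorem Holo.inv (hX : S.Holo X) (h : ∀ q ∈ S.M, X q ≠ 0) : S.Holo (fun q => (X q)⁻¹) :=
  fun W s hs => (hX W s hs).inv fun _ hz => h _ (hs.mem_M hz)

theorem card_fib {z : Fin n → ℂ} (hz : z ∈ S.V) : (S.fib z).card = N := by
  obtain ⟨W, σ, -, hzW, -, -, hfib⟩ := S.loc z hz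
  rw [(hfib z hzW).2, Finset.card_image_of_injective _ (hfib z hzW).1, Finset.card_univ,
    Fintype.card_fin]

end Sheets

end Vale.Agent.P282.L2
end

section

open MeasureTheory Filter Topology
open scoped ENNReal NNReal ComplexConjugate

namespace Vale.Agent.P282.L2

namespace Sheets

variable {n N : ℕ} {S : Sheets n N} {X Y : (Fin n → ℂ) × ℂ → ℂ} {q : (Fin n → ℂ) × ℂ}
  {j k : Fin n} {m : ℕ} {W W' : Set (Fin n → ℂ)} {s s' : (Fin n → ℂ) → ℂ}

/-- All the sections near a point. -/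
theorem exists_sections {z₀ : Fin n → ℂ} (hz : z₀ ∈ S.V) :
    ∃ (W : Set (Fin n → ℂ)) (s : Fin N → (Fin n → ℂ) → ℂ), IsOpen W ∧ z₀ ∈ W ∧
      (∀ i, S.IsSection W (s i)) ∧ (∀ z ∈ W, Function.Injective fun i => s i z) ∧
      (∀ z ∈ W, S.fib z = Finset.univ.image fun i => s i z) ∧
      ∀ (X : (Fin n → ℂ) × ℂ → ℂ), ∀ z ∈ W, S.fsum X z = ∑ i, X (z, s i z) := by
  obtain ⟨W, s, hW, hzW, hWV, hs, h⟩ := S.loc z₀ hz
  refine ⟨W, s, hW, hzW, fun i => ⟨hW, hWV, hs i, fun z hz => ?_⟩, fun z hz => (h z hz).1,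
    fun z hz => (h z hz).2, fun X z hz => ?_⟩
  · rw [(h z hz).2]
    exact Finset.mem_image_of_mem _ (Finset.mem_univ i)
  · rw [fsum, (h z hz).2, Finset.sum_image fun i _ j _ hij => (h z hz).1 hij]

/-- Fiber sums. -/
theorem contDiffOn_fsum (hX : S.CD m X) : ContDiffOn ℝ m (S.fsum X) S.V := by
  intro z hz
  obtain ⟨W, s, hW, hzW, hs, -, -, hsum⟩ := exists_sections hz
  have h1 : ContDiffOn ℝ m (fun z => ∑ i, X (z, s i z)) W :=
    ContDiffOn.sum fun i _ => hX W (s i) (hs i)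
  have h2 : ContDiffAt ℝ m (fun z => ∑ i, X (z, s i z)) z := h1.contDiffAt (hW.mem_nhds hzW)
  refine (h2.congr_of_eventuallyEq ?_).contDiffWithinAt
  filter_upwards [hW.mem_nhds hzW] with y hy using hsum X y hy

theorem dz_fsum (hX : S.CD 1 X) {z : Fin n → ℂ} (hz : z ∈ S.V) :
    dz j (S.fsum X) z = S.fsum (S.D j X) z := by
  obtain ⟨W, s, hW, hzW, hs, -, -, hsum⟩ := exists_sections hz
  have h1 : S.fsum X =ᶠ[𝓝 z] fun z => ∑ i, X (z, s i z) := by
    filter_upwards [hW.mem_nhds hzW] with y hy using hsum X y hy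
  rw [dz_congr h1, dz_sum Finset.univ, hsum _ z hzW]
  · exact Finset.sum_congr rfl fun i _ => (D_apply (hs i) hzW).symm
  · intro i _
    exact ((hX W (s i) (hs i)).differentiableOn (by norm_num)).differentiableAt (hW.mem_nhds hzW)

theorem dzb_fsum (hX : S.CD 1 X) {z : Fin n → ℂ} (hz : z ∈ S.V) :
    dzb j (S.fsum X) z = S.fsum (S.Db j X) z := by
  obtain ⟨W, s, hW, hzW, hs, -, -, hsum⟩ := exists_sections hz
  have h1 : S.fsum X =ᶠ[𝓝 z] fun z => ∑ i, X (z, s i z) := by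
    filter_upwards [hW.mem_nhds hzW] with y hy using hsum X y hy
  rw [dzb_congr h1, dzb_sum Finset.univ, hsum _ z hzW]
  · exact Finset.sum_congr rfl fun i _ => (Db_apply (hs i) hzW).symm
  · intro i _
    exact ((hX W (s i) (hs i)).differentiableOn (by norm_num)).differentiableAt (hW.mem_nhds hzW)

theorem differentiableOn_fsum (hX : S.Holo X) : DifferentiableOn ℂ (S.fsum X) S.V := by
  intro z hz
  obtain ⟨W, s, hW, hzW, hs, -, -, hsum⟩ := exists_sections hz
  have h2 : DifferentiableAt ℂ (fun z => ∑ i, X (z, s i z)) z :=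
    DifferentiableAt.fun_sum fun i _ => (hX W (s i) (hs i)).differentiableAt (hW.mem_nhds hzW)
  refine (h2.congr_of_eventuallyEq ?_).differentiableWithinAt
  filter_upwards [hW.mem_nhds hzW] with y hy using hsum X y hy

theorem contDiff_fsum (hX : S.CD m X) (hs : S.Supp X) : ContDiff ℝ m (S.fsum X) := by
  obtain ⟨C, hC, hCV, h0⟩ := hs
  rw [contDiff_iff_contDiffAt]
  intro z
  by_cases hz : z ∈ S.V
  · exact (contDiffOn_fsum hX).contDiffAt (S.isOpen.mem_nhds hz)
  · have hzC : z ∈ Cᶜ := fun h => hz (hCV h)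
    have h1 : S.fsum X =ᶠ[𝓝 z] fun _ => 0 := by
      filter_upwards [hC.isClosed.isOpen_compl.mem_nhds hzC] with y hy
      exact Finset.sum_eq_zero fun w _ => h0 (y, w) hy
    exact contDiffAt_const.congr_of_eventuallyEq h1

theorem hasCompactSupport_fsum (hs : S.Supp X) : HasCompactSupport (S.fsum X) := by
  obtain ⟨C, hC, -, h0⟩ := hs
  exact HasCompactSupport.intro hC fun z hz => Finset.sum_eq_zero fun w _ => h0 (z, w) hz

/-- Polynomials with holomorphic coefficients. -/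
theorem coeff_mul_diff {p r : (Fin n → ℂ) → Polynomial ℂ} {z₀ : Fin n → ℂ}
    (hp : ∀ i, DifferentiableAt ℂ (fun z => (p z).coeff i) z₀)
    (hr : ∀ i, DifferentiableAt ℂ (fun z => (r z).coeff i) z₀) (i : ℕ) :
    DifferentiableAt ℂ (fun z => (p z * r z).coeff i) z₀ := by
  simp only [Polynomial.coeff_mul]
  exact DifferentiableAt.fun_sum fun x _ => (hp x.1).mul (hr x.2)

theorem coeff_prod_diff {ι : Type*} [DecidableEq ι] (T : Finset ι)
    {p : ι → (Fin n → ℂ) → Polynomial ℂ} {z₀ : Fin n → ℂ}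
    (hp : ∀ l ∈ T, ∀ i, DifferentiableAt ℂ (fun z => (p l z).coeff i) z₀) (i : ℕ) :
    DifferentiableAt ℂ (fun z => (∏ l ∈ T, p l z).coeff i) z₀ := by
  induction T using Finset.induction_on generalizing i with
  | empty => simp
  | insert a T ha ih =>
    simp only [Finset.prod_insert ha]
    exact coeff_mul_diff (hp a (Finset.mem_insert_self a T))
      (ih fun l hl => hp l (Finset.mem_insert_of_mem hl)) i

theorem coeff_div_diff {a b : (Fin n → ℂ) → ℂ} {z₀ : Fin n → ℂ} (ha : DifferentiableAt ℂ a z₀)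
    (hb : DifferentiableAt ℂ b z₀) (hab : a z₀ ≠ b z₀) (i : ℕ) :
    DifferentiableAt ℂ (fun z => (Lagrange.basisDivisor (a z) (b z)).coeff i) z₀ := by
  have e : (fun z => (Lagrange.basisDivisor (a z) (b z)).coeff i) =
      fun z => (a z - b z)⁻¹ * ((if i = 1 then 1 else 0) - (if i = 0 then b z else 0)) := by
    funext z
    rw [Lagrange.basisDivisor, Polynomial.coeff_C_mul, Polynomial.coeff_sub, Polynomial.coeff_X,
      Polynomial.coeff_C]
    simp only [eq_comm]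
  rw [e]
  refine ((ha.sub hb).inv (sub_ne_zero.2 hab)).mul ((differentiableAt_const _).sub ?_)
  split_ifs
  · exact hb
  · exact differentiableAt_const _

/-- Dual basis of `1, w, …, w ^ (N - 1)`. -/
theorem exists_dual (S : Sheets n N) : ∃ c : Fin N → (Fin n → ℂ) × ℂ → ℂ, (∀ i, S.Holo (c i)) ∧
    ∀ z ∈ S.V, ∀ w ∈ S.fib z, ∀ w' ∈ S.fib z,
      ∑ i : Fin N, c i (z, w') * w ^ (i : ℕ) = if w = w' then 1 else 0 := by
  classical
  refine ⟨fun i q => (Lagrange.basis (S.fib q.1) id q.2).coeff i, fun i W s hs z₀ hz₀ => ?_,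
    fun z hz w hw w' hw' => ?_⟩
  · obtain ⟨W₁, t, hW₁, hz₁, ht, hinj, hfib, -⟩ := exists_sections (hs.subset hz₀)
    have h1 := hs.mem z₀ hz₀
    rw [hfib z₀ hz₁] at h1
    obtain ⟨k, -, hk⟩ := Finset.mem_image.1 h1
    have hg := hs.germ (ht k) hz₀ hz₁ hk.symm
    have hd : ∀ l, DifferentiableAt ℂ (t l) z₀ := fun l =>
      (ht l).diff.differentiableAt (hW₁.mem_nhds hz₁)
    have h2 : DifferentiableAt ℂ (fun z => (∏ l ∈ Finset.univ.erase k,
        Lagrange.basisDivisor (t k z) (t l z)).coeff i) z₀ := by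
      refine coeff_prod_diff (p := fun l z => Lagrange.basisDivisor (t k z) (t l z)) _
        (fun l hl i => ?_) i
      refine coeff_div_diff (hd k) (hd l) (fun e => ?_) i
      exact (Finset.ne_of_mem_erase hl) (hinj z₀ hz₁ e.symm)
    refine (h2.congr_of_eventuallyEq ?_).differentiableWithinAt
    filter_upwards [hW₁.mem_nhds hz₁, hg] with z hz hsz
    have h3 : Lagrange.basis (S.fib z) id (s z) =
        ∏ l ∈ Finset.univ.erase k, Lagrange.basisDivisor (t k z) (t l z) := by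
      rw [Lagrange.basis, hfib z hz, hsz,
        ← Finset.image_erase (f := fun l => t l z) (hinj z hz) Finset.univ k,
        Finset.prod_image fun a _ b _ hab => hinj z hz hab]
      rfl
    exact congrArg (fun P : Polynomial ℂ => P.coeff i) h3
  · have hN : (S.fib z).card = N := card_fib hz
    have hpos : 0 < (S.fib z).card := Finset.card_pos.2 ⟨w', hw'⟩
    have hinj : Set.InjOn (id : ℂ → ℂ) (S.fib z) := Function.injective_id.injOn
    have hdeg : (Lagrange.basis (S.fib z) id w').natDegree < N := by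
      have h1 := Lagrange.degree_basis hinj hw'
      have h2 := Polynomial.natDegree_eq_of_degree_eq_some h1
      omega
    have h1 := Polynomial.eval_eq_sum_range' hdeg w
    rw [Fin.sum_univ_eq_sum_range (fun i => (Lagrange.basis (S.fib z) id w').coeff i * w ^ i) N,
      ← h1]
    split_ifs with h
    · subst h
      exact Lagrange.eval_basis_self hinj hw'
    · exact Lagrange.eval_basis_of_ne (v := id) (fun e => h e.symm) hw

end Sheets

end Vale.Agent.P282.L2
end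

section

open MeasureTheory Filter Topology
open scoped ENNReal NNReal ComplexConjugate

namespace Vale.Agent.P282.L2

namespace Sheets

variable {n N : ℕ} {S : Sheets n N} {X Y : (Fin n → ℂ) × ℂ → ℂ} {j : Fin n}

/-- A trivialization of `M` over `W`. -/
structure SmTriv (S : Sheets n N) (W : Set (Fin n → ℂ)) (s : Fin N → (Fin n → ℂ) → ℂ) : Prop where
  isOpen : IsOpen W
  subset : W ⊆ S.V
  diff : ∀ i, DifferentiableOn ℂ (s i) W
  inj : ∀ z ∈ W, Function.Injective (fun i => s i z)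
  fib : ∀ z ∈ W, S.fib z = Finset.univ.image (fun i => s i z)

theorem SmTriv.sec {W : Set (Fin n → ℂ)} {s : Fin N → (Fin n → ℂ) → ℂ} (h : S.SmTriv W s)
    (i : Fin N) : S.IsSection W (s i) where
  isOpen := h.isOpen
  subset := h.subset
  diff := h.diff i
  mem := fun z hz => by
    rw [h.fib z hz]
    exact Finset.mem_image.2 ⟨i, Finset.mem_univ i, rfl⟩

theorem SmTriv.sum_eq {W : Set (Fin n → ℂ)} {s : Fin N → (Fin n → ℂ) → ℂ} (h : S.SmTriv W s)
    {G : Type*} [AddCommMonoid G] (f : (Fin n → ℂ) × ℂ → G) {z : Fin n → ℂ} (hz : z ∈ W) :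
    ∑ w ∈ S.fib z, f (z, w) = ∑ i, f (z, s i z) := by
  rw [h.fib z hz, Finset.sum_image]
  intro i _ i' _ hii
  exact h.inj z hz hii

theorem sm_loc {z₀ : Fin n → ℂ} (hz : z₀ ∈ S.V) :
    ∃ (W : Set (Fin n → ℂ)) (s : Fin N → (Fin n → ℂ) → ℂ), S.SmTriv W s ∧ z₀ ∈ W := by
  obtain ⟨W, s, h1, h2, h3, h4, h5⟩ := S.loc z₀ hz
  exact ⟨W, s, ⟨h1, h3, h4, fun z hz => (h5 z hz).1, fun z hz => (h5 z hz).2⟩, h2⟩

/-- Countably many trivializations. -/
theorem sm_cover (S : Sheets n N) : ∃ (ι : Type) (_ : Countable ι) (W : ι → Set (Fin n → ℂ))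
    (s : ι → Fin N → (Fin n → ℂ) → ℂ), (∀ k, S.SmTriv (W k) (s k)) ∧ ⋃ k, W k = S.V := by
  classical
  have h : ∀ z : Fin n → ℂ, ∃ (W : Set (Fin n → ℂ)) (s : Fin N → (Fin n → ℂ) → ℂ),
      z ∈ S.V → S.SmTriv W s ∧ z ∈ W := by
    intro z
    by_cases hz : z ∈ S.V
    · obtain ⟨W, s, h⟩ := sm_loc hz
      exact ⟨W, s, fun _ => h⟩
    · exact ⟨∅, fun _ _ => 0, fun h => absurd h hz⟩
  choose W s hW using h
  obtain ⟨t, htV, htc, htU⟩ := TopologicalSpace.countable_cover_nhdsWithin (f := W) (s := S.V)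
    (fun z hz => mem_nhdsWithin_of_mem_nhds ((hW z hz).1.isOpen.mem_nhds (hW z hz).2))
  refine ⟨t, htc.to_subtype, fun k => W k, fun k => s k, fun k => (hW k (htV k.2)).1, ?_⟩
  refine Set.Subset.antisymm (Set.iUnion_subset fun k => (hW k (htV k.2)).1.subset) ?_
  intro z hz
  obtain ⟨y, hy, hzy⟩ := Set.mem_iUnion₂.1 (htU hz)
  exact Set.mem_iUnion.2 ⟨⟨y, hy⟩, hzy⟩

open Classical in
/-- A measurable extension of a section. -/
noncomputable def smExt (W : Set (Fin n → ℂ)) (f : (Fin n → ℂ) → ℂ) : (Fin n → ℂ) → ℂ :=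
  W.piecewise f (fun _ => 0)

theorem smExt_eq {W : Set (Fin n → ℂ)} (f : (Fin n → ℂ) → ℂ) {z : Fin n → ℂ} (hz : z ∈ W) :
    smExt W f z = f z := by
  classical
  unfold smExt
  exact Set.piecewise_eq_of_mem _ _ _ hz

theorem smExt_meas {W : Set (Fin n → ℂ)} (hW : IsOpen W) {f : (Fin n → ℂ) → ℂ}
    (hf : ContinuousOn f W) : Measurable (smExt W f) := by
  classical
  unfold smExt
  exact hf.measurable_piecewise continuousOn_const hW.measurableSet

theorem SmTriv.ext_meas {W : Set (Fin n → ℂ)} {s : Fin N → (Fin n → ℂ) → ℂ} (h : S.SmTriv W s)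
    (i : Fin N) : Measurable (smExt W (s i)) :=
  smExt_meas h.isOpen (h.diff i).continuousOn

theorem sm_kernel (S : Sheets n N) : AEMeasurable
    (fun z => ∑ w ∈ S.fib z, (Measure.dirac (z, w) : Measure ((Fin n → ℂ) × ℂ)))
    (volume.restrict S.V) := by
  obtain ⟨ι, _, W, s, hW, hU⟩ := sm_cover S
  rw [← hU, aemeasurable_iUnion_iff]
  intro k
  refine ⟨fun z => ∑ i, Measure.dirac (z, smExt (W k) (s k i) z), ?_, ?_⟩
  · refine Finset.measurable_sum _ fun i _ => ?_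
    exact Measure.measurable_dirac.comp (measurable_id.prodMk ((hW k).ext_meas i))
  · refine (ae_restrict_iff' (hW k).isOpen.measurableSet).2 (Eventually.of_forall fun z hz => ?_)
    refine ((hW k).sum_eq (fun q => (Measure.dirac q : Measure ((Fin n → ℂ) × ℂ))) hz).trans ?_
    refine Finset.sum_congr rfl fun i _ => ?_
    rw [smExt_eq _ hz]

theorem sm_meas_sum {G : Type*} [AddCommMonoid G] [MeasurableSpace G] [MeasurableAdd₂ G]
    {f : (Fin n → ℂ) × ℂ → G} (hf : Measurable f) :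
    AEMeasurable (fun z => ∑ w ∈ S.fib z, f (z, w)) (volume.restrict S.V) := by
  obtain ⟨ι, _, W, s, hW, hU⟩ := sm_cover S
  rw [← hU, aemeasurable_iUnion_iff]
  intro k
  refine ⟨fun z => ∑ i, f (z, smExt (W k) (s k i) z), ?_, ?_⟩
  · refine Finset.measurable_sum _ fun i _ => ?_
    exact hf.comp (measurable_id.prodMk ((hW k).ext_meas i))
  · refine (ae_restrict_iff' (hW k).isOpen.measurableSet).2 (Eventually.of_forall fun z hz => ?_)
    refine ((hW k).sum_eq f hz).trans ?_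
    refine Finset.sum_congr rfl fun i _ => ?_
    rw [smExt_eq _ hz]

/-- integrals against `μ` of functions measurable along the sheets. -/
theorem lintegral_μ' {Ψ : (Fin n → ℂ) × ℂ → ℝ≥0∞} (hΨ : AEMeasurable Ψ S.μ) :
    ∫⁻ q, Ψ q ∂S.μ = ∫⁻ z in S.V, ∑ w ∈ S.fib z, Ψ (z, w) := by
  unfold μ at hΨ ⊢
  rw [Measure.lintegral_bind (sm_kernel S) hΨ]
  refine lintegral_congr fun z => ?_
  rw [lintegral_finsetSum_measure]
  refine Finset.sum_congr rfl fun w _ => ?_
  rw [lintegral_dirac]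

theorem lintegral_μ {Ψ : (Fin n → ℂ) × ℂ → ℝ≥0∞} (hΨ : Measurable Ψ) :
    ∫⁻ q, Ψ q ∂S.μ = ∫⁻ z in S.V, ∑ w ∈ S.fib z, Ψ (z, w) := lintegral_μ' hΨ.aemeasurable

/-- The graph of a section. -/
def smGraph (W : Set (Fin n → ℂ)) (f : (Fin n → ℂ) → ℂ) : Set ((Fin n → ℂ) × ℂ) :=
  {q | q.1 ∈ W ∧ q.2 = f q.1}

theorem smGraph_meas {W : Set (Fin n → ℂ)} (hW : IsOpen W) {f : (Fin n → ℂ) → ℂ}
    (hf : ContinuousOn f W) : MeasurableSet (smGraph W f) := by
  have h : smGraph W f = (Prod.fst ⁻¹' W) ∩ {q : (Fin n → ℂ) × ℂ | q.2 = smExt W f q.1} := by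
    ext q
    constructor
    · rintro ⟨h1, h2⟩
      refine ⟨h1, ?_⟩
      show q.2 = smExt W f q.1
      rw [smExt_eq _ h1, h2]
    · rintro ⟨h1, h2⟩
      have h0 : q.1 ∈ W := h1
      refine ⟨h0, ?_⟩
      have h3 : q.2 = smExt W f q.1 := h2
      rw [h3, smExt_eq _ h0]
  rw [h]
  exact (measurable_fst hW.measurableSet).inter
    (measurableSet_eq_fun measurable_snd ((smExt_meas hW hf).comp measurable_fst))

/-- `M` is a countable union of graphs of sections. -/
theorem sm_graphs (S : Sheets n N) : ∃ (ι : Type) (_ : Countable ι) (W : ι → Set (Fin n → ℂ))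
    (s : ι → (Fin n → ℂ) → ℂ), (∀ k, S.IsSection (W k) (s k)) ∧ ⋃ k, smGraph (W k) (s k) = S.M := by
  obtain ⟨ι, hι, W, s, hW, hU⟩ := sm_cover S
  refine ⟨ι × Fin N, inferInstance, fun k => W k.1, fun k => s k.1 k.2,
    fun k => (hW k.1).sec k.2, ?_⟩
  ext q
  constructor
  · intro hq
    obtain ⟨k, h1, h2⟩ := Set.mem_iUnion.1 hq
    refine ⟨(hW k.1).subset h1, ?_⟩
    rw [h2]
    exact ((hW k.1).sec k.2).mem q.1 h1
  · rintro ⟨h1, h2⟩
    rw [← hU] at h1
    obtain ⟨k, hk⟩ := Set.mem_iUnion.1 h1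
    rw [(hW k).fib q.1 hk, Finset.mem_image] at h2
    obtain ⟨i, _, hi⟩ := h2
    exact Set.mem_iUnion.2 ⟨(k, i), hk, hi.symm⟩

theorem measurableSet_M : MeasurableSet S.M := by
  obtain ⟨ι, _, W, s, hW, hU⟩ := sm_graphs S
  rw [← hU]
  exact MeasurableSet.iUnion fun k => smGraph_meas (hW k).isOpen (hW k).diff.continuousOn

theorem sm_null_of_fib {T : Set ((Fin n → ℂ) × ℂ)} (hT : MeasurableSet T)
    (h : ∀ᵐ z ∂(volume.restrict S.V), ∀ w ∈ S.fib z, (z, w) ∉ T) : S.μ T = 0 := by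
  have h1 : S.μ T = ∫⁻ q, T.indicator 1 q ∂S.μ := by
    rw [lintegral_indicator_one hT]
  rw [h1, lintegral_μ (measurable_one.indicator hT)]
  rw [lintegral_congr_ae (g := fun _ => 0), lintegral_zero]
  filter_upwards [h] with z hz
  refine Finset.sum_eq_zero fun w hw => ?_
  exact Set.indicator_of_notMem (hz w hw) _

theorem ae_μ_iff {P : (Fin n → ℂ) × ℂ → Prop} :
    (∀ᵐ q ∂S.μ, P q) ↔ ∀ᵐ z ∂(volume.restrict S.V), ∀ w ∈ S.fib z, P (z, w) := by
  constructor
  · intro h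
    have h1 := Measure.ae_ae_of_ae_bind (sm_kernel S) h
    filter_upwards [h1] with z hz w hw
    rw [ae_iff, Measure.finsetSum_apply, Finset.sum_eq_zero_iff] at hz
    have h2 := hz w hw
    by_contra hP
    have h3 : (z, w) ∈ {a | ¬P a} := hP
    rw [Measure.dirac_apply_of_mem h3] at h2
    exact one_ne_zero h2
  · intro h
    set Z := toMeasurable (volume.restrict S.V) {z | ¬ ∀ w ∈ S.fib z, P (z, w)} with hZ
    have hZ0 : (volume.restrict S.V) Z = 0 := by
      rw [hZ, measure_toMeasurable]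
      exact h
    have hZ1 : ∀ᵐ z ∂(volume.restrict S.V), z ∉ Z := measure_eq_zero_iff_ae_notMem.1 hZ0
    have hT : S.μ ((Prod.fst ⁻¹' Z) ∪ S.Mᶜ) = 0 := by
      refine sm_null_of_fib ((measurable_fst (measurableSet_toMeasurable _ _)).union
        measurableSet_M.compl) ?_
      have hV : ∀ᵐ z ∂(volume.restrict S.V), z ∈ S.V :=
        ae_restrict_mem S.isOpen.measurableSet
      filter_upwards [hZ1, hV] with z hz hzV w hw
      rintro (h1 | h1)
      · exact hz h1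
      · exact h1 ⟨hzV, hw⟩
    refine measure_mono_null ?_ hT
    intro q hq
    by_contra hq'
    have h1 : q.1 ∉ Z := fun h => hq' (Or.inl h)
    have h2 : q ∈ S.M := by
      by_contra h
      exact hq' (Or.inr h)
    have h3 : ∀ w ∈ S.fib q.1, P (q.1, w) := by
      by_contra h4
      exact h1 (subset_toMeasurable _ _ h4)
    exact hq (h3 q.2 h2.2)

theorem ae_mem_M : ∀ᵐ q ∂S.μ, q ∈ S.M := by
  rw [ae_μ_iff]
  filter_upwards [ae_restrict_mem S.isOpen.measurableSet] with z hz w hw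
  exact ⟨hz, hw⟩

theorem aestronglyMeasurable_of_CD (hX : S.CD 0 X) : AEStronglyMeasurable X S.μ := by
  obtain ⟨ι, _, W, s, hW, hU⟩ := sm_graphs S
  have h1 : S.μ.restrict S.M = S.μ := Measure.restrict_eq_self_of_ae_mem ae_mem_M
  rw [← h1, ← hU, aestronglyMeasurable_iUnion_iff]
  intro k
  have hc : ContinuousOn (fun z => X (z, s k z)) (W k) := (hX (W k) (s k) (hW k)).continuousOn
  refine ⟨fun q => smExt (W k) (fun z => X (z, s k z)) q.1,
    ((smExt_meas (hW k).isOpen hc).comp measurable_fst).stronglyMeasurable, ?_⟩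
  refine (ae_restrict_iff' (smGraph_meas (hW k).isOpen (hW k).diff.continuousOn)).2
    (Eventually.of_forall fun q hq => ?_)
  show X q = smExt (W k) (fun z => X (z, s k z)) q.1
  rw [smExt_eq _ hq.1, ← hq.2]

theorem sm_fsum_aesm {G : Type*} [NormedAddCommGroup G] [MeasurableSpace G] [BorelSpace G]
    [SecondCountableTopology G]
    {f : (Fin n → ℂ) × ℂ → G} (hf : AEStronglyMeasurable f S.μ) :
    AEStronglyMeasurable (fun z => ∑ w ∈ S.fib z, f (z, w)) (volume.restrict S.V) := by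
  have h1 : AEMeasurable (fun z => ∑ w ∈ S.fib z, hf.mk f (z, w)) (volume.restrict S.V) :=
    sm_meas_sum hf.stronglyMeasurable_mk.measurable
  refine h1.aestronglyMeasurable.congr ?_
  have h2 := ae_μ_iff.1 hf.ae_eq_mk
  filter_upwards [h2] with z hz
  exact Finset.sum_congr rfl fun w hw => (hz w hw).symm

theorem sm_integrable {G : Type*} [NormedAddCommGroup G] [MeasurableSpace G] [BorelSpace G]
    [SecondCountableTopology G]
    {f : (Fin n → ℂ) × ℂ → G} (hf : Integrable f S.μ) :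
    IntegrableOn (fun z => ∑ w ∈ S.fib z, f (z, w)) S.V := by
  refine ⟨sm_fsum_aesm hf.1, ?_⟩
  have h1 := hf.2
  rw [HasFiniteIntegral, lintegral_μ' hf.1.enorm] at h1
  rw [HasFiniteIntegral]
  refine (lintegral_mono fun z => ?_).trans_lt h1
  exact enorm_sum_le _ _

theorem integrable_fsum (hX : Integrable X S.μ) : IntegrableOn (S.fsum X) S.V :=
  sm_integrable hX

theorem sm_integral_nonneg {f : (Fin n → ℂ) × ℂ → ℝ} (hf : Integrable f S.μ)
    (h0 : ∀ q, 0 ≤ f q) : ∫ q, f q ∂S.μ = ∫ z in S.V, ∑ w ∈ S.fib z, f (z, w) := by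
  rw [integral_eq_lintegral_of_nonneg_ae (Eventually.of_forall h0) hf.1,
    integral_eq_lintegral_of_nonneg_ae
      (Eventually.of_forall fun z => Finset.sum_nonneg fun w _ => h0 (z, w)) (sm_fsum_aesm hf.1),
    lintegral_μ' hf.1.aemeasurable.ennreal_ofReal]
  congr 1
  refine lintegral_congr fun z => ?_
  rw [ENNReal.ofReal_sum_of_nonneg fun w _ => h0 (z, w)]

theorem sm_integral_real {f : (Fin n → ℂ) × ℂ → ℝ} (hf : Integrable f S.μ) :
    ∫ q, f q ∂S.μ = ∫ z in S.V, ∑ w ∈ S.fib z, f (z, w) := by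
  have h1 := sm_integral_nonneg hf.pos_part (fun q => le_max_right _ _)
  have h2 := sm_integral_nonneg hf.neg_part (fun q => le_max_right _ _)
  have h3 : ∀ q, f q = max (f q) 0 - max (-f q) 0 := fun q => (max_zero_sub_eq_self (f q)).symm
  have e1 : ∫ q, f q ∂S.μ = ∫ q, (max (f q) 0 - max (-f q) 0) ∂S.μ :=
    integral_congr_ae (Eventually.of_forall h3)
  have e2 : ∫ z in S.V, ∑ w ∈ S.fib z, f (z, w) =
      ∫ z in S.V, ((∑ w ∈ S.fib z, max (f (z, w)) 0) - ∑ w ∈ S.fib z, max (-f (z, w)) 0) := by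
    refine integral_congr_ae (Eventually.of_forall fun z => ?_)
    show ∑ w ∈ S.fib z, f (z, w) =
      (∑ w ∈ S.fib z, max (f (z, w)) 0) - ∑ w ∈ S.fib z, max (-f (z, w)) 0
    rw [← Finset.sum_sub_distrib]
    exact Finset.sum_congr rfl fun w _ => h3 (z, w)
  rw [e1, e2, integral_sub hf.pos_part hf.neg_part,
    integral_sub (sm_integrable hf.pos_part) (sm_integrable hf.neg_part), h1, h2]

theorem integral_μ (hX : Integrable X S.μ) : ∫ q, X q ∂S.μ = ∫ z in S.V, S.fsum X z := by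
  have h1 := sm_integral_real hX.re
  have h2 := sm_integral_real hX.im
  have h3 := integral_re_add_im hX
  have h4 := integral_re_add_im (𝕜 := ℂ) (integrable_fsum hX)
  rw [← h3, ← h4]
  have e1 : ∀ z, RCLike.re (S.fsum X z) = ∑ w ∈ S.fib z, RCLike.re (X (z, w)) := by
    intro z
    unfold fsum
    exact map_sum RCLike.re _ _
  have e2 : ∀ z, RCLike.im (S.fsum X z) = ∑ w ∈ S.fib z, RCLike.im (X (z, w)) := by
    intro z
    unfold fsum
    exact map_sum RCLike.im _ _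
  simp only [e1, e2]
  rw [h1, h2]

/-- Locally finite. -/
theorem μ_lt_top {C : Set (Fin n → ℂ)} (hC : IsCompact C) (hCV : C ⊆ S.V) :
    S.μ {q | q.1 ∈ C} < ⊤ := by
  have hm : MeasurableSet {q : (Fin n → ℂ) × ℂ | q.1 ∈ C} := measurable_fst hC.measurableSet
  rw [← lintegral_indicator_one hm, lintegral_μ (measurable_one.indicator hm)]
  have h1 : ∫⁻ z in S.V, ∑ w ∈ S.fib z,
      ({q : (Fin n → ℂ) × ℂ | q.1 ∈ C}.indicator 1 (z, w) : ℝ≥0∞) ≤
      ∫⁻ z in S.V, C.indicator (fun _ => (N : ℝ≥0∞)) z := by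
    refine lintegral_mono_ae ?_
    filter_upwards [ae_restrict_mem S.isOpen.measurableSet] with z hz
    by_cases hzC : z ∈ C
    · rw [Set.indicator_of_mem hzC]
      calc ∑ w ∈ S.fib z, ({q : (Fin n → ℂ) × ℂ | q.1 ∈ C}.indicator 1 (z, w) : ℝ≥0∞)
          ≤ ∑ w ∈ S.fib z, (1 : ℝ≥0∞) := Finset.sum_le_sum fun w _ =>
            Set.indicator_le_self _ (1 : (Fin n → ℂ) × ℂ → ℝ≥0∞) (z, w)
        _ = (N : ℝ≥0∞) := by rw [Finset.sum_const, card_fib hz, nsmul_eq_mul, mul_one]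
    · rw [Set.indicator_of_notMem hzC]
      refine le_of_eq (Finset.sum_eq_zero fun w _ => ?_)
      have hn : (z, w) ∉ {q : (Fin n → ℂ) × ℂ | q.1 ∈ C} := hzC
      exact Set.indicator_of_notMem hn _
  refine h1.trans_lt ?_
  refine (lintegral_mono' Measure.restrict_le_self le_rfl).trans_lt ?_
  rw [lintegral_indicator_const hC.measurableSet]
  exact ENNReal.mul_lt_top (ENNReal.natCast_lt_top N) hC.measure_lt_top

/-- Continuous functions are bounded over compact sets. -/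
theorem exists_bound (hX : S.CD 0 X) {C : Set (Fin n → ℂ)} (hC : IsCompact C) (hCV : C ⊆ S.V) :
    ∃ B : ℝ, ∀ q ∈ S.M, q.1 ∈ C → ‖X q‖ ≤ B := by
  refine hC.induction_on (p := fun C => ∃ B : ℝ, ∀ q ∈ S.M, q.1 ∈ C → ‖X q‖ ≤ B) ?_ ?_ ?_ ?_
  · exact ⟨0, fun q _ h => absurd h (Set.notMem_empty _)⟩
  · rintro s t hst ⟨B, hB⟩
    exact ⟨B, fun q hq h => hB q hq (hst h)⟩
  · rintro s t ⟨B, hB⟩ ⟨B', hB'⟩
    refine ⟨max B B', fun q hq h => ?_⟩
    rcases h with h | h
    · exact (hB q hq h).trans (le_max_left _ _)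
    · exact (hB' q hq h).trans (le_max_right _ _)
  · intro z₀ hz₀
    obtain ⟨W, s, hW, hzW⟩ := sm_loc (hCV hz₀)
    have hc : ∀ i, ContinuousAt (fun z => X (z, s i z)) z₀ := fun i =>
      ((hX W (s i) (hW.sec i)).continuousOn).continuousAt (hW.isOpen.mem_nhds hzW)
    have h1 : ∀ᶠ z in 𝓝 z₀, z ∈ W ∧ ∀ i, ‖X (z, s i z)‖ < ‖X (z₀, s i z₀)‖ + 1 := by
      have h2 : ∀ᶠ z in 𝓝 z₀, z ∈ W := hW.isOpen.mem_nhds hzW
      refine h2.and (eventually_all.2 fun i => ?_)
      exact (hc i).norm.eventually (gt_mem_nhds (lt_add_one _))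
    refine ⟨_, mem_nhdsWithin_of_mem_nhds h1, ∑ i, (‖X (z₀, s i z₀)‖ + 1), ?_⟩
    intro q hq hqz
    obtain ⟨h2, h3⟩ := hqz
    have h4 := hq.2
    rw [hW.fib q.1 h2, Finset.mem_image] at h4
    obtain ⟨i, _, hi⟩ := h4
    have h5 : q = (q.1, s i q.1) := Prod.ext rfl hi.symm
    rw [h5]
    refine (h3 i).le.trans ?_
    exact Finset.single_le_sum (f := fun i => ‖X (z₀, s i z₀)‖ + 1)
      (fun i _ => by positivity) (Finset.mem_univ i)

theorem exists_pos_bound {u : (Fin n → ℂ) × ℂ → ℝ} (hu : S.CD 0 (fun q => (u q : ℂ)))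
    (hpos : ∀ q ∈ S.M, 0 < u q) {C : Set (Fin n → ℂ)} (hC : IsCompact C) (hCV : C ⊆ S.V) :
    ∃ B : ℝ, 0 < B ∧ ∀ q ∈ S.M, q.1 ∈ C → B ≤ u q := by
  have hi : S.CD 0 (fun q => ((u q)⁻¹ : ℝ)) := by
    intro W s hW
    have h1 := (hu W s hW).continuousOn
    have h2 : ContinuousOn (fun z => ((u (z, s z) : ℂ))⁻¹) W := by
      refine h1.inv₀ fun z hz => ?_
      have h3 := hpos (z, s z) ⟨hW.subset hz, hW.mem z hz⟩
      show ((u (z, s z) : ℝ) : ℂ) ≠ 0
      exact_mod_cast h3.ne'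
    refine contDiffOn_zero.2 (h2.congr fun z _ => ?_)
    push_cast
    rfl
  obtain ⟨B, hB⟩ := exists_bound hi hC hCV
  refine ⟨(max B 1)⁻¹, by positivity, fun q hq hqC => ?_⟩
  have h1 := hB q hq hqC
  have h2 := hpos q hq
  rw [Complex.norm_real, Real.norm_eq_abs, abs_of_pos (inv_pos.2 h2)] at h1
  rw [inv_le_comm₀ (by positivity) h2]
  exact h1.trans (le_max_left _ _)

theorem integrable_of_supp (hX : S.CD 0 X) (hs : S.Supp X) : Integrable X S.μ := by
  obtain ⟨C, hC, hCV, h0⟩ := hs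
  obtain ⟨B, hB⟩ := exists_bound hX hC hCV
  have hm : MeasurableSet {q : (Fin n → ℂ) × ℂ | q.1 ∈ C} := measurable_fst hC.measurableSet
  have h1 : IntegrableOn X {q : (Fin n → ℂ) × ℂ | q.1 ∈ C} S.μ := by
    refine IntegrableOn.of_bound (μ_lt_top hC hCV)
      (aestronglyMeasurable_of_CD hX).restrict B ?_
    refine (ae_restrict_iff' hm).2 ?_
    filter_upwards [ae_mem_M (S := S)] with q hq hqC
    exact hB q hq hqC
  exact (integrableOn_iff_integrable_of_support_subset (fun q hq => by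
    by_contra h
    exact hq (h0 q h))).1 h1

theorem sm_supp_D (hs : S.Supp X) : S.Supp (S.D j X) := by
  obtain ⟨C, hC, hCV, h0⟩ := hs
  refine ⟨C, hC, hCV, fun q hq => ?_⟩
  have h1 : (fun z => X (z, S.sec q z)) =ᶠ[𝓝 q.1] fun _ => 0 := by
    filter_upwards [hC.isClosed.isOpen_compl.mem_nhds hq] with z hz
    exact h0 _ hz
  show dz j (fun z => X (z, S.sec q z)) q.1 = 0
  rw [dz_congr h1, dz_const]

theorem sm_supp_Db (hs : S.Supp X) : S.Supp (S.Db j X) := by
  obtain ⟨C, hC, hCV, h0⟩ := hs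
  refine ⟨C, hC, hCV, fun q hq => ?_⟩
  have h1 : (fun z => X (z, S.sec q z)) =ᶠ[𝓝 q.1] fun _ => 0 := by
    filter_upwards [hC.isClosed.isOpen_compl.mem_nhds hq] with z hz
    exact h0 _ hz
  show dzb j (fun z => X (z, S.sec q z)) q.1 = 0
  rw [dzb_congr h1, dzb_const]

theorem sm_fsum_zero {C : Set (Fin n → ℂ)} (hC : IsClosed C)
    (h0 : ∀ q : (Fin n → ℂ) × ℂ, q.1 ∉ C → X q = 0) {z : Fin n → ℂ} (hz : z ∉ C) :
    S.fsum X =ᶠ[𝓝 z] fun _ => 0 := by
  filter_upwards [hC.isOpen_compl.mem_nhds hz] with y hy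
  exact Finset.sum_eq_zero fun w _ => h0 _ hy

theorem integral_D (hX : S.CD 1 X) (hs : S.Supp X) : ∫ q, S.D j X q ∂S.μ = 0 := by
  have hs' := hs
  obtain ⟨C, hC, hCV, h0⟩ := hs'
  have h1 : S.CD 0 (S.D j X) := CD.D (m := 0) hX
  rw [integral_μ (integrable_of_supp h1 (sm_supp_D hs))]
  have h2 : ∫ z in S.V, S.fsum (S.D j X) z = ∫ z in S.V, dz j (S.fsum X) z :=
    setIntegral_congr_fun S.isOpen.measurableSet fun z hz => (dz_fsum hX hz).symm
  have h3 : ∫ z in S.V, dz j (S.fsum X) z = ∫ z, dz j (S.fsum X) z := by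
    refine setIntegral_eq_integral_of_forall_compl_eq_zero fun z hz => ?_
    rw [dz_congr (sm_fsum_zero hC.isClosed h0 (fun h => hz (hCV h))), dz_const]
  rw [h2, h3, integral_dz (contDiff_fsum hX hs) (hasCompactSupport_fsum hs)]

theorem integral_Db (hX : S.CD 1 X) (hs : S.Supp X) : ∫ q, S.Db j X q ∂S.μ = 0 := by
  have hs' := hs
  obtain ⟨C, hC, hCV, h0⟩ := hs'
  have h1 : S.CD 0 (S.Db j X) := CD.Db (m := 0) hX
  rw [integral_μ (integrable_of_supp h1 (sm_supp_Db hs))]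
  have h2 : ∫ z in S.V, S.fsum (S.Db j X) z = ∫ z in S.V, dzb j (S.fsum X) z :=
    setIntegral_congr_fun S.isOpen.measurableSet fun z hz => (dzb_fsum hX hz).symm
  have h3 : ∫ z in S.V, dzb j (S.fsum X) z = ∫ z, dzb j (S.fsum X) z := by
    refine setIntegral_eq_integral_of_forall_compl_eq_zero fun z hz => ?_
    rw [dzb_congr (sm_fsum_zero hC.isClosed h0 (fun h => hz (hCV h))), dzb_const]
  rw [h2, h3, integral_dzb (contDiff_fsum hX hs) (hasCompactSupport_fsum hs)]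

theorem sm_supp_mul (hs : S.Supp Y) : S.Supp (fun q => X q * Y q) := by
  obtain ⟨C, hC, hCV, h0⟩ := hs
  refine ⟨C, hC, hCV, fun q hq => ?_⟩
  show X q * Y q = 0
  rw [h0 q hq, mul_zero]

/-- Integration by parts. -/
theorem integral_mul_D (hX : S.CD 1 X) (hY : S.CD 1 Y) (hs : S.Supp Y) :
    ∫ q, X q * S.D j Y q ∂S.μ = - ∫ q, S.D j X q * Y q ∂S.μ := by
  have h0 := integral_D (j := j) (hX.mul hY) (sm_supp_mul (X := X) hs)
  have i1 : Integrable (fun q => X q * S.D j Y q) S.μ :=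
    integrable_of_supp ((hX.mono (Nat.zero_le 1)).mul (CD.D (m := 0) hY))
      (sm_supp_mul (sm_supp_D hs))
  have i2 : Integrable (fun q => S.D j X q * Y q) S.μ :=
    integrable_of_supp ((CD.D (m := 0) hX).mul (hY.mono (Nat.zero_le 1))) (sm_supp_mul hs)
  have h1 : ∫ q, S.D j (fun q => X q * Y q) q ∂S.μ =
      ∫ q, (S.D j X q * Y q + X q * S.D j Y q) ∂S.μ := by
    refine integral_congr_ae ?_
    filter_upwards [ae_mem_M (S := S)] with q hq
    exact D_mul hX hY hq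
  rw [h1, integral_add i2 i1] at h0
  linear_combination h0

theorem integral_mul_Db (hX : S.CD 1 X) (hY : S.CD 1 Y) (hs : S.Supp Y) :
    ∫ q, X q * S.Db j Y q ∂S.μ = - ∫ q, S.Db j X q * Y q ∂S.μ := by
  have h0 := integral_Db (j := j) (hX.mul hY) (sm_supp_mul (X := X) hs)
  have i1 : Integrable (fun q => X q * S.Db j Y q) S.μ :=
    integrable_of_supp ((hX.mono (Nat.zero_le 1)).mul (CD.Db (m := 0) hY))
      (sm_supp_mul (sm_supp_Db hs))
  have i2 : Integrable (fun q => S.Db j X q * Y q) S.μ :=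
    integrable_of_supp ((CD.Db (m := 0) hX).mul (hY.mono (Nat.zero_le 1))) (sm_supp_mul hs)
  have h1 : ∫ q, S.Db j (fun q => X q * Y q) q ∂S.μ =
      ∫ q, (S.Db j X q * Y q + X q * S.Db j Y q) ∂S.μ := by
    refine integral_congr_ae ?_
    filter_upwards [ae_mem_M (S := S)] with q hq
    exact Db_mul hX hY hq
  rw [h1, integral_add i2 i1] at h0
  linear_combination h0

end Sheets

end Vale.Agent.P282.L2
end

section

open MeasureTheory Filter Topology
open scoped ENNReal NNReal ComplexConjugate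

namespace Vale.Agent.P282.L2

namespace Sheets

variable {n N r : ℕ} {S : Sheets n N}

theorem levi_aux_cast {F : Fin r → (Fin n → ℂ) × ℂ → ℂ} (s : ℝ) (q : (Fin n → ℂ) × ℂ) :
    ((s + ∑ j, ‖F j q‖ ^ 2 : ℝ) : ℂ) = (s : ℂ) + ∑ j, F j q * conj (F j q) := by
  push_cast
  congr 1
  refine Finset.sum_congr rfl ?_
  intro j _
  rw [Complex.mul_conj']

theorem CD.normSq_sum {F : Fin r → (Fin n → ℂ) × ℂ → ℂ} (hF : ∀ j, S.Holo (F j)) (k : ℕ) (s : ℝ) :
    S.CD k (fun q => ((s + ∑ j, ‖F j q‖ ^ 2 : ℝ) : ℂ)) := by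
  refine CD.congr (X := fun q => (s : ℂ) + ∑ j, F j q * conj (F j q)) ?_ ?_
  · exact CD.add (CD.const _) (CD.sum Finset.univ fun j _ =>
      CD.mul ((hF j).CD k) (CD.conj ((hF j).CD k)))
  · intro q _
    exact levi_aux_cast s q

theorem CD.log_normSq_sum {F : Fin r → (Fin n → ℂ) × ℂ → ℂ} (hF : ∀ j, S.Holo (F j)) (k : ℕ)
    {s : ℝ} (hs : 0 < s) : S.CD k (fun q => ((Real.log (s + ∑ j, ‖F j q‖ ^ 2) : ℝ) : ℂ)) := by
  refine CD.log (CD.normSq_sum hF k s) ?_
  intro q _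
  positivity

theorem levi_aux_Db_const (c : ℂ) {q : (Fin n → ℂ) × ℂ} (hq : q ∈ S.M) (k : Fin n) :
    S.Db k (fun _ => c) q = 0 := (Holo.const c).Db hq

theorem Db_normSq_sum {F : Fin r → (Fin n → ℂ) × ℂ → ℂ} (hF : ∀ j, S.Holo (F j)) (s : ℝ)
    {q : (Fin n → ℂ) × ℂ} (hq : q ∈ S.M) (k : Fin n) :
    S.Db k (fun q => ((s + ∑ j, ‖F j q‖ ^ 2 : ℝ) : ℂ)) q =
      ∑ j, F j q * conj (S.D k (F j) q) := by
  rw [Db_congr (X := fun q => (s : ℂ) + ∑ j, F j q * conj (F j q))
    (fun q _ => levi_aux_cast s q) hq]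
  have h1 : ∀ j ∈ Finset.univ, S.CD 1 (fun q => F j q * conj (F j q)) := fun j _ =>
    CD.mul ((hF j).CD 1) (CD.conj ((hF j).CD 1))
  rw [Db_add (CD.const _) (CD.sum Finset.univ h1) hq, levi_aux_Db_const _ hq, zero_add,
    Db_sum Finset.univ h1 hq]
  refine Finset.sum_congr rfl ?_
  intro j _
  rw [Db_mul ((hF j).CD 1) (CD.conj ((hF j).CD 1)) hq, (hF j).Db hq, Db_conj, zero_mul, zero_add]

theorem levi_aux_D {F : Fin r → (Fin n → ℂ) × ℂ → ℂ} (hF : ∀ j, S.Holo (F j)) (s : ℝ)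
    {q : (Fin n → ℂ) × ℂ} (hq : q ∈ S.M) (k : Fin n) :
    S.D k (fun q => ((s + ∑ j, ‖F j q‖ ^ 2 : ℝ) : ℂ)) q =
      ∑ j, S.D k (F j) q * conj (F j q) := by
  have h1 : S.D k (fun q => conj (((s + ∑ j, ‖F j q‖ ^ 2 : ℝ) : ℂ))) q =
      conj (∑ j, F j q * conj (S.D k (F j) q)) := by
    rw [D_conj, Db_normSq_sum hF s hq]
  have h2 : S.D k (fun q => ((s + ∑ j, ‖F j q‖ ^ 2 : ℝ) : ℂ)) q =
      S.D k (fun q => conj (((s + ∑ j, ‖F j q‖ ^ 2 : ℝ) : ℂ))) q := by
    refine D_congr ?_ hq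
    intro q _
    rw [Complex.conj_ofReal]
  rw [h2, h1, map_sum]
  refine Finset.sum_congr rfl ?_
  intro j _
  rw [map_mul, Complex.conj_conj, mul_comm]

theorem levi_aux_pos {F : Fin r → (Fin n → ℂ) × ℂ → ℂ} {s : ℝ} (hs : 0 < s)
    (q : (Fin n → ℂ) × ℂ) : 0 < s + ∑ j, ‖F j q‖ ^ 2 := by positivity

theorem levi_aux_Db_log {F : Fin r → (Fin n → ℂ) × ℂ → ℂ} (hF : ∀ j, S.Holo (F j)) {s : ℝ}
    (hs : 0 < s) {q : (Fin n → ℂ) × ℂ} (hq : q ∈ S.M) (k : Fin n) :
    S.Db k (fun q => ((Real.log (s + ∑ j, ‖F j q‖ ^ 2) : ℝ) : ℂ)) q =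
      (((s + ∑ j, ‖F j q‖ ^ 2)⁻¹ : ℝ) : ℂ) * ∑ j, F j q * conj (S.D k (F j) q) := by
  rw [Db_comp_real (φ := Real.log) (u := fun q => s + ∑ j, ‖F j q‖ ^ 2)
    (CD.normSq_sum hF 1 s) hq (Real.differentiableAt_log (levi_aux_pos hs q).ne'),
    Db_normSq_sum hF s hq, Real.deriv_log]

theorem levi_aux_D_Db_log {F : Fin r → (Fin n → ℂ) × ℂ → ℂ} (hF : ∀ j, S.Holo (F j)) {s : ℝ}
    (hs : 0 < s) {q : (Fin n → ℂ) × ℂ} (hq : q ∈ S.M) (l k : Fin n) :
    S.D l (S.Db k (fun q => ((Real.log (s + ∑ j, ‖F j q‖ ^ 2) : ℝ) : ℂ))) q =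
      (((s + ∑ j, ‖F j q‖ ^ 2)⁻¹ : ℝ) : ℂ) * ∑ j, S.D l (F j) q * conj (S.D k (F j) q) -
      (((s + ∑ j, ‖F j q‖ ^ 2)⁻¹ : ℝ) : ℂ) ^ 2 * (∑ j, S.D l (F j) q * conj (F j q)) *
        ∑ j, F j q * conj (S.D k (F j) q) := by
  have hinv : S.CD 1 (fun q => (((s + ∑ j, ‖F j q‖ ^ 2)⁻¹ : ℝ) : ℂ)) := by
    refine CD.congr (X := fun q => ((Real.exp (-Real.log (s + ∑ j, ‖F j q‖ ^ 2)) : ℝ) : ℂ)) ?_ ?_
    · have h1 : ContDiff ℝ 1 (fun x : ℝ => Real.exp (-x)) := by fun_prop
      exact CD.comp_real (m := 1) (φ := fun x : ℝ => Real.exp (-x))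
        (u := fun q => Real.log (s + ∑ j, ‖F j q‖ ^ 2)) (by exact_mod_cast h1)
        (CD.log_normSq_sum hF 1 hs)
    · intro q _
      rw [Real.exp_neg, Real.exp_log (levi_aux_pos hs q)]
  have hterm : ∀ j ∈ Finset.univ, S.CD 1 (fun q => F j q * conj (S.D k (F j) q)) := fun j _ =>
    CD.mul ((hF j).CD 1) (CD.conj ((hF j).D.CD 1))
  rw [D_congr (X := fun q => (((s + ∑ j, ‖F j q‖ ^ 2)⁻¹ : ℝ) : ℂ) *
    ∑ j, F j q * conj (S.D k (F j) q)) (fun q hq => levi_aux_Db_log hF hs hq k) hq,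
    D_mul hinv (CD.sum Finset.univ hterm) hq]
  have h1 : S.D l (fun q => (((s + ∑ j, ‖F j q‖ ^ 2)⁻¹ : ℝ) : ℂ)) q =
      -(((s + ∑ j, ‖F j q‖ ^ 2)⁻¹ : ℝ) : ℂ) ^ 2 * ∑ j, S.D l (F j) q * conj (F j q) := by
    rw [D_comp_real (φ := fun x : ℝ => x⁻¹) (u := fun q => s + ∑ j, ‖F j q‖ ^ 2)
      (CD.normSq_sum hF 1 s) hq (differentiableAt_inv (levi_aux_pos hs q).ne'),
      levi_aux_D hF s hq, deriv_inv]
    push_cast
    rw [inv_pow]
  have h2 : S.D l (fun q => ∑ j, F j q * conj (S.D k (F j) q)) q =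
      ∑ j, S.D l (F j) q * conj (S.D k (F j) q) := by
    rw [D_sum Finset.univ hterm hq]
    refine Finset.sum_congr rfl ?_
    intro j _
    rw [D_mul ((hF j).CD 1) (CD.conj ((hF j).D.CD 1)) hq, D_conj, (hF j).D.Db hq, map_zero,
      mul_zero, add_zero]
  rw [h1, h2]
  ring

/-- The Levi form of `log (s + |F|²)`. -/
theorem levi_log_ge {F : Fin r → (Fin n → ℂ) × ℂ → ℂ} (hF : ∀ j, S.Holo (F j)) {s : ℝ}
    (hs : 0 < s) {q : (Fin n → ℂ) × ℂ} (hq : q ∈ S.M) (β : Fin n → ℂ) :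
    s * (∑ j, ‖∑ k, S.D k (F j) q * β k‖ ^ 2) / (s + ∑ j, ‖F j q‖ ^ 2) ^ 2 ≤
      S.levi (fun q => Real.log (s + ∑ j, ‖F j q‖ ^ 2)) β q := by
  set a : Fin r → ℂ := fun j => ∑ k, S.D k (F j) q * β k with ha
  set G : ℝ := s + ∑ j, ‖F j q‖ ^ 2 with hG
  have hGpos : 0 < G := levi_aux_pos hs q
  have hlevi : S.levi (fun q => Real.log (s + ∑ j, ‖F j q‖ ^ 2)) β q =
      G⁻¹ * ∑ j, ‖a j‖ ^ 2 - (G⁻¹) ^ 2 * ‖∑ j, a j * conj (F j q)‖ ^ 2 := by
    have h1 : ∑ l, ∑ k, S.D l (S.Db k (fun q =>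
        ((Real.log (s + ∑ j, ‖F j q‖ ^ 2) : ℝ) : ℂ))) q * β l * conj (β k) =
        ((G⁻¹ * ∑ j, ‖a j‖ ^ 2 - (G⁻¹) ^ 2 * ‖∑ j, a j * conj (F j q)‖ ^ 2 : ℝ) : ℂ) := by
      have h2 : ∀ l k, S.D l (S.Db k (fun q =>
          ((Real.log (s + ∑ j, ‖F j q‖ ^ 2) : ℝ) : ℂ))) q * β l * conj (β k) =
          ((G⁻¹ : ℝ) : ℂ) * ∑ j, (S.D l (F j) q * β l) * conj (S.D k (F j) q * β k) -
          ((G⁻¹ : ℝ) : ℂ) ^ 2 * ((∑ j, (S.D l (F j) q * β l) * conj (F j q)) *
            ∑ j, F j q * conj (S.D k (F j) q * β k)) := by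
        intro l k
        rw [levi_aux_D_Db_log hF hs hq l k]
        have e1 : ∑ j, (S.D l (F j) q * β l) * conj (S.D k (F j) q * β k) =
            (∑ j, S.D l (F j) q * conj (S.D k (F j) q)) * (β l * conj (β k)) := by
          rw [Finset.sum_mul]
          refine Finset.sum_congr rfl ?_
          intro j _
          rw [map_mul]
          ring
        have e2 : ∑ j, (S.D l (F j) q * β l) * conj (F j q) =
            (∑ j, S.D l (F j) q * conj (F j q)) * β l := by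
          rw [Finset.sum_mul]
          refine Finset.sum_congr rfl ?_
          intro j _
          ring
        have e3 : ∑ j, F j q * conj (S.D k (F j) q * β k) =
            (∑ j, F j q * conj (S.D k (F j) q)) * conj (β k) := by
          rw [Finset.sum_mul]
          refine Finset.sum_congr rfl ?_
          intro j _
          rw [map_mul]
          ring
        rw [e1, e2, e3]
        ring
      simp_rw [h2, Finset.sum_sub_distrib, ← Finset.mul_sum]
      have e4 : ∑ l, ∑ k, ∑ j, (S.D l (F j) q * β l) * conj (S.D k (F j) q * β k) =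
          ∑ j, a j * conj (a j) := by
        have e5 : ∀ l, ∑ k, ∑ j, (S.D l (F j) q * β l) * conj (S.D k (F j) q * β k) =
            ∑ j, (S.D l (F j) q * β l) * conj (a j) := by
          intro l
          rw [Finset.sum_comm]
          refine Finset.sum_congr rfl ?_
          intro j _
          rw [← Finset.mul_sum, ← map_sum]
        simp_rw [e5]
        rw [Finset.sum_comm]
        refine Finset.sum_congr rfl ?_
        intro j _
        rw [← Finset.sum_mul]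
      have e6 : ∑ l, ((∑ j, (S.D l (F j) q * β l) * conj (F j q)) *
          ∑ k, ∑ j, F j q * conj (S.D k (F j) q * β k)) =
          (∑ j, a j * conj (F j q)) * conj (∑ j, a j * conj (F j q)) := by
        rw [← Finset.sum_mul]
        congr 1
        · rw [Finset.sum_comm]
          refine Finset.sum_congr rfl ?_
          intro j _
          rw [← Finset.sum_mul]
        · rw [Finset.sum_comm, map_sum]
          refine Finset.sum_congr rfl ?_
          intro j _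
          rw [← Finset.mul_sum, ← map_sum, map_mul, Complex.conj_conj, mul_comm]
      rw [e4, e6, Complex.mul_conj']
      simp_rw [Complex.mul_conj']
      push_cast
      ring
    have h3 : S.levi (fun q => Real.log (s + ∑ j, ‖F j q‖ ^ 2)) β q =
        (∑ l, ∑ k, S.D l (S.Db k (fun q =>
          ((Real.log (s + ∑ j, ‖F j q‖ ^ 2) : ℝ) : ℂ))) q * β l * conj (β k)).re := rfl
    rw [h3, h1, Complex.ofReal_re]
  rw [hlevi]
  have hCS : ‖∑ j, a j * conj (F j q)‖ ^ 2 ≤ (∑ j, ‖a j‖ ^ 2) * ∑ j, ‖F j q‖ ^ 2 := by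
    have h1 : ‖∑ j, a j * conj (F j q)‖ ≤ ∑ j, ‖a j‖ * ‖F j q‖ := by
      refine (norm_sum_le _ _).trans (le_of_eq ?_)
      refine Finset.sum_congr rfl ?_
      intro j _
      rw [norm_mul, RCLike.norm_conj]
    calc ‖∑ j, a j * conj (F j q)‖ ^ 2 ≤ (∑ j, ‖a j‖ * ‖F j q‖) ^ 2 := by
          gcongr
      _ ≤ (∑ j, ‖a j‖ ^ 2) * ∑ j, ‖F j q‖ ^ 2 := Finset.sum_mul_sq_le_sq_mul_sq _ _ _
  have hF2 : ∑ j, ‖F j q‖ ^ 2 = G - s := by rw [hG]; ring
  rw [hF2] at hCS
  have hA : 0 ≤ ∑ j, ‖a j‖ ^ 2 := by positivity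
  have key : s * (∑ j, ‖a j‖ ^ 2) / G ^ 2 =
      G⁻¹ * ∑ j, ‖a j‖ ^ 2 - (G⁻¹) ^ 2 * ((∑ j, ‖a j‖ ^ 2) * (G - s)) := by
    field_simp
    ring
  rw [key]
  have : (G⁻¹) ^ 2 * ‖∑ j, a j * conj (F j q)‖ ^ 2 ≤
      (G⁻¹) ^ 2 * ((∑ j, ‖a j‖ ^ 2) * (G - s)) := by
    gcongr
  linarith

theorem levi_aux_smul_Db {X : (Fin n → ℂ) × ℂ → ℂ} (hX : S.CD 1 X) (c : ℂ)
    {q : (Fin n → ℂ) × ℂ} (hq : q ∈ S.M) (k : Fin n) :
    S.Db k (fun q => c * X q) q = c * S.Db k X q := by
  rw [Db_mul (CD.const c) hX hq, levi_aux_Db_const c hq, zero_mul, zero_add]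

theorem levi_aux_D_const (c : ℂ) {q : (Fin n → ℂ) × ℂ} (hq : q ∈ S.M) (k : Fin n) :
    S.D k (fun _ => c) q = 0 := by
  have h1 : S.D k (fun _ => c) q = S.D k (fun q => conj ((fun _ => conj c) q)) q := by
    refine D_congr ?_ hq
    intro q _
    simp
  rw [h1, D_conj, levi_aux_Db_const _ hq, map_zero]

theorem levi_aux_smul_D {X : (Fin n → ℂ) × ℂ → ℂ} (hX : S.CD 1 X) (c : ℂ)
    {q : (Fin n → ℂ) × ℂ} (hq : q ∈ S.M) (k : Fin n) :
    S.D k (fun q => c * X q) q = c * S.D k X q := by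
  rw [D_mul (CD.const c) hX hq, levi_aux_D_const c hq, zero_mul, zero_add]

/-- Levi form of a linear combination. -/
theorem levi_lin {Φ Ψ : (Fin n → ℂ) × ℂ → ℝ} (hΦ : S.CD 2 (fun q => (Φ q : ℂ)))
    (hΨ : S.CD 2 (fun q => (Ψ q : ℂ))) (a b : ℝ) {q : (Fin n → ℂ) × ℂ} (hq : q ∈ S.M)
    (β : Fin n → ℂ) :
    S.levi (fun q => a * Φ q + b * Ψ q) β q = a * S.levi Φ β q + b * S.levi Ψ β q := by
  have hΦ1 : S.CD 1 (fun q => (Φ q : ℂ)) := hΦ.mono (by norm_num)
  have hΨ1 : S.CD 1 (fun q => (Ψ q : ℂ)) := hΨ.mono (by norm_num)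
  have hDb : ∀ k, ∀ q ∈ S.M, S.Db k (fun q => ((a * Φ q + b * Ψ q : ℝ) : ℂ)) q =
      (a : ℂ) * S.Db k (fun q => (Φ q : ℂ)) q + (b : ℂ) * S.Db k (fun q => (Ψ q : ℂ)) q := by
    intro k q hq
    rw [Db_congr (X := fun q => (a : ℂ) * (Φ q : ℂ) + (b : ℂ) * (Ψ q : ℂ))
      (fun q _ => by push_cast; ring) hq,
      Db_add (CD.mul (CD.const _) hΦ1) (CD.mul (CD.const _) hΨ1) hq,
      levi_aux_smul_Db hΦ1 _ hq, levi_aux_smul_Db hΨ1 _ hq]
  have hΦ2 : ∀ k, S.CD 1 (S.Db k (fun q => (Φ q : ℂ))) := fun k => CD.Db (m := 1) hΦ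
  have hΨ2 : ∀ k, S.CD 1 (S.Db k (fun q => (Ψ q : ℂ))) := fun k => CD.Db (m := 1) hΨ
  have hD : ∀ l k, S.D l (S.Db k (fun q => ((a * Φ q + b * Ψ q : ℝ) : ℂ))) q =
      (a : ℂ) * S.D l (S.Db k (fun q => (Φ q : ℂ))) q +
        (b : ℂ) * S.D l (S.Db k (fun q => (Ψ q : ℂ))) q := by
    intro l k
    rw [D_congr (X := fun q => (a : ℂ) * S.Db k (fun q => (Φ q : ℂ)) q +
      (b : ℂ) * S.Db k (fun q => (Ψ q : ℂ)) q) (fun q hq => hDb k q hq) hq,
      D_add (CD.mul (CD.const _) (hΦ2 k)) (CD.mul (CD.const _) (hΨ2 k)) hq,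
      levi_aux_smul_D (hΦ2 k) _ hq, levi_aux_smul_D (hΨ2 k) _ hq]
  unfold levi
  simp_rw [hD]
  have hsum : ∑ j, ∑ k, ((a : ℂ) * S.D j (S.Db k (fun q => (Φ q : ℂ))) q +
        (b : ℂ) * S.D j (S.Db k (fun q => (Ψ q : ℂ))) q) * β j * conj (β k) =
      (a : ℂ) * (∑ j, ∑ k, S.D j (S.Db k (fun q => (Φ q : ℂ))) q * β j * conj (β k)) +
      (b : ℂ) * (∑ j, ∑ k, S.D j (S.Db k (fun q => (Ψ q : ℂ))) q * β j * conj (β k)) := by
    simp_rw [Finset.mul_sum, ← Finset.sum_add_distrib]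
    refine Finset.sum_congr rfl ?_
    intro j _
    refine Finset.sum_congr rfl ?_
    intro k _
    ring
  rw [hsum, Complex.add_re, Complex.re_ofReal_mul, Complex.re_ofReal_mul]

end Sheets

end Vale.Agent.P282.L2
end

section

open MeasureTheory Filter Topology
open scoped ENNReal NNReal ComplexConjugate

namespace Vale.Agent.P282.L2

set_option linter.unusedSectionVars false

variable {n N : ℕ} {K : Type} [Field K] [Algebra ℂ K] [Algebra (Pol n) K]
  [IsScalarTower ℂ (Pol n) K] [FaithfulSMul (Pol n) K]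

namespace Prim

variable {E : Prim n K} {S : Sheets n N} {a b : K} {q : (Fin n → ℂ) × ℂ}

theorem ev_aux_inj : Function.Injective (algebraMap (Pol n) K) :=
  FaithfulSMul.algebraMap_injective (Pol n) K

theorem ev_aux_h (E : Prim n K) : algebraMap (Pol n) K E.h ≠ 0 := fun h0 =>
  E.h0 (ev_aux_inj (K := K) (by rw [h0, map_zero]))

theorem isReg_of_integral (hb : IsIntegral (Pol n) b) : E.IsReg b := by
  obtain ⟨f, hf⟩ := E.denom b hb
  exact ⟨f, 1, by rw [pow_one, hf]⟩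

theorem isReg_ib (b : IB n K) : E.IsReg (b : K) := isReg_of_integral b.2

theorem isReg_alg (f : Pol n) : E.IsReg (algebraMap (Pol n) K f) :=
  ⟨Polynomial.C f, 0, by rw [pow_zero, one_mul, Polynomial.aeval_C]⟩

theorem isReg_const (c : ℂ) : E.IsReg (algebraMap ℂ K c) := by
  rw [IsScalarTower.algebraMap_apply ℂ (Pol n) K]
  exact isReg_alg _

theorem isReg_one : E.IsReg (1 : K) := by
  have := isReg_alg (E := E) (1 : Pol n)
  rwa [map_one] at this

theorem isReg_y : E.IsReg E.y :=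
  ⟨Polynomial.X, 0, by rw [pow_zero, one_mul, Polynomial.aeval_X]⟩

theorem isReg_aeval (f : Polynomial (Pol n)) : E.IsReg (Polynomial.aeval E.y f) :=
  ⟨f, 0, by rw [pow_zero, one_mul]⟩

theorem ev_aux_add {f g : Polynomial (Pol n)} {k l : ℕ}
    (hf : algebraMap (Pol n) K E.h ^ k * a = Polynomial.aeval E.y f)
    (hg : algebraMap (Pol n) K E.h ^ l * b = Polynomial.aeval E.y g) :
    algebraMap (Pol n) K E.h ^ (k + l) * (a + b) =
      Polynomial.aeval E.y (Polynomial.C (E.h ^ l) * f + Polynomial.C (E.h ^ k) * g) := by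
  rw [map_add, map_mul, map_mul, Polynomial.aeval_C, Polynomial.aeval_C, ← hf, ← hg, map_pow,
    map_pow, pow_add]
  ring

theorem ev_aux_mul {f g : Polynomial (Pol n)} {k l : ℕ}
    (hf : algebraMap (Pol n) K E.h ^ k * a = Polynomial.aeval E.y f)
    (hg : algebraMap (Pol n) K E.h ^ l * b = Polynomial.aeval E.y g) :
    algebraMap (Pol n) K E.h ^ (k + l) * (a * b) = Polynomial.aeval E.y (f * g) := by
  rw [map_mul, ← hf, ← hg, pow_add]
  ring

theorem IsReg.add (ha : E.IsReg a) (hb : E.IsReg b) : E.IsReg (a + b) := by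
  obtain ⟨f, k, hf⟩ := ha
  obtain ⟨g, l, hg⟩ := hb
  exact ⟨_, _, ev_aux_add hf hg⟩

theorem IsReg.mul (ha : E.IsReg a) (hb : E.IsReg b) : E.IsReg (a * b) := by
  obtain ⟨f, k, hf⟩ := ha
  obtain ⟨g, l, hg⟩ := hb
  exact ⟨_, _, ev_aux_mul hf hg⟩

theorem IsReg.neg (ha : E.IsReg a) : E.IsReg (-a) := by
  obtain ⟨f, k, hf⟩ := ha
  exact ⟨-f, k, by rw [map_neg, ← hf, mul_neg]⟩

theorem IsReg.sub (ha : E.IsReg a) (hb : E.IsReg b) : E.IsReg (a - b) := by
  rw [sub_eq_add_neg]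
  exact ha.add hb.neg

theorem IsReg.pow (ha : E.IsReg a) (k : ℕ) : E.IsReg (a ^ k) := by
  induction k with
  | zero => rw [pow_zero]; exact isReg_one
  | succ k ih => rw [pow_succ]; exact ih.mul ha

theorem isReg_zero : E.IsReg (0 : K) := by
  have := isReg_alg (E := E) (0 : Pol n)
  rwa [map_zero] at this

theorem IsReg.sum {ι : Type*} (s : Finset ι) {a : ι → K} (ha : ∀ i ∈ s, E.IsReg (a i)) :
    E.IsReg (∑ i ∈ s, a i) := by
  classical
  induction s using Finset.induction_on with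
  | empty => rw [Finset.sum_empty]; exact isReg_zero
  | insert i s hi ih =>
    rw [Finset.sum_insert hi]
    exact (ha i (Finset.mem_insert_self i s)).add
      (ih fun j hj => ha j (Finset.mem_insert_of_mem hj))

theorem IsReg.prod {ι : Type*} (s : Finset ι) {a : ι → K} (ha : ∀ i ∈ s, E.IsReg (a i)) :
    E.IsReg (∏ i ∈ s, a i) := by
  classical
  induction s using Finset.induction_on with
  | empty => rw [Finset.prod_empty]; exact isReg_one
  | insert i s hi ih =>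
    rw [Finset.prod_insert hi]
    exact (ha i (Finset.mem_insert_self i s)).mul
      (ih fun j hj => ha j (Finset.mem_insert_of_mem hj))

theorem isReg_h_inv : E.IsReg (algebraMap (Pol n) K E.h)⁻¹ :=
  ⟨1, 1, by rw [pow_one, mul_inv_cancel₀ (ev_aux_h E), map_one]⟩

theorem aeval_derivative_ne_zero :
    Polynomial.aeval E.y (Polynomial.derivative (minpoly (Pol n) E.y)) ≠ 0 := by
  obtain ⟨f, hf⟩ := E.unram
  intro h0
  rw [h0, mul_zero] at hf
  exact ev_aux_h E hf.symm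

theorem isReg_deriv_inv :
    E.IsReg (Polynomial.aeval E.y (Polynomial.derivative (minpoly (Pol n) E.y)))⁻¹ := by
  obtain ⟨f, hf⟩ := E.unram
  refine ⟨f, 1, ?_⟩
  rw [pow_one, ← hf, mul_assoc, mul_inv_cancel₀ aeval_derivative_ne_zero, mul_one]

theorem ev_aux_d_alg {d : Fin n → Derivation ℂ K K} (hd : IsPartials d) (j : Fin n) (f : Pol n) :
    d j (algebraMap (Pol n) K f) = algebraMap (Pol n) K (MvPolynomial.pderiv j f) := by
  induction f using MvPolynomial.induction_on with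
  | C c =>
    rw [MvPolynomial.pderiv_C, map_zero]
    have h1 : algebraMap (Pol n) K (MvPolynomial.C c) = algebraMap ℂ K c :=
      (IsScalarTower.algebraMap_apply ℂ (Pol n) K c).symm
    rw [h1, Derivation.map_algebraMap]
  | add f g hf hg => rw [map_add, map_add, hf, hg, map_add, map_add]
  | mul_X f i hf =>
    rw [map_mul, Derivation.leibniz, hf, hd j i, Derivation.leibniz, MvPolynomial.pderiv_X]
    simp only [smul_eq_mul, map_add, map_mul]
    by_cases hij : j = i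
    · subst hij; simp
    · rw [if_neg hij, Pi.single_eq_of_ne (fun h => hij h.symm), map_zero]

theorem ev_aux_d_aeval {d : Fin n → Derivation ℂ K K} (hd : IsPartials d) (j : Fin n)
    (f : Polynomial (Pol n)) : ∃ r, E.IsReg r ∧ d j (Polynomial.aeval E.y f) =
      r + Polynomial.aeval E.y (Polynomial.derivative f) * d j E.y := by
  induction f using Polynomial.induction_on' with
  | add f g hf hg =>
    obtain ⟨r, hr, e⟩ := hf
    obtain ⟨r', hr', e'⟩ := hg
    refine ⟨r + r', hr.add hr', ?_⟩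
    rw [map_add, map_add, e, e', Polynomial.derivative_add, map_add]
    ring
  | monomial m c =>
    refine ⟨E.y ^ m * algebraMap (Pol n) K (MvPolynomial.pderiv j c),
      (isReg_y.pow m).mul (isReg_alg _), ?_⟩
    rw [Polynomial.aeval_monomial, Derivation.leibniz, ev_aux_d_alg hd, Derivation.leibniz_pow,
      Polynomial.derivative_monomial, Polynomial.aeval_monomial, map_mul, map_natCast]
    simp only [smul_eq_mul, nsmul_eq_mul]
    ring

theorem ev_aux_d_y {d : Fin n → Derivation ℂ K K} (hd : IsPartials d) (j : Fin n) :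
    E.IsReg (d j E.y) := by
  obtain ⟨r, hr, e⟩ := ev_aux_d_aeval (E := E) hd j (minpoly (Pol n) E.y)
  rw [minpoly.aeval, map_zero] at e
  have h0 := aeval_derivative_ne_zero (E := E)
  have h1 : d j E.y = -r * (Polynomial.aeval E.y
      (Polynomial.derivative (minpoly (Pol n) E.y)))⁻¹ := by
    field_simp
    linear_combination -e
  rw [h1]
  exact hr.neg.mul isReg_deriv_inv

theorem IsReg.d {d : Fin n → Derivation ℂ K K} (hd : IsPartials d) (ha : E.IsReg a) (j : Fin n) :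
    E.IsReg (d j a) := by
  obtain ⟨f, k, hf⟩ := ha
  obtain ⟨r, hr, e⟩ := ev_aux_d_aeval (E := E) hd j f
  have hD : E.IsReg (d j (Polynomial.aeval E.y f)) := by
    rw [e]
    exact hr.add ((isReg_aeval _).mul (ev_aux_d_y hd j))
  have hh := ev_aux_h E
  have h1 : d j a = ((algebraMap (Pol n) K E.h)⁻¹) ^ k * (d j (Polynomial.aeval E.y f) -
      a * algebraMap (Pol n) K (MvPolynomial.pderiv j (E.h ^ k))) := by
    have h2 : ((algebraMap (Pol n) K E.h)⁻¹) ^ k * algebraMap (Pol n) K E.h ^ k = 1 := by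
      rw [← mul_pow, inv_mul_cancel₀ hh, one_pow]
    have h3 : d j (algebraMap (Pol n) K E.h ^ k * a) = algebraMap (Pol n) K E.h ^ k * d j a +
        a * algebraMap (Pol n) K (MvPolynomial.pderiv j (E.h ^ k)) := by
      rw [← map_pow, Derivation.leibniz, ev_aux_d_alg hd]
      rfl
    rw [← hf, h3]
    linear_combination (-(d j a)) * h2
  rw [h1]
  exact (isReg_h_inv.pow k).mul (hD.sub (IsReg.mul ⟨f, k, hf⟩ (isReg_alg _)))

theorem isReg_int (m : ℤ) : E.IsReg (m : K) := by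
  have := isReg_alg (E := E) (m : Pol n)
  rwa [map_intCast] at this

theorem IsReg.jac {d : Fin n → Derivation ℂ K K} (hd : IsPartials d) {b : Fin n → K}
    (hb : ∀ i, E.IsReg (b i)) : E.IsReg (jac d b) := by
  unfold Vale.Agent.P282.L2.jac
  rw [Matrix.det_apply']
  exact IsReg.sum _ fun σ _ => (isReg_int _).mul (IsReg.prod _ fun i _ => (hb _).d hd _)

/-- Nonzero elements divide a polynomial. -/
theorem exists_mul_eq_alg (E : Prim n K) (ha : a ≠ 0) : ∃ (a' : K) (c : Pol n),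
    IsIntegral (Pol n) a' ∧ c ≠ 0 ∧ a * a' = algebraMap (Pol n) K c := by
  obtain ⟨f, c, hc, h⟩ := E.gen a⁻¹
  refine ⟨Polynomial.aeval E.y f, c, ?_, hc, ?_⟩
  · exact (adjoin_le_integralClosure E.integral) (Polynomial.aeval_mem_adjoin_singleton _ _)
  · rw [← h]
    field_simp

/-- the evaluation as a ring homomorphism -/
noncomputable def pevHom (q : (Fin n → ℂ) × ℂ) : Polynomial (Pol n) →+* ℂ :=
  (Polynomial.evalRingHom q.2).comp (Polynomial.mapRingHom (MvPolynomial.eval q.1))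

theorem pevHom_apply (q : (Fin n → ℂ) × ℂ) (f : Polynomial (Pol n)) : pevHom q f = pev f q := rfl

theorem pev_C (q : (Fin n → ℂ) × ℂ) (c : Pol n) :
    pev (Polynomial.C c) q = MvPolynomial.eval q.1 c := by
  simp [pev]

theorem pev_X (q : (Fin n → ℂ) × ℂ) : pev (Polynomial.X : Polynomial (Pol n)) q = q.2 := by
  simp [pev]

theorem pev_one (q : (Fin n → ℂ) × ℂ) : pev (1 : Polynomial (Pol n)) q = 1 := by
  simp [pev]

theorem pev_add (q : (Fin n → ℂ) × ℂ) (f g : Polynomial (Pol n)) :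
    pev (f + g) q = pev f q + pev g q := by
  simp [pev]

theorem pev_sub (q : (Fin n → ℂ) × ℂ) (f g : Polynomial (Pol n)) :
    pev (f - g) q = pev f q - pev g q := by
  simp [pev]

theorem pev_mul (q : (Fin n → ℂ) × ℂ) (f g : Polynomial (Pol n)) :
    pev (f * g) q = pev f q * pev g q := by
  simp [pev]

theorem pev_neg (q : (Fin n → ℂ) × ℂ) (f : Polynomial (Pol n)) :
    pev (-f) q = -pev f q := by
  simp [pev]

theorem pev_minpoly (hS : E.IsSheets S) (hq : q ∈ S.M) : pev (minpoly (Pol n) E.y) q = 0 :=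
  (hS.2 q.1 q.2).1 hq.2

theorem pev_eq_of_aeval (hS : E.IsSheets S) (hq : q ∈ S.M) {f g : Polynomial (Pol n)}
    (h : Polynomial.aeval E.y f = Polynomial.aeval E.y g) : pev f q = pev g q := by
  have h1 : Polynomial.aeval E.y (f - g) = 0 := by rw [map_sub, h, sub_self]
  obtain ⟨r, hr⟩ := minpoly.isIntegrallyClosed_dvd E.integral h1
  have h2 : pev (f - g) q = 0 := by rw [hr, pev_mul, pev_minpoly hS hq, zero_mul]
  rw [pev_sub] at h2
  exact sub_eq_zero.mp h2

theorem ev_aux_h_eval (hS : E.IsSheets S) (hq : q ∈ S.M) : MvPolynomial.eval q.1 E.h ≠ 0 :=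
  (hS.1 q.1).1 hq.1

theorem ev_eq (hS : E.IsSheets S) (hq : q ∈ S.M) {f : Polynomial (Pol n)} {k : ℕ}
    (h : algebraMap (Pol n) K E.h ^ k * a = Polynomial.aeval E.y f) :
    E.ev a q = pev f q / (MvPolynomial.eval q.1 E.h) ^ k := by
  have ha : E.IsReg a := ⟨f, k, h⟩
  have h0 := ev_aux_h_eval hS hq
  unfold ev
  rw [dif_pos ha]
  have h1 := ha.choose_spec.choose_spec
  generalize ha.choose_spec.choose = l at h1 ⊢
  generalize ha.choose = g at h1 ⊢
  have h2 : Polynomial.aeval E.y (Polynomial.C (E.h ^ k) * g) =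
      Polynomial.aeval E.y (Polynomial.C (E.h ^ l) * f) := by
    rw [map_mul, map_mul, Polynomial.aeval_C, Polynomial.aeval_C, ← h1, ← h, map_pow, map_pow]
    ring
  have h3 := pev_eq_of_aeval hS hq h2
  rw [pev_mul, pev_mul, pev_C, pev_C, map_pow, map_pow] at h3
  rw [div_eq_div_iff (pow_ne_zero _ h0) (pow_ne_zero _ h0)]
  linear_combination h3

theorem ev_add (hS : E.IsSheets S) (hq : q ∈ S.M) (ha : E.IsReg a) (hb : E.IsReg b) :
    E.ev (a + b) q = E.ev a q + E.ev b q := by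
  obtain ⟨f, k, hf⟩ := ha
  obtain ⟨g, l, hg⟩ := hb
  have h0 := ev_aux_h_eval hS hq
  rw [ev_eq hS hq hf, ev_eq hS hq hg, ev_eq hS hq (ev_aux_add hf hg), pev_add, pev_mul, pev_mul,
    pev_C, pev_C, map_pow, map_pow, pow_add]
  field_simp

theorem ev_mul (hS : E.IsSheets S) (hq : q ∈ S.M) (ha : E.IsReg a) (hb : E.IsReg b) :
    E.ev (a * b) q = E.ev a q * E.ev b q := by
  obtain ⟨f, k, hf⟩ := ha
  obtain ⟨g, l, hg⟩ := hb
  rw [ev_eq hS hq hf, ev_eq hS hq hg, ev_eq hS hq (ev_aux_mul hf hg), pev_mul, pow_add,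
    div_mul_div_comm]

theorem ev_neg (hS : E.IsSheets S) (hq : q ∈ S.M) (ha : E.IsReg a) :
    E.ev (-a) q = -E.ev a q := by
  obtain ⟨f, k, hf⟩ := ha
  have hf' : algebraMap (Pol n) K E.h ^ k * (-a) = Polynomial.aeval E.y (-f) := by
    rw [map_neg, ← hf, mul_neg]
  rw [ev_eq hS hq hf, ev_eq hS hq hf', pev_neg, neg_div]

theorem ev_sub (hS : E.IsSheets S) (hq : q ∈ S.M) (ha : E.IsReg a) (hb : E.IsReg b) :
    E.ev (a - b) q = E.ev a q - E.ev b q := by
  rw [sub_eq_add_neg, ev_add hS hq ha hb.neg, ev_neg hS hq hb, sub_eq_add_neg]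

theorem ev_aux_aeval (hS : E.IsSheets S) (hq : q ∈ S.M) (f : Polynomial (Pol n)) :
    E.ev (Polynomial.aeval E.y f) q = pev f q := by
  rw [ev_eq hS hq (f := f) (k := 0) (by rw [pow_zero, one_mul]), pow_zero, div_one]

theorem ev_aux_alg (hS : E.IsSheets S) (hq : q ∈ S.M) (f : Pol n) :
    E.ev (algebraMap (Pol n) K f) q = MvPolynomial.eval q.1 f := by
  rw [← Polynomial.aeval_C (x := E.y) (A := K) f, ev_aux_aeval hS hq, pev_C]

theorem ev_aux_one (hS : E.IsSheets S) (hq : q ∈ S.M) : E.ev 1 q = 1 := by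
  rw [← map_one (algebraMap (Pol n) K), ev_aux_alg hS hq, map_one]

theorem ev_aux_zero (hS : E.IsSheets S) (hq : q ∈ S.M) : E.ev 0 q = 0 := by
  rw [← map_zero (algebraMap (Pol n) K), ev_aux_alg hS hq, map_zero]

theorem ev_pow (hS : E.IsSheets S) (hq : q ∈ S.M) (ha : E.IsReg a) (k : ℕ) :
    E.ev (a ^ k) q = E.ev a q ^ k := by
  induction k with
  | zero => rw [pow_zero, pow_zero]; exact ev_aux_one hS hq
  | succ k ih => rw [pow_succ, pow_succ, ev_mul hS hq (ha.pow k) ha, ih]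

theorem ev_sum {ι : Type*} (hS : E.IsSheets S) (hq : q ∈ S.M) (s : Finset ι) {a : ι → K}
    (ha : ∀ i ∈ s, E.IsReg (a i)) : E.ev (∑ i ∈ s, a i) q = ∑ i ∈ s, E.ev (a i) q := by
  classical
  induction s using Finset.induction_on with
  | empty => rw [Finset.sum_empty, Finset.sum_empty]; exact ev_aux_zero hS hq
  | insert i s hi ih =>
    have h1 : ∀ j ∈ s, E.IsReg (a j) := fun j hj => ha j (Finset.mem_insert_of_mem hj)
    rw [Finset.sum_insert hi, Finset.sum_insert hi,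
      ev_add hS hq (ha i (Finset.mem_insert_self i s)) (IsReg.sum s h1), ih h1]

theorem ev_prod {ι : Type*} (hS : E.IsSheets S) (hq : q ∈ S.M) (s : Finset ι) {a : ι → K}
    (ha : ∀ i ∈ s, E.IsReg (a i)) : E.ev (∏ i ∈ s, a i) q = ∏ i ∈ s, E.ev (a i) q := by
  classical
  induction s using Finset.induction_on with
  | empty => rw [Finset.prod_empty, Finset.prod_empty]; exact ev_aux_one hS hq
  | insert i s hi ih =>
    have h1 : ∀ j ∈ s, E.IsReg (a j) := fun j hj => ha j (Finset.mem_insert_of_mem hj)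
    rw [Finset.prod_insert hi, Finset.prod_insert hi,
      ev_mul hS hq (ha i (Finset.mem_insert_self i s)) (IsReg.prod s h1), ih h1]

theorem ev_alg (hS : E.IsSheets S) (hq : q ∈ S.M) (f : Pol n) :
    E.ev (algebraMap (Pol n) K f) q = MvPolynomial.eval q.1 f := ev_aux_alg hS hq f

theorem ev_const (hS : E.IsSheets S) (hq : q ∈ S.M) (c : ℂ) :
    E.ev (algebraMap ℂ K c) q = c := by
  rw [IsScalarTower.algebraMap_apply ℂ (Pol n) K, ev_alg hS hq]
  exact MvPolynomial.eval_C c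

theorem ev_zero (hS : E.IsSheets S) (hq : q ∈ S.M) : E.ev 0 q = 0 := ev_aux_zero hS hq

theorem ev_one (hS : E.IsSheets S) (hq : q ∈ S.M) : E.ev 1 q = 1 := ev_aux_one hS hq

theorem ev_y (hS : E.IsSheets S) (hq : q ∈ S.M) : E.ev E.y q = q.2 := by
  have h := ev_aux_aeval hS hq (Polynomial.X : Polynomial (Pol n))
  rwa [Polynomial.aeval_X, pev_X] at h

theorem ev_aeval (hS : E.IsSheets S) (hq : q ∈ S.M) (f : Polynomial (Pol n)) :
    E.ev (Polynomial.aeval E.y f) q = pev f q := ev_aux_aeval hS hq f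

theorem ev_h_ne_zero (hS : E.IsSheets S) (hq : q ∈ S.M) : MvPolynomial.eval q.1 E.h ≠ 0 :=
  ev_aux_h_eval hS hq

theorem ev_ne_zero_of_inv (hS : E.IsSheets S) (hq : q ∈ S.M) (h : a ≠ 0) (ha : E.IsReg a)
    (ha' : E.IsReg a⁻¹) : E.ev a q ≠ 0 := by
  intro h0
  have h1 := ev_mul hS hq ha ha'
  rw [mul_inv_cancel₀ h, ev_one hS hq, h0, zero_mul] at h1
  exact one_ne_zero h1

theorem ev_inv (hS : E.IsSheets S) (hq : q ∈ S.M) (ha : E.IsReg a) (ha' : E.IsReg a⁻¹) :
    E.ev a⁻¹ q = (E.ev a q)⁻¹ := by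
  rcases eq_or_ne a 0 with rfl | h
  · rw [inv_zero, ev_zero hS hq, inv_zero]
  · have h1 := ev_mul hS hq ha ha'
    rw [mul_inv_cancel₀ h, ev_one hS hq] at h1
    exact eq_inv_of_mul_eq_one_right h1.symm

theorem ev_int (hS : E.IsSheets S) (hq : q ∈ S.M) (m : ℤ) : E.ev (m : K) q = m := by
  rw [← map_intCast (algebraMap (Pol n) K), ev_alg hS hq, map_intCast]

theorem ev_jac (hS : E.IsSheets S) (hq : q ∈ S.M) {d : Fin n → Derivation ℂ K K}
    (hd : IsPartials d) {b : Fin n → K} (hb : ∀ i, E.IsReg (b i)) :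
    E.ev (Vale.Agent.P282.L2.jac d b) q =
      Matrix.det (Matrix.of fun i j => E.ev (d i (b j)) q) := by
  unfold Vale.Agent.P282.L2.jac
  rw [Matrix.det_apply', Matrix.det_apply']
  simp only [Matrix.of_apply]
  rw [ev_sum hS hq _ fun σ _ => (isReg_int _).mul (IsReg.prod _ fun i _ => (hb _).d hd _)]
  refine Finset.sum_congr rfl fun σ _ => ?_
  rw [ev_mul hS hq (isReg_int _) (IsReg.prod _ fun i _ => (hb _).d hd _), ev_int hS hq,
    ev_prod hS hq _ fun i _ => (hb _).d hd _]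

theorem ev_aux_deriv (hS : E.IsSheets S) (hq : q ∈ S.M) :
    pev (Polynomial.derivative (minpoly (Pol n) E.y)) q ≠ 0 := by
  obtain ⟨f, hf⟩ := E.unram
  have h1 : Polynomial.aeval E.y (f * Polynomial.derivative (minpoly (Pol n) E.y)) =
      Polynomial.aeval E.y (Polynomial.C E.h) := by
    rw [map_mul, hf, Polynomial.aeval_C]
  have h2 := pev_eq_of_aeval hS hq h1
  rw [pev_mul, pev_C] at h2
  intro h0
  rw [h0, mul_zero] at h2
  exact ev_aux_h_eval hS hq h2.symm

/-- The reduction of the minimal polynomial at a point of `V` has only simple roots. -/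
theorem ev_aux_nodup (hS : E.IsSheets S) {z : Fin n → ℂ} (hz : z ∈ S.V) :
    ((minpoly (Pol n) E.y).map (MvPolynomial.eval z)).roots.Nodup := by
  classical
  have hmon := (minpoly.monic E.integral).map (MvPolynomial.eval z)
  rw [Multiset.nodup_iff_count_le_one]
  intro w
  rw [Polynomial.count_roots]
  by_contra hcon
  rw [not_le, Polynomial.one_lt_rootMultiplicity_iff_isRoot hmon.ne_zero] at hcon
  have hq : ((z, w) : (Fin n → ℂ) × ℂ) ∈ S.M := ⟨hz, (hS.2 z w).2 hcon.1⟩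
  refine ev_aux_deriv hS hq ?_
  have h1 := hcon.2
  rw [Polynomial.derivative_map] at h1
  exact h1

/-- An element which vanishes over a nonempty open set is zero. -/
theorem eq_zero_of_ev (hS : E.IsSheets S) (ha : E.IsReg a) {W : Set (Fin n → ℂ)} (hW : IsOpen W)
    (hne : (W ∩ S.V).Nonempty) (h : ∀ q ∈ S.M, q.1 ∈ W → E.ev a q = 0) : a = 0 := by
  classical
  obtain ⟨f, k, hf⟩ := ha
  have hmon := minpoly.monic E.integral
  set g := f %ₘ minpoly (Pol n) E.y with hg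
  have hgf : Polynomial.aeval E.y g = Polynomial.aeval E.y f := by
    rw [hg, Polynomial.modByMonic_eq_sub_mul_div, map_sub, map_mul, minpoly.aeval, zero_mul,
      sub_zero]
  have hdeg : g.degree < (minpoly (Pol n) E.y).degree := Polynomial.degree_modByMonic_lt _ hmon
  -- the reductions of `g` vanish
  have hz0 : ∀ z ∈ W ∩ S.V, g.map (MvPolynomial.eval z) = 0 := by
    rintro z ⟨hzW, hzV⟩
    have hm := hmon.map (MvPolynomial.eval z)
    refine Polynomial.eq_zero_of_degree_lt_of_eval_finset_eq_zero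
      ((minpoly (Pol n) E.y).map (MvPolynomial.eval z)).roots.toFinset ?_ ?_
    · rw [Multiset.toFinset_card_of_nodup (ev_aux_nodup hS hzV),
        IsAlgClosed.card_roots_eq_natDegree, hmon.natDegree_map,
        ← Polynomial.degree_eq_natDegree hmon.ne_zero]
      exact lt_of_le_of_lt (Polynomial.degree_map_le) hdeg
    · intro w hw
      rw [Multiset.mem_toFinset, Polynomial.mem_roots hm.ne_zero] at hw
      have hq : ((z, w) : (Fin n → ℂ) × ℂ) ∈ S.M := ⟨hzV, (hS.2 z w).2 hw⟩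
      have h1 := h _ hq hzW
      rw [ev_eq hS hq hf, div_eq_zero_iff] at h1
      have h2 := h1.resolve_right (pow_ne_zero _ (ev_aux_h_eval hS hq))
      rw [← pev_eq_of_aeval hS hq hgf] at h2
      exact h2
  -- so the coefficients vanish
  have hcoef : ∀ i, g.coeff i = 0 := by
    intro i
    obtain ⟨z₀, hz₀⟩ := hne
    obtain ⟨ε, hε, hball⟩ := Metric.isOpen_iff.1 (hW.inter S.isOpen) z₀ hz₀
    refine MvPolynomial.funext_set (fun j => Metric.ball (z₀ j) ε)
      (fun j => infinite_of_mem_nhds (z₀ j) (Metric.ball_mem_nhds _ hε)) fun x hx => ?_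
    have hx' : x ∈ Metric.ball z₀ ε := by
      rw [ball_pi _ hε]
      exact hx
    have h1 := congrArg (fun p : Polynomial ℂ => p.coeff i) (hz0 x (hball hx'))
    simp only [Polynomial.coeff_map, Polynomial.coeff_zero] at h1
    rw [h1, map_zero]
  have hg0 : g = 0 := Polynomial.ext fun i => by rw [hcoef i, Polynomial.coeff_zero]
  rw [hg0, map_zero] at hgf
  rw [← hgf] at hf
  exact (mul_eq_zero.mp hf).resolve_left (pow_ne_zero _ (ev_aux_h E))

end Prim

end Vale.Agent.P282.L2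
end

section

set_option linter.all false

open MeasureTheory Filter Topology
open scoped ENNReal NNReal ComplexConjugate

namespace Vale.Agent.P282.L2

variable {n N : ℕ} {K : Type} [Field K] [Algebra ℂ K] [Algebra (Pol n) K]
  [IsScalarTower ℂ (Pol n) K] [FaithfulSMul (Pol n) K]

theorem evHol_cont (f : Pol n) : Continuous fun z : Fin n → ℂ => MvPolynomial.eval z f :=
  MvPolynomial.continuous_eval f

/-- The zero set of a nonzero polynomial is a null set. -/
theorem volume_zeros {f : Pol n} (hf : f ≠ 0) :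
    volume {z : Fin n → ℂ | MvPolynomial.eval z f = 0} = 0 := by
  induction n with
  | zero =>
    have h1 : {z : Fin 0 → ℂ | MvPolynomial.eval z f = 0} = ∅ := by
      ext z
      simp only [Set.mem_ofPred_eq, Set.mem_empty_iff_false, iff_false]
      intro h
      apply hf
      rw [MvPolynomial.eq_C_of_isEmpty f] at h ⊢
      rw [MvPolynomial.eval_C] at h
      rw [h, map_zero]
    rw [h1, measure_empty]
  | succ n ih =>
    set S : Set (Fin (n + 1) → ℂ) := {z | MvPolynomial.eval z f = 0} with hS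
    have hSm : MeasurableSet S := (isClosed_eq (evHol_cont f) continuous_const).measurableSet
    set g := MvPolynomial.finSuccEquiv ℂ n f with hg
    have hg0 : g ≠ 0 := by
      intro h
      exact hf ((MvPolynomial.finSuccEquiv ℂ n).injective (by rw [← hg, h, map_zero]))
    have hmp := (volume_preserving_piFinSuccAbove (fun _ : Fin (n + 1) => ℂ) 0).symm
    rw [← hmp.measure_preimage hSm.nullMeasurableSet]
    have hTm : MeasurableSet ((MeasurableEquiv.piFinSuccAbove (fun _ : Fin (n + 1) => ℂ) 0).symm ⁻¹' S) :=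
      (MeasurableEquiv.measurable _) hSm
    rw [Measure.volume_eq_prod, Measure.prod_apply_symm hTm]
    have hae : ∀ᵐ y : Fin n → ℂ ∂volume, MvPolynomial.eval y g.leadingCoeff ≠ 0 := by
      have h2 := ih (Polynomial.leadingCoeff_ne_zero.2 hg0)
      rw [ae_iff]
      simpa using h2
    rw [lintegral_congr_ae (g := fun _ => 0), lintegral_zero]
    filter_upwards [hae] with y hy
    have hfin : ((fun x : ℂ => (x, y)) ⁻¹'
        ((MeasurableEquiv.piFinSuccAbove (fun _ : Fin (n + 1) => ℂ) 0).symm ⁻¹' S)).Finite := by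
      have h3 : g.map (MvPolynomial.eval y) ≠ 0 := by
        intro h
        apply hy
        have h4 := congrArg (fun p => Polynomial.coeff p g.natDegree) h
        simpa [Polynomial.coeff_map] using h4
      refine (Polynomial.rootSet_finite (g.map (MvPolynomial.eval y)) ℂ).subset ?_
      intro x hx
      rw [Polynomial.mem_rootSet]
      refine ⟨h3, ?_⟩
      have h5 : MvPolynomial.eval ((0 : Fin (n + 1)).insertNth x y : Fin (n + 1) → ℂ) f = 0 := hx
      rw [Fin.insertNth_zero', MvPolynomial.eval_eq_eval_mv_eval'] at h5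
      simpa using h5
    exact hfin.measure_zero _

/-- The zero set of a nonzero polynomial has a dense complement. -/
theorem dense_nonzeros {f : Pol n} (hf : f ≠ 0) :
    Dense {z : Fin n → ℂ | MvPolynomial.eval z f ≠ 0} := by
  refine Measure.dense_of_ae (μ := volume) ?_
  rw [ae_iff]
  have h := volume_zeros hf
  simpa using h

theorem evHol_hasFDeriv (f : Pol n) (z : Fin n → ℂ) :
    HasFDerivAt (fun z : Fin n → ℂ => MvPolynomial.eval z f)
      (∑ i, MvPolynomial.eval z (MvPolynomial.pderiv i f) •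
        (ContinuousLinearMap.proj i : (Fin n → ℂ) →L[ℂ] ℂ)) z := by
  induction f using MvPolynomial.induction_on with
  | C a =>
    have h := hasFDerivAt_const (𝕜 := ℂ) a z
    refine (h.congr_fderiv ?_).congr_of_eventuallyEq ?_
    · ext v
      simp
    · exact Eventually.of_forall fun y => by simp
  | add p q hp hq =>
    have h := hp.add hq
    refine (h.congr_fderiv ?_).congr_of_eventuallyEq ?_
    · ext v
      simp [Finset.sum_add_distrib, add_mul]
    · exact Eventually.of_forall fun y => by simp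
  | mul_X p i hp =>
    have h1 : HasFDerivAt (fun z : Fin n → ℂ => z i) (ContinuousLinearMap.proj i : (Fin n → ℂ) →L[ℂ] ℂ) z :=
      (ContinuousLinearMap.proj (R := ℂ) (φ := fun _ : Fin n => ℂ) i).hasFDerivAt
    have h := hp.mul h1
    refine (h.congr_fderiv ?_).congr_of_eventuallyEq ?_
    · ext v
      have h2 : ∀ k, MvPolynomial.eval z (MvPolynomial.pderiv k (p * MvPolynomial.X i)) * v k =
          (if i = k then MvPolynomial.eval z p * v k else 0) +
            z i * (MvPolynomial.eval z (MvPolynomial.pderiv k p) * v k) := by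
        intro k
        rw [Derivation.leibniz, MvPolynomial.pderiv_X]
        by_cases hk : i = k
        · subst hk
          simp
          ring
        · simp [hk]
          ring
      simp only [ContinuousLinearMap.sum_apply, ContinuousLinearMap.add_apply,
        ContinuousLinearMap.smul_apply, ContinuousLinearMap.proj_apply, smul_eq_mul, h2,
        Finset.sum_add_distrib, Finset.sum_ite_eq, Finset.mem_univ, if_true, Finset.mul_sum]
    · exact Eventually.of_forall fun y => by simp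

theorem evHol_diff (f : Pol n) : Differentiable ℂ (fun z : Fin n → ℂ => MvPolynomial.eval z f) :=
  fun z => (evHol_hasFDeriv f z).differentiableAt

theorem dz_eval (f : Pol n) (j : Fin n) (z : Fin n → ℂ) :
    dz j (fun z => MvPolynomial.eval z f) z = MvPolynomial.eval z (MvPolynomial.pderiv j f) := by
  rw [dz_holo (evHol_diff f z), (evHol_hasFDeriv f z).fderiv]
  simp [Pi.single_apply]

theorem dzb_eval (f : Pol n) (j : Fin n) (z : Fin n → ℂ) :
    dzb j (fun z => MvPolynomial.eval z f) z = 0 := dzb_holo (evHol_diff f z)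

theorem d_alg {d : Fin n → Derivation ℂ K K} (hd : IsPartials d) (f : Pol n) (j : Fin n) :
    d j (algebraMap (Pol n) K f) = algebraMap (Pol n) K (MvPolynomial.pderiv j f) := by
  induction f using MvPolynomial.induction_on with
  | C a =>
    have h : algebraMap (Pol n) K (MvPolynomial.C a) = algebraMap ℂ K a :=
      (IsScalarTower.algebraMap_apply ℂ (Pol n) K a).symm
    rw [h, Derivation.map_algebraMap]
    simp
  | add p q hp hq => simp [hp, hq]
  | mul_X p i hp =>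
    rw [map_mul, Derivation.leibniz, hp, hd j i, Derivation.leibniz, MvPolynomial.pderiv_X]
    simp only [smul_eq_mul, map_add, map_mul]
    congr 2
    by_cases h : j = i
    · subst h; simp
    · simp [h, Ne.symm h]

theorem evHol_pev_add (f g : Polynomial (Pol n)) (q : (Fin n → ℂ) × ℂ) :
    pev (f + g) q = pev f q + pev g q := by
  simp [pev]

theorem evHol_pev_monomial (k : ℕ) (a : Pol n) (q : (Fin n → ℂ) × ℂ) :
    pev (Polynomial.monomial k a) q = MvPolynomial.eval q.1 a * q.2 ^ k := by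
  simp [pev]

theorem evHol_pev_diff (f : Polynomial (Pol n)) {W : Set (Fin n → ℂ)} {s : (Fin n → ℂ) → ℂ}
    (hs : DifferentiableOn ℂ s W) : DifferentiableOn ℂ (fun z => pev f (z, s z)) W := by
  induction f using Polynomial.induction_on' with
  | add p q hp hq =>
    simp only [evHol_pev_add]
    exact hp.add hq
  | monomial k a =>
    simp only [evHol_pev_monomial]
    exact (evHol_diff a).differentiableOn.mul (hs.pow k)

namespace Prim

variable {E : Prim n K} {S : Sheets n N} {a b : K} {q : (Fin n → ℂ) × ℂ}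

theorem evHol_mem {W : Set (Fin n → ℂ)} {s : (Fin n → ℂ) → ℂ} (hs : S.IsSection W s)
    {z : Fin n → ℂ} (hz : z ∈ W) : (z, s z) ∈ S.M := ⟨hs.subset hz, hs.mem z hz⟩

theorem holo_ev (hS : E.IsSheets S) (ha : E.IsReg a) : S.Holo (E.ev a) := by
  intro W s hs
  obtain ⟨f, k, hfk⟩ := ha
  refine DifferentiableOn.congr (f := fun z => pev f (z, s z) / (MvPolynomial.eval z E.h) ^ k) ?_ ?_
  · have h1 := evHol_pev_diff f hs.diff
    have h2 : DifferentiableOn ℂ (fun z => (MvPolynomial.eval z E.h) ^ k) W :=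
      (evHol_diff E.h).differentiableOn.pow k
    have h3 : ∀ z ∈ W, (MvPolynomial.eval z E.h) ^ k ≠ 0 := fun z hz =>
      pow_ne_zero k ((hS.1 z).1 (hs.subset hz))
    simp only [div_eq_mul_inv]
    exact h1.mul (h2.inv h3)
  · intro z hz
    exact ev_eq hS (evHol_mem hs hz) hfk

theorem evHol_key {d : Fin n → Derivation ℂ K K} (hd : IsPartials d) (j : Fin n)
    (f : Polynomial (Pol n)) : ∃ g : Polynomial (Pol n),
    d j (Polynomial.aeval E.y f) = Polynomial.aeval E.y g +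
      Polynomial.aeval E.y (Polynomial.derivative f) * d j E.y ∧
    ∀ (s : (Fin n → ℂ) → ℂ) (z : Fin n → ℂ), DifferentiableAt ℂ s z →
      ∃ L : (Fin n → ℂ) →L[ℂ] ℂ, HasFDerivAt (fun z => pev f (z, s z)) L z ∧
        L (Pi.single j 1) = pev g (z, s z) +
          pev (Polynomial.derivative f) (z, s z) * fderiv ℂ s z (Pi.single j 1) := by
  induction f using Polynomial.induction_on' with
  | add p q hp hq =>
    obtain ⟨g1, h1, h2⟩ := hp
    obtain ⟨g2, h3, h4⟩ := hq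
    refine ⟨g1 + g2, ?_, ?_⟩
    · rw [map_add, map_add, h1, h3, Polynomial.derivative_add, map_add, map_add]
      ring
    · intro s z hs
      obtain ⟨L1, hL1, e1⟩ := h2 s z hs
      obtain ⟨L2, hL2, e2⟩ := h4 s z hs
      refine ⟨L1 + L2, ?_, ?_⟩
      · simp only [evHol_pev_add]
        exact hL1.add hL2
      · rw [ContinuousLinearMap.add_apply, e1, e2, evHol_pev_add, Polynomial.derivative_add,
          evHol_pev_add]
        ring
  | monomial k a =>
    refine ⟨Polynomial.monomial k (MvPolynomial.pderiv j a), ?_, ?_⟩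
    · rw [Polynomial.aeval_monomial, Derivation.leibniz, Derivation.leibniz_pow, d_alg hd,
        Polynomial.derivative_monomial, Polynomial.aeval_monomial, Polynomial.aeval_monomial]
      simp only [smul_eq_mul, nsmul_eq_mul, map_mul, map_natCast]
      ring
    · intro s z hs
      have h1 := (evHol_hasFDeriv a z).mul (hs.hasFDerivAt.pow k)
      refine ⟨(MvPolynomial.eval z a) • (k • s z ^ (k - 1)) • fderiv ℂ s z +
        s z ^ k • ∑ i, (MvPolynomial.eval z (MvPolynomial.pderiv i a)) •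
          (ContinuousLinearMap.proj i : (Fin n → ℂ) →L[ℂ] ℂ), ?_, ?_⟩
      · simp only [evHol_pev_monomial]
        exact h1
      · simp only [Polynomial.derivative_monomial, evHol_pev_monomial]
        simp [Pi.single_apply]
        ring

theorem evHol_D_aeval (hS : E.IsSheets S) {d : Fin n → Derivation ℂ K K} (hd : IsPartials d)
    (hq : q ∈ S.M) (j : Fin n) (f : Polynomial (Pol n)) :
    S.D j (E.ev (Polynomial.aeval E.y f)) q = E.ev (d j (Polynomial.aeval E.y f)) q := by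
  obtain ⟨s, W, hs, hqW, hsq⟩ := Sheets.exists_section hq
  have hqe : q = (q.1, s q.1) := by rw [hsq]
  have hsd : DifferentiableAt ℂ s q.1 := hs.diff.differentiableAt (hs.isOpen.mem_nhds hqW)
  -- general formula for the analytic side
  have h1 : ∀ f : Polynomial (Pol n), ∃ g : Polynomial (Pol n),
      d j (Polynomial.aeval E.y f) = Polynomial.aeval E.y g +
        Polynomial.aeval E.y (Polynomial.derivative f) * d j E.y ∧
      fderiv ℂ (fun z => pev f (z, s z)) q.1 (Pi.single j 1) = pev g q +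
        pev (Polynomial.derivative f) q * fderiv ℂ s q.1 (Pi.single j 1) := by
    intro f
    obtain ⟨g, hg1, hg2⟩ := evHol_key (E := E) hd j f
    obtain ⟨L, hL1, hL2⟩ := hg2 s q.1 hsd
    refine ⟨g, hg1, ?_⟩
    rw [hL1.fderiv, hL2, ← hqe]
  have h2 : ∀ f g : Polynomial (Pol n), d j (Polynomial.aeval E.y f) = Polynomial.aeval E.y g +
      Polynomial.aeval E.y (Polynomial.derivative f) * d j E.y →
      E.ev (d j (Polynomial.aeval E.y f)) q = pev g q +
        pev (Polynomial.derivative f) q * E.ev (d j E.y) q := by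
    intro f g h
    rw [h, ev_add hS hq (isReg_aeval g) ((isReg_aeval _).mul (IsReg.d hd isReg_y j)),
      ev_mul hS hq (isReg_aeval _) (IsReg.d hd isReg_y j), ev_aeval hS hq, ev_aeval hS hq]
  -- the derivative of the section
  have h3 : fderiv ℂ s q.1 (Pi.single j 1) = E.ev (d j E.y) q := by
    obtain ⟨g, hg1, hg2⟩ := h1 (minpoly (Pol n) E.y)
    have h4 := h2 _ g hg1
    rw [minpoly.aeval, map_zero, ev_zero hS hq] at h4
    have h5 : fderiv ℂ (fun z => pev (minpoly (Pol n) E.y) (z, s z)) q.1 = 0 := by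
      have h6 : (fun z => pev (minpoly (Pol n) E.y) (z, s z)) =ᶠ[𝓝 q.1] fun _ => (0 : ℂ) := by
        filter_upwards [hs.isOpen.mem_nhds hqW] with z hz
        exact (hS.2 z (s z)).1 (hs.mem z hz)
      rw [h6.fderiv_eq]
      simp
    rw [h5] at hg2
    have h7 : pev (Polynomial.derivative (minpoly (Pol n) E.y)) q ≠ 0 := by
      rw [← ev_aeval hS hq]
      exact ev_ne_zero_of_inv hS hq aeval_derivative_ne_zero (isReg_aeval _) isReg_deriv_inv
    have h8 : pev (Polynomial.derivative (minpoly (Pol n) E.y)) q *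
        (fderiv ℂ s q.1 (Pi.single j 1) - E.ev (d j E.y) q) = 0 := by
      have h9 : (0 : ℂ) = pev g q + pev (Polynomial.derivative (minpoly (Pol n) E.y)) q *
          fderiv ℂ s q.1 (Pi.single j 1) := by
        rw [← hg2]; simp
      linear_combination h4 - h9
    exact sub_eq_zero.1 ((mul_eq_zero.1 h8).resolve_left h7)
  obtain ⟨g, hg1, hg2⟩ := h1 f
  rw [h2 f g hg1, ← h3, ← hg2]
  have hD := Sheets.D_apply (X := E.ev (Polynomial.aeval E.y f)) (j := j) hs hqW
  rw [← hqe] at hD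
  rw [hD]
  have h10 : (fun z => E.ev (Polynomial.aeval E.y f) (z, s z)) =ᶠ[𝓝 q.1]
      fun z => pev f (z, s z) := by
    filter_upwards [hs.isOpen.mem_nhds hqW] with z hz
    exact ev_aeval hS (evHol_mem hs hz) f
  rw [dz_congr h10, dz_holo ((evHol_pev_diff f hs.diff).differentiableAt
    (hs.isOpen.mem_nhds hqW))]

theorem D_ev (hS : E.IsSheets S) {d : Fin n → Derivation ℂ K K} (hd : IsPartials d)
    (ha : E.IsReg a) (hq : q ∈ S.M) (j : Fin n) : S.D j (E.ev a) q = E.ev (d j a) q := by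
  obtain ⟨f, k, hfk⟩ := ha
  have ha : E.IsReg a := ⟨f, k, hfk⟩
  have hh : E.IsReg (algebraMap (Pol n) K (E.h ^ k)) := isReg_alg _
  have e0 : algebraMap (Pol n) K (E.h ^ k) * a = Polynomial.aeval E.y f := by
    rw [map_pow, hfk]
  have h1 := evHol_D_aeval hS hd hq j f
  have h2 := evHol_D_aeval hS hd hq j (Polynomial.C (E.h ^ k))
  rw [Polynomial.aeval_C] at h2
  rw [← e0] at h1
  have h3 : S.D j (E.ev (algebraMap (Pol n) K (E.h ^ k) * a)) q =
      S.D j (fun q => E.ev (algebraMap (Pol n) K (E.h ^ k)) q * E.ev a q) q :=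
    Sheets.D_congr (fun q' hq' => ev_mul hS hq' hh ha) hq
  rw [h3, Sheets.D_mul ((holo_ev hS hh).CD 1) ((holo_ev hS ha).CD 1) hq, h2, Derivation.leibniz,
    smul_eq_mul, smul_eq_mul, ev_add hS hq (hh.mul (IsReg.d hd ha j)) (ha.mul (IsReg.d hd hh j)),
    ev_mul hS hq hh (IsReg.d hd ha j), ev_mul hS hq ha (IsReg.d hd hh j)] at h1
  have h4 : E.ev (algebraMap (Pol n) K (E.h ^ k)) q ≠ 0 := by
    rw [ev_alg hS hq, map_pow]
    exact pow_ne_zero k (ev_h_ne_zero hS hq)
  have h5 : E.ev (algebraMap (Pol n) K (E.h ^ k)) q * (S.D j (E.ev a) q - E.ev (d j a) q) = 0 := by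
    linear_combination h1
  exact sub_eq_zero.1 ((mul_eq_zero.1 h5).resolve_left h4)

theorem ae_ev_ne_zero (hS : E.IsSheets S) (ha : E.IsReg a) (h : a ≠ 0) :
    ∀ᵐ q ∂S.μ, E.ev a q ≠ 0 := by
  obtain ⟨a', c, ha', hc, hac⟩ := exists_mul_eq_alg E h
  rw [Sheets.ae_μ_iff]
  have h1 : ∀ᵐ z : Fin n → ℂ ∂volume, MvPolynomial.eval z c ≠ 0 := by
    rw [ae_iff]
    simpa using volume_zeros hc
  filter_upwards [ae_restrict_mem S.isOpen.measurableSet, ae_restrict_of_ae h1] with z hz hz2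
  intro w hw h0
  have hq : (z, w) ∈ S.M := ⟨hz, hw⟩
  have h2 := ev_mul hS hq ha (isReg_of_integral ha')
  rw [hac, ev_alg hS hq, h0, zero_mul] at h2
  exact hz2 h2

theorem pos_of_isSheets (hS : E.IsSheets S) : 0 < N := by
  obtain ⟨z, hz⟩ := (dense_nonzeros E.h0).nonempty
  have hzV : z ∈ S.V := (hS.1 z).2 hz
  have hdeg : 0 < (minpoly (Pol n) E.y).natDegree := minpoly.natDegree_pos E.integral
  have hmon : (minpoly (Pol n) E.y).Monic := minpoly.monic E.integral
  have hdeg2 : ((minpoly (Pol n) E.y).map (MvPolynomial.eval z)).natDegree =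
      (minpoly (Pol n) E.y).natDegree := hmon.natDegree_map _
  obtain ⟨w, hw⟩ := IsAlgClosed.exists_root ((minpoly (Pol n) E.y).map (MvPolynomial.eval z)) (by
    intro h
    have h1 : ((minpoly (Pol n) E.y).map (MvPolynomial.eval z)).natDegree = 0 :=
      Polynomial.natDegree_eq_of_degree_eq_some h
    rw [hdeg2] at h1
    exact absurd h1 hdeg.ne')
  have hwf : w ∈ S.fib z := (hS.2 z w).2 hw
  rw [← Sheets.card_fib hzV]
  exact Finset.card_pos.2 ⟨w, hwf⟩

theorem evHol_growth1 (f : Pol n) : ∃ (C : ℝ) (k : ℕ), 0 ≤ C ∧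
    ∀ z : Fin n → ℂ, ‖MvPolynomial.eval z f‖ ≤ C * (1 + ‖z‖) ^ k := by
  induction f using MvPolynomial.induction_on with
  | C a => exact ⟨‖a‖, 0, norm_nonneg _, fun z => by simp⟩
  | add p q hp hq =>
    obtain ⟨C1, k1, h1, h2⟩ := hp
    obtain ⟨C2, k2, h3, h4⟩ := hq
    refine ⟨C1 + C2, max k1 k2, add_nonneg h1 h3, fun z => ?_⟩
    have h5 : 1 ≤ 1 + ‖z‖ := by linarith [norm_nonneg z]
    have h6 : (1 + ‖z‖) ^ k1 ≤ (1 + ‖z‖) ^ (max k1 k2) := pow_le_pow_right₀ h5 (le_max_left _ _)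
    have h7 : (1 + ‖z‖) ^ k2 ≤ (1 + ‖z‖) ^ (max k1 k2) := pow_le_pow_right₀ h5 (le_max_right _ _)
    rw [map_add, add_mul]
    exact (norm_add_le _ _).trans (add_le_add ((h2 z).trans (mul_le_mul_of_nonneg_left h6 h1))
      ((h4 z).trans (mul_le_mul_of_nonneg_left h7 h3)))
  | mul_X p i hp =>
    obtain ⟨C1, k1, h1, h2⟩ := hp
    refine ⟨C1, k1 + 1, h1, fun z => ?_⟩
    rw [map_mul, MvPolynomial.eval_X, norm_mul, pow_succ, ← mul_assoc]
    refine mul_le_mul (h2 z) ?_ (norm_nonneg _) (by positivity)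
    linarith [norm_le_pi_norm z i]

theorem evHol_growth2 (f : Polynomial (Pol n)) : ∃ (C : ℝ) (k : ℕ), 0 ≤ C ∧
    ∀ (z : Fin n → ℂ) (i : ℕ), ‖MvPolynomial.eval z (f.coeff i)‖ ≤ C * (1 + ‖z‖) ^ k := by
  induction f using Polynomial.induction_on' with
  | add p q hp hq =>
    obtain ⟨C1, k1, h1, h2⟩ := hp
    obtain ⟨C2, k2, h3, h4⟩ := hq
    refine ⟨C1 + C2, max k1 k2, add_nonneg h1 h3, fun z i => ?_⟩
    have h5 : 1 ≤ 1 + ‖z‖ := by linarith [norm_nonneg z]
    have h6 : (1 + ‖z‖) ^ k1 ≤ (1 + ‖z‖) ^ (max k1 k2) := pow_le_pow_right₀ h5 (le_max_left _ _)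
    have h7 : (1 + ‖z‖) ^ k2 ≤ (1 + ‖z‖) ^ (max k1 k2) := pow_le_pow_right₀ h5 (le_max_right _ _)
    rw [Polynomial.coeff_add, map_add, add_mul]
    exact (norm_add_le _ _).trans (add_le_add ((h2 z i).trans (mul_le_mul_of_nonneg_left h6 h1))
      ((h4 z i).trans (mul_le_mul_of_nonneg_left h7 h3)))
  | monomial m a =>
    obtain ⟨C, k, h1, h2⟩ := evHol_growth1 a
    refine ⟨C, k, h1, fun z i => ?_⟩
    rw [Polynomial.coeff_monomial]
    split_ifs
    · exact h2 z
    · rw [map_zero, norm_zero]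
      positivity

/-- Elements of the integral closure have polynomial growth. -/
theorem ev_growth (hS : E.IsSheets S) (b : IB n K) : ∃ (C : ℝ) (k : ℕ), 0 ≤ C ∧
    ∀ q ∈ S.M, ‖E.ev (b : K) q‖ ≤ C * (1 + ‖q.1‖) ^ k := by
  obtain ⟨p, hp1, hp2⟩ := b.2
  obtain ⟨C, k, hC, hCk⟩ := evHol_growth2 p
  refine ⟨C + 1, k, by linarith, fun q hq => ?_⟩
  set P : Polynomial ℂ := p.map (MvPolynomial.eval q.1) with hP
  have hPmon : P.Monic := hp1.map _
  have hroot : P.IsRoot (E.ev (b : K) q) := by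
    have h2 : ∑ i ∈ Finset.range (p.natDegree + 1),
        algebraMap (Pol n) K (p.coeff i) * (b : K) ^ i = 0 := by
      rw [← Polynomial.eval₂_eq_sum_range]
      exact hp2
    have h3 : E.ev (∑ i ∈ Finset.range (p.natDegree + 1),
        algebraMap (Pol n) K (p.coeff i) * (b : K) ^ i) q = E.ev 0 q := by rw [h2]
    rw [ev_zero hS hq, ev_sum hS hq _ (fun i _ => (isReg_alg _).mul ((isReg_ib b).pow i))] at h3
    have h4 : ∀ i ∈ Finset.range (p.natDegree + 1),
        E.ev (algebraMap (Pol n) K (p.coeff i) * (b : K) ^ i) q =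
          MvPolynomial.eval q.1 (p.coeff i) * E.ev (b : K) q ^ i := by
      intro i _
      rw [ev_mul hS hq (isReg_alg _) ((isReg_ib b).pow i), ev_alg hS hq, ev_pow hS hq (isReg_ib b)]
    rw [Finset.sum_congr rfl h4] at h3
    show P.eval _ = 0
    rw [hP, Polynomial.eval_map, Polynomial.eval₂_eq_sum_range]
    exact h3
  have h5 := hroot.norm_lt_cauchyBound hPmon.ne_zero
  have h6 : (Polynomial.cauchyBound P : ℝ) ≤ C * (1 + ‖q.1‖) ^ k + 1 := by
    have h7 : Polynomial.cauchyBound P ≤ ⟨C * (1 + ‖q.1‖) ^ k, by positivity⟩ + 1 := by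
      unfold Polynomial.cauchyBound
      rw [hPmon.leadingCoeff, nnnorm_one, div_one]
      refine add_le_add (Finset.sup_le fun i _ => ?_) le_rfl
      rw [hP, Polynomial.coeff_map]
      exact hCk q.1 i
    exact_mod_cast h7
  have h8 : ‖E.ev (b : K) q‖ < (Polynomial.cauchyBound P : ℝ) := h5
  have h9 : (1 : ℝ) ≤ (1 + ‖q.1‖) ^ k := one_le_pow₀ (by linarith [norm_nonneg q.1])
  rw [add_mul, one_mul]
  linarith

end Prim

end Vale.Agent.P282.L2
end

section

open MeasureTheory Filter Topology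
open scoped ENNReal NNReal ComplexConjugate

namespace Vale.Agent.P282.L2

variable {n : ℕ} {K : Type} [Field K] [Algebra ℂ K] [Algebra (Pol n) K]
  [IsScalarTower ℂ (Pol n) K] [FaithfulSMul (Pol n) K]

section

variable [Algebra (FractionRing (Pol n)) K] [IsScalarTower (Pol n) (FractionRing (Pol n)) K]
  [FiniteDimensional (FractionRing (Pol n)) K]

theorem px_charZero (n : ℕ) : CharZero (FractionRing (Pol n)) :=
  charZero_of_injective_algebraMap (IsFractionRing.injective (Pol n) (FractionRing (Pol n)))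

theorem px_separable (n : ℕ) (K : Type) [Field K] [Algebra (FractionRing (Pol n)) K]
    [FiniteDimensional (FractionRing (Pol n)) K] :
    Algebra.IsSeparable (FractionRing (Pol n)) K := by
  have := px_charZero n
  infer_instance

theorem ib_finite : Module.Finite (Pol n) (IB n K) := by
  have := px_separable n K
  exact IsIntegralClosure.finite (Pol n) (FractionRing (Pol n)) K (IB n K)

theorem ib_noetherian : IsNoetherianRing (IB n K) := by
  have := px_separable n K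
  exact IsIntegralClosure.isNoetherianRing (Pol n) (FractionRing (Pol n)) K (IB n K)

theorem ib_isFractionRing : IsFractionRing (IB n K) K :=
  IsIntegralClosure.isFractionRing_of_finite_extension (Pol n) (FractionRing (Pol n)) K (IB n K)

/-- an integral primitive element -/
theorem px_prim (n : ℕ) (K : Type) [Field K] [Algebra (Pol n) K]
    [Algebra (FractionRing (Pol n)) K] [IsScalarTower (Pol n) (FractionRing (Pol n)) K]
    [FiniteDimensional (FractionRing (Pol n)) K] :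
    ∃ y : K, IsIntegral (Pol n) y ∧
      ∀ a : K, ∃ p : Polynomial (FractionRing (Pol n)), Polynomial.aeval y p = a := by
  have hsep := px_separable n K
  obtain ⟨y0, hy0⟩ := Field.exists_primitive_element (FractionRing (Pol n)) K
  have halg : IsAlgebraic (Pol n) y0 := by
    have h1 : IsAlgebraic (FractionRing (Pol n)) y0 := Algebra.IsAlgebraic.isAlgebraic y0
    exact (IsFractionRing.isAlgebraic_iff (Pol n) (FractionRing (Pol n)) K).2 h1
  obtain ⟨d, hd, hint⟩ := halg.exists_integral_multiple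
  have hdF : algebraMap (Pol n) (FractionRing (Pol n)) d ≠ 0 := by
    rw [Ne, IsFractionRing.to_map_eq_zero_iff]
    exact hd
  refine ⟨d • y0, hint, fun a => ?_⟩
  have h0 : ∃ p : Polynomial (FractionRing (Pol n)), Polynomial.aeval y0 p = a := by
    have h1 : a ∈ (⊤ : IntermediateField (FractionRing (Pol n)) K) := trivial
    rw [← hy0] at h1
    have h2 : a ∈ (IntermediateField.adjoin (FractionRing (Pol n)) {y0}).toSubalgebra := h1
    rw [IntermediateField.adjoin_simple_toSubalgebra_of_isAlgebraic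
      (Algebra.IsAlgebraic.isAlgebraic y0), Algebra.adjoin_singleton_eq_range_aeval] at h2
    exact h2
  obtain ⟨p, hp⟩ := h0
  refine ⟨p.comp (Polynomial.C (algebraMap (Pol n) (FractionRing (Pol n)) d)⁻¹ * Polynomial.X), ?_⟩
  rw [Polynomial.aeval_comp, map_mul, Polynomial.aeval_C, Polynomial.aeval_X]
  have h2 : algebraMap (FractionRing (Pol n)) K (algebraMap (Pol n) (FractionRing (Pol n)) d)⁻¹ *
      (d • y0) = y0 := by
    rw [Algebra.smul_def, IsScalarTower.algebraMap_apply (Pol n) (FractionRing (Pol n)) K d,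
      ← mul_assoc, ← map_mul, inv_mul_cancel₀ hdF, map_one, one_mul]
  rw [h2]
  exact hp

/-- clearing denominators -/
theorem px_clear {y : K} {a : K} {p : Polynomial (FractionRing (Pol n))}
    (hp : Polynomial.aeval y p = a) :
    ∃ (f : Polynomial (Pol n)) (c : Pol n), c ≠ 0 ∧
      algebraMap (Pol n) K c * a = Polynomial.aeval y f := by
  obtain ⟨b, hb⟩ := IsLocalization.integerNormalization_map_to_map (nonZeroDivisors (Pol n)) p
  refine ⟨IsLocalization.integerNormalization (nonZeroDivisors (Pol n)) p, b,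
    nonZeroDivisors.ne_zero b.2, ?_⟩
  have h1 : Polynomial.aeval y ((IsLocalization.integerNormalization
      (nonZeroDivisors (Pol n)) p).map (algebraMap (Pol n) (FractionRing (Pol n))))
      = Polynomial.aeval y (IsLocalization.integerNormalization (nonZeroDivisors (Pol n)) p) :=
    Polynomial.aeval_map_algebraMap _ _ _
  rw [← h1, hb]
  have h2 : ((b : Pol n) • p : Polynomial (FractionRing (Pol n)))
      = Polynomial.C (algebraMap (Pol n) (FractionRing (Pol n)) (b : Pol n)) * p := by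
    rw [← Polynomial.smul_eq_C_mul, algebraMap_smul]
  rw [h2, map_mul, Polynomial.aeval_C, hp, ← IsScalarTower.algebraMap_apply]

/-- Existence of `E`, with a given element regular. -/
theorem exists_prim (a : K) : ∃ E : Prim n K, E.IsReg a := by
  classical
  have hsep := px_separable n K
  obtain ⟨y, hy, hgen0⟩ := px_prim n K
  have hgen : ∀ a : K, ∃ (f : Polynomial (Pol n)) (c : Pol n), c ≠ 0 ∧
      algebraMap (Pol n) K c * a = Polynomial.aeval y f := fun a => by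
    obtain ⟨p, hp⟩ := hgen0 a
    exact px_clear hp
  have hinj : Function.Injective (algebraMap (Pol n) K) := FaithfulSMul.algebraMap_injective _ _
  -- the different
  obtain ⟨δ, hδ⟩ : ∃ δ, δ = Polynomial.aeval y (Polynomial.derivative (minpoly (Pol n) y)) :=
    ⟨_, rfl⟩
  have hmin : minpoly (FractionRing (Pol n)) y
      = (minpoly (Pol n) y).map (algebraMap (Pol n) (FractionRing (Pol n))) :=
    minpoly.isIntegrallyClosed_eq_field_fractions' (FractionRing (Pol n)) hy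
  have hδ0 : δ ≠ 0 := by
    have h1 : (minpoly (FractionRing (Pol n)) y).Separable := Algebra.IsSeparable.isSeparable _ y
    have h2 := h1.aeval_derivative_ne_zero (minpoly.aeval (FractionRing (Pol n)) y)
    rw [hmin, Polynomial.derivative_map, Polynomial.aeval_map_algebraMap] at h2
    rw [hδ]
    exact h2
  obtain ⟨f0, c0, hc0, hf0⟩ := hgen δ⁻¹
  obtain ⟨fa, ca, hca, hfa⟩ := hgen a
  choose fb cb hcb hfb using fun b : IB n K => hgen (b : K)
  have hfin : Module.Finite (Pol n) (IB n K) := ib_finite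
  obtain ⟨s, hs⟩ := hfin.fg_top
  obtain ⟨h, hh⟩ : ∃ h : Pol n, h = c0 * (∏ b ∈ s, cb b) * ca := ⟨_, rfl⟩
  have hh0 : h ≠ 0 := by
    rw [hh]
    exact mul_ne_zero (mul_ne_zero hc0 (Finset.prod_ne_zero_iff.2 fun b _ => hcb b)) hca
  -- multiples
  have hmul : ∀ (c : Pol n) (x : K) (f : Polynomial (Pol n)),
      algebraMap (Pol n) K c * x = Polynomial.aeval y f → c ∣ h →
      ∃ g : Polynomial (Pol n), algebraMap (Pol n) K h * x = Polynomial.aeval y g := by
    rintro c x f hf ⟨e, he⟩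
    refine ⟨Polynomial.C e * f, ?_⟩
    rw [map_mul, Polynomial.aeval_C, ← hf, he, map_mul]
    ring
  have hd0 : c0 ∣ h := ⟨(∏ b ∈ s, cb b) * ca, by rw [hh]; ring⟩
  have hda : ca ∣ h := ⟨c0 * (∏ b ∈ s, cb b), by rw [hh]; ring⟩
  have hdb : ∀ b ∈ s, cb b ∣ h := fun b hb => by
    rw [hh]
    exact Dvd.dvd.mul_right (Dvd.dvd.mul_left (Finset.dvd_prod_of_mem cb hb) c0) ca
  refine ⟨⟨y, h, hy, hh0, hgen, ?_, ?_⟩, ?_⟩
  · intro b hb
    obtain ⟨N, hN⟩ : ∃ N : Submodule (Pol n) (IB n K), ∀ x : IB n K, x ∈ N ↔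
        ∃ g : Polynomial (Pol n), algebraMap (Pol n) K h * (x : K) = Polynomial.aeval y g := by
      refine ⟨{ carrier := {x | ∃ g : Polynomial (Pol n),
                  algebraMap (Pol n) K h * (x : K) = Polynomial.aeval y g}
                add_mem' := ?_
                zero_mem' := ?_
                smul_mem' := ?_ }, fun x => Iff.rfl⟩
      · rintro x x' ⟨g, hg⟩ ⟨g', hg'⟩
        refine ⟨g + g', ?_⟩
        rw [map_add, ← hg, ← hg']
        push_cast
        ring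
      · refine ⟨0, ?_⟩
        simp
      · rintro r x ⟨g, hg⟩
        refine ⟨Polynomial.C r * g, ?_⟩
        rw [map_mul, Polynomial.aeval_C, ← hg]
        have : ((r • x : IB n K) : K) = algebraMap (Pol n) K r * (x : K) := by
          rw [← Algebra.smul_def]
          rfl
        rw [this]
        ring
    have h1 : (⊤ : Submodule (Pol n) (IB n K)) ≤ N := by
      rw [← hs]
      refine Submodule.span_le.2 fun x hx => ?_
      exact (hN x).2 (hmul _ _ _ (hfb x) (hdb x hx))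
    exact (hN ⟨b, hb⟩).1 (h1 trivial)
  · obtain ⟨g, hg⟩ := hmul _ _ _ hf0 hd0
    refine ⟨g, ?_⟩
    rw [← hg, ← hδ]
    field_simp
  · obtain ⟨g, hg⟩ := hmul _ _ _ hfa hda
    exact ⟨g, 1, by rw [pow_one]; exact hg⟩

end

end Vale.Agent.P282.L2
end

section

open MeasureTheory Filter Topology
open scoped ENNReal NNReal ComplexConjugate

namespace Vale.Agent.P282.L2

variable {n N : ℕ} {K : Type} [Field K] [Algebra ℂ K] [Algebra (Pol n) K]
  [IsScalarTower ℂ (Pol n) K] [FaithfulSMul (Pol n) K]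

namespace ExhAux

/-- Polynomial growth of polynomials. -/
lemma pol_growth (f : Pol n) : ∃ (C : ℝ) (k : ℕ), 0 ≤ C ∧
    ∀ z : Fin n → ℂ, ‖MvPolynomial.eval z f‖ ≤ C * (1 + ‖z‖) ^ k := by
  induction f using MvPolynomial.induction_on with
  | C a => exact ⟨‖a‖, 0, norm_nonneg _, fun z => by simp⟩
  | add p q hp hq =>
    obtain ⟨C₁, k₁, h₁, e₁⟩ := hp
    obtain ⟨C₂, k₂, h₂, e₂⟩ := hq
    refine ⟨C₁ + C₂, max k₁ k₂, add_nonneg h₁ h₂, fun z => ?_⟩
    have h1 : (1 : ℝ) ≤ 1 + ‖z‖ := by linarith [norm_nonneg z]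
    rw [map_add, add_mul]
    refine (norm_add_le _ _).trans (add_le_add ((e₁ z).trans ?_) ((e₂ z).trans ?_))
    · exact mul_le_mul_of_nonneg_left (pow_le_pow_right₀ h1 (le_max_left _ _)) h₁
    · exact mul_le_mul_of_nonneg_left (pow_le_pow_right₀ h1 (le_max_right _ _)) h₂
  | mul_X p i hp =>
    obtain ⟨C₁, k₁, h₁, e₁⟩ := hp
    refine ⟨C₁, k₁ + 1, h₁, fun z => ?_⟩
    rw [map_mul, MvPolynomial.eval_X, norm_mul, pow_succ, ← mul_assoc]
    have h2 : ‖z i‖ ≤ 1 + ‖z‖ := by linarith [norm_le_pi_norm z i]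
    exact mul_le_mul (e₁ z) h2 (norm_nonneg _) (by positivity)

section levi

variable {V : Set (Fin n → ℂ)} {f : (Fin n → ℂ) → ℂ} {z : Fin n → ℂ}

lemma sq_eq (f : (Fin n → ℂ) → ℂ) :
    (fun z => ((‖f z‖ ^ 2 : ℝ) : ℂ)) = fun z => f z * conj (f z) := by
  funext z
  rw [Complex.mul_conj, Complex.normSq_eq_norm_sq]

lemma diffAt (hV : IsOpen V) (hf : DifferentiableOn ℂ f V) (hz : z ∈ V) :
    DifferentiableAt ℂ f z := (hf z hz).differentiableAt (hV.mem_nhds hz)

lemma diffAtR (hV : IsOpen V) (hf : DifferentiableOn ℂ f V) (hz : z ∈ V) :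
    DifferentiableAt ℝ f z := (diffAt hV hf hz).restrictScalars ℝ

lemma diff_conj {f : (Fin n → ℂ) → ℂ} (h : DifferentiableAt ℝ f z) :
    DifferentiableAt ℝ (fun z => conj (f z)) z :=
  (Complex.conjCLE : ℂ →L[ℝ] ℂ).differentiableAt.comp z h

lemma dz_sq (hV : IsOpen V) (hf : DifferentiableOn ℂ f V) (hz : z ∈ V) (j : Fin n) :
    dz j (fun z => ((‖f z‖ ^ 2 : ℝ) : ℂ)) z = dz j f z * conj (f z) := by
  have h := diffAtR hV hf hz
  rw [sq_eq, dz_mul h (diff_conj h), dz_conj, dzb_holo (diffAt hV hf hz), map_zero, mul_zero,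
    add_zero]

lemma dzb_sq (hV : IsOpen V) (hf : DifferentiableOn ℂ f V) (hz : z ∈ V) (k : Fin n) :
    dzb k (fun z => ((‖f z‖ ^ 2 : ℝ) : ℂ)) z = f z * conj (dz k f z) := by
  have h := diffAtR hV hf hz
  rw [sq_eq, dzb_mul h (diff_conj h), dzb_conj, dzb_holo (diffAt hV hf hz), zero_mul, zero_add]

lemma diff_dzb_sq (hV : IsOpen V) (hf : DifferentiableOn ℂ f V) (hz : z ∈ V) (k : Fin n) :
    DifferentiableAt ℝ (dzb k (fun z => ((‖f z‖ ^ 2 : ℝ) : ℂ))) z := by
  have h1 : dzb k (fun z => ((‖f z‖ ^ 2 : ℝ) : ℂ)) =ᶠ[𝓝 z] fun z => f z * conj (dz k f z) := by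
    filter_upwards [hV.mem_nhds hz] with y hy
    exact dzb_sq hV hf hy k
  refine DifferentiableAt.congr_of_eventuallyEq ?_ h1
  exact (diffAtR hV hf hz).mul (diff_conj (diffAtR hV (differentiableOn_dz_holo hV hf) hz))

lemma dz_dzb_sq (hV : IsOpen V) (hf : DifferentiableOn ℂ f V) (hz : z ∈ V) (j k : Fin n) :
    dz j (dzb k (fun z => ((‖f z‖ ^ 2 : ℝ) : ℂ))) z = dz j f z * conj (dz k f z) := by
  have h1 : dzb k (fun z => ((‖f z‖ ^ 2 : ℝ) : ℂ)) =ᶠ[𝓝 z] fun z => f z * conj (dz k f z) := by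
    filter_upwards [hV.mem_nhds hz] with y hy
    exact dzb_sq hV hf hy k
  have hd := differentiableOn_dz_holo (j := k) hV hf
  rw [dz_congr h1, dz_mul (diffAtR hV hf hz) (diff_conj (diffAtR hV hd hz)), dz_conj,
    dzb_holo (diffAt hV hd hz), map_zero, mul_zero, add_zero]

end levi

lemma diff_coord (i : Fin n) : Differentiable ℂ fun z : Fin n → ℂ => z i :=
  differentiable_pi.1 differentiable_id i

lemma dz_coord (i j : Fin n) (z : Fin n → ℂ) :
    dz j (fun z : Fin n → ℂ => z i) z = if i = j then 1 else 0 := by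
  have h := dz_eval (MvPolynomial.X i : Pol n) j z
  simp only [MvPolynomial.eval_X] at h
  rw [h, MvPolynomial.pderiv_X]
  by_cases hij : i = j
  · subst hij
    simp
  · rw [if_neg hij, Pi.single_eq_of_ne (by exact fun hc => hij hc), map_zero]

/-- The exhaustion function. -/
noncomputable def ex (h : Pol n) (z : Fin n → ℂ) : ℝ :=
  ∑ i, ‖z i‖ ^ 2 + ‖(MvPolynomial.eval z h)⁻¹‖ ^ 2

variable {h : Pol n}

lemma ex_sum_nonneg (z : Fin n → ℂ) : 0 ≤ ∑ i, ‖z i‖ ^ 2 :=
  Finset.sum_nonneg fun _ _ => sq_nonneg _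

lemma ex_nonneg (h : Pol n) (z : Fin n → ℂ) : 0 ≤ ex h z :=
  add_nonneg (ex_sum_nonneg z) (sq_nonneg _)

lemma norm_sq_le_sum (z : Fin n → ℂ) : ‖z‖ ^ 2 ≤ ∑ i, ‖z i‖ ^ 2 := by
  have h0 := ex_sum_nonneg z
  have h1 : ‖z‖ ≤ √(∑ i, ‖z i‖ ^ 2) := by
    refine (pi_norm_le_iff_of_nonneg (Real.sqrt_nonneg _)).2 fun i => ?_
    refine Real.le_sqrt_of_sq_le ?_
    exact Finset.single_le_sum (f := fun i => ‖z i‖ ^ 2) (fun _ _ => sq_nonneg _)
      (Finset.mem_univ i)
  calc ‖z‖ ^ 2 ≤ √(∑ i, ‖z i‖ ^ 2) ^ 2 := pow_le_pow_left₀ (norm_nonneg _) h1 2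
    _ = _ := Real.sq_sqrt h0

lemma norm_sq_le_ex (h : Pol n) (z : Fin n → ℂ) : ‖z‖ ^ 2 ≤ ex h z :=
  (norm_sq_le_sum z).trans (le_add_of_nonneg_right (sq_nonneg _))

lemma inv_sq_le_ex (h : Pol n) (z : Fin n → ℂ) : ‖(MvPolynomial.eval z h)⁻¹‖ ^ 2 ≤ ex h z :=
  le_add_of_nonneg_left (ex_sum_nonneg z)

lemma le_of_sq {x y : ℝ} (h : x ^ 2 ≤ y) : x ≤ 1 + y := by nlinarith [sq_nonneg (x - 1)]

lemma norm_le_ex (h : Pol n) (z : Fin n → ℂ) : ‖z‖ ≤ 1 + ex h z := le_of_sq (norm_sq_le_ex h z)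

lemma inv_le_ex (h : Pol n) (z : Fin n → ℂ) : ‖(MvPolynomial.eval z h)⁻¹‖ ≤ 1 + ex h z :=
  le_of_sq (inv_sq_le_ex h z)

lemma one_add_norm_le (h : Pol n) (z : Fin n → ℂ) : 1 + ‖z‖ ≤ 2 * (1 + ex h z) := by
  linarith [norm_le_ex h z, ex_nonneg h z]

lemma continuous_eval (h : Pol n) : Continuous fun z : Fin n → ℂ => MvPolynomial.eval z h :=
  MvPolynomial.continuous_eval h

lemma diff_eval (h : Pol n) : Differentiable ℂ fun z : Fin n → ℂ => MvPolynomial.eval z h := by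
  induction h using MvPolynomial.induction_on with
  | C a => simp
  | add p q hp hq =>
    simp only [map_add]
    exact hp.add hq
  | mul_X p i hp =>
    simp only [map_mul, MvPolynomial.eval_X]
    exact hp.mul (diff_coord i)

lemma compact_ex (h : Pol n) (c : ℝ) :
    IsCompact {z : Fin n → ℂ | MvPolynomial.eval z h ≠ 0 ∧ ex h z ≤ c} := by
  have e1 : {z : Fin n → ℂ | MvPolynomial.eval z h ≠ 0 ∧ ex h z ≤ c} =
      {z | 1 ≤ (c - ∑ i, ‖z i‖ ^ 2) * ‖MvPolynomial.eval z h‖ ^ 2} := by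
    ext z
    simp only [Set.mem_ofPred_eq]
    by_cases hz : MvPolynomial.eval z h = 0
    · simp [hz]
    · have hp : 0 < ‖MvPolynomial.eval z h‖ ^ 2 := by positivity
      have e2 : ‖(MvPolynomial.eval z h)⁻¹‖ ^ 2 = 1 / ‖MvPolynomial.eval z h‖ ^ 2 := by
        rw [norm_inv, inv_pow, one_div]
      unfold ex
      rw [e2, ← div_le_iff₀ hp]
      constructor
      · rintro ⟨-, h1⟩
        linarith
      · intro h1
        exact ⟨hz, by linarith⟩
  refine Metric.isCompact_of_isClosed_isBounded ?_ ?_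
  · rw [e1]
    have h1 := continuous_eval h
    refine isClosed_le continuous_const ?_
    fun_prop
  · refine (Metric.isBounded_closedBall (x := (0 : Fin n → ℂ)) (r := 1 + c)).subset ?_
    rintro z ⟨-, hz⟩
    rw [mem_closedBall_zero_iff]
    exact (norm_le_ex h z).trans (by linarith)

variable {V : Set (Fin n → ℂ)}

lemma diff_inv (hV : ∀ z ∈ V, MvPolynomial.eval z h ≠ 0) :
    DifferentiableOn ℂ (fun z => (MvPolynomial.eval z h)⁻¹) V :=
  fun z hz => ((diff_eval h z).inv (hV z hz)).differentiableWithinAt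

lemma ex_cast (h : Pol n) : (fun z => (ex h z : ℂ)) = fun z =>
    ∑ i, ((‖z i‖ ^ 2 : ℝ) : ℂ) + ((‖(MvPolynomial.eval z h)⁻¹‖ ^ 2 : ℝ) : ℂ) := by
  funext z
  unfold ex
  push_cast
  rfl

lemma diff_sq (hO : IsOpen V) {f : (Fin n → ℂ) → ℂ} (hf : DifferentiableOn ℂ f V)
    {z : Fin n → ℂ} (hz : z ∈ V) : DifferentiableAt ℝ (fun z => ((‖f z‖ ^ 2 : ℝ) : ℂ)) z := by
  rw [sq_eq]
  exact (diffAtR hO hf hz).mul (diff_conj (diffAtR hO hf hz))

lemma dz_ex (hO : IsOpen V) (hV : ∀ z ∈ V, MvPolynomial.eval z h ≠ 0) {z : Fin n → ℂ}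
    (hz : z ∈ V) (j : Fin n) : dz j (fun z => (ex h z : ℂ)) z = conj (z j) +
      dz j (fun z => (MvPolynomial.eval z h)⁻¹) z * conj (MvPolynomial.eval z h)⁻¹ := by
  have hc : ∀ i, DifferentiableOn ℂ (fun z : Fin n → ℂ => z i) V :=
    fun i => (diff_coord i).differentiableOn
  rw [ex_cast, dz_add (DifferentiableAt.fun_sum fun i _ => diff_sq hO (hc i) hz)
    (diff_sq hO (diff_inv hV) hz), dz_sum _ fun i _ => diff_sq hO (hc i) hz,
    dz_sq hO (diff_inv hV) hz]
  congr 1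
  rw [Finset.sum_congr rfl fun i _ => dz_sq hO (hc i) hz j]
  simp [dz_coord]

lemma dzb_ex (hO : IsOpen V) (hV : ∀ z ∈ V, MvPolynomial.eval z h ≠ 0) {z : Fin n → ℂ}
    (hz : z ∈ V) (k : Fin n) : dzb k (fun z => (ex h z : ℂ)) z =
      ∑ i, dzb k (fun z : Fin n → ℂ => ((‖z i‖ ^ 2 : ℝ) : ℂ)) z +
      dzb k (fun z => ((‖(MvPolynomial.eval z h)⁻¹‖ ^ 2 : ℝ) : ℂ)) z := by
  have hc : ∀ i, DifferentiableOn ℂ (fun z : Fin n → ℂ => z i) V :=
    fun i => (diff_coord i).differentiableOn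
  rw [ex_cast, dzb_add (DifferentiableAt.fun_sum fun i _ => diff_sq hO (hc i) hz)
    (diff_sq hO (diff_inv hV) hz), dzb_sum _ fun i _ => diff_sq hO (hc i) hz]

lemma dz_dzb_ex (hO : IsOpen V) (hV : ∀ z ∈ V, MvPolynomial.eval z h ≠ 0) {z : Fin n → ℂ}
    (hz : z ∈ V) (j k : Fin n) : dz j (dzb k (fun z => (ex h z : ℂ))) z =
      (if j = k then 1 else 0) + dz j (fun z => (MvPolynomial.eval z h)⁻¹) z *
        conj (dz k (fun z => (MvPolynomial.eval z h)⁻¹) z) := by
  have hc : ∀ i, DifferentiableOn ℂ (fun z : Fin n → ℂ => z i) V :=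
    fun i => (diff_coord i).differentiableOn
  have h1 : dzb k (fun z => (ex h z : ℂ)) =ᶠ[𝓝 z] fun z =>
      ∑ i, dzb k (fun z : Fin n → ℂ => ((‖z i‖ ^ 2 : ℝ) : ℂ)) z +
      dzb k (fun z => ((‖(MvPolynomial.eval z h)⁻¹‖ ^ 2 : ℝ) : ℂ)) z := by
    filter_upwards [hO.mem_nhds hz] with y hy
    exact dzb_ex hO hV hy k
  rw [dz_congr h1, dz_add (DifferentiableAt.fun_sum fun i _ => diff_dzb_sq hO (hc i) hz k)
    (diff_dzb_sq hO (diff_inv hV) hz k), dz_sum _ fun i _ => diff_dzb_sq hO (hc i) hz k,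
    dz_dzb_sq hO (diff_inv hV) hz]
  congr 1
  rw [Finset.sum_congr rfl fun i _ => dz_dzb_sq hO (hc i) hz j k]
  simp [dz_coord, eq_comm]

lemma levi_ex (hO : IsOpen V) (hV : ∀ z ∈ V, MvPolynomial.eval z h ≠ 0) {z : Fin n → ℂ}
    (hz : z ∈ V) (β : Fin n → ℂ) : ∑ j, ‖β j‖ ^ 2 ≤
    (∑ j, ∑ k, dz j (dzb k (fun z => (ex h z : ℂ))) z * β j * conj (β k)).re := by
  obtain ⟨g, hg⟩ : ∃ g : Fin n → ℂ, g = fun j => dz j (fun z => (MvPolynomial.eval z h)⁻¹) z :=
    ⟨_, rfl⟩
  have e1 : ∑ j, ∑ k, dz j (dzb k (fun z => (ex h z : ℂ))) z * β j * conj (β k) =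
      ((∑ j, ‖β j‖ ^ 2 + ‖∑ j, g j * β j‖ ^ 2 : ℝ) : ℂ) := by
    have e2 : ∀ j k, dz j (dzb k (fun z => (ex h z : ℂ))) z * β j * conj (β k) =
        (if j = k then β j * conj (β k) else 0) + (g j * β j) * conj (g k * β k) := by
      intro j k
      rw [dz_dzb_ex hO hV hz, hg, map_mul]
      split_ifs <;> ring
    simp only [e2, Finset.sum_add_distrib, Finset.sum_ite_eq, Finset.mem_univ, if_true]
    push_cast
    congr 1
    · refine Finset.sum_congr rfl fun j _ => ?_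
      rw [Complex.mul_conj, Complex.normSq_eq_norm_sq]
      push_cast
      rfl
    · rw [← Finset.sum_mul_sum, ← map_sum, Complex.mul_conj, Complex.normSq_eq_norm_sq]
      push_cast
      rfl
  rw [e1, Complex.ofReal_re]
  exact le_add_of_nonneg_right (sq_nonneg _)

lemma dz_inv (hO : IsOpen V) (hV : ∀ z ∈ V, MvPolynomial.eval z h ≠ 0) {z : Fin n → ℂ}
    (hz : z ∈ V) (j : Fin n) : dz j (fun z => (MvPolynomial.eval z h)⁻¹) z =
      -(MvPolynomial.eval z (MvPolynomial.pderiv j h) * (MvPolynomial.eval z h)⁻¹ *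
        (MvPolynomial.eval z h)⁻¹) := by
  have h1 : (fun z => MvPolynomial.eval z h * (MvPolynomial.eval z h)⁻¹) =ᶠ[𝓝 z]
      fun _ => (1 : ℂ) := by
    filter_upwards [hO.mem_nhds hz] with y hy
    exact mul_inv_cancel₀ (hV y hy)
  have h2 := dz_congr (j := j) h1
  rw [dz_const, dz_mul ((diff_eval h z).restrictScalars ℝ) (diffAtR hO (diff_inv hV) hz),
    dz_eval] at h2
  have h3 := hV z hz
  have h4 : MvPolynomial.eval z h * dz j (fun z => (MvPolynomial.eval z h)⁻¹) z =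
      MvPolynomial.eval z h * -(MvPolynomial.eval z (MvPolynomial.pderiv j h) *
        (MvPolynomial.eval z h)⁻¹ * (MvPolynomial.eval z h)⁻¹) := by
    have h5 : MvPolynomial.eval z h * -(MvPolynomial.eval z (MvPolynomial.pderiv j h) *
        (MvPolynomial.eval z h)⁻¹ * (MvPolynomial.eval z h)⁻¹) =
        -(MvPolynomial.eval z (MvPolynomial.pderiv j h) * (MvPolynomial.eval z h)⁻¹) *
        (MvPolynomial.eval z h * (MvPolynomial.eval z h)⁻¹) := by ring
    rw [h5, mul_inv_cancel₀ h3]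
    linear_combination h2
  exact mul_left_cancel₀ h3 h4

lemma grad_ex (hO : IsOpen V) (hV : ∀ z ∈ V, MvPolynomial.eval z h ≠ 0) (j : Fin n) :
    ∃ (C : ℝ) (k : ℕ), 0 ≤ C ∧ ∀ z ∈ V,
      ‖dz j (fun z => (ex h z : ℂ)) z‖ ≤ C * (1 + ex h z) ^ k := by
  obtain ⟨C, k, hC, hb⟩ := pol_growth (MvPolynomial.pderiv j h)
  refine ⟨1 + C * 2 ^ k, k + 3, by positivity, fun z hz => ?_⟩
  rw [dz_ex hO hV hz, dz_inv hO hV hz]
  have h0 := ex_nonneg h z
  have h1 : (1 : ℝ) ≤ 1 + ex h z := by linarith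
  have hp0 : 0 < 1 + ex h z := by linarith
  have e1 : ‖conj (z j)‖ ≤ (1 + ex h z) ^ (k + 3) := by
    rw [Complex.norm_conj]
    refine ((norm_le_pi_norm z j).trans (norm_le_ex h z)).trans ?_
    exact le_self_pow₀ h1 (by omega)
  have e2 : ‖MvPolynomial.eval z (MvPolynomial.pderiv j h)‖ ≤ C * 2 ^ k * (1 + ex h z) ^ k := by
    refine (hb z).trans ?_
    rw [mul_assoc, ← mul_pow]
    refine mul_le_mul_of_nonneg_left (pow_le_pow_left₀ (by positivity) ?_ k) hC
    exact one_add_norm_le h z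
  have e3 := inv_le_ex h z
  have e4 : ‖-(MvPolynomial.eval z (MvPolynomial.pderiv j h) * (MvPolynomial.eval z h)⁻¹ *
        (MvPolynomial.eval z h)⁻¹) * conj (MvPolynomial.eval z h)⁻¹‖ ≤
      C * 2 ^ k * (1 + ex h z) ^ (k + 3) := by
    rw [norm_mul, norm_neg, norm_mul, norm_mul, Complex.norm_conj]
    have e5 : C * 2 ^ k * (1 + ex h z) ^ (k + 3) =
        C * 2 ^ k * (1 + ex h z) ^ k * (1 + ex h z) * (1 + ex h z) * (1 + ex h z) := by ring
    rw [e5]
    gcongr
  refine (norm_add_le _ _).trans ?_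
  rw [add_mul, one_mul]
  exact add_le_add e1 e4

lemma grad_sum_ex (hO : IsOpen V) (hV : ∀ z ∈ V, MvPolynomial.eval z h ≠ 0) :
    ∃ (C : ℝ) (k : ℕ), ∀ z ∈ V,
      ∑ j, ‖dz j (fun z => (ex h z : ℂ)) z‖ ^ 2 ≤ C * (1 + ex h z) ^ k := by
  choose C k hC hb using fun j => grad_ex (n := n) hO hV j
  refine ⟨∑ j, C j ^ 2, 2 * ∑ j, k j, fun z hz => ?_⟩
  rw [Finset.sum_mul]
  refine Finset.sum_le_sum fun j _ => ?_
  have h0 := ex_nonneg h z
  have h1 : (1 : ℝ) ≤ 1 + ex h z := by linarith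
  have h2 : k j ≤ ∑ j, k j := Finset.single_le_sum (f := k) (fun _ _ => Nat.zero_le _)
    (Finset.mem_univ j)
  calc ‖dz j (fun z => (ex h z : ℂ)) z‖ ^ 2 ≤ (C j * (1 + ex h z) ^ k j) ^ 2 :=
        pow_le_pow_left₀ (norm_nonneg _) (hb j z hz) 2
    _ = C j ^ 2 * (1 + ex h z) ^ (2 * k j) := by rw [mul_pow, ← pow_mul, mul_comm (k j) 2]
    _ ≤ C j ^ 2 * (1 + ex h z) ^ (2 * ∑ j, k j) :=
        mul_le_mul_of_nonneg_left (pow_le_pow_right₀ h1 (by omega)) (sq_nonneg _)

lemma cd_eval (h : Pol n) : ContDiff ℝ 4 fun z : Fin n → ℂ => MvPolynomial.eval z h := by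
  induction h using MvPolynomial.induction_on with
  | C a => simpa using contDiff_const
  | add p q hp hq =>
    simp only [map_add]
    exact hp.add hq
  | mul_X p i hp =>
    simp only [map_mul, MvPolynomial.eval_X]
    exact hp.mul (contDiff_apply ℝ ℂ i)

lemma smooth_ex (hV : ∀ z ∈ V, MvPolynomial.eval z h ≠ 0) : ContDiffOn ℝ 4 (ex h) V := by
  have hc := cd_eval h
  unfold ex
  refine ContDiffOn.add ?_ ?_
  · refine ContDiff.contDiffOn (ContDiff.sum fun i _ => ?_)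
    exact (contDiff_norm_sq ℝ).comp (contDiff_apply ℝ ℂ i)
  · exact (contDiff_norm_sq ℝ).comp_contDiffOn (hc.contDiffOn.inv hV)

end ExhAux

open ExhAux

namespace Prim

variable {E : Prim n K} {S : Sheets n N} {a b : K} {q : (Fin n → ℂ) × ℂ}

/-- The exhaustion function `|z|² + |h|⁻²`. -/
theorem exists_exh (hS : E.IsSheets S) : ∃ (p : (Fin n → ℂ) → ℝ) (C : ℝ) (k0 : ℕ),
    Exh S.V p C k0 ∧
    ∀ a : K, E.IsReg a → ∃ (c : ℝ) (k : ℕ), ∀ q ∈ S.M, ‖E.ev a q‖ ≤ c * (1 + p q.1) ^ k := by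
  have hO := S.isOpen
  have hV : ∀ z ∈ S.V, MvPolynomial.eval z E.h ≠ 0 := fun z hz => (hS.1 z).1 hz
  obtain ⟨C, k0, hg⟩ := grad_sum_ex hO hV
  refine ⟨ex E.h, C, k0, ⟨smooth_ex hV, fun z _ => norm_sq_le_ex E.h z, fun c => ?_,
    fun z hz β => levi_ex hO hV hz β, hg⟩, ?_⟩
  · have e1 : {z | z ∈ S.V ∧ ex E.h z ≤ c} =
        {z | MvPolynomial.eval z E.h ≠ 0 ∧ ex E.h z ≤ c} := by
      ext z
      simp only [Set.mem_ofPred_eq, hS.1 z]
    rw [e1]
    exact compact_ex E.h c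
  · rintro a ⟨f, k, hf⟩
    have hint : IsIntegral (Pol n) (Polynomial.aeval E.y f) :=
      adjoin_le_integralClosure E.integral (Polynomial.aeval_mem_adjoin_singleton _ _)
    obtain ⟨C', k', hC', hb⟩ := ev_growth hS (⟨Polynomial.aeval E.y f, hint⟩ : IB n K)
    refine ⟨C' * 2 ^ k', k' + k, fun q hq => ?_⟩
    have h0 := ex_nonneg E.h q.1
    rw [ev_eq hS hq hf, div_eq_mul_inv, norm_mul, ← inv_pow, norm_pow, ← ev_aeval hS hq f]
    have h1 := hb q hq
    have h2 := inv_le_ex E.h q.1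
    have h3 := one_add_norm_le E.h q.1
    calc _ ≤ (C' * (1 + ‖q.1‖) ^ k') * (1 + ex E.h q.1) ^ k := by
          refine mul_le_mul h1 (pow_le_pow_left₀ (norm_nonneg _) h2 k) (by positivity)
            (by positivity)
      _ ≤ (C' * (2 * (1 + ex E.h q.1)) ^ k') * (1 + ex E.h q.1) ^ k := by
          gcongr
      _ = _ := by
          rw [mul_pow, pow_add]
          ring

end Prim

end Vale.Agent.P282.L2
end

section

open MeasureTheory Filter Topology
open scoped ENNReal NNReal ComplexConjugate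

namespace Vale.Agent.P282.L2

namespace Sheets

variable {n N : ℕ} {S : Sheets n N}

/-- Levi forms: sums. -/
theorem levi_add {Φ Ψ : (Fin n → ℂ) × ℂ → ℝ} (hΦ : S.CD 2 (fun q => (Φ q : ℂ)))
    (hΨ : S.CD 2 (fun q => (Ψ q : ℂ))) {q : (Fin n → ℂ) × ℂ} (hq : q ∈ S.M) (β : Fin n → ℂ) :
    S.levi (fun q => Φ q + Ψ q) β q = S.levi Φ β q + S.levi Ψ β q := by
  have h : ∀ j k, S.D j (S.Db k (fun q => ((Φ q + Ψ q : ℝ) : ℂ))) q =
      S.D j (S.Db k (fun q => (Φ q : ℂ))) q + S.D j (S.Db k (fun q => (Ψ q : ℂ))) q := by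
    intro j k
    have h1 : ∀ q ∈ S.M, S.Db k (fun q => ((Φ q + Ψ q : ℝ) : ℂ)) q =
        S.Db k (fun q => (Φ q : ℂ)) q + S.Db k (fun q => (Ψ q : ℂ)) q := by
      intro q hq
      simp only [Complex.ofReal_add]
      exact Db_add (hΦ.mono (by norm_num)) (hΨ.mono (by norm_num)) hq
    rw [D_congr (Y := S.Db k (fun q => ((Φ q + Ψ q : ℝ) : ℂ))) h1 hq]
    exact D_add (CD.Db (m := 1) hΦ) (CD.Db (m := 1) hΨ) hq
  unfold levi
  rw [← Complex.add_re, ← Finset.sum_add_distrib]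
  congr 1
  refine Finset.sum_congr rfl fun j _ => ?_
  rw [← Finset.sum_add_distrib]
  refine Finset.sum_congr rfl fun k _ => ?_
  rw [h j k]
  ring

private lemma dzb_real {p : (Fin n → ℂ) → ℝ} (k : Fin n) (z : Fin n → ℂ) :
    dzb k (fun z => (p z : ℂ)) z = conj (dz k (fun z => (p z : ℂ)) z) := by
  rw [← dzb_conj]
  simp only [Complex.conj_ofReal]

/-- Levi form of `φ ∘ p`, `p` a function of `z`. -/
theorem levi_comp {φ : ℝ → ℝ} {p : (Fin n → ℂ) → ℝ} (hφ : ContDiff ℝ 2 φ)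
    (hp : ContDiffOn ℝ 2 p S.V) {q : (Fin n → ℂ) × ℂ} (hq : q ∈ S.M) (β : Fin n → ℂ) :
    S.levi (fun q => φ (p q.1)) β q =
      deriv φ (p q.1) *
        (∑ j, ∑ k, dz j (dzb k (fun z => (p z : ℂ))) q.1 * β j * conj (β k)).re +
      deriv (deriv φ) (p q.1) * ‖∑ j, dz j (fun z => (p z : ℂ)) q.1 * β j‖ ^ 2 := by
  have hV : S.V ∈ 𝓝 q.1 := S.isOpen.mem_nhds hq.1
  have hpd : ∀ z ∈ S.V, DifferentiableAt ℝ p z := fun z hz =>
    ((hp.differentiableOn (by norm_num)) z hz).differentiableAt (S.isOpen.mem_nhds hz)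
  have hpc : ContDiffOn ℝ 2 (fun z => (p z : ℂ)) S.V :=
    Complex.ofRealCLM.contDiff.comp_contDiffOn hp
  have hd1 : ContDiff ℝ 1 (deriv φ) := by
    have : ContDiff ℝ (1 + 1) φ := by norm_num; exact hφ
    exact (contDiff_succ_iff_deriv.1 this).2.2
  have hφd : Differentiable ℝ φ := hφ.differentiable (by norm_num)
  have hφd1 : Differentiable ℝ (deriv φ) := hd1.differentiable (by norm_num)
  have h : ∀ j k, S.D j (S.Db k (fun q => ((φ (p q.1) : ℝ) : ℂ))) q =
      ((deriv (deriv φ) (p q.1) : ℝ) : ℂ) * dz j (fun z => (p z : ℂ)) q.1 *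
        dzb k (fun z => (p z : ℂ)) q.1 +
      ((deriv φ (p q.1) : ℝ) : ℂ) * dz j (dzb k (fun z => (p z : ℂ))) q.1 := by
    intro j k
    have h1 : S.Db k (fun q => ((φ (p q.1) : ℝ) : ℂ)) =
        fun q => dzb k (fun z => ((φ (p z) : ℝ) : ℂ)) q.1 := by
      funext q
      exact Db_fst (f := fun z => ((φ (p z) : ℝ) : ℂ))
    rw [h1]
    rw [D_fst (f := dzb k (fun z => ((φ (p z) : ℝ) : ℂ)))]
    have h2 : dzb k (fun z => ((φ (p z) : ℝ) : ℂ)) =ᶠ[𝓝 q.1]
        fun z => ((deriv φ (p z) : ℝ) : ℂ) * dzb k (fun z => (p z : ℂ)) z := by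
      filter_upwards [hV] with z hz
      exact dzb_comp_real (hpd z hz) (hφd _)
    rw [dz_congr h2]
    have h3 : ContDiffOn ℝ (1 : ℕ) (dzb k (fun z => (p z : ℂ))) S.V :=
      contDiffOn_dzb (m := 1) S.isOpen (by exact_mod_cast hpc)
    have h4 : DifferentiableAt ℝ (dzb k (fun z => (p z : ℂ))) q.1 :=
      ((h3.differentiableOn (by norm_num)) q.1 hq.1).differentiableAt hV
    have h5 : DifferentiableAt ℝ (fun z => ((deriv φ (p z) : ℝ) : ℂ)) q.1 :=
      Complex.ofRealCLM.differentiableAt.comp q.1 ((hφd1 _).comp q.1 (hpd q.1 hq.1))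
    rw [dz_mul h5 h4, dz_comp_real (hpd q.1 hq.1) (hφd1 _)]
  unfold levi
  simp only [h]
  have e1 : ∑ j, ∑ k, (((deriv (deriv φ) (p q.1) : ℝ) : ℂ) * dz j (fun z => (p z : ℂ)) q.1 *
        dzb k (fun z => (p z : ℂ)) q.1 +
      ((deriv φ (p q.1) : ℝ) : ℂ) * dz j (dzb k (fun z => (p z : ℂ))) q.1) * β j * conj (β k) =
      ((deriv (deriv φ) (p q.1) : ℝ) : ℂ) *
        ((∑ j, dz j (fun z => (p z : ℂ)) q.1 * β j) *
          conj (∑ j, dz j (fun z => (p z : ℂ)) q.1 * β j)) +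
      ((deriv φ (p q.1) : ℝ) : ℂ) *
        ∑ j, ∑ k, dz j (dzb k (fun z => (p z : ℂ))) q.1 * β j * conj (β k) := by
    rw [map_sum, Finset.sum_mul_sum, Finset.mul_sum, Finset.mul_sum, ← Finset.sum_add_distrib]
    refine Finset.sum_congr rfl fun j _ => ?_
    rw [Finset.mul_sum, Finset.mul_sum, ← Finset.sum_add_distrib]
    refine Finset.sum_congr rfl fun k _ => ?_
    rw [dzb_real, map_mul]
    ring
  rw [e1, Complex.mul_conj, Complex.add_re, Complex.re_ofReal_mul, Complex.re_ofReal_mul,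
    Complex.ofReal_re, Complex.normSq_eq_norm_sq]
  ring

/-- Cutoff functions with gradient controlled by `exp ψ`. -/
def HasCut (S : Sheets n N) (p : (Fin n → ℂ) → ℝ) (ψ : (Fin n → ℂ) × ℂ → ℝ) : Prop :=
  ∀ R : ℝ, ∃ η : (Fin n → ℂ) → ℝ, ContDiffOn ℝ 4 η S.V ∧ (∀ z, 0 ≤ η z ∧ η z ≤ 1) ∧
    (∀ z ∈ S.V, p z ≤ R → η z = 1) ∧
    (∃ c : Set (Fin n → ℂ), IsCompact c ∧ c ⊆ S.V ∧ ∀ z, z ∉ c → η z = 0) ∧
    ∀ q ∈ S.M, ∑ j, ‖dzb j (fun z => (η z : ℂ)) q.1‖ ^ 2 ≤ Real.exp (ψ q)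

private lemma deriv_st_zero {x : ℝ} (hx : x < 0 ∨ 1 < x) : deriv Real.smoothTransition x = 0 := by
  rcases hx with hx | hx
  · have : Real.smoothTransition =ᶠ[𝓝 x] fun _ => 0 := by
      filter_upwards [gt_mem_nhds hx] with y hy
      exact Real.smoothTransition.zero_of_nonpos hy.le
    rw [this.deriv_eq]; simp
  · have : Real.smoothTransition =ᶠ[𝓝 x] fun _ => 1 := by
      filter_upwards [lt_mem_nhds hx] with y hy
      exact Real.smoothTransition.one_of_one_le hy.le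
    rw [this.deriv_eq]; simp

/-- Bound of the derivative of the smooth transition function. -/
private lemma exists_st_bound : ∃ C' : ℝ, 0 < C' ∧ ∀ x, |deriv Real.smoothTransition x| ≤ C' := by
  have h1 : ContDiff ℝ 1 Real.smoothTransition := Real.smoothTransition.contDiff
  have h2 : Continuous (deriv Real.smoothTransition) := h1.continuous_deriv (by norm_num)
  obtain ⟨B, hB⟩ := (isCompact_Icc (a := (0 : ℝ)) (b := 1)).exists_bound_of_continuousOn
    h2.continuousOn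
  refine ⟨max B 1, by positivity, fun x => ?_⟩
  by_cases hx : x ∈ Set.Icc (0 : ℝ) 1
  · exact (hB x hx).trans (le_max_left _ _)
  · rw [Set.mem_Icc, not_and_or, not_le, not_le] at hx
    rw [deriv_st_zero hx, abs_zero]; positivity

open Classical in
private lemma hasCut {p : (Fin n → ℂ) → ℝ} {C : ℝ} {k0 : ℕ} (hp : Exh S.V p C k0) {τ : ℝ} (hτ : 0 < τ) :
    S.HasCut p (fun q => ((k0 + 1 : ℕ) : ℝ) * Real.log (1 + τ * p q.1)) := by
  intro R
  obtain ⟨C', hC', hst⟩ := exists_st_bound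
  set ν : ℝ := max (max R 1) (C' ^ 2 * |C| * 3 ^ k0 / τ ^ (k0 + 1)) with hν
  have hνR : R ≤ ν := (le_max_left _ _).trans (le_max_left _ _)
  have hν1 : 1 ≤ ν := (le_max_right _ _).trans (le_max_left _ _)
  have hν2 : C' ^ 2 * |C| * 3 ^ k0 ≤ τ ^ (k0 + 1) * ν := by
    have h1 : C' ^ 2 * |C| * 3 ^ k0 / τ ^ (k0 + 1) ≤ ν := le_max_right _ _
    rw [div_le_iff₀ (by positivity)] at h1
    linarith
  have hν0 : 0 < ν := by linarith
  have hp0 : ∀ z ∈ S.V, 0 ≤ p z := fun z hz => (sq_nonneg _).trans (hp.norm_sq_le z hz)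
  have hpd : ∀ z ∈ S.V, DifferentiableAt ℝ p z := fun z hz =>
    ((hp.smooth.differentiableOn (by norm_num)) z hz).differentiableAt (S.isOpen.mem_nhds hz)
  set θ : ℝ → ℝ := fun x => Real.smoothTransition (2 - x / ν) with hθ
  set η : (Fin n → ℂ) → ℝ := fun z => if z ∈ S.V then θ (p z) else 0 with hη
  have hη1 : ∀ z ∈ S.V, η z = θ (p z) := fun z hz => if_pos hz
  have hθs : ContDiff ℝ 4 θ := by
    have : ContDiff ℝ 4 Real.smoothTransition := Real.smoothTransition.contDiff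
    exact this.comp (contDiff_const.sub (contDiff_id.div_const ν))
  refine ⟨η, ?_, ?_, ?_, ?_, ?_⟩
  · exact (hθs.comp_contDiffOn hp.smooth).congr hη1
  · intro z
    simp only [hη]
    split_ifs
    · exact ⟨Real.smoothTransition.nonneg _, Real.smoothTransition.le_one _⟩
    · exact ⟨le_rfl, zero_le_one⟩
  · intro z hz hzR
    rw [hη1 z hz]
    apply Real.smoothTransition.one_of_one_le
    have : p z / ν ≤ 1 := by
      rw [div_le_one hν0]; linarith
    linarith
  · refine ⟨{z | z ∈ S.V ∧ p z ≤ 2 * ν}, hp.compact _, fun z hz => hz.1, fun z hz => ?_⟩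
    by_cases hzV : z ∈ S.V
    · rw [hη1 z hzV]
      apply Real.smoothTransition.zero_of_nonpos
      have h1 : 2 * ν < p z := by
        by_contra h
        exact hz ⟨hzV, not_lt.1 h⟩
      have : 2 ≤ p z / ν := by
        rw [le_div_iff₀ hν0]; linarith
      linarith
    · simp only [hη, if_neg hzV]
  · intro q hq
    have hqV : q.1 ∈ S.V := hq.1
    have h1 : ∀ j, dzb j (fun z => (η z : ℂ)) q.1 =
        ((deriv θ (p q.1) : ℝ) : ℂ) * dzb j (fun z => (p z : ℂ)) q.1 := by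
      intro j
      rw [← dzb_comp_real (hpd _ hqV) (hθs.differentiable (by norm_num) _)]
      apply dzb_congr
      filter_upwards [S.isOpen.mem_nhds hqV] with z hz
      rw [hη1 z hz]
    have h2 : ∑ j, ‖dzb j (fun z => (η z : ℂ)) q.1‖ ^ 2 =
        deriv θ (p q.1) ^ 2 * ∑ j, ‖dz j (fun z => (p z : ℂ)) q.1‖ ^ 2 := by
      rw [Finset.mul_sum]
      refine Finset.sum_congr rfl fun j _ => ?_
      rw [h1 j, norm_mul, mul_pow, dzb_real, RCLike.norm_conj, Complex.norm_real, Real.norm_eq_abs,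
        sq_abs]
    have h3 : deriv θ (p q.1) = deriv Real.smoothTransition (2 - p q.1 / ν) * (-(1 / ν)) := by
      have h4 : HasDerivAt (fun x : ℝ => 2 - x / ν) (-(1 / ν)) (p q.1) := by
        have := ((hasDerivAt_id (p q.1)).div_const ν).const_sub 2
        simpa using this
      have h5 : HasDerivAt Real.smoothTransition (deriv Real.smoothTransition (2 - p q.1 / ν))
          (2 - p q.1 / ν) := by
        have : ContDiff ℝ 1 Real.smoothTransition := Real.smoothTransition.contDiff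
        exact (this.differentiable (by norm_num) _).hasDerivAt
      exact (h5.comp (p q.1) h4).deriv
    rw [h2]
    set P := p q.1 with hP
    have hP0 : 0 ≤ P := hp0 _ hqV
    have hexp : Real.exp (((k0 + 1 : ℕ) : ℝ) * Real.log (1 + τ * P)) = (1 + τ * P) ^ (k0 + 1) := by
      have : 0 < 1 + τ * P := by positivity
      rw [Real.exp_nat_mul, Real.exp_log this]
    change _ ≤ Real.exp (((k0 + 1 : ℕ) : ℝ) * Real.log (1 + τ * P))
    by_cases hcase : ν ≤ P ∧ P ≤ 2 * ν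
    · rw [hexp]
      have hg := hp.grad _ hqV
      have h6 : deriv θ P ^ 2 ≤ C' ^ 2 / ν ^ 2 := by
        rw [h3, mul_pow, neg_sq, div_pow, one_pow, ← sq_abs]
        have := hst (2 - P / ν)
        rw [div_eq_mul_one_div (C' ^ 2)]
        gcongr
      have h7 : (1 + P) ^ k0 ≤ (3 * ν) ^ k0 := by
        gcongr; linarith [hcase.2]
      have h8 : C * (1 + P) ^ k0 ≤ |C| * (3 * ν) ^ k0 := by
        calc C * (1 + P) ^ k0 ≤ |C| * (1 + P) ^ k0 := by
              gcongr; exact le_abs_self _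
          _ ≤ _ := by gcongr
      have h9 : (τ * ν) ^ (k0 + 1) ≤ (1 + τ * P) ^ (k0 + 1) := by
        gcongr
        have : τ * ν ≤ τ * P := by gcongr; exact hcase.1
        linarith
      refine le_trans ?_ h9
      calc deriv θ P ^ 2 * ∑ j, ‖dz j (fun z => (p z : ℂ)) q.1‖ ^ 2
          ≤ (C' ^ 2 / ν ^ 2) * (|C| * (3 * ν) ^ k0) := by
            gcongr
            exact hg.trans h8
        _ = (C' ^ 2 * |C| * 3 ^ k0) * (ν ^ k0 / ν ^ 2) := by
            rw [mul_pow]; ring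
        _ ≤ (τ ^ (k0 + 1) * ν) * (ν ^ k0 / ν ^ 2) := by gcongr
        _ = τ ^ (k0 + 1) * ν ^ (k0 + 1) / ν ^ 2 := by ring
        _ ≤ τ ^ (k0 + 1) * ν ^ (k0 + 1) / 1 := by
            gcongr
            exact one_le_pow₀ hν1
        _ = (τ * ν) ^ (k0 + 1) := by rw [div_one, mul_pow]
    · have h10 : deriv θ P = 0 := by
        rw [h3, deriv_st_zero, zero_mul]
        rw [not_and_or, not_le, not_le] at hcase
        rcases hcase with h | h
        · right
          have : P / ν < 1 := by rw [div_lt_one hν0]; exact h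
          linarith
        · left
          have : 2 < P / ν := by rw [lt_div_iff₀ hν0]; exact h
          linarith
      rw [h10]
      simp only [ne_eq, OfNat.ofNat_ne_zero, not_false_eq_true, zero_pow, zero_mul]
      positivity

/-- The constants: for `ψ = k1 log (1 + τ p)`, `χ = C2 τ (1 + p) ^ (k0 + 1)`. -/
theorem exists_weights {p : (Fin n → ℂ) → ℝ} {C : ℝ} {k0 : ℕ} (hp : Exh S.V p C k0) :
    ∃ (k1 : ℕ) (C2 : ℝ), 0 < C2 ∧ ∀ τ : ℝ, 0 < τ → τ ≤ 1 →
      (∀ z ∈ S.V, 2 * (k1 * Real.log (1 + τ * p z)) ≤ C2 * τ * (1 + p z) ^ (k0 + 1)) ∧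
      (∀ q ∈ S.M, ∀ β : Fin n → ℂ,
        2 * ((∑ j, ‖S.D j (fun q => ((k1 * Real.log (1 + τ * p q.1) : ℝ) : ℂ)) q‖ ^ 2) *
          ∑ j, ‖β j‖ ^ 2) ≤ S.levi (fun q => C2 * τ * (1 + p q.1) ^ (k0 + 1)) β q) ∧
      S.HasCut p (fun q => k1 * Real.log (1 + τ * p q.1)) := by
  set κ : ℝ := ((k0 + 1 : ℕ) : ℝ) with hκ
  have hκ1 : 1 ≤ κ := by rw [hκ]; push_cast; linarith [Nat.cast_nonneg (α := ℝ) k0]
  have hκ0 : 0 < κ := by linarith
  refine ⟨k0 + 1, 2 * κ + 2 * κ ^ 2 * |C|, by positivity, fun τ hτ hτ1 => ⟨?_, ?_, hasCut hp hτ⟩⟩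
  · intro z hz
    have hp0 : 0 ≤ p z := (sq_nonneg _).trans (hp.norm_sq_le z hz)
    have h1 : Real.log (1 + τ * p z) ≤ τ * p z := by
      have : 0 < 1 + τ * p z := by positivity
      have := Real.log_le_sub_one_of_pos this
      linarith
    have h2 : p z ≤ (1 + p z) ^ (k0 + 1) := by
      calc p z ≤ 1 + p z := by linarith
        _ = (1 + p z) ^ 1 := by rw [pow_one]
        _ ≤ (1 + p z) ^ (k0 + 1) := pow_le_pow_right₀ (by linarith) (by omega)
    change 2 * (κ * Real.log (1 + τ * p z)) ≤ _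
    calc 2 * (κ * Real.log (1 + τ * p z)) ≤ 2 * (κ * (τ * p z)) := by gcongr
      _ = (2 * κ) * τ * p z := by ring
      _ ≤ (2 * κ + 2 * κ ^ 2 * |C|) * τ * (1 + p z) ^ (k0 + 1) := by
          gcongr
          have : 0 ≤ 2 * κ ^ 2 * |C| := by positivity
          linarith
  · intro q hq β
    have hqV : q.1 ∈ S.V := hq.1
    have hp0 : 0 ≤ p q.1 := (sq_nonneg _).trans (hp.norm_sq_le _ hqV)
    have hpd : DifferentiableAt ℝ p q.1 :=
      ((hp.smooth.differentiableOn (by norm_num)) q.1 hqV).differentiableAt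
        (S.isOpen.mem_nhds hqV)
    have hP1 : 0 < 1 + τ * p q.1 := by positivity
    set C2 : ℝ := 2 * κ + 2 * κ ^ 2 * |C| with hC2
    have hC2pos : 0 < C2 := by positivity
    have h1 : ∀ j, S.D j (fun q => ((κ * Real.log (1 + τ * p q.1) : ℝ) : ℂ)) q =
        ((κ * (τ / (1 + τ * p q.1)) : ℝ) : ℂ) * dz j (fun z => (p z : ℂ)) q.1 := by
      intro j
      have e1 := D_fst (S := S) (j := j) (q := q)
        (f := fun z => ((κ * Real.log (1 + τ * p z) : ℝ) : ℂ))
      rw [e1]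
      have h2 : HasDerivAt (fun x : ℝ => κ * Real.log (1 + τ * x)) (κ * (τ / (1 + τ * p q.1)))
          (p q.1) := by
        have h3 : HasDerivAt (fun x : ℝ => 1 + τ * x) τ (p q.1) := by
          simpa using ((hasDerivAt_id (p q.1)).const_mul τ).const_add 1
        exact (h3.log hP1.ne').const_mul κ
      rw [dz_comp_real (φ := fun x : ℝ => κ * Real.log (1 + τ * x)) hpd h2.differentiableAt,
        h2.deriv]
    have h4 : ∑ j, ‖S.D j (fun q => ((κ * Real.log (1 + τ * p q.1) : ℝ) : ℂ)) q‖ ^ 2 ≤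
        κ ^ 2 * τ * (|C| * (1 + p q.1) ^ k0) := by
      have hg := hp.grad _ hqV
      have h5 : |κ * (τ / (1 + τ * p q.1))| ^ 2 ≤ κ ^ 2 * τ := by
        rw [sq_abs, mul_pow]
        gcongr
        have h6 : τ / (1 + τ * p q.1) ≤ τ := by
          apply div_le_self hτ.le
          have : 0 ≤ τ * p q.1 := by positivity
          linarith
        have h7 : 0 ≤ τ / (1 + τ * p q.1) := by positivity
        calc (τ / (1 + τ * p q.1)) ^ 2 ≤ τ ^ 2 := by gcongr
          _ = τ * τ := sq τ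
          _ ≤ τ * 1 := by gcongr
          _ = τ := mul_one τ
      calc ∑ j, ‖S.D j (fun q => ((κ * Real.log (1 + τ * p q.1) : ℝ) : ℂ)) q‖ ^ 2
          = |κ * (τ / (1 + τ * p q.1))| ^ 2 * ∑ j, ‖dz j (fun z => (p z : ℂ)) q.1‖ ^ 2 := by
            rw [Finset.mul_sum]
            refine Finset.sum_congr rfl fun j _ => ?_
            rw [h1 j, norm_mul, mul_pow, Complex.norm_real, Real.norm_eq_abs]
        _ ≤ (κ ^ 2 * τ) * (|C| * (1 + p q.1) ^ k0) := by
            gcongr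
            refine hg.trans ?_
            gcongr
            exact le_abs_self _
    have hφ : ContDiff ℝ 2 (fun x : ℝ => C2 * τ * (1 + x) ^ (k0 + 1)) := by fun_prop
    have h8 := levi_comp hφ (hp.smooth.of_le (by norm_num)) hq β
    have hd1 : deriv (fun x : ℝ => C2 * τ * (1 + x) ^ (k0 + 1)) =
        fun x => C2 * τ * (κ * (1 + x) ^ k0) := by
      funext x
      have h9 : HasDerivAt (fun x : ℝ => 1 + x) 1 x := by
        simpa using (hasDerivAt_id x).const_add 1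
      have h10 := (h9.pow (k0 + 1)).const_mul (C2 * τ)
      simpa [hκ] using h10.deriv
    have hd2 : 0 ≤ deriv (deriv (fun x : ℝ => C2 * τ * (1 + x) ^ (k0 + 1))) (p q.1) := by
      rw [hd1]
      have h9 : HasDerivAt (fun x : ℝ => 1 + x) 1 (p q.1) := by
        simpa using (hasDerivAt_id (p q.1)).const_add 1
      have h10 : HasDerivAt (fun x : ℝ => C2 * τ * (κ * (1 + x) ^ k0))
          (C2 * τ * (κ * (k0 * (1 + p q.1) ^ (k0 - 1) * 1))) (p q.1) :=
        ((h9.pow k0).const_mul κ).const_mul (C2 * τ)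
      rw [h10.deriv]
      (clear * - hτ hp0; positivity)
    rw [hd1] at h8
    change _ ≤ S.levi (fun q => C2 * τ * (1 + p q.1) ^ (k0 + 1)) β q
    rw [h8]
    have hlev := hp.levi _ hqV β
    change 2 * ((∑ j, ‖S.D j (fun q => ((κ * Real.log (1 + τ * p q.1) : ℝ) : ℂ)) q‖ ^ 2) *
          ∑ j, ‖β j‖ ^ 2) ≤ _
    have hβ : 0 ≤ ∑ j, ‖β j‖ ^ 2 := by positivity
    have h11 : 2 * ((∑ j, ‖S.D j (fun q => ((κ * Real.log (1 + τ * p q.1) : ℝ) : ℂ)) q‖ ^ 2) *
          ∑ j, ‖β j‖ ^ 2) ≤ C2 * τ * (κ * (1 + p q.1) ^ k0) * ∑ j, ‖β j‖ ^ 2 := by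
      calc _ ≤ 2 * ((κ ^ 2 * τ * (|C| * (1 + p q.1) ^ k0)) * ∑ j, ‖β j‖ ^ 2) := by gcongr
        _ = (2 * κ ^ 2 * |C|) * τ * (1 * (1 + p q.1) ^ k0) * ∑ j, ‖β j‖ ^ 2 := by ring
        _ ≤ C2 * τ * (κ * (1 + p q.1) ^ k0) * ∑ j, ‖β j‖ ^ 2 := by
            gcongr
            rw [hC2]; linarith
    refine h11.trans ?_
    have h12 : C2 * τ * (κ * (1 + p q.1) ^ k0) * ∑ j, ‖β j‖ ^ 2 ≤
        C2 * τ * (κ * (1 + p q.1) ^ k0) *
          (∑ j, ∑ k, dz j (dzb k (fun z => (p z : ℂ))) q.1 * β j * conj (β k)).re := by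
      gcongr
    have h13 : 0 ≤ deriv (deriv (fun x : ℝ => C2 * τ * (1 + x) ^ (k0 + 1))) (p q.1) *
        ‖∑ j, dz j (fun z => (p z : ℂ)) q.1 * β j‖ ^ 2 := by positivity
    rw [hd1] at h13
    linarith

end Sheets

end Vale.Agent.P282.L2
end

section

open MeasureTheory Filter Topology
open scoped ENNReal NNReal ComplexConjugate Convolution

namespace Vale.Agent.P282.L2

variable {n : ℕ}

/-- Continuity of translations in `L²`. -/
theorem moll_translate {g : (Fin n → ℂ) → ℂ} (hg : MemLp g 2 volume) {ε : ℝ≥0∞} (hε : ε ≠ 0) :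
    ∃ δ > 0, ∀ t : Fin n → ℂ, ‖t‖ < δ → eLpNorm (fun x => g (x - t) - g x) 2 volume ≤ ε := by
  let G : C((Fin n → ℂ) × (Fin n → ℂ), (Fin n → ℂ)) := ⟨fun a => a.2 - a.1, by fun_prop⟩
  have hmp : ∀ t : Fin n → ℂ, MeasurePreserving (G.curry t) volume volume :=
    fun t => measurePreserving_sub_right volume t
  have hc : Continuous (fun t : Fin n → ℂ =>
      Lp.compMeasurePreserving (G.curry t) (hmp t) (hg.toLp g)) :=
    Continuous.compMeasurePreservingLp continuous_const G.curry.continuous hmp (by simp)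
  have h0 := (hc.tendsto 0).eventually (Metric.eball_mem_nhds _ (pos_iff_ne_zero.2 hε))
  rw [Metric.eventually_nhds_iff] at h0
  obtain ⟨δ, hδ, h⟩ := h0
  refine ⟨δ, hδ, fun t ht => ?_⟩
  have h1 := h (y := t) (by simpa using ht)
  rw [Lp.toLp_compMeasurePreserving hg (hmp t),
    Lp.toLp_compMeasurePreserving hg (hmp 0), Lp.edist_toLp_toLp] at h1
  refine le_trans (le_of_eq ?_) h1.le
  congr 1
  funext x
  simp [G]

/-- Cauchy-Schwarz with a weight. -/
theorem moll_cs {α : Type*} [MeasurableSpace α] {μ : Measure α} {a b : α → ℝ≥0∞}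
    (ha : Measurable a) (hb : AEMeasurable b μ) (h1 : ∫⁻ x, a x ∂μ = 1) :
    (∫⁻ x, a x * b x ∂μ) ^ 2 ≤ ∫⁻ x, a x * b x ^ 2 ∂μ := by
  have hfin : ∀ᵐ x ∂μ, a x < ∞ := ae_lt_top ha (by simp [h1])
  have hbν : AEMeasurable b (μ.withDensity a) :=
    hb.mono_ac (withDensity_absolutelyContinuous _ _)
  have key := ENNReal.lintegral_mul_le_Lp_mul_Lq (μ.withDensity a)
    (Real.HolderConjugate.two_two) (f := fun _ => (1 : ℝ≥0∞)) (g := b) aemeasurable_const hbν
  have e1 : ∫⁻ x, b x ∂(μ.withDensity a) = ∫⁻ x, a x * b x ∂μ := by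
    rw [lintegral_withDensity_eq_lintegral_mul₀ ha.aemeasurable hb]; rfl
  have e2 : ∫⁻ x, b x ^ (2 : ℝ) ∂(μ.withDensity a) = ∫⁻ x, a x * b x ^ 2 ∂μ := by
    rw [lintegral_withDensity_eq_lintegral_mul₀ ha.aemeasurable (hb.pow_const _)]
    simp
  have e3 : (μ.withDensity a) Set.univ = 1 := by
    rw [withDensity_apply _ MeasurableSet.univ]; simpa using h1
  simp only [Pi.mul_apply, one_mul, ENNReal.one_rpow, lintegral_one, e3, one_div] at key
  rw [e1, e2] at key
  calc (∫⁻ x, a x * b x ∂μ) ^ 2 ≤ ((∫⁻ x, a x * b x ^ 2 ∂μ) ^ (2⁻¹ : ℝ)) ^ 2 := by gcongr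
    _ = _ := by
      rw [← ENNReal.rpow_natCast, ← ENNReal.rpow_mul]; norm_num

/-- Jensen's inequality for convolutions. -/
theorem moll_jensen {ρ : (Fin n → ℂ) → ℝ} (hρc : Continuous ρ) (hρ0 : ∀ t, 0 ≤ ρ t)
    (hρs : HasCompactSupport ρ) (hρ1 : ∫ t, ρ t = 1) {g : (Fin n → ℂ) → ℂ}
    (hg : MemLp g 2 volume) {ε : ℝ≥0∞}
    (h : ∀ t, ρ t ≠ 0 → eLpNorm (fun x => g (x - t) - g x) 2 volume ≤ ε) :
    eLpNorm (fun x => (ρ ⋆[ContinuousLinearMap.lsmul ℝ ℝ, volume] g) x - g x) 2 volume ≤ ε := by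
  have hgl : LocallyIntegrable g volume := hg.locallyIntegrable (by norm_num)
  have hce : ConvolutionExists ρ g (ContinuousLinearMap.lsmul ℝ ℝ) volume :=
    hρs.convolutionExists_left _ hρc hgl
  have hρi : Integrable ρ volume := hρc.integrable_of_hasCompactSupport hρs
  have hρe : ∫⁻ t, ‖ρ t‖ₑ = 1 := by
    have := ofReal_integral_eq_lintegral_ofReal hρi (ae_of_all _ hρ0)
    rw [hρ1, ENNReal.ofReal_one] at this
    rw [this]
    refine lintegral_congr fun t => ?_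
    rw [Real.enorm_eq_ofReal (hρ0 t)]
  -- pointwise bound
  have hpt : ∀ x, ‖(ρ ⋆[ContinuousLinearMap.lsmul ℝ ℝ, volume] g) x - g x‖ₑ ≤
      ∫⁻ t, ‖ρ t‖ₑ * ‖g (x - t) - g x‖ₑ := by
    intro x
    have e1 : (ρ ⋆[ContinuousLinearMap.lsmul ℝ ℝ, volume] g) x - g x =
        ∫ t, ρ t • (g (x - t) - g x) := by
      have e2 : g x = ∫ t, ρ t • g x := by
        rw [integral_smul_const, hρ1, one_smul]
      conv_lhs => rw [e2]
      rw [convolution_def, ← integral_sub]
      · refine integral_congr_ae (ae_of_all _ fun t => ?_)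
        simp [smul_sub]
      · exact hce x
      · exact hρi.smul_const _
    rw [e1]
    refine (enorm_integral_le_lintegral_enorm _).trans (le_of_eq ?_)
    refine lintegral_congr fun t => ?_
    rw [enorm_smul]
  have hm : AEStronglyMeasurable (fun p : (Fin n → ℂ) × (Fin n → ℂ) => g (p.1 - p.2) - g p.1)
      (volume.prod volume) :=
    (hg.1.comp_quasiMeasurePreserving
      (quasiMeasurePreserving_sub_of_right_invariant volume volume)).sub hg.1.comp_fst
  have hm2 : AEMeasurable (Function.uncurry fun (x t : Fin n → ℂ) =>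
      ‖ρ t‖ₑ * ‖g (x - t) - g x‖ₑ ^ 2) (volume.prod volume) := by
    refine AEMeasurable.mul ?_ (hm.enorm.pow_const 2)
    exact (hρc.measurable.enorm.comp measurable_snd).aemeasurable
  have hsq : ∀ F : (Fin n → ℂ) → ℂ, eLpNorm F 2 volume ^ 2 = ∫⁻ x, ‖F x‖ₑ ^ 2 := by
    intro F
    have := eLpNorm_nnreal_pow_eq_lintegral (μ := (volume : Measure (Fin n → ℂ))) (f := F)
      (p := 2) (by norm_num)
    simpa using this
  have hmt : ∀ᵐ x : Fin n → ℂ, AEMeasurable (fun t => ‖g (x - t) - g x‖ₑ) volume := by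
    filter_upwards [hm.prodMk_left] with x hx using hx.enorm
  have main : eLpNorm (fun x => (ρ ⋆[ContinuousLinearMap.lsmul ℝ ℝ, volume] g) x - g x) 2
      volume ^ 2 ≤ ε ^ 2 := by
    rw [hsq]
    calc ∫⁻ x, ‖(ρ ⋆[ContinuousLinearMap.lsmul ℝ ℝ, volume] g) x - g x‖ₑ ^ 2
        ≤ ∫⁻ x, ∫⁻ t, ‖ρ t‖ₑ * ‖g (x - t) - g x‖ₑ ^ 2 := by
          refine lintegral_mono_ae ?_
          filter_upwards [hmt] with x hx
          exact (pow_le_pow_left' (hpt x) 2).trans (moll_cs hρc.measurable.enorm hx hρe)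
      _ = ∫⁻ t, ∫⁻ x, ‖ρ t‖ₑ * ‖g (x - t) - g x‖ₑ ^ 2 := lintegral_lintegral_swap hm2
      _ ≤ ∫⁻ t, ‖ρ t‖ₑ * ε ^ 2 := by
          refine lintegral_mono fun t => ?_
          simp only
          rw [lintegral_const_mul' _ _ enorm_ne_top, ← hsq (fun x => g (x - t) - g x)]
          by_cases ht : ρ t = 0
          · simp [ht]
          · gcongr
            exact h t ht
      _ = ε ^ 2 := by
          rw [lintegral_mul_const _ hρc.measurable.enorm, hρe, one_mul]
  exact (ENNReal.pow_le_pow_left_iff (by norm_num)).1 main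

/-- The mollification. -/
noncomputable def moll (ρ : (Fin n → ℂ) → ℝ) (g : (Fin n → ℂ) → ℂ) : (Fin n → ℂ) → ℂ :=
  ρ ⋆[ContinuousLinearMap.lsmul ℝ ℝ, volume] g

theorem moll_apply (ρ : (Fin n → ℂ) → ℝ) (g : (Fin n → ℂ) → ℂ) (x : Fin n → ℂ) :
    moll ρ g x = ∫ t, (ρ (x - t) : ℂ) * g t := by
  rw [moll, convolution_lsmul_swap]
  refine integral_congr_ae (ae_of_all _ fun t => ?_)
  simp

theorem moll_fderiv {ρ : (Fin n → ℂ) → ℝ} (hρc : ContDiff ℝ 2 ρ)
    (hρs : HasCompactSupport ρ) {g : (Fin n → ℂ) → ℂ} (hg : LocallyIntegrable g volume)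
    (x v : Fin n → ℂ) :
    fderiv ℝ (moll ρ g) x v = ∫ t, (fderiv ℝ ρ (x - t) v : ℂ) * g t := by
  have h1 : moll ρ g = g ⋆[(ContinuousLinearMap.lsmul ℝ ℝ).flip, volume] ρ :=
    (convolution_flip _).symm
  have h2 := (hρs.hasFDerivAt_convolution_right (ContinuousLinearMap.lsmul ℝ ℝ).flip hg
    (hρc.of_le (by norm_num)) x).fderiv
  rw [h1, h2, convolution_precompR_apply _ hg (hρs.fderiv ℝ)
    (hρc.continuous_fderiv (by norm_num))]
  refine integral_congr_ae (ae_of_all _ fun t => ?_)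
  simp

theorem moll_integrable {ρ : (Fin n → ℂ) → ℝ} (hρc : Continuous ρ)
    (hρs : HasCompactSupport ρ) {g : (Fin n → ℂ) → ℂ} (hg : LocallyIntegrable g volume)
    (x : Fin n → ℂ) : Integrable (fun t => (ρ (x - t) : ℂ) * g t) volume := by
  have := hρs.convolutionExists_right (ContinuousLinearMap.lsmul ℝ ℝ).flip hg hρc x
  refine Integrable.congr this (ae_of_all _ fun t => ?_)
  simp

theorem moll_refl {ρ : (Fin n → ℂ) → ℝ} (hρc : ContDiff ℝ 2 ρ) (x t v : Fin n → ℂ) :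
    fderiv ℝ (fun s => (ρ (x - s) : ℂ)) t v = - (fderiv ℝ ρ (x - t) v : ℂ) := by
  have h1 : HasFDerivAt (fun s : Fin n → ℂ => x - s)
      (-(ContinuousLinearMap.id ℝ (Fin n → ℂ))) t := by
    simpa using (hasFDerivAt_const x t).sub (hasFDerivAt_id (𝕜 := ℝ) t)
  have h2 : HasFDerivAt ρ (fderiv ℝ ρ (x - t)) (x - t) :=
    ((hρc.differentiable (by norm_num)) _).hasFDerivAt
  have h3 := (Complex.ofRealCLM.hasFDerivAt (x := ρ (x - t))).comp t (h2.comp t h1)
  have h4 : fderiv ℝ (fun s => (ρ (x - s) : ℂ)) t = _ := h3.fderiv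
  rw [h4]
  simp

theorem moll_dz {ρ : (Fin n → ℂ) → ℝ} (hρc : ContDiff ℝ 2 ρ)
    (hρs : HasCompactSupport ρ) {g : (Fin n → ℂ) → ℂ} (hg : LocallyIntegrable g volume)
    (x : Fin n → ℂ) (j : Fin n) :
    dz j (moll ρ g) x = - ∫ t, g t * dz j (fun s => (ρ (x - s) : ℂ)) t := by
  have hi : ∀ v : Fin n → ℂ, Integrable (fun t => (fderiv ℝ ρ (x - t) v : ℂ) * g t) volume :=
    fun v => moll_integrable (ρ := fun y => fderiv ℝ ρ y v)
      ((hρc.continuous_fderiv (by norm_num)).clm_apply continuous_const)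
      (hρs.fderiv_apply (𝕜 := ℝ) v) hg x
  unfold dz
  simp_rw [moll_fderiv hρc hρs hg, moll_refl hρc]
  rw [← integral_const_mul, ← integral_sub (hi _) ((hi _).const_mul _), ← integral_neg,
    ← integral_div]
  refine integral_congr_ae (ae_of_all _ fun t => ?_)
  simp only
  ring

theorem moll_dzb {ρ : (Fin n → ℂ) → ℝ} (hρc : ContDiff ℝ 2 ρ)
    (hρs : HasCompactSupport ρ) {g : (Fin n → ℂ) → ℂ} (hg : LocallyIntegrable g volume)
    (x : Fin n → ℂ) (j : Fin n) :
    dzb j (moll ρ g) x = - ∫ t, g t * dzb j (fun s => (ρ (x - s) : ℂ)) t := by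
  have hi : ∀ v : Fin n → ℂ, Integrable (fun t => (fderiv ℝ ρ (x - t) v : ℂ) * g t) volume :=
    fun v => moll_integrable (ρ := fun y => fderiv ℝ ρ y v)
      ((hρc.continuous_fderiv (by norm_num)).clm_apply continuous_const)
      (hρs.fderiv_apply (𝕜 := ℝ) v) hg x
  unfold dzb
  simp_rw [moll_fderiv hρc hρs hg, moll_refl hρc]
  rw [← integral_const_mul, ← integral_add (hi _) ((hi _).const_mul _), ← integral_neg,
    ← integral_div]
  refine integral_congr_ae (ae_of_all _ fun t => ?_)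
  simp only
  ring

theorem moll_support {ρ : (Fin n → ℂ) → ℝ} {δ : ℝ} (hρ : ∀ t, ρ t ≠ 0 → ‖t‖ < δ)
    {g : (Fin n → ℂ) → ℂ} {C : Set (Fin n → ℂ)} (hg : ∀ z, z ∉ C → g z = 0)
    (x : Fin n → ℂ) (hx : x ∉ Metric.cthickening δ C) : moll ρ g x = 0 := by
  rw [moll_apply]
  rw [integral_eq_zero_of_ae]
  refine ae_of_all _ fun t => ?_
  simp only [Pi.zero_apply, mul_eq_zero, Complex.ofReal_eq_zero]
  by_contra h
  push Not at h
  have h1 := hρ _ h.1
  have h2 : t ∈ C := by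
    by_contra h3
    exact h.2 (hg t h3)
  refine hx (Metric.mem_cthickening_of_dist_le x t δ C h2 ?_)
  rw [dist_eq_norm]
  exact h1.le

/-- Simultaneous mollification of finitely many compactly supported functions in `L²(ℂⁿ)`.
`f` is indexed by `ι`, `A t` and `B t` (`t ∈ T`) are the coefficients of the first order operators
`∑ A t i j ∂_j f_i` and `∑ B t i j ∂̄_j f_i` for which `G t` resp. `H t` is the weak value. -/
theorem exists_mollification {ι T : Type} [Fintype ι] [Fintype T]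
    (f : ι → (Fin n → ℂ) → ℂ) (hf : ∀ i, MemLp (f i) 2 volume)
    {C W : Set (Fin n → ℂ)} (hC : IsCompact C) (hW : IsOpen W) (hCW : C ⊆ W)
    (hfC : ∀ i, ∀ z, z ∉ C → f i z = 0)
    (A : T → ι → Fin n → ℂ) (B : T → ι → Fin n → ℂ) (G H : T → (Fin n → ℂ) → ℂ)
    (hG : ∀ t, MemLp (G t) 2 volume) (hH : ∀ t, MemLp (H t) 2 volume)
    (hGw : ∀ t, ∀ κ : (Fin n → ℂ) → ℂ, ContDiff ℝ 2 κ → HasCompactSupport κ →
      ∑ i, ∑ j, A t i j * ∫ z, f i z * dz j κ z = - ∫ z, G t z * κ z)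
    (hHw : ∀ t, ∀ κ : (Fin n → ℂ) → ℂ, ContDiff ℝ 2 κ → HasCompactSupport κ →
      ∑ i, ∑ j, B t i j * ∫ z, f i z * dzb j κ z = - ∫ z, H t z * κ z)
    {ε : ℝ≥0∞} (hε : ε ≠ 0) :
    ∃ F : ι → (Fin n → ℂ) → ℂ, (∀ i, ContDiff ℝ 2 (F i)) ∧
      (∃ C' : Set (Fin n → ℂ), IsCompact C' ∧ C' ⊆ W ∧ ∀ i, ∀ z, z ∉ C' → F i z = 0) ∧
      (∀ i, eLpNorm (fun z => F i z - f i z) 2 volume ≤ ε) ∧
      (∀ t, eLpNorm (fun z => ∑ i, ∑ j, A t i j * dz j (F i) z - G t z) 2 volume ≤ ε) ∧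
      ∀ t, eLpNorm (fun z => ∑ i, ∑ j, B t i j * dzb j (F i) z - H t z) 2 volume ≤ ε := by
  classical
  obtain ⟨δ₀, hδ₀, hδW⟩ := hC.exists_cthickening_subset_open hW hCW
  choose d1 hd1 hd1' using fun i => moll_translate (hf i) hε
  choose d2 hd2 hd2' using fun t => moll_translate (hG t) hε
  choose d3 hd3 hd3' using fun t => moll_translate (hH t) hε
  obtain ⟨δ, hδ, hδ0, hδ1, hδ2, hδ3⟩ : ∃ δ > 0, δ ≤ δ₀ ∧ (∀ i, δ ≤ d1 i) ∧ (∀ t, δ ≤ d2 t) ∧
      ∀ t, δ ≤ d3 t := by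
    have ev : ∀ᶠ δ : ℝ in 𝓝[>] 0, 0 < δ ∧ δ ≤ δ₀ ∧ (∀ i, δ ≤ d1 i) ∧ (∀ t, δ ≤ d2 t) ∧
        ∀ t, δ ≤ d3 t := by
      have hh : ∀ {c : ℝ}, 0 < c → ∀ᶠ δ : ℝ in 𝓝[>] 0, δ ≤ c := fun {c} hc =>
        (nhdsWithin_le_nhds : 𝓝[>] (0 : ℝ) ≤ 𝓝 0) (eventually_le_nhds hc)
      exact (eventually_mem_of_tendsto_nhdsWithin tendsto_id).and
        ((hh hδ₀).and ((eventually_all.2 fun i => hh (hd1 i)).and
          ((eventually_all.2 fun t => hh (hd2 t)).and (eventually_all.2 fun t => hh (hd3 t)))))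
    obtain ⟨δ, h⟩ := ev.exists
    exact ⟨δ, h.1, h.2⟩
  let φ : ContDiffBump (0 : Fin n → ℂ) := ⟨δ / 2, δ, by positivity, by linarith⟩
  let ρ : (Fin n → ℂ) → ℝ := φ.normed volume
  have hρc : ContDiff ℝ 2 ρ := φ.contDiff_normed (n := 2)
  have hρs : HasCompactSupport ρ := φ.hasCompactSupport_normed
  have hρ0 : ∀ t, 0 ≤ ρ t := φ.nonneg_normed
  have hρ1 : ∫ t, ρ t = 1 := φ.integral_normed
  have hρδ : ∀ t, ρ t ≠ 0 → ‖t‖ < δ := by
    intro t ht
    have : t ∈ Function.support (φ.normed volume) := ht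
    rw [φ.support_normed_eq] at this
    simpa using this
  have hκc : ∀ x : Fin n → ℂ, ContDiff ℝ 2 (fun s => (ρ (x - s) : ℂ)) := fun x =>
    Complex.ofRealCLM.contDiff.comp (hρc.comp (contDiff_const.sub contDiff_id))
  have hκs : ∀ x : Fin n → ℂ, HasCompactSupport (fun s => (ρ (x - s) : ℂ)) := by
    intro x
    have h1 : HasCompactSupport (fun s => ρ (x - s)) :=
      hρs.comp_homeomorph (Homeomorph.subLeft x)
    exact h1.comp_left (g := fun r : ℝ => (r : ℂ)) (by simp)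
  have hfl : ∀ i, LocallyIntegrable (f i) volume := fun i => (hf i).locallyIntegrable (by norm_num)
  refine ⟨fun i => moll ρ (f i), fun i => ?_, ⟨Metric.cthickening δ C, hC.cthickening, ?_, ?_⟩,
    fun i => ?_, fun t => ?_, fun t => ?_⟩
  · exact hρs.contDiff_convolution_left _ hρc (hfl i)
  · exact (Metric.cthickening_mono hδ0 C).trans hδW
  · exact fun i z hz => moll_support hρδ (hfC i) z hz
  · exact moll_jensen hρc.continuous hρ0 hρs hρ1 (hf i) fun s hs =>
      hd1' i s ((hρδ s hs).trans_le (hδ1 i))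
  · have e : ∀ z, ∑ i, ∑ j, A t i j * dz j (moll ρ (f i)) z = moll ρ (G t) z := by
      intro z
      simp_rw [moll_dz hρc hρs (hfl _), mul_neg, Finset.sum_neg_distrib]
      rw [hGw t _ (hκc z) (hκs z), neg_neg, moll_apply]
      simp_rw [mul_comm]
    simp_rw [e]
    exact moll_jensen hρc.continuous hρ0 hρs hρ1 (hG t) fun s hs =>
      hd2' t s ((hρδ s hs).trans_le (hδ2 t))
  · have e : ∀ z, ∑ i, ∑ j, B t i j * dzb j (moll ρ (f i)) z = moll ρ (H t) z := by
      intro z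
      simp_rw [moll_dzb hρc hρs (hfl _), mul_neg, Finset.sum_neg_distrib]
      rw [hHw t _ (hκc z) (hκs z), neg_neg, moll_apply]
      simp_rw [mul_comm]
    simp_rw [e]
    exact moll_jensen hρc.continuous hρ0 hρs hρ1 (hH t) fun s hs =>
      hd3' t s ((hρδ s hs).trans_le (hδ3 t))

end Vale.Agent.P282.L2
end

section

open MeasureTheory Filter Topology
open scoped ENNReal NNReal ComplexConjugate

namespace Vale.Agent.P282.L2

theorem hdc_cut {n : ℕ} {V C : Set (Fin n → ℂ)} (hV : IsOpen V) (hC : IsCompact C) (hCV : C ⊆ V) :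
    ∃ (K : Set (Fin n → ℂ)) (χ : (Fin n → ℂ) → ℂ), IsCompact K ∧ C ⊆ interior K ∧ K ⊆ V ∧
      ContDiff ℝ 2 χ ∧ (∀ᶠ z in 𝓝ˢ C, χ z = 1) ∧ ∀ z ∉ K, χ z = 0 := by
  obtain ⟨K, hK, hCK, hKV⟩ := exists_compact_between hC hV hCV
  obtain ⟨χ, h1, h0, -⟩ := exists_contMDiffMap_one_nhds_of_subset_interior
    (modelWithCornersSelf ℝ (Fin n → ℂ)) (n := 2) hC.isClosed hCK
  have hχ : ContDiff ℝ 2 χ := χ.contMDiff.contDiff
  refine ⟨K, fun z => (χ z : ℂ), hK, hCK, hKV, Complex.ofRealCLM.contDiff.comp hχ, ?_, ?_⟩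
  · filter_upwards [h1] with z hz
    simp [hz]
  · intro z hz
    simp [h0 z hz]

theorem hdc_eLpNorm_sq {α : Type*} [MeasurableSpace α] (f : α → ℂ) (μ : Measure α) :
    eLpNorm f 2 μ ^ 2 = ∫⁻ x, ENNReal.ofReal (‖f x‖ ^ 2) ∂μ := by
  have h := eLpNorm_nnreal_pow_eq_lintegral (f := f) (μ := μ) (p := 2) (by norm_num)
  have h2 : ((2 : ℝ≥0) : ℝ≥0∞) = 2 := by norm_num
  have h3 : (((2 : ℝ≥0) : ℝ)) = ((2 : ℕ) : ℝ) := by norm_num
  rw [h2, h3] at h
  simp only [ENNReal.rpow_natCast] at h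
  rw [h]
  refine lintegral_congr fun x => ?_
  rw [← ofReal_norm, ENNReal.ofReal_pow (norm_nonneg _)]

theorem hdc_eps {L ε : ℝ≥0∞} (hL : L ≠ ⊤) (hε : ε ≠ 0) :
    ∃ δ : ℝ≥0∞, δ ≠ 0 ∧ L * δ ^ 2 ≤ ε := by
  have hL1 : L + 1 ≠ ⊤ := ENNReal.add_ne_top.2 ⟨hL, ENNReal.one_ne_top⟩
  refine ⟨min 1 (ε / (L + 1)), ?_, ?_⟩
  · have h1 : 0 < ε / (L + 1) := pos_iff_ne_zero.2 (ENNReal.div_ne_zero.2 ⟨hε, hL1⟩)
    exact (lt_min one_pos h1).ne'
  · set δ := min 1 (ε / (L + 1))
    have h1 : δ ≤ 1 := min_le_left _ _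
    have h2 : δ ≤ ε / (L + 1) := min_le_right _ _
    calc L * δ ^ 2 ≤ L * δ := by
          gcongr
          calc δ ^ 2 = δ * δ := sq δ
            _ ≤ δ * 1 := by gcongr
            _ = δ := mul_one _
      _ ≤ (L + 1) * (ε / (L + 1)) := by
          gcongr
          exact le_self_add
      _ ≤ ε := ENNReal.mul_div_le

namespace Sheets

variable {n N : ℕ} {S : Sheets n N}

theorem hdc_meas_fst {K : Set (Fin n → ℂ)} (hK : IsCompact K) :
    MeasurableSet {q : (Fin n → ℂ) × ℂ | q.1 ∈ K} :=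
  measurable_fst hK.measurableSet

theorem hdc_integrable {X Y : (Fin n → ℂ) × ℂ → ℂ} (hX : MemLp X 2 S.μ) (hY : S.CD 0 Y)
    {K : Set (Fin n → ℂ)} (hK : IsCompact K) (hKV : K ⊆ S.V)
    (hXK : ∀ q : (Fin n → ℂ) × ℂ, q.1 ∉ K → X q = 0) :
    Integrable (fun q => X q * Y q) S.μ := by
  obtain ⟨B, hB⟩ := exists_bound hY hK hKV
  have hfin : IsFiniteMeasure (S.μ.restrict {q | q.1 ∈ K}) :=
    ⟨by rw [Measure.restrict_apply_univ]; exact μ_lt_top hK hKV⟩
  have h1 : MemLp Y 2 (S.μ.restrict {q | q.1 ∈ K}) := by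
    refine MemLp.of_bound (aestronglyMeasurable_of_CD hY).restrict B ?_
    filter_upwards [ae_restrict_of_ae (ae_mem_M (S := S)),
      ae_restrict_mem (hdc_meas_fst hK)] with q hq1 hq2
    exact hB q hq1 hq2
  have h2 : MemLp ({q : (Fin n → ℂ) × ℂ | q.1 ∈ K}.indicator Y) 2 S.μ :=
    (memLp_indicator_iff_restrict (hdc_meas_fst hK)).2 h1
  have h3 := hX.integrable_mul h2
  refine h3.congr (Eventually.of_forall fun q => ?_)
  by_cases hq : q.1 ∈ K
  · simp [Set.indicator, hq]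
  · simp [hXK q hq]

theorem hdc_fsum_zero {X : (Fin n → ℂ) × ℂ → ℂ} {K : Set (Fin n → ℂ)}
    (hXK : ∀ q : (Fin n → ℂ) × ℂ, q.1 ∉ K → X q = 0) {z : Fin n → ℂ} (hz : z ∉ K) :
    S.fsum X z = 0 := by
  unfold fsum
  exact Finset.sum_eq_zero fun w _ => hXK (z, w) hz

theorem hdc_fsum_meas {X : (Fin n → ℂ) × ℂ → ℂ} (hX : Integrable X S.μ) {K : Set (Fin n → ℂ)}
    (hKV : K ⊆ S.V) (hXK : ∀ q : (Fin n → ℂ) × ℂ, q.1 ∉ K → X q = 0) :
    Integrable (S.fsum X) volume := by
  have h1 := integrable_fsum hX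
  rw [← integrableOn_univ]
  refine h1.of_forall_sdiff_eq_zero MeasurableSet.univ fun z hz => ?_
  exact hdc_fsum_zero hXK fun h => hz.2 (hKV h)

theorem hdc_fsum_memLp {X Y : (Fin n → ℂ) × ℂ → ℂ} (hX : MemLp X 2 S.μ) (hY : S.CD 0 Y)
    {K : Set (Fin n → ℂ)} (hK : IsCompact K) (hKV : K ⊆ S.V)
    (hXK : ∀ q : (Fin n → ℂ) × ℂ, q.1 ∉ K → X q = 0) :
    MemLp (S.fsum fun q => X q * Y q) 2 volume := by
  obtain ⟨B, hB⟩ := exists_bound hY hK hKV
  have hint := hdc_integrable hX hY hK hKV hXK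
  have hZK : ∀ q : (Fin n → ℂ) × ℂ, q.1 ∉ K → (fun q => X q * Y q) q = 0 := by
    intro q hq
    simp [hXK q hq]
  have hm := (hdc_fsum_meas hint hKV hZK).aestronglyMeasurable
  refine ⟨hm, ?_⟩
  have hX2 : ∫⁻ q, ENNReal.ofReal (‖X q‖ ^ 2) ∂S.μ < ⊤ := by
    rw [← hdc_eLpNorm_sq]
    exact ENNReal.pow_lt_top hX.2
  have hmX : AEMeasurable (fun q => ENNReal.ofReal (‖X q‖ ^ 2)) S.μ :=
    (hX.1.norm.aemeasurable.pow_const 2).ennreal_ofReal
  have key : ∫⁻ z, ENNReal.ofReal (‖S.fsum (fun q => X q * Y q) z‖ ^ 2) < ⊤ := by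
    have h0 : ∀ z, z ∉ S.V → ENNReal.ofReal (‖S.fsum (fun q => X q * Y q) z‖ ^ 2) = 0 := by
      intro z hz
      rw [hdc_fsum_zero hZK fun h => hz (hKV h)]
      simp
    have h1 : ∫⁻ z, ENNReal.ofReal (‖S.fsum (fun q => X q * Y q) z‖ ^ 2) =
        ∫⁻ z in S.V, ENNReal.ofReal (‖S.fsum (fun q => X q * Y q) z‖ ^ 2) := by
      rw [← lintegral_indicator S.isOpen.measurableSet]
      refine lintegral_congr fun z => ?_
      by_cases hz : z ∈ S.V
      · simp [Set.indicator, hz]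
      · rw [Set.indicator_of_notMem hz, h0 z hz]
    rw [h1]
    refine lt_of_le_of_lt (b := ∫⁻ z in S.V, ENNReal.ofReal (N * B ^ 2) *
      ∑ w ∈ S.fib z, ENNReal.ofReal (‖X (z, w)‖ ^ 2)) ?_ ?_
    · refine setLIntegral_mono' S.isOpen.measurableSet fun z hz => ?_
      rw [← ENNReal.ofReal_sum_of_nonneg (fun w _ => by positivity),
        ← ENNReal.ofReal_mul (by positivity)]
      refine ENNReal.ofReal_le_ofReal ?_
      have h2 : ‖S.fsum (fun q => X q * Y q) z‖ ≤ ∑ w ∈ S.fib z, ‖X (z, w)‖ * ‖Y (z, w)‖ := by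
        unfold fsum
        refine (norm_sum_le _ _).trans (le_of_eq ?_)
        exact Finset.sum_congr rfl fun w _ => norm_mul _ _
      have h3 : (∑ w ∈ S.fib z, ‖X (z, w)‖ * ‖Y (z, w)‖) ^ 2 ≤
          (∑ w ∈ S.fib z, ‖X (z, w)‖ ^ 2) * ∑ w ∈ S.fib z, ‖Y (z, w)‖ ^ 2 :=
        Finset.sum_mul_sq_le_sq_mul_sq _ _ _
      by_cases hzK : z ∈ K
      · have h4 : ∑ w ∈ S.fib z, ‖Y (z, w)‖ ^ 2 ≤ N * B ^ 2 := by
          calc ∑ w ∈ S.fib z, ‖Y (z, w)‖ ^ 2 ≤ ∑ w ∈ S.fib z, B ^ 2 := by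
                refine Finset.sum_le_sum fun w hw => ?_
                exact pow_le_pow_left₀ (norm_nonneg _) (hB (z, w) ⟨hz, hw⟩ hzK) 2
            _ = N * B ^ 2 := by rw [Finset.sum_const, card_fib hz, nsmul_eq_mul]
        calc ‖S.fsum (fun q => X q * Y q) z‖ ^ 2 ≤ _ := pow_le_pow_left₀ (norm_nonneg _) h2 2
          _ ≤ _ := h3
          _ ≤ (∑ w ∈ S.fib z, ‖X (z, w)‖ ^ 2) * (N * B ^ 2) := by gcongr
          _ = _ := mul_comm _ _
      · rw [hdc_fsum_zero hZK hzK, norm_zero, zero_pow two_ne_zero]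
        (clear * -; positivity)
    · rw [lintegral_const_mul' _ _ ENNReal.ofReal_ne_top, ← lintegral_μ' hmX]
      exact ENNReal.mul_lt_top ENNReal.ofReal_lt_top hX2
  rw [← hdc_eLpNorm_sq] at key
  by_contra hcon
  rw [not_lt, top_le_iff] at hcon
  rw [hcon] at key
  simp at key

theorem hdc_est {m : Type} [Fintype m] {X : (Fin n → ℂ) × ℂ → ℂ}
    (hX : AEStronglyMeasurable X S.μ) {K : Set (Fin n → ℂ)} {B : ℝ}
    {R : m → (Fin n → ℂ) → ℂ} {Y : m → (Fin n → ℂ) × ℂ → ℂ}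
    (hR : ∀ i, AEStronglyMeasurable (R i) volume)
    (hB : ∀ i, ∀ q ∈ S.M, q.1 ∈ K → ‖Y i q‖ ≤ B)
    (h0 : ∀ q ∈ S.M, q.1 ∉ K → X q = 0)
    (h1 : ∀ q ∈ S.M, q.1 ∈ K → X q = ∑ i, R i q.1 * Y i q) {δ : ℝ≥0∞}
    (hδ : ∀ i, eLpNorm (R i) 2 volume ≤ δ) :
    ∫⁻ q, ENNReal.ofReal (‖X q‖ ^ 2) ∂S.μ ≤
      (ENNReal.ofReal (N * (Fintype.card m * B ^ 2)) * Fintype.card m) * δ ^ 2 := by
  have hmX : AEMeasurable (fun q => ENNReal.ofReal (‖X q‖ ^ 2)) S.μ :=
    (hX.norm.aemeasurable.pow_const 2).ennreal_ofReal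
  rw [lintegral_μ' hmX]
  calc ∫⁻ z in S.V, ∑ w ∈ S.fib z, ENNReal.ofReal (‖X (z, w)‖ ^ 2)
      ≤ ∫⁻ z in S.V, ENNReal.ofReal (N * (Fintype.card m * B ^ 2)) *
          ∑ i, ENNReal.ofReal (‖R i z‖ ^ 2) := by
        refine setLIntegral_mono' S.isOpen.measurableSet fun z hz => ?_
        have hpt : ∀ w ∈ S.fib z, ENNReal.ofReal (‖X (z, w)‖ ^ 2) ≤
            ENNReal.ofReal (Fintype.card m * B ^ 2) * ∑ i, ENNReal.ofReal (‖R i z‖ ^ 2) := by
          intro w hw
          rw [← ENNReal.ofReal_sum_of_nonneg (fun w _ => by positivity),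
            ← ENNReal.ofReal_mul (by (clear * -; positivity))]
          refine ENNReal.ofReal_le_ofReal ?_
          by_cases hzK : z ∈ K
          · rw [h1 (z, w) ⟨hz, hw⟩ hzK]
            have h2 : ‖∑ i, R i z * Y i (z, w)‖ ≤ ∑ i, ‖R i z‖ * ‖Y i (z, w)‖ := by
              refine (norm_sum_le _ _).trans (le_of_eq ?_)
              exact Finset.sum_congr rfl fun w _ => norm_mul _ _
            have h3 : (∑ i, ‖R i z‖ * ‖Y i (z, w)‖) ^ 2 ≤
                (∑ i, ‖R i z‖ ^ 2) * ∑ i, ‖Y i (z, w)‖ ^ 2 :=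
              Finset.sum_mul_sq_le_sq_mul_sq _ _ _
            have h4 : ∑ i, ‖Y i (z, w)‖ ^ 2 ≤ Fintype.card m * B ^ 2 := by
              calc ∑ i, ‖Y i (z, w)‖ ^ 2 ≤ ∑ _i : m, B ^ 2 := by
                    refine Finset.sum_le_sum fun i _ => ?_
                    exact pow_le_pow_left₀ (norm_nonneg _) (hB i (z, w) ⟨hz, hw⟩ hzK) 2
                _ = Fintype.card m * B ^ 2 := by
                    rw [Finset.sum_const, nsmul_eq_mul, Finset.card_univ]
            calc ‖∑ i, R i z * Y i (z, w)‖ ^ 2 ≤ _ := pow_le_pow_left₀ (norm_nonneg _) h2 2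
              _ ≤ _ := h3
              _ ≤ (∑ i, ‖R i z‖ ^ 2) * (Fintype.card m * B ^ 2) := by gcongr
              _ = _ := mul_comm _ _
          · rw [h0 (z, w) ⟨hz, hw⟩ hzK, norm_zero, zero_pow two_ne_zero]
            (clear * -; positivity)
        calc ∑ w ∈ S.fib z, ENNReal.ofReal (‖X (z, w)‖ ^ 2)
            ≤ ∑ w ∈ S.fib z, ENNReal.ofReal (Fintype.card m * B ^ 2) *
              ∑ i, ENNReal.ofReal (‖R i z‖ ^ 2) := Finset.sum_le_sum hpt
          _ = _ := by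
              rw [Finset.sum_const, card_fib hz, nsmul_eq_mul, ← mul_assoc,
                ENNReal.ofReal_mul (Nat.cast_nonneg N), ENNReal.ofReal_natCast]
    _ ≤ ENNReal.ofReal (N * (Fintype.card m * B ^ 2)) * ∑ _i : m, δ ^ 2 := by
        rw [lintegral_const_mul' _ _ ENNReal.ofReal_ne_top]
        gcongr
        calc ∫⁻ z in S.V, ∑ i, ENNReal.ofReal (‖R i z‖ ^ 2)
            ≤ ∫⁻ z, ∑ i, ENNReal.ofReal (‖R i z‖ ^ 2) := setLIntegral_le_lintegral _ _
          _ = ∑ i, ∫⁻ z, ENNReal.ofReal (‖R i z‖ ^ 2) := by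
              rw [lintegral_finsetSum']
              exact fun i _ => ((hR i).norm.aemeasurable.pow_const 2).ennreal_ofReal
          _ ≤ ∑ _i : m, δ ^ 2 := by
              refine Finset.sum_le_sum fun i _ => ?_
              rw [← hdc_eLpNorm_sq]
              exact pow_le_pow_left' (hδ i) 2
    _ = _ := by
        rw [Finset.sum_const, nsmul_eq_mul, Finset.card_univ, mul_assoc]

/-- Reconstruction from the moments. -/
theorem hdc_recon {c : Fin N → (Fin n → ℂ) × ℂ → ℂ}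
    (hd : ∀ z ∈ S.V, ∀ w ∈ S.fib z, ∀ w' ∈ S.fib z,
      ∑ i : Fin N, c i (z, w') * w ^ (i : ℕ) = if w = w' then 1 else 0)
    (X : (Fin n → ℂ) × ℂ → ℂ) {q : (Fin n → ℂ) × ℂ} (hq : q ∈ S.M) :
    X q = ∑ i : Fin N, S.fsum (fun q => X q * c i q) q.1 * q.2 ^ (i : ℕ) := by
  obtain ⟨z, w⟩ := q
  obtain ⟨hz, hw⟩ := hq
  simp only at hz hw ⊢
  unfold fsum
  simp only [Finset.sum_mul]
  rw [Finset.sum_comm]
  have h1 : ∀ w' ∈ S.fib z, ∑ i : Fin N, X (z, w') * c i (z, w') * w ^ (i : ℕ) =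
      if w = w' then X (z, w') else 0 := by
    intro w' hw'
    have h2 := hd z hz w hw w' hw'
    calc ∑ i : Fin N, X (z, w') * c i (z, w') * w ^ (i : ℕ)
        = X (z, w') * ∑ i : Fin N, c i (z, w') * w ^ (i : ℕ) := by
          rw [Finset.mul_sum]
          exact Finset.sum_congr rfl fun i _ => mul_assoc _ _ _
      _ = _ := by rw [h2]; split_ifs <;> simp
  rw [Finset.sum_congr rfl h1, Finset.sum_ite_eq, if_pos hw]

/-- The derivative of the duality relation. -/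
theorem hdc_delta {c : Fin N → (Fin n → ℂ) × ℂ → ℂ} (hc : ∀ i, S.Holo (c i))
    (hd : ∀ z ∈ S.V, ∀ w ∈ S.fib z, ∀ w' ∈ S.fib z,
      ∑ i : Fin N, c i (z, w') * w ^ (i : ℕ) = if w = w' then 1 else 0)
    {z : Fin n → ℂ} {w w' : ℂ} (hz : z ∈ S.V) (hw : w ∈ S.fib z) (hw' : w' ∈ S.fib z) (j : Fin n) :
    ∑ i : Fin N, (S.D j (c i) (z, w') * w ^ (i : ℕ) +
      c i (z, w') * S.D j (fun q => q.2 ^ (i : ℕ)) (z, w)) = 0 := by
  obtain ⟨σ, W, hσ, hzW, hσz⟩ := exists_section (S := S) (q := (z, w)) ⟨hz, hw⟩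
  obtain ⟨σ', W', hσ', hzW', hσz'⟩ := exists_section (S := S) (q := (z, w')) ⟨hz, hw'⟩
  simp only at hzW hσz hzW' hσz'
  subst hσz hσz'
  have hd1 : ∀ i : Fin N, DifferentiableAt ℝ (fun ζ => c i (ζ, σ' ζ)) z := fun i =>
    ((hc i W' σ' hσ').differentiableAt (hσ'.isOpen.mem_nhds hzW')).restrictScalars ℝ
  have hd2 : ∀ i : Fin N, DifferentiableAt ℝ (fun ζ => σ ζ ^ (i : ℕ)) z := fun i =>
    ((hσ.diff.differentiableAt (hσ.isOpen.mem_nhds hzW)).restrictScalars ℝ).pow _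
  have h1 : ∀ i : Fin N, S.D j (c i) (z, σ' z) * σ z ^ (i : ℕ) +
      c i (z, σ' z) * S.D j (fun q => q.2 ^ (i : ℕ)) (z, σ z) =
      dz j (fun ζ => c i (ζ, σ' ζ) * σ ζ ^ (i : ℕ)) z := by
    intro i
    rw [dz_mul (hd1 i) (hd2 i), D_apply hσ' hzW', D_apply hσ hzW]
  have hd3 : ∀ i ∈ (Finset.univ : Finset (Fin N)),
      DifferentiableAt ℝ (fun ζ => c i (ζ, σ' ζ) * σ ζ ^ (i : ℕ)) z :=
    fun i _ => (hd1 i).mul (hd2 i)
  rw [Finset.sum_congr rfl fun i _ => h1 i, ← dz_sum Finset.univ hd3]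
  by_cases hww : σ z = σ' z
  · have hg := hσ.germ hσ' hzW hzW' hww
    rw [dz_congr (g := fun _ => 1) ?_, dz_const]
    filter_upwards [hg, hσ.isOpen.mem_nhds hzW, hσ'.isOpen.mem_nhds hzW'] with ζ h1 h2 h3
    rw [hd ζ (hσ.subset h2) _ (hσ.mem ζ h2) _ (hσ'.mem ζ h3), if_pos h1]
  · have hcσ : ContinuousAt σ z := (hσ.diff.continuousOn).continuousAt (hσ.isOpen.mem_nhds hzW)
    have hcσ' : ContinuousAt σ' z :=
      (hσ'.diff.continuousOn).continuousAt (hσ'.isOpen.mem_nhds hzW')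
    have hne : ∀ᶠ ζ in 𝓝 z, σ ζ ≠ σ' ζ :=
      ((hcσ.sub hcσ').eventually_ne (sub_ne_zero.2 hww)).mono fun ζ h => sub_ne_zero.1 h
    rw [dz_congr (g := fun _ => 0) ?_, dz_const]
    filter_upwards [hne, hσ.isOpen.mem_nhds hzW, hσ'.isOpen.mem_nhds hzW'] with ζ h1 h2 h3
    rw [hd ζ (hσ.subset h2) _ (hσ.mem ζ h2) _ (hσ'.mem ζ h3), if_neg h1]

/-- Integration over the fibers against a function of `z`. -/
theorem hdc_int {X Y : (Fin n → ℂ) × ℂ → ℂ} (hX : MemLp X 2 S.μ) (hY : S.CD 0 Y)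
    {K : Set (Fin n → ℂ)} (hK : IsCompact K) (hKV : K ⊆ S.V)
    (hXK : ∀ q : (Fin n → ℂ) × ℂ, q.1 ∉ K → X q = 0) {φ : (Fin n → ℂ) → ℂ}
    (hφ : ContinuousOn φ S.V) :
    Integrable (fun q => X q * Y q * φ q.1) S.μ ∧
    Integrable (fun z => S.fsum (fun q => X q * Y q) z * φ z) volume ∧
    ∫ q, X q * Y q * φ q.1 ∂S.μ = ∫ z, S.fsum (fun q => X q * Y q) z * φ z := by
  have hφ' : S.CD 0 (fun q => φ q.1) := CD.fst (by
    rw [Nat.cast_zero, contDiffOn_zero]
    exact hφ)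
  have h1 : Integrable (fun q => X q * Y q * φ q.1) S.μ := by
    have := hdc_integrable hX (hY.mul hφ') hK hKV hXK
    simpa only [mul_assoc] using this
  have hZK : ∀ q : (Fin n → ℂ) × ℂ, q.1 ∉ K → (fun q => X q * Y q * φ q.1) q = 0 := by
    intro q hq
    simp [hXK q hq]
  have h2 := hdc_fsum_meas h1 hKV hZK
  have h3 : S.fsum (fun q => X q * Y q * φ q.1) =
      fun z => S.fsum (fun q => X q * Y q) z * φ z := by
    funext z
    unfold fsum
    rw [Finset.sum_mul]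
  refine ⟨h1, h3 ▸ h2, ?_⟩
  rw [integral_μ h1, ← h3]
  refine setIntegral_eq_integral_of_forall_compl_eq_zero fun z hz => ?_
  exact hdc_fsum_zero hZK fun h => hz (hKV h)

/-- A function which is orthogonal to all test functions supported off `C` vanishes off `C`. -/
theorem hdc_vanish {X : (Fin n → ℂ) × ℂ → ℂ} (hX : MemLp X 2 S.μ) {C : Set (Fin n → ℂ)}
    (hC : IsClosed C)
    (h : ∀ (φ : (Fin n → ℂ) → ℂ) (Y : (Fin n → ℂ) × ℂ → ℂ), ContDiff ℝ 2 φ →
      HasCompactSupport φ → tsupport φ ⊆ S.V → Disjoint (tsupport φ) C → S.Holo Y →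
      ∫ q, X q * (Y q * φ q.1) ∂S.μ = 0) :
    ∀ᵐ q ∂S.μ, q.1 ∉ C → X q = 0 := by
  obtain ⟨c, hc, hd⟩ := exists_dual S
  have hU : IsOpen (S.V \ C) := S.isOpen.sdiff hC
  have key : ∀ i, ∀ᵐ z, z ∈ S.V \ C → S.fsum (fun q => X q * c i q) z = 0 := by
    intro i
    refine hU.ae_eq_zero_of_integral_contDiff_smul_eq_zero ?_ ?_
    · rw [locallyIntegrableOn_iff hU.isLocallyClosed]
      intro K hK1 hK
      have hKV : K ⊆ S.V := hK1.trans Set.sdiff_subset
      set X' : (Fin n → ℂ) × ℂ → ℂ := {q : (Fin n → ℂ) × ℂ | q.1 ∈ K}.indicator X with hX'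
      have hX'K : ∀ q : (Fin n → ℂ) × ℂ, q.1 ∉ K → X' q = 0 := fun q hq =>
        Set.indicator_of_notMem (by exact hq) _
      have hX'm : MemLp X' 2 S.μ := hX.indicator (hdc_meas_fst hK)
      have h1 := (hdc_int hX'm ((hc i).CD 0) hK hKV hX'K (φ := fun _ => 1)
        continuousOn_const).2.1
      simp only [mul_one] at h1
      refine (h1.integrableOn (s := K)).congr_fun (fun z hz => ?_) hK.measurableSet
      have hXe : ∀ w, X' (z, w) = X (z, w) := fun w => Set.indicator_of_mem (by exact hz) _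
      unfold fsum
      refine Finset.sum_congr rfl fun w _ => ?_
      simp only [hXe]
    · intro φ hφ hφc hφU
      have hφ2 : ContDiff ℝ 2 (fun z => (φ z : ℂ)) :=
        Complex.ofRealCLM.contDiff.comp (by exact_mod_cast contDiff_infty.1 hφ 2)
      have hsupp : tsupport (fun z => (φ z : ℂ)) ⊆ tsupport φ := by
        refine closure_mono fun z hz hz0 => hz ?_
        simp [hz0]
      have hcs : HasCompactSupport (fun z => (φ z : ℂ)) :=
        hφc.of_isClosed_subset (isClosed_tsupport _) hsupp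
      have h1 := h (fun z => (φ z : ℂ)) (c i) hφ2 hcs ((hsupp.trans hφU).trans Set.sdiff_subset)
        (Set.disjoint_left.2 fun z hz hzC => (hφU (hsupp hz)).2 hzC) (hc i)
      set K := tsupport φ with hK
      have hKc : IsCompact K := hφc
      have hKV : K ⊆ S.V := hφU.trans Set.sdiff_subset
      set X' : (Fin n → ℂ) × ℂ → ℂ := {q : (Fin n → ℂ) × ℂ | q.1 ∈ K}.indicator X with hX'
      have hX'K : ∀ q : (Fin n → ℂ) × ℂ, q.1 ∉ K → X' q = 0 := fun q hq =>
        Set.indicator_of_notMem (by exact hq) _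
      have hX'm : MemLp X' 2 S.μ := hX.indicator (hdc_meas_fst hKc)
      have h2 := (hdc_int hX'm ((hc i).CD 0) hKc hKV hX'K (φ := fun z => (φ z : ℂ))
        hφ2.continuous.continuousOn).2.2
      have h3 : ∀ q : (Fin n → ℂ) × ℂ, X q * (c i q * (φ q.1 : ℂ)) =
          X' q * c i q * (φ q.1 : ℂ) := by
        intro q
        by_cases hq : q.1 ∈ K
        · rw [hX', Set.indicator_of_mem (by exact hq), mul_assoc]
        · rw [image_eq_zero_of_notMem_tsupport hq]
          simp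
      simp only [h3] at h1
      rw [h1] at h2
      rw [h2]
      refine integral_congr_ae (Eventually.of_forall fun z => ?_)
      simp only [Complex.real_smul]
      by_cases hz : z ∈ K
      · have hXe : ∀ w, X' (z, w) = X (z, w) := fun w => Set.indicator_of_mem (by exact hz) _
        have : S.fsum (fun q => X' q * c i q) z = S.fsum (fun q => X q * c i q) z := by
          unfold fsum
          refine Finset.sum_congr rfl fun w _ => ?_
          simp only [hXe]
        rw [this, mul_comm]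
      · rw [image_eq_zero_of_notMem_tsupport hz]
        simp
  rw [ae_μ_iff]
  filter_upwards [ae_restrict_of_ae (ae_all_iff.2 key), ae_restrict_mem S.isOpen.measurableSet]
    with z hz hzV w hw hzC
  rw [hdc_recon hd X (q := (z, w)) ⟨hzV, hw⟩]
  refine Finset.sum_eq_zero fun i _ => ?_
  simp only
  rw [hz i ⟨hzV, hzC⟩, zero_mul]

theorem hdc_isTest {φ : (Fin n → ℂ) → ℂ} {Y : (Fin n → ℂ) × ℂ → ℂ} (hφ : ContDiff ℝ 2 φ)
    {K : Set (Fin n → ℂ)} (hK : IsCompact K) (hKV : K ⊆ S.V) (hφK : ∀ z ∉ K, φ z = 0)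
    (hY : S.Holo Y) : S.IsTest (fun q => Y q * φ q.1) :=
  ⟨(hY.CD 2).mul (CD.fst (by exact_mod_cast hφ.contDiffOn)), K, hK, hKV,
    fun q hq => by simp [hφK q.1 hq]⟩

theorem hdc_D {φ : (Fin n → ℂ) → ℂ} {Y : (Fin n → ℂ) × ℂ → ℂ} (hφ : ContDiff ℝ 2 φ)
    (hY : S.Holo Y) {q : (Fin n → ℂ) × ℂ} (hq : q ∈ S.M) (j : Fin n) :
    S.D j (fun q => Y q * φ q.1) q = S.D j Y q * φ q.1 + Y q * dz j φ q.1 := by
  have h1 : S.CD 1 (fun q => φ q.1) :=
    CD.fst (by exact_mod_cast (hφ.of_le one_le_two).contDiffOn)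
  rw [D_mul (hY.CD 1) h1 hq, D_fst]

theorem hdc_Db {φ : (Fin n → ℂ) → ℂ} {Y : (Fin n → ℂ) × ℂ → ℂ} (hφ : ContDiff ℝ 2 φ)
    (hY : S.Holo Y) {q : (Fin n → ℂ) × ℂ} (hq : q ∈ S.M) (j : Fin n) :
    S.Db j (fun q => Y q * φ q.1) q = Y q * dzb j φ q.1 := by
  have h1 : S.CD 1 (fun q => φ q.1) :=
    CD.fst (by exact_mod_cast (hφ.of_le one_le_two).contDiffOn)
  rw [Db_mul (hY.CD 1) h1 hq, Db_fst, hY.Db hq, zero_mul, zero_add]

theorem hdc_cont_dz {κ : (Fin n → ℂ) → ℂ} (hκ : ContDiff ℝ 2 κ) (j : Fin n) :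
    Continuous (dz j κ) := by
  have h := contDiffOn_dz (j := j) isOpen_univ (m := 1) (f := κ) (by exact_mod_cast hκ.contDiffOn)
  exact continuousOn_univ.1 h.continuousOn

theorem hdc_cont_dzb {κ : (Fin n → ℂ) → ℂ} (hκ : ContDiff ℝ 2 κ) (j : Fin n) :
    Continuous (dzb j κ) := by
  have h := contDiffOn_dzb (j := j) isOpen_univ (m := 1) (f := κ) (by exact_mod_cast hκ.contDiffOn)
  exact continuousOn_univ.1 h.continuousOn

/-- Weak equation for the moments, `∂`. -/
theorem hdc_weak_D {b : Fin n → (Fin n → ℂ) × ℂ → ℂ} {g : (Fin n → ℂ) × ℂ → ℂ}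
    {C : Set (Fin n → ℂ)} (hC : IsCompact C)
    (hCV : C ⊆ S.V) (hbC : ∀ j, ∀ q : (Fin n → ℂ) × ℂ, q.1 ∉ C → b j q = 0)
    (hgC : ∀ q : (Fin n → ℂ) × ℂ, q.1 ∉ C → g q = 0)
    (hb : ∀ j, MemLp (b j) 2 S.μ) (hg : MemLp g 2 S.μ)
    (hgw : ∀ κ, S.IsTest κ → ∫ q, ∑ j, b j q * S.D j κ q ∂S.μ = - ∫ q, g q * κ q ∂S.μ)
    {Y : (Fin n → ℂ) × ℂ → ℂ} (hY : S.Holo Y) {κ : (Fin n → ℂ) → ℂ} (hκ : ContDiff ℝ 2 κ) :
    ∑ j, ∫ z, S.fsum (fun q => b j q * Y q) z * dz j κ z =
      - ∫ z, (S.fsum (fun q => g q * Y q) z + ∑ j, S.fsum (fun q => b j q * S.D j Y q) z) *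
        κ z := by
  obtain ⟨K, χ, hK, hCK, hKV, hχ, hχ1, hχ0⟩ := hdc_cut S.isOpen hC hCV
  have hφ : ContDiff ℝ 2 (fun z => χ z * κ z) := hχ.mul hκ
  have h1 := hgw _ (hdc_isTest hφ hK hKV (fun z hz => by simp [hχ0 z hz]) hY)
  have hev : ∀ z ∈ C, (fun z => χ z * κ z) =ᶠ[𝓝 z] κ := by
    intro z hz
    filter_upwards [hχ1.filter_mono (nhds_le_nhdsSet hz)] with ζ hζ
    rw [hζ, one_mul]
  have hL : ∀ j, S.CD 0 (S.D j Y) := fun j => hY.D.CD 0
  have i1 := fun j => hdc_int (hb j) (hL j) hC hCV (hbC j) (φ := κ) hκ.continuous.continuousOn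
  have i2 := fun j => hdc_int (hb j) (hY.CD 0) hC hCV (hbC j) (φ := dz j κ)
    (hdc_cont_dz hκ j).continuousOn
  have i3 := hdc_int hg (hY.CD 0) hC hCV hgC (φ := κ) hκ.continuous.continuousOn
  have e1 : ∫ q, ∑ j, b j q * S.D j (fun q => Y q * (fun z => χ z * κ z) q.1) q ∂S.μ =
      ∫ q, ∑ j, (b j q * S.D j Y q * κ q.1 + b j q * Y q * dz j κ q.1) ∂S.μ := by
    refine integral_congr_ae ?_
    filter_upwards [ae_mem_M (S := S)] with q hq
    refine Finset.sum_congr rfl fun j _ => ?_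
    rw [hdc_D hφ hY hq]
    by_cases hqC : q.1 ∈ C
    · have h2 : χ q.1 * κ q.1 = κ q.1 := (hev q.1 hqC).self_of_nhds
      rw [dz_congr (hev q.1 hqC)]
      simp only [h2]
      ring
    · simp [hbC j q hqC]
  have e2 : ∫ q, g q * (fun q => Y q * (fun z => χ z * κ z) q.1) q ∂S.μ =
      ∫ q, g q * Y q * κ q.1 ∂S.μ := by
    refine integral_congr_ae (Eventually.of_forall fun q => ?_)
    simp only
    by_cases hqC : q.1 ∈ C
    · have := (hev q.1 hqC).self_of_nhds
      simp only at this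
      rw [this]
      ring
    · simp [hgC q hqC]
  have e0 : ∀ j ∈ (Finset.univ : Finset (Fin n)),
      Integrable (fun q => b j q * S.D j Y q * κ q.1 + b j q * Y q * dz j κ q.1) S.μ :=
    fun j _ => (i1 j).1.add (i2 j).1
  rw [e1, e2, integral_finsetSum _ e0] at h1
  have e3 : ∀ j, ∫ q, (b j q * S.D j Y q * κ q.1 + b j q * Y q * dz j κ q.1) ∂S.μ =
      (∫ z, S.fsum (fun q => b j q * S.D j Y q) z * κ z) +
        ∫ z, S.fsum (fun q => b j q * Y q) z * dz j κ z := by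
    intro j
    rw [integral_add (i1 j).1 (i2 j).1, (i1 j).2.2, (i2 j).2.2]
  rw [Finset.sum_congr rfl fun j _ => e3 j, Finset.sum_add_distrib, i3.2.2] at h1
  have e4 : ∫ z, (S.fsum (fun q => g q * Y q) z + ∑ j, S.fsum (fun q => b j q * S.D j Y q) z) *
        κ z = (∫ z, S.fsum (fun q => g q * Y q) z * κ z) +
        ∑ j, ∫ z, S.fsum (fun q => b j q * S.D j Y q) z * κ z := by
    simp only [add_mul, Finset.sum_mul]
    rw [integral_add i3.2.1 (integrable_finsetSum _ fun j _ => (i1 j).2.1),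
      integral_finsetSum _ fun j _ => (i1 j).2.1]
  rw [e4]
  linear_combination h1

/-- Weak equation for the moments, `∂̄`. -/
theorem hdc_weak_Db {b b' : (Fin n → ℂ) × ℂ → ℂ} {g : (Fin n → ℂ) × ℂ → ℂ}
    {C : Set (Fin n → ℂ)} (hC : IsCompact C) (hCV : C ⊆ S.V)
    (hbC : ∀ q : (Fin n → ℂ) × ℂ, q.1 ∉ C → b q = 0)
    (hbC' : ∀ q : (Fin n → ℂ) × ℂ, q.1 ∉ C → b' q = 0)
    (hgC : ∀ q : (Fin n → ℂ) × ℂ, q.1 ∉ C → g q = 0)
    (hb : MemLp b 2 S.μ) (hb' : MemLp b' 2 S.μ) (hg : MemLp g 2 S.μ) {j k : Fin n}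
    (hgw : ∀ κ, S.IsTest κ → ∫ q, (b' q * S.Db j κ q - b q * S.Db k κ q) ∂S.μ =
      - ∫ q, g q * κ q ∂S.μ)
    {Y : (Fin n → ℂ) × ℂ → ℂ} (hY : S.Holo Y) {κ : (Fin n → ℂ) → ℂ} (hκ : ContDiff ℝ 2 κ) :
    (∫ z, S.fsum (fun q => b' q * Y q) z * dzb j κ z) -
      ∫ z, S.fsum (fun q => b q * Y q) z * dzb k κ z =
      - ∫ z, S.fsum (fun q => g q * Y q) z * κ z := by
  obtain ⟨K, χ, hK, hCK, hKV, hχ, hχ1, hχ0⟩ := hdc_cut S.isOpen hC hCV
  have hφ : ContDiff ℝ 2 (fun z => χ z * κ z) := hχ.mul hκ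
  have h1 := hgw _ (hdc_isTest hφ hK hKV (fun z hz => by simp [hχ0 z hz]) hY)
  have hev : ∀ z ∈ C, (fun z => χ z * κ z) =ᶠ[𝓝 z] κ := by
    intro z hz
    filter_upwards [hχ1.filter_mono (nhds_le_nhdsSet hz)] with ζ hζ
    rw [hζ, one_mul]
  have i1 := hdc_int hb' (hY.CD 0) hC hCV hbC' (φ := dzb j κ) (hdc_cont_dzb hκ j).continuousOn
  have i2 := hdc_int hb (hY.CD 0) hC hCV hbC (φ := dzb k κ) (hdc_cont_dzb hκ k).continuousOn
  have i3 := hdc_int hg (hY.CD 0) hC hCV hgC (φ := κ) hκ.continuous.continuousOn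
  have e1 : ∫ q, (b' q * S.Db j (fun q => Y q * (fun z => χ z * κ z) q.1) q -
      b q * S.Db k (fun q => Y q * (fun z => χ z * κ z) q.1) q) ∂S.μ =
      ∫ q, (b' q * Y q * dzb j κ q.1 - b q * Y q * dzb k κ q.1) ∂S.μ := by
    refine integral_congr_ae ?_
    filter_upwards [ae_mem_M (S := S)] with q hq
    rw [hdc_Db hφ hY hq, hdc_Db hφ hY hq]
    by_cases hqC : q.1 ∈ C
    · rw [dzb_congr (hev q.1 hqC), dzb_congr (hev q.1 hqC)]
      ring
    · simp [hbC q hqC, hbC' q hqC]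
  have e2 : ∫ q, g q * (fun q => Y q * (fun z => χ z * κ z) q.1) q ∂S.μ =
      ∫ q, g q * Y q * κ q.1 ∂S.μ := by
    refine integral_congr_ae (Eventually.of_forall fun q => ?_)
    simp only
    by_cases hqC : q.1 ∈ C
    · have := (hev q.1 hqC).self_of_nhds
      simp only at this
      rw [this]
      ring
    · simp [hgC q hqC]
  rw [e1, e2, integral_sub i1.1 i2.1, i1.2.2, i2.2.2, i3.2.2] at h1
  exact h1

theorem hdc_sumA (E : Fin n × Fin N → Fin n → ℂ) (i : Fin N) :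
    ∑ p : Fin n × Fin N, ∑ j, (if p.2 = i ∧ p.1 = j then (1 : ℂ) else 0) * E p j =
      ∑ j, E (j, i) j := by
  rw [Fintype.sum_prod_type]
  refine Finset.sum_congr rfl fun a _ => ?_
  have h1 : ∀ b : Fin N, ∑ j, (if b = i ∧ a = j then (1 : ℂ) else 0) * E (a, b) j =
      if b = i then E (a, b) a else 0 := by
    intro b
    by_cases hb : b = i
    · simp [hb]
    · simp [hb]
  simp only [h1]
  rw [Finset.sum_ite_eq' Finset.univ i, if_pos (Finset.mem_univ i)]

theorem hdc_sumB (E : Fin n × Fin N → Fin n → ℂ) (j k : Fin n) (i : Fin N) :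
    ∑ p : Fin n × Fin N, ∑ l, (if p.2 = i then ((if p.1 = k ∧ l = j then (1 : ℂ) else 0) -
      (if p.1 = j ∧ l = k then (1 : ℂ) else 0)) else 0) * E p l = E (k, i) j - E (j, i) k := by
  have h1 : ∀ p : Fin n × Fin N, ∑ l, (if p.2 = i then ((if p.1 = k ∧ l = j then (1 : ℂ) else 0) -
      (if p.1 = j ∧ l = k then (1 : ℂ) else 0)) else 0) * E p l =
      (if p = (k, i) then E p j else 0) - (if p = (j, i) then E p k else 0) := by
    rintro ⟨a, b⟩
    by_cases hb : b = i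
    · by_cases hk : a = k <;> by_cases hj : a = j <;>
        simp [hb, hk, hj, Prod.ext_iff, sub_mul, Finset.sum_sub_distrib] <;>
        simp_all
    · simp [hb, Prod.ext_iff]
  simp only [h1, Finset.sum_sub_distrib]
  rw [Finset.sum_ite_eq' Finset.univ (k, i), Finset.sum_ite_eq' Finset.univ (j, i),
    if_pos (Finset.mem_univ _), if_pos (Finset.mem_univ _)]

theorem hdc_zero {c : Fin N → (Fin n → ℂ) × ℂ → ℂ} (hc : ∀ i, S.Holo (c i))
    (hd : ∀ z ∈ S.V, ∀ w ∈ S.fib z, ∀ w' ∈ S.fib z,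
      ∑ i : Fin N, c i (z, w') * w ^ (i : ℕ) = if w = w' then 1 else 0)
    (X : (Fin n → ℂ) × ℂ → ℂ) {q : (Fin n → ℂ) × ℂ} (hq : q ∈ S.M) (j : Fin n) :
    ∑ i : Fin N, (S.fsum (fun q => X q * S.D j (c i) q) q.1 * q.2 ^ (i : ℕ) +
      S.fsum (fun q => X q * c i q) q.1 * S.D j (fun q => q.2 ^ (i : ℕ)) q) = 0 := by
  obtain ⟨z, w⟩ := q
  obtain ⟨hz, hw⟩ := hq
  simp only at hz hw ⊢
  unfold fsum
  have h1 : ∀ i : Fin N, (∑ w' ∈ S.fib z, X (z, w') * S.D j (c i) (z, w')) * w ^ (i : ℕ) +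
      (∑ w' ∈ S.fib z, X (z, w') * c i (z, w')) * S.D j (fun q => q.2 ^ (i : ℕ)) (z, w) =
      ∑ w' ∈ S.fib z, X (z, w') * (S.D j (c i) (z, w') * w ^ (i : ℕ) +
        c i (z, w') * S.D j (fun q => q.2 ^ (i : ℕ)) (z, w)) := by
    intro i
    rw [Finset.sum_mul, Finset.sum_mul, ← Finset.sum_add_distrib]
    exact Finset.sum_congr rfl fun w' _ => by ring
  rw [Finset.sum_congr rfl fun i _ => h1 i, Finset.sum_comm]
  refine Finset.sum_eq_zero fun w' hw' => ?_
  rw [← Finset.mul_sum, hdc_delta hc hd hz hw hw' j, mul_zero]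

theorem hdc_dz_zero {F : (Fin n → ℂ) → ℂ} {C : Set (Fin n → ℂ)} (hC : IsCompact C)
    (hF : ∀ z, z ∉ C → F z = 0) {z : Fin n → ℂ} (hz : z ∉ C) (j : Fin n) : dz j F z = 0 := by
  rw [dz_congr (g := fun _ => 0) ?_, dz_const]
  filter_upwards [hC.isClosed.isOpen_compl.mem_nhds hz] with ζ hζ
  exact hF ζ hζ

theorem hdc_dzb_zero {F : (Fin n → ℂ) → ℂ} {C : Set (Fin n → ℂ)} (hC : IsCompact C)
    (hF : ∀ z, z ∉ C → F z = 0) {z : Fin n → ℂ} (hz : z ∉ C) (j : Fin n) : dzb j F z = 0 := by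
  rw [dzb_congr (g := fun _ => 0) ?_, dzb_const]
  filter_upwards [hC.isClosed.isOpen_compl.mem_nhds hz] with ζ hζ
  exact hF ζ hζ

theorem hdc_holo_pow (i : ℕ) : S.Holo (fun q => q.2 ^ i) := by
  induction i with
  | zero => simpa using Holo.const 1
  | succ i ih => simpa only [pow_succ] using ih.mul Holo.snd

/-- The case where `g` and `s` vanish off `C`. -/
theorem hdc_core (b : Fin n → (Fin n → ℂ) × ℂ → ℂ) (g : (Fin n → ℂ) × ℂ → ℂ)
    (s : Fin n → Fin n → (Fin n → ℂ) × ℂ → ℂ) {C : Set (Fin n → ℂ)} (hC : IsCompact C)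
    (hCV : C ⊆ S.V) (hbC : ∀ j, ∀ q : (Fin n → ℂ) × ℂ, q.1 ∉ C → b j q = 0)
    (hgC : ∀ q : (Fin n → ℂ) × ℂ, q.1 ∉ C → g q = 0)
    (hsC : ∀ j k, ∀ q : (Fin n → ℂ) × ℂ, q.1 ∉ C → s j k q = 0)
    (hb : ∀ j, MemLp (b j) 2 S.μ) (hg : MemLp g 2 S.μ) (hs : ∀ j k, MemLp (s j k) 2 S.μ)
    (hgw : ∀ κ, S.IsTest κ → ∫ q, ∑ j, b j q * S.D j κ q ∂S.μ = - ∫ q, g q * κ q ∂S.μ)
    (hsw : ∀ κ, S.IsTest κ → ∀ j k, ∫ q, (b k q * S.Db j κ q - b j q * S.Db k κ q) ∂S.μ =
      - ∫ q, s j k q * κ q ∂S.μ) {ε : ℝ≥0∞} (hε : ε ≠ 0) :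
    ∃ β : Fin n → (Fin n → ℂ) × ℂ → ℂ, (∀ j, S.IsTest (β j)) ∧
      (∃ C' : Set (Fin n → ℂ), IsCompact C' ∧ C' ⊆ S.V ∧
        ∀ j, ∀ q : (Fin n → ℂ) × ℂ, q.1 ∉ C' → β j q = 0) ∧
      (∀ j, ∫⁻ q, ENNReal.ofReal (‖β j q - b j q‖ ^ 2) ∂S.μ ≤ ε) ∧
      ∫⁻ q, ENNReal.ofReal (‖∑ j, S.D j (β j) q - g q‖ ^ 2) ∂S.μ ≤ ε ∧
      ∀ j k, ∫⁻ q, ENNReal.ofReal (‖S.Db j (β k) q - S.Db k (β j) q - s j k q‖ ^ 2) ∂S.μ ≤ ε := by
  obtain ⟨c, hc, hd⟩ := exists_dual S
  obtain ⟨K, hK, hCK, hKV⟩ := exists_compact_between hC S.isOpen hCV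
  -- the moments
  set f : Fin n × Fin N → (Fin n → ℂ) → ℂ := fun p => S.fsum (fun q => b p.1 q * c p.2 q) with hf'
  set Gm : Fin N → (Fin n → ℂ) → ℂ := fun i z => S.fsum (fun q => g q * c i q) z +
    ∑ j, S.fsum (fun q => b j q * S.D j (c i) q) z with hGm'
  set Hm : Fin n × Fin n × Fin N → (Fin n → ℂ) → ℂ :=
    fun t => S.fsum (fun q => s t.1 t.2.1 q * c t.2.2 q) with hHm'
  have hf : ∀ p, MemLp (f p) 2 volume := fun p =>
    hdc_fsum_memLp (hb p.1) ((hc p.2).CD 0) hC hCV (hbC p.1)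
  have hGm : ∀ i, MemLp (Gm i) 2 volume := by
    intro i
    refine (hdc_fsum_memLp hg ((hc i).CD 0) hC hCV hgC).add ?_
    exact memLp_finsetSum _ fun j _ => hdc_fsum_memLp (hb j) ((hc i).D.CD 0) hC hCV (hbC j)
  have hHm : ∀ t, MemLp (Hm t) 2 volume := fun t =>
    hdc_fsum_memLp (hs t.1 t.2.1) ((hc t.2.2).CD 0) hC hCV (hsC t.1 t.2.1)
  have hfC : ∀ p, ∀ z, z ∉ C → f p z = 0 := by
    intro p z hz
    refine hdc_fsum_zero (K := C) (fun q hq => ?_) hz
    simp [hbC p.1 q hq]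
  -- the functions which depend only on the cover
  set YY : Fin N ⊕ (Fin n × Fin N) → (Fin n → ℂ) × ℂ → ℂ :=
    Sum.elim (fun i q => q.2 ^ (i : ℕ)) (fun p => S.D p.1 (fun q => q.2 ^ (p.2 : ℕ))) with hYY
  have hYc : ∀ t, S.CD 0 (YY t) := by
    rintro (i | p)
    · exact (hdc_holo_pow (i : ℕ)).CD 0
    · exact (hdc_holo_pow (p.2 : ℕ)).D.CD 0
  choose Bf hBf using fun t => exists_bound (hYc t) hK hKV
  set B : ℝ := ∑ t, |Bf t| with hBdef
  have hB : ∀ t, ∀ q ∈ S.M, q.1 ∈ K → ‖YY t q‖ ≤ B := by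
    intro t q hq hqK
    refine (hBf t q hq hqK).trans ((le_abs_self _).trans ?_)
    exact Finset.single_le_sum (f := fun t => |Bf t|) (fun _ _ => abs_nonneg _)
      (Finset.mem_univ t)
  set L1 : ℝ≥0∞ := ENNReal.ofReal (N * (Fintype.card (Fin N) * B ^ 2)) *
    (Fintype.card (Fin N) : ℝ≥0∞) with hL1
  set L2 : ℝ≥0∞ := ENNReal.ofReal (N * (Fintype.card (Fin N ⊕ (Fin n × Fin N)) * B ^ 2)) *
    (Fintype.card (Fin N ⊕ (Fin n × Fin N)) : ℝ≥0∞) with hL2
  have hL1t : L1 ≠ ⊤ := ENNReal.mul_ne_top ENNReal.ofReal_ne_top (ENNReal.natCast_ne_top _)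
  have hL2t : L2 ≠ ⊤ := ENNReal.mul_ne_top ENNReal.ofReal_ne_top (ENNReal.natCast_ne_top _)
  obtain ⟨δ, hδ0, hδ⟩ := hdc_eps (ENNReal.add_ne_top.2 ⟨hL1t, hL2t⟩) hε
  have hδ1 : L1 * δ ^ 2 ≤ ε := le_trans (by gcongr; exact le_self_add) hδ
  have hδ2 : L2 * δ ^ 2 ≤ ε := le_trans (by gcongr; exact le_add_self) hδ
  -- the mollification
  obtain ⟨F, hF2, ⟨C', hC', hC'W, hFC'⟩, hFf, hFG, hFH⟩ := exists_mollification
    (ι := Fin n × Fin N) (T := Fin N ⊕ (Fin n × Fin n × Fin N)) f hf hC isOpen_interior hCK hfC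
    (fun t p j => Sum.elim (fun i => if p.2 = i ∧ p.1 = j then (1 : ℂ) else 0) (fun _ => 0) t)
    (fun t p l => Sum.elim (fun _ => 0) (fun t => if p.2 = t.2.2 then
      ((if p.1 = t.2.1 ∧ l = t.1 then (1 : ℂ) else 0) -
      (if p.1 = t.1 ∧ l = t.2.1 then (1 : ℂ) else 0)) else 0) t)
    (fun t => Sum.elim Gm (fun _ _ => 0) t) (fun t => Sum.elim (fun _ _ => 0) Hm t)
    (by
      rintro (i | t)
      · exact hGm i
      · exact MemLp.zero)
    (by
      rintro (i | t)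
      · exact MemLp.zero
      · exact hHm t)
    (by
      rintro (i | t) κ hκ -
      · simp only [Sum.elim_inl]
        rw [hdc_sumA (fun p j => ∫ z, f p z * dz j κ z) i]
        exact hdc_weak_D hC hCV hbC hgC hb hg hgw (hc i) hκ
      · simp)
    (by
      rintro (i | ⟨j, k, i⟩) κ hκ -
      · simp
      · simp only [Sum.elim_inr]
        rw [hdc_sumB (fun p j => ∫ z, f p z * dzb j κ z) j k i]
        exact hdc_weak_Db hC hCV (hbC j) (hbC k) (hsC j k) (hb j) (hb k) (hs j k)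
          (fun κ hκ => hsw κ hκ j k) (hc i) hκ)
    hδ0
  have hC'K : C' ⊆ K := hC'W.trans interior_subset
  have hCK' : C ⊆ K := hCK.trans interior_subset
  have hC'V : C' ⊆ S.V := hC'K.trans hKV
  have hFt : ∀ p, ∀ i : ℕ, S.IsTest (fun q => q.2 ^ i * F p q.1) := fun p i =>
    hdc_isTest (hF2 p) hC' hC'V (hFC' p) (hdc_holo_pow i)
  have hβC : ∀ j, S.CD 2 (fun q => ∑ i : Fin N, q.2 ^ (i : ℕ) * F (j, i) q.1) := fun j =>
    CD.sum _ fun i _ => (hFt (j, i) i).1
  have hβ0 : ∀ j, ∀ q : (Fin n → ℂ) × ℂ, q.1 ∉ C' →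
      ∑ i : Fin N, q.2 ^ (i : ℕ) * F (j, i) q.1 = 0 := by
    intro j q hq
    exact Finset.sum_eq_zero fun i _ => by rw [hFC' _ _ hq, mul_zero]
  have hDβ : ∀ j l, ∀ q ∈ S.M, S.D l (fun q => ∑ i : Fin N, q.2 ^ (i : ℕ) * F (j, i) q.1) q =
      ∑ i : Fin N, (S.D l (fun q => q.2 ^ (i : ℕ)) q * F (j, i) q.1 +
        q.2 ^ (i : ℕ) * dz l (F (j, i)) q.1) := by
    intro j l q hq
    rw [D_sum _ (fun i _ => (hFt (j, i) i).1.mono one_le_two) hq]
    exact Finset.sum_congr rfl fun i _ => hdc_D (hF2 _) (hdc_holo_pow _) hq l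
  have hDbβ : ∀ j l, ∀ q ∈ S.M, S.Db l (fun q => ∑ i : Fin N, q.2 ^ (i : ℕ) * F (j, i) q.1) q =
      ∑ i : Fin N, q.2 ^ (i : ℕ) * dzb l (F (j, i)) q.1 := by
    intro j l q hq
    rw [Db_sum _ (fun i _ => (hFt (j, i) i).1.mono one_le_two) hq]
    exact Finset.sum_congr rfl fun i _ => hdc_Db (hF2 _) (hdc_holo_pow _) hq l
  refine ⟨fun j q => ∑ i : Fin N, q.2 ^ (i : ℕ) * F (j, i) q.1, ?_, ?_, ?_, ?_, ?_⟩
  · exact fun j => ⟨hβC j, C', hC', hC'V, hβ0 j⟩
  · exact ⟨C', hC', hC'V, hβ0⟩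
  · -- the forms
    intro j
    refine le_trans (hdc_est (m := Fin N) (K := K) (B := B) (R := fun i z => F (j, i) z - f (j, i) z)
      (Y := fun i q => q.2 ^ (i : ℕ)) ?_ ?_ ?_ ?_ ?_ (δ := δ) ?_) hδ1
    · exact (aestronglyMeasurable_of_CD ((hβC j).mono (Nat.zero_le 2))).sub (hb j).1
    · exact fun i => (hF2 _).continuous.aestronglyMeasurable.sub (hf _).1
    · exact fun i => hB (Sum.inl i)
    · intro q _ hqK
      show ∑ i : Fin N, q.2 ^ (i : ℕ) * F (j, i) q.1 - b j q = 0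
      rw [hβ0 j q fun h => hqK (hC'K h), hbC j q fun h => hqK (hCK' h), sub_zero]
    · intro q hq _
      have h1 := hdc_recon hd (b j) hq
      rw [h1, ← Finset.sum_sub_distrib]
      refine Finset.sum_congr rfl fun i _ => ?_
      simp only [hf']
      ring
    · exact fun i => hFf (j, i)
  · -- the divergence
    refine le_trans (hdc_est (m := Fin N ⊕ (Fin n × Fin N)) (K := K) (B := B)
      (R := Sum.elim (fun i z => ∑ j, dz j (F (j, i)) z - Gm i z) (fun p z => F p z - f p z))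
      (Y := YY) ?_ ?_ hB ?_ ?_ (δ := δ) ?_) hδ2
    · refine AEStronglyMeasurable.sub ?_ hg.1
      refine aestronglyMeasurable_of_CD (CD.sum _ fun j _ => ?_)
      exact CD.D ((hβC j).mono one_le_two)
    · rintro (i | p)
      · refine AEStronglyMeasurable.sub ?_ (hGm i).1
        exact (continuous_finsetSum _ fun j _ => hdc_cont_dz (hF2 _) j).aestronglyMeasurable
      · exact (hF2 _).continuous.aestronglyMeasurable.sub (hf _).1
    · intro q hq hqK
      have hqC' : q.1 ∉ C' := fun h => hqK (hC'K h)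
      rw [hgC q fun h => hqK (hCK' h), sub_zero]
      refine Finset.sum_eq_zero fun j _ => ?_
      rw [hDβ j j q hq]
      refine Finset.sum_eq_zero fun i _ => ?_
      rw [hFC' _ _ hqC', hdc_dz_zero hC' (hFC' _) hqC', mul_zero, mul_zero, add_zero]
    · intro q hq _
      have h1 := hdc_recon hd g hq
      have h2 : ∑ j, ∑ i : Fin N, (S.fsum (fun q => b j q * S.D j (c i) q) q.1 * q.2 ^ (i : ℕ) +
          S.fsum (fun q => b j q * c i q) q.1 * S.D j (fun q => q.2 ^ (i : ℕ)) q) = 0 :=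
        Finset.sum_eq_zero fun j _ => hdc_zero hc hd (b j) hq j
      rw [Finset.sum_congr rfl fun j _ => hDβ j j q hq, Fintype.sum_sum_type,
        Fintype.sum_prod_type]
      simp only [Sum.elim_inl, Sum.elim_inr, hYY, hf', hGm']
      simp only [Finset.sum_add_distrib, sub_mul, add_mul, Finset.sum_sub_distrib,
        Finset.sum_mul] at h2 ⊢
      rw [h1]
      rw [Finset.sum_comm (f := fun (i : Fin N) (j : Fin n) => dz j (F (j, i)) q.1 * q.2 ^ (i : ℕ)),
        Finset.sum_comm (f := fun (i : Fin N) (j : Fin n) =>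
          S.fsum (fun q => b j q * S.D j (c i) q) q.1 * q.2 ^ (i : ℕ))]
      have h3 : ∑ j, ∑ i : Fin N, S.D j (fun q => q.2 ^ (i : ℕ)) q * F (j, i) q.1 =
          ∑ j, ∑ i : Fin N, F (j, i) q.1 * S.D j (fun q => q.2 ^ (i : ℕ)) q :=
        Finset.sum_congr rfl fun j _ => Finset.sum_congr rfl fun i _ => mul_comm _ _
      have h4 : ∑ j, ∑ i : Fin N, q.2 ^ (i : ℕ) * dz j (F (j, i)) q.1 =
          ∑ j, ∑ i : Fin N, dz j (F (j, i)) q.1 * q.2 ^ (i : ℕ) :=
        Finset.sum_congr rfl fun j _ => Finset.sum_congr rfl fun i _ => mul_comm _ _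
      rw [h3, h4]
      linear_combination h2
    · rintro (i | p)
      · have h1 := hFG (Sum.inl i)
        simp only [Sum.elim_inl] at h1 ⊢
        refine le_trans (le_of_eq ?_) h1
        congr 1
        funext z
        rw [hdc_sumA (fun p j => dz j (F p) z) i]
      · exact hFf p
  · -- the curl
    intro j k
    refine le_trans (hdc_est (m := Fin N) (K := K) (B := B)
      (R := fun i z => dzb j (F (k, i)) z - dzb k (F (j, i)) z - Hm (j, k, i) z)
      (Y := fun i q => q.2 ^ (i : ℕ)) ?_ ?_ ?_ ?_ ?_ (δ := δ) ?_) hδ1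
    · refine AEStronglyMeasurable.sub ?_ (hs j k).1
      refine AEStronglyMeasurable.sub ?_ ?_
      · exact aestronglyMeasurable_of_CD (CD.Db ((hβC k).mono one_le_two))
      · exact aestronglyMeasurable_of_CD (CD.Db ((hβC j).mono one_le_two))
    · intro i
      refine AEStronglyMeasurable.sub ?_ (hHm _).1
      exact ((hdc_cont_dzb (hF2 _) j).sub (hdc_cont_dzb (hF2 _) k)).aestronglyMeasurable
    · exact fun i => hB (Sum.inl i)
    · intro q hq hqK
      have hqC' : q.1 ∉ C' := fun h => hqK (hC'K h)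
      rw [hsC j k q fun h => hqK (hCK' h), sub_zero, hDbβ k j q hq, hDbβ j k q hq,
        ← Finset.sum_sub_distrib]
      refine Finset.sum_eq_zero fun i _ => ?_
      rw [hdc_dzb_zero hC' (hFC' _) hqC', hdc_dzb_zero hC' (hFC' _) hqC', mul_zero, sub_zero]
    · intro q hq _
      have h1 := hdc_recon hd (s j k) hq
      rw [h1, hDbβ k j q hq, hDbβ j k q hq, ← Finset.sum_sub_distrib, ← Finset.sum_sub_distrib]
      refine Finset.sum_congr rfl fun i _ => ?_
      simp only [hHm']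
      ring
    · intro i
      have h1 := hFH (Sum.inr (j, k, i))
      simp only [Sum.elim_inr] at h1
      refine le_trans (le_of_eq ?_) h1
      congr 1
      funext z
      rw [hdc_sumB (fun p j => dzb j (F p) z) j k i]

/-- Approximation for forms supported over a compact set. Here `g` is the weak value of
`∑ D_j b_j` and `s j k` is the weak value of `D̄_j b_k - D̄_k b_j`. -/
theorem exists_test_approx_compact (b : Fin n → (Fin n → ℂ) × ℂ → ℂ) (g : (Fin n → ℂ) × ℂ → ℂ)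
    (s : Fin n → Fin n → (Fin n → ℂ) × ℂ → ℂ) {C : Set (Fin n → ℂ)} (hC : IsCompact C)
    (hCV : C ⊆ S.V) (hbC : ∀ j, ∀ q : (Fin n → ℂ) × ℂ, q.1 ∉ C → b j q = 0)
    (hb : ∀ j, MemLp (b j) 2 S.μ) (hg : MemLp g 2 S.μ) (hs : ∀ j k, MemLp (s j k) 2 S.μ)
    (hgw : ∀ κ, S.IsTest κ → ∫ q, ∑ j, b j q * S.D j κ q ∂S.μ = - ∫ q, g q * κ q ∂S.μ)
    (hsw : ∀ κ, S.IsTest κ → ∀ j k, ∫ q, (b k q * S.Db j κ q - b j q * S.Db k κ q) ∂S.μ =
      - ∫ q, s j k q * κ q ∂S.μ) {ε : ℝ≥0∞} (hε : ε ≠ 0) :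
    ∃ β : Fin n → (Fin n → ℂ) × ℂ → ℂ, (∀ j, S.IsTest (β j)) ∧
      (∃ C' : Set (Fin n → ℂ), IsCompact C' ∧ C' ⊆ S.V ∧
        ∀ j, ∀ q : (Fin n → ℂ) × ℂ, q.1 ∉ C' → β j q = 0) ∧
      (∀ j, ∫⁻ q, ENNReal.ofReal (‖β j q - b j q‖ ^ 2) ∂S.μ ≤ ε) ∧
      ∫⁻ q, ENNReal.ofReal (‖∑ j, S.D j (β j) q - g q‖ ^ 2) ∂S.μ ≤ ε ∧
      ∀ j k, ∫⁻ q, ENNReal.ofReal (‖S.Db j (β k) q - S.Db k (β j) q - s j k q‖ ^ 2) ∂S.μ ≤ ε := by
  have hnear : ∀ {φ : (Fin n → ℂ) → ℂ}, Disjoint (tsupport φ) C → ∀ z ∈ C,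
      φ =ᶠ[𝓝 z] fun _ => 0 := by
    intro φ hφ z hz
    have hzφ : z ∉ tsupport φ := fun h => Set.disjoint_left.1 hφ h hz
    filter_upwards [(isClosed_tsupport φ).isOpen_compl.mem_nhds hzφ] with ζ hζ
    exact image_eq_zero_of_notMem_tsupport hζ
  have hgz : ∀ᵐ q ∂S.μ, q.1 ∉ C → g q = 0 := by
    refine hdc_vanish hg hC.isClosed fun φ Y hφ hφc hφV hφC hY => ?_
    have h1 := hgw _ (hdc_isTest hφ hφc hφV
      (fun z hz => image_eq_zero_of_notMem_tsupport hz) hY)
    have h2 : ∫ q, ∑ j, b j q * S.D j (fun q => Y q * φ q.1) q ∂S.μ = 0 := by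
      rw [← integral_zero ((Fin n → ℂ) × ℂ) ℂ (μ := S.μ)]
      refine integral_congr_ae ?_
      filter_upwards [ae_mem_M (S := S)] with q hq
      refine Finset.sum_eq_zero fun j _ => ?_
      by_cases hqC : q.1 ∈ C
      · have h3 := hnear hφC q.1 hqC
        rw [hdc_D hφ hY hq, dz_congr h3, dz_const, h3.self_of_nhds]
        simp
      · rw [hbC j q hqC, zero_mul]
    rw [h2] at h1
    exact neg_eq_zero.1 h1.symm
  have hsz : ∀ j k, ∀ᵐ q ∂S.μ, q.1 ∉ C → s j k q = 0 := by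
    intro j k
    refine hdc_vanish (hs j k) hC.isClosed fun φ Y hφ hφc hφV hφC hY => ?_
    have h1 := hsw _ (hdc_isTest hφ hφc hφV
      (fun z hz => image_eq_zero_of_notMem_tsupport hz) hY) j k
    have h2 : ∫ q, (b k q * S.Db j (fun q => Y q * φ q.1) q -
        b j q * S.Db k (fun q => Y q * φ q.1) q) ∂S.μ = 0 := by
      rw [← integral_zero ((Fin n → ℂ) × ℂ) ℂ (μ := S.μ)]
      refine integral_congr_ae ?_
      filter_upwards [ae_mem_M (S := S)] with q hq
      by_cases hqC : q.1 ∈ C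
      · have h3 := hnear hφC q.1 hqC
        rw [hdc_Db hφ hY hq, hdc_Db hφ hY hq, dzb_congr h3, dzb_congr h3, dzb_const, dzb_const]
        simp
      · rw [hbC j q hqC, hbC k q hqC, zero_mul, zero_mul, sub_zero]
    rw [h2] at h1
    exact neg_eq_zero.1 h1.symm
  set A : Set ((Fin n → ℂ) × ℂ) := {q | q.1 ∈ C} with hA
  have hAm : MeasurableSet A := hdc_meas_fst hC
  have hge : A.indicator g =ᵐ[S.μ] g := by
    filter_upwards [hgz] with q hq
    by_cases hqC : q.1 ∈ C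
    · exact Set.indicator_of_mem (by exact hqC) _
    · rw [Set.indicator_of_notMem (by exact hqC), hq hqC]
  have hse : ∀ j k, A.indicator (s j k) =ᵐ[S.μ] s j k := by
    intro j k
    filter_upwards [hsz j k] with q hq
    by_cases hqC : q.1 ∈ C
    · exact Set.indicator_of_mem (by exact hqC) _
    · rw [Set.indicator_of_notMem (by exact hqC), hq hqC]
  obtain ⟨β, h1, h2, h3, h4, h5⟩ := hdc_core b (A.indicator g) (fun j k => A.indicator (s j k)) hC
    hCV hbC (fun q hq => Set.indicator_of_notMem (by exact hq) _)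
    (fun j k q hq => Set.indicator_of_notMem (by exact hq) _) hb (hg.indicator hAm)
    (fun j k => (hs j k).indicator hAm)
    (fun κ hκ => by
      rw [hgw κ hκ]
      congr 1
      refine integral_congr_ae ?_
      filter_upwards [hge] with q hq
      rw [hq])
    (fun κ hκ j k => by
      rw [hsw κ hκ j k]
      congr 1
      refine integral_congr_ae ?_
      filter_upwards [hse j k] with q hq
      simp only [hq]) hε
  refine ⟨β, h1, h2, h3, ?_, ?_⟩
  · refine le_trans (le_of_eq ?_) h4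
    refine lintegral_congr_ae ?_
    filter_upwards [hge] with q hq
    rw [hq]
  · intro j k
    refine le_trans (le_of_eq ?_) (h5 j k)
    refine lintegral_congr_ae ?_
    filter_upwards [hse j k] with q hq
    simp only [hq]

end Sheets

end Vale.Agent.P282.L2
end

section

open MeasureTheory Filter Topology
open scoped ENNReal NNReal ComplexConjugate

namespace Vale.Agent.P282.L2

/-- Pairs of points. -/
abbrev Pairs (n : ℕ) : Type := ((Fin n → ℂ) × ℂ) × ((Fin n → ℂ) × ℂ)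

variable {n N : ℕ} {K : Type} [Field K] [Algebra ℂ K] [Algebra (Pol n) K]

namespace Prim

/-- `U` is an ultrafilter of pairs of distinct points of `M`, with the same `z`, near `x`. -/
structure IsPairs (E : Prim n K) (S : Sheets n N) (x : Pt n K) (U : Ultrafilter (Pairs n)) :
    Prop where
  fst : Tendsto Prod.fst (U : Filter (Pairs n)) (E.nhd S x)
  snd : Tendsto Prod.snd (U : Filter (Pairs n)) (E.nhd S x)
  ne : ∀ᶠ u in (U : Filter (Pairs n)), u.1.1 = u.2.1 ∧ u.1 ≠ u.2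

end Prim

end Vale.Agent.P282.L2
end

section

set_option linter.all false

open MeasureTheory Filter Topology
open scoped ENNReal NNReal ComplexConjugate

namespace Vale.Agent.P282.L2

variable {n N : ℕ} {K : Type} [Field K] [Algebra ℂ K] [Algebra (Pol n) K]
  [IsScalarTower ℂ (Pol n) K] [FaithfulSMul (Pol n) K]

namespace Prim

variable {E : Prim n K} {S : Sheets n N} {x : Pt n K} {U : Ultrafilter (Pairs n)}

/-- Evaluation at a point of `M`. -/
noncomputable def vnEv (hS : E.IsSheets S) {q : (Fin n → ℂ) × ℂ} (hq : q ∈ S.M) :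
    IB n K →+* ℂ where
  toFun b := E.ev (b : K) q
  map_one' := by
    have : ((1 : IB n K) : K) = 1 := rfl
    rw [this, ev_one hS hq]
  map_mul' a b := by
    have : ((a * b : IB n K) : K) = (a : K) * (b : K) := rfl
    rw [this, ev_mul hS hq (isReg_ib a) (isReg_ib b)]
  map_zero' := by
    have : ((0 : IB n K) : K) = 0 := rfl
    rw [this, ev_zero hS hq]
  map_add' a b := by
    have : ((a + b : IB n K) : K) = (a : K) + (b : K) := rfl
    rw [this, ev_add hS hq (isReg_ib a) (isReg_ib b)]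

theorem vnEv_apply (hS : E.IsSheets S) {q : (Fin n → ℂ) × ℂ} (hq : q ∈ S.M) (b : IB n K) :
    vnEv hS hq b = E.ev (b : K) q := rfl

theorem vnEv_alg (hS : E.IsSheets S) {q : (Fin n → ℂ) × ℂ} (hq : q ∈ S.M) (f : Pol n) :
    vnEv hS hq (algebraMap (Pol n) (IB n K) f) = MvPolynomial.eval q.1 f := by
  rw [vnEv_apply]
  exact ev_alg hS hq f

/-- The ideal of a point. -/
noncomputable abbrev vnI (n : ℕ) (K : Type) [Field K] [Algebra (Pol n) K] (z : Fin n → ℂ) :
    Ideal (IB n K) :=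
  Ideal.span (Set.range fun i : Fin n =>
        algebraMap (Pol n) (IB n K) (MvPolynomial.X i - MvPolynomial.C (z i)))

theorem vnEv_mem (hS : E.IsSheets S) {q : (Fin n → ℂ) × ℂ} (hq : q ∈ S.M) {b : IB n K}
    (hb : b ∈ vnI n K q.1) : vnEv hS hq b = 0 := by
  have h : vnI n K q.1 ≤ RingHom.ker (vnEv hS hq) := by
    rw [Ideal.span_le]
    rintro _ ⟨i, rfl⟩
    simp only [SetLike.mem_coe, RingHom.mem_ker]
    rw [vnEv_alg]
    simp
  exact (RingHom.mem_ker).1 (h hb)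

/-- Reduction modulo the ideal of a point. -/
theorem vn_mk_alg (z : Fin n → ℂ) (f : Pol n) :
    Ideal.Quotient.mk (vnI n K z) (algebraMap (Pol n) (IB n K) f)
      = Ideal.Quotient.mk (vnI n K z)
        (algebraMap (Pol n) (IB n K) (MvPolynomial.C (MvPolynomial.eval z f))) := by
  have h : ((Ideal.Quotient.mk (vnI n K z)).comp (algebraMap (Pol n) (IB n K)))
      = (((Ideal.Quotient.mk (vnI n K z)).comp (algebraMap (Pol n) (IB n K))).comp
          (MvPolynomial.C)).comp (MvPolynomial.eval z) := by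
    apply MvPolynomial.ringHom_ext
    · intro r
      simp
    · intro i
      simp only [RingHom.comp_apply, MvPolynomial.eval_X]
      rw [Ideal.Quotient.eq, ← map_sub]
      exact Ideal.subset_span ⟨i, rfl⟩
  exact RingHom.congr_fun h f

/-- The constants modulo the ideal of a point. -/
noncomputable def vnPsi (n : ℕ) (K : Type) [Field K] [Algebra (Pol n) K] (z : Fin n → ℂ) :
    ℂ →+* IB n K ⧸ vnI n K z :=
  ((Ideal.Quotient.mk (vnI n K z)).comp (algebraMap (Pol n) (IB n K))).comp (MvPolynomial.C)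

theorem vn_mk_aeval (z : Fin n → ℂ) (y : IB n K) (f : Polynomial (Pol n)) :
    Ideal.Quotient.mk (vnI n K z) (Polynomial.aeval y f)
      = Polynomial.eval₂RingHom (vnPsi n K z) (Ideal.Quotient.mk (vnI n K z) y)
        (f.map (MvPolynomial.eval z)) := by
  rw [Polynomial.aeval_def, Polynomial.hom_eval₂, Polynomial.coe_eval₂RingHom,
    Polynomial.eval₂_map]
  have h : (Ideal.Quotient.mk (vnI n K z)).comp (algebraMap (Pol n) (IB n K))
      = (vnPsi n K z).comp (MvPolynomial.eval z) :=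
    RingHom.ext fun g => vn_mk_alg z g
  rw [h]

theorem vn_algebraMap_injective : Function.Injective (algebraMap (IB n K) K) :=
  Subtype.val_injective

/-- `M → ℂⁿ` is unramified at `q`. -/
theorem exists_unram (hS : E.IsSheets S) {q : (Fin n → ℂ) × ℂ} (hq : q ∈ S.M) :
    ∃ e : IB n K, E.ev (e : K) q ≠ 0 ∧ ∀ b : IB n K, E.ev (b : K) q = 0 →
      e * b ∈ Ideal.span (Set.range fun i : Fin n =>
        algebraMap (Pol n) (IB n K) (MvPolynomial.X i - MvPolynomial.C (q.1 i))) := by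
  set yB : IB n K := ⟨E.y, E.integral⟩ with hyB
  have hyK : ((yB : IB n K) : K) = E.y := rfl
  have haev : ∀ f : Polynomial (Pol n), ((Polynomial.aeval yB f : IB n K) : K)
      = Polynomial.aeval E.y f := by
    intro f
    have := Polynomial.aeval_algebraMap_apply K yB f
    exact this.symm
  set p := minpoly (Pol n) E.y with hp
  have hh0 : MvPolynomial.eval q.1 E.h ≠ 0 := ev_h_ne_zero hS hq
  have hroot : (p.map (MvPolynomial.eval q.1)).eval q.2 = 0 := (hS.2 q.1 q.2).1 hq.2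
  obtain ⟨r, hr⟩ := Polynomial.dvd_iff_isRoot.2 hroot
  -- the root is simple
  have hder : ((Polynomial.derivative p).map (MvPolynomial.eval q.1)).eval q.2 ≠ 0 := by
    obtain ⟨f, hf⟩ := E.unram
    have h1 : E.ev _ q = E.ev _ q := congrArg (fun a => E.ev a q) hf
    rw [ev_mul hS hq (isReg_aeval f) (isReg_aeval _), ev_aeval hS hq, ev_aeval hS hq,
      ev_alg hS hq] at h1
    intro hc
    apply hh0
    rw [← h1]
    have : pev (Polynomial.derivative (minpoly (Pol n) E.y)) q = 0 := hc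
    rw [this, mul_zero]
  have hr0 : r.eval q.2 ≠ 0 := by
    intro hc
    apply hder
    rw [← Polynomial.derivative_map, hr, Polynomial.derivative_mul]
    simp [hc]
  set rr : Polynomial (Pol n) := r.map MvPolynomial.C with hrr
  have hrrmap : rr.map (MvPolynomial.eval q.1) = r := by
    rw [hrr, Polynomial.map_map]
    have : (MvPolynomial.eval q.1).comp (MvPolynomial.C (σ := Fin n) (R := ℂ)) = RingHom.id ℂ := by
      ext1 c
      simp
    rw [this, Polynomial.map_id]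
  set e : IB n K := algebraMap (Pol n) (IB n K) E.h * Polynomial.aeval yB rr with he
  refine ⟨e, ?_, ?_⟩
  · rw [← vnEv_apply hS hq, he, map_mul, vnEv_alg, vnEv_apply, haev, ev_aeval hS hq]
    apply mul_ne_zero hh0
    unfold pev
    rw [hrrmap]
    exact hr0
  · intro b hb
    obtain ⟨f, hf⟩ := E.denom (b : K) b.2
    have hfB : algebraMap (Pol n) (IB n K) E.h * b = Polynomial.aeval yB f := by
      apply vn_algebraMap_injective
      show ((algebraMap (Pol n) (IB n K) E.h * b : IB n K) : K)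
        = ((Polynomial.aeval yB f : IB n K) : K)
      rw [haev]
      exact hf
    have hfroot : (f.map (MvPolynomial.eval q.1)).IsRoot q.2 := by
      have h1 : vnEv hS hq _ = vnEv hS hq _ := congrArg (fun a => vnEv hS hq a) hfB
      rw [map_mul, vnEv_apply hS hq b, hb, mul_zero, vnEv_apply, haev, ev_aeval hS hq] at h1
      exact h1.symm
    obtain ⟨f1, hf1⟩ := Polynomial.dvd_iff_isRoot.2 hfroot
    have heb : e * b = Polynomial.aeval yB rr * Polynomial.aeval yB f := by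
      rw [he, ← hfB]
      ring
    rw [heb]
    change _ ∈ vnI n K q.1
    rw [← Ideal.Quotient.eq_zero_iff_mem, map_mul, vn_mk_aeval, vn_mk_aeval, hrrmap, hf1,
      map_mul, ← mul_assoc, ← map_mul, mul_comm r, ← hr, ← vn_mk_aeval]
    have h0 : Polynomial.aeval yB p = 0 := by
      apply vn_algebraMap_injective
      show ((Polynomial.aeval yB p : IB n K) : K) = ((0 : IB n K) : K)
      rw [haev, hp, minpoly.aeval]
      rfl
    rw [h0, map_zero, zero_mul]

theorem Van.ev_eq_zero (hS : E.IsSheets S) {q : (Fin n → ℂ) × ℂ} (hq : q ∈ S.M) {m : ℕ}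
    (hm : 0 < m) {b : IB n K} (hb : E.Van m q b) : E.ev (b : K) q = 0 := by
  obtain ⟨e, he, hmem⟩ := hb
  have h1 : e * b ∈ vnI n K q.1 := Ideal.pow_le_self hm.ne' hmem
  have h2 := vnEv_mem hS hq h1
  rw [map_mul, vnEv_apply, vnEv_apply] at h2
  rcases mul_eq_zero.1 h2 with h | h
  · exact absurd h he
  · exact h

/-- `b` is `O(|z - q|^m)` along the section `s` near `q`. -/
def vnO (E : Prim n K) (W : Set (Fin n → ℂ)) (s : (Fin n → ℂ) → ℂ) (z0 : Fin n → ℂ) (m : ℕ)
    (b : IB n K) : Prop :=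
  ∃ C r : ℝ, 0 ≤ C ∧ 0 < r ∧ Metric.ball z0 r ⊆ W ∧ ∀ z ∈ Metric.ball z0 r,
      ‖E.ev (b : K) (z, s z)‖ ≤ C * ‖z - z0‖ ^ m

theorem vn_mem_M {W : Set (Fin n → ℂ)} {s : (Fin n → ℂ) → ℂ} (hs : S.IsSection W s)
    {z : Fin n → ℂ} (hz : z ∈ W) : (z, s z) ∈ S.M :=
  ⟨hs.subset hz, hs.mem z hz⟩

theorem vnO_zero_pow (hS : E.IsSheets S) {W : Set (Fin n → ℂ)} {s : (Fin n → ℂ) → ℂ}
    (hs : S.IsSection W s) {z0 : Fin n → ℂ} (hW : z0 ∈ W) (b : IB n K) :
    vnO E W s z0 0 b := by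
  obtain ⟨C, k, hC, hb⟩ := ev_growth hS b
  obtain ⟨r, hr, hball⟩ := Metric.isOpen_iff.1 hs.isOpen z0 hW
  refine ⟨C * (1 + (‖z0‖ + r)) ^ k, r, by positivity, hr, hball, ?_⟩
  intro z hz
  rw [pow_zero, mul_one]
  refine le_trans (hb _ (vn_mem_M hs (hball hz))) ?_
  apply mul_le_mul_of_nonneg_left _ hC
  apply pow_le_pow_left₀ (by positivity)
  have h1 : ‖z‖ ≤ ‖z0‖ + r := by
    have : ‖z - z0‖ < r := by
      rw [← dist_eq_norm]
      exact hz
    calc ‖z‖ = ‖z0 + (z - z0)‖ := by congr 1; abel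
      _ ≤ ‖z0‖ + ‖z - z0‖ := norm_add_le _ _
      _ ≤ ‖z0‖ + r := by linarith
  simpa using h1

theorem vnO_mul (hS : E.IsSheets S) {W : Set (Fin n → ℂ)} {s : (Fin n → ℂ) → ℂ}
    (hs : S.IsSection W s) {z0 : Fin n → ℂ} {m k : ℕ} {a b : IB n K}
    (ha : vnO E W s z0 m a) (hb : vnO E W s z0 k b) : vnO E W s z0 (m + k) (a * b) := by
  obtain ⟨C, r, hC, hr, hball, h⟩ := ha
  obtain ⟨C', r', hC', hr', hball', h'⟩ := hb
  refine ⟨C * C', min r r', mul_nonneg hC hC', lt_min hr hr',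
    (Metric.ball_subset_ball (min_le_left _ _)).trans hball, ?_⟩
  intro z hz
  have hz1 := Metric.ball_subset_ball (min_le_left r r') hz
  have hz2 := Metric.ball_subset_ball (min_le_right r r') hz
  have e1 : E.ev ((a * b : IB n K) : K) (z, s z)
      = E.ev (a : K) (z, s z) * E.ev (b : K) (z, s z) := by
    rw [← vnEv_apply hS (vn_mem_M hs (hball hz1)), map_mul, vnEv_apply, vnEv_apply]
  rw [e1, norm_mul, pow_add]
  calc ‖E.ev (a : K) (z, s z)‖ * ‖E.ev (b : K) (z, s z)‖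
      ≤ (C * ‖z - z0‖ ^ m) * (C' * ‖z - z0‖ ^ k) :=
        mul_le_mul (h z hz1) (h' z hz2) (norm_nonneg _)
          (mul_nonneg hC (pow_nonneg (norm_nonneg _) _))
    _ = C * C' * (‖z - z0‖ ^ m * ‖z - z0‖ ^ k) := by ring

theorem vnO_add (hS : E.IsSheets S) {W : Set (Fin n → ℂ)} {s : (Fin n → ℂ) → ℂ}
    (hs : S.IsSection W s) {z0 : Fin n → ℂ} {m : ℕ} {a b : IB n K}
    (ha : vnO E W s z0 m a) (hb : vnO E W s z0 m b) : vnO E W s z0 m (a + b) := by
  obtain ⟨C, r, hC, hr, hball, h⟩ := ha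
  obtain ⟨C', r', hC', hr', hball', h'⟩ := hb
  refine ⟨C + C', min r r', add_nonneg hC hC', lt_min hr hr',
    (Metric.ball_subset_ball (min_le_left _ _)).trans hball, ?_⟩
  intro z hz
  have hz1 := Metric.ball_subset_ball (min_le_left r r') hz
  have hz2 := Metric.ball_subset_ball (min_le_right r r') hz
  have e1 : E.ev ((a + b : IB n K) : K) (z, s z)
      = E.ev (a : K) (z, s z) + E.ev (b : K) (z, s z) := by
    rw [← vnEv_apply hS (vn_mem_M hs (hball hz1)), map_add, vnEv_apply, vnEv_apply]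
  rw [e1, add_mul]
  exact (norm_add_le _ _).trans (add_le_add (h z hz1) (h' z hz2))

/-- The ideal of the `O(|z - q|^m)`. -/
noncomputable def vnJ (hS : E.IsSheets S) {W : Set (Fin n → ℂ)} {s : (Fin n → ℂ) → ℂ}
    (hs : S.IsSection W s) {z0 : Fin n → ℂ} (hW : z0 ∈ W) (m : ℕ) : Ideal (IB n K) where
  carrier := {b | vnO E W s z0 m b}
  add_mem' ha hb := vnO_add hS hs ha hb
  zero_mem' := by
    obtain ⟨r, hr, hball⟩ := Metric.isOpen_iff.1 hs.isOpen z0 hW
    refine ⟨0, r, le_refl _, hr, hball, ?_⟩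
    intro z hz
    rw [← vnEv_apply hS (vn_mem_M hs (hball hz)), map_zero, norm_zero, zero_mul]
  smul_mem' c b hb := by
    have := vnO_mul hS hs (vnO_zero_pow hS hs hW c) hb
    rw [zero_add] at this
    exact this

theorem vnI_pow_le (hS : E.IsSheets S) {W : Set (Fin n → ℂ)} {s : (Fin n → ℂ) → ℂ}
    (hs : S.IsSection W s) {z0 : Fin n → ℂ} (hW : z0 ∈ W) (m : ℕ) :
    (vnI n K z0) ^ m ≤ vnJ hS hs hW m := by
  induction m with
  | zero =>
    intro b _
    exact vnO_zero_pow hS hs hW b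
  | succ m ih =>
    rw [pow_succ, Ideal.mul_le]
    intro a ha b hb
    apply vnO_mul hS hs (ih ha)
    have h1 : vnI n K z0 ≤ vnJ hS hs hW 1 := by
      rw [Ideal.span_le]
      rintro _ ⟨i, rfl⟩
      obtain ⟨r, hr, hball⟩ := Metric.isOpen_iff.1 hs.isOpen z0 hW
      refine ⟨1, r, zero_le_one, hr, hball, ?_⟩
      intro z hz
      rw [← vnEv_apply hS (vn_mem_M hs (hball hz)), vnEv_alg, pow_one, one_mul, map_sub,
        MvPolynomial.eval_X, MvPolynomial.eval_C]
      exact norm_le_pi_norm (z - z0) i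
    exact h1 hb

/-- Local bound for functions vanishing to order `m`. -/
theorem Van.bound (hS : E.IsSheets S) {q : (Fin n → ℂ) × ℂ} (hq : q ∈ S.M) {m : ℕ}
    {b : IB n K} (hb : E.Van m q b) {W : Set (Fin n → ℂ)} {s : (Fin n → ℂ) → ℂ}
    (hs : S.IsSection W s) (hW : q.1 ∈ W) (hsq : s q.1 = q.2) :
    ∃ C r : ℝ, 0 < r ∧ Metric.ball q.1 r ⊆ W ∧ ∀ z ∈ Metric.ball q.1 r,
      ‖E.ev (b : K) (z, s z)‖ ≤ C * ‖z - q.1‖ ^ m := by
  obtain ⟨e, he, hmem⟩ := hb
  obtain ⟨C, r, hC, hr, hball, h⟩ := vnI_pow_le hS hs hW m hmem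
  have hcont : ContinuousOn (fun z => E.ev (e : K) (z, s z)) W :=
    (holo_ev hS (isReg_ib e) W s hs).continuousOn
  have hat : ContinuousAt (fun z => E.ev (e : K) (z, s z)) q.1 :=
    hcont.continuousAt (hs.isOpen.mem_nhds hW)
  have hq' : (q.1, s q.1) = q := by rw [hsq]
  have hval : 0 < ‖E.ev (e : K) (q.1, s q.1)‖ := by
    rw [hq']
    exact norm_pos_iff.2 he
  have hev : ∀ᶠ z in 𝓝 q.1, ‖E.ev (e : K) q‖ / 2 < ‖E.ev (e : K) (z, s z)‖ := by
    apply hat.norm.eventually_const_lt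
    simp only
    rw [hq'] at hval ⊢
    linarith
  obtain ⟨r', hr', hball'⟩ := Metric.eventually_nhds_iff_ball.1 hev
  set c := ‖E.ev (e : K) q‖ / 2 with hc
  have hcpos : 0 < c := by
    rw [hq'] at hval
    positivity
  refine ⟨C / c, min r r', lt_min hr hr',
    (Metric.ball_subset_ball (min_le_left _ _)).trans hball, ?_⟩
  intro z hz
  have hz1 := Metric.ball_subset_ball (min_le_left r r') hz
  have hz2 := Metric.ball_subset_ball (min_le_right r r') hz
  have e1 : E.ev ((e * b : IB n K) : K) (z, s z)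
      = E.ev (e : K) (z, s z) * E.ev (b : K) (z, s z) := by
    rw [← vnEv_apply hS (vn_mem_M hs (hball hz1)), map_mul, vnEv_apply, vnEv_apply]
  have h2 := h z hz1
  rw [e1, norm_mul] at h2
  have h3 := hball' z hz2
  have h4 : c * ‖E.ev (b : K) (z, s z)‖ ≤ C * ‖z - q.1‖ ^ m :=
    le_trans (mul_le_mul_of_nonneg_right h3.le (norm_nonneg _)) h2
  rw [div_mul_eq_mul_div, le_div_iff₀ hcpos]
  linarith [mul_comm c ‖E.ev (b : K) (z, s z)‖]

theorem vn_smul (c : ℂ) (b : IB n K) :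
    c • b = algebraMap (Pol n) (IB n K) (MvPolynomial.C c) * b := by
  apply Subtype.ext
  show c • (b : K) = algebraMap (Pol n) K (MvPolynomial.C c) * (b : K)
  rw [Algebra.smul_def, IsScalarTower.algebraMap_apply ℂ (Pol n) K]
  rfl

/-- The generators. -/
noncomputable def vnG (e : IB n K) (z : Fin n → ℂ) : Option (Fin n) → IB n K
  | none => e
  | some i => algebraMap (Pol n) (IB n K) (MvPolynomial.X i - MvPolynomial.C (z i))

/-- The monomials. -/
noncomputable def vnMon (e : IB n K) (z : Fin n → ℂ) (k : ℕ) (s : Sym (Option (Fin n)) k) :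
    IB n K :=
  e * (Multiset.map (vnG e z) (s : Multiset (Option (Fin n)))).prod

theorem vnMon_mul {e : IB n K} {z : Fin n → ℂ} {k : ℕ} (i : Fin n) {v : IB n K}
    (hv : v ∈ Submodule.span ℂ (Set.range (vnMon e z k))) :
    vnG e z (some i) * v ∈ Submodule.span ℂ (Set.range (vnMon e z (k + 1))) := by
  induction hv using Submodule.span_induction with
  | mem v h =>
    obtain ⟨s, rfl⟩ := h
    apply Submodule.subset_span
    refine ⟨some i ::ₛ s, ?_⟩
    unfold vnMon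
    rw [Sym.coe_cons, Multiset.map_cons, Multiset.prod_cons]
    ring
  | zero => rw [mul_zero]; exact Submodule.zero_mem _
  | add a b _ _ ha hb => rw [mul_add]; exact Submodule.add_mem _ ha hb
  | smul c a _ ha => rw [mul_smul_comm]; exact Submodule.smul_mem _ _ ha

theorem vn_exp (hS : E.IsSheets S) {q : (Fin n → ℂ) × ℂ} (hq : q ∈ S.M) {e : IB n K}
    (he : ∀ b : IB n K, E.ev (b : K) q = 0 → e * b ∈ vnI n K q.1) (k : ℕ) :
    ∀ b : IB n K, ∃ v ∈ Submodule.span ℂ (Set.range (vnMon e q.1 k)),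
      e ^ (k + 1) * b - v ∈ (vnI n K q.1) ^ (k + 1) := by
  have hred : ∀ b : IB n K,
      e * (b - algebraMap (Pol n) (IB n K) (MvPolynomial.C (vnEv hS hq b))) ∈ vnI n K q.1 := by
    intro b
    apply he
    rw [← vnEv_apply hS hq, map_sub, vnEv_alg, MvPolynomial.eval_C, sub_self]
  induction k with
  | zero =>
    intro b
    refine ⟨(vnEv hS hq b) • vnMon e q.1 0 Sym.nil,
      Submodule.smul_mem _ _ (Submodule.subset_span ⟨_, rfl⟩), ?_⟩
    have h1 := hred b
    rw [vn_smul]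
    unfold vnMon
    rw [Sym.coe_nil, Multiset.map_zero, Multiset.prod_zero, zero_add, pow_one, pow_one]
    have h2 : e * b - algebraMap (Pol n) (IB n K) (MvPolynomial.C (vnEv hS hq b)) * (e * 1)
        = e * (b - algebraMap (Pol n) (IB n K) (MvPolynomial.C (vnEv hS hq b))) := by ring
    rw [h2]
    exact h1
  | succ k ih =>
    intro b
    obtain ⟨β, hβ⟩ := Ideal.mem_span_range_iff_exists_fun.1 (hred b)
    choose v hv hmem using fun i => ih (β i)
    refine ⟨(vnEv hS hq b) • vnMon e q.1 (k + 1) (Sym.replicate (k + 1) none)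
      + ∑ i, vnG e q.1 (some i) * v i, ?_, ?_⟩
    · apply Submodule.add_mem
      · exact Submodule.smul_mem _ _ (Submodule.subset_span ⟨_, rfl⟩)
      · exact Submodule.sum_mem _ fun i _ => vnMon_mul i (hv i)
    · have h1 : vnMon e q.1 (k + 1) (Sym.replicate (k + 1) none) = e * e ^ (k + 1) := by
        unfold vnMon
        rw [Sym.coe_replicate, Multiset.map_replicate, Multiset.prod_replicate]
        rfl
      have h2 : e ^ (k + 1 + 1) * b
          - ((vnEv hS hq b) • vnMon e q.1 (k + 1) (Sym.replicate (k + 1) none)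
            + ∑ i, vnG e q.1 (some i) * v i)
          = ∑ i, (e ^ (k + 1) * β i - v i) * vnG e q.1 (some i) := by
        have h3 : ∑ i, (e ^ (k + 1) * β i - v i) * vnG e q.1 (some i)
            = e ^ (k + 1) * (∑ i, β i * vnG e q.1 (some i)) - ∑ i, vnG e q.1 (some i) * v i := by
          rw [Finset.mul_sum, ← Finset.sum_sub_distrib]
          apply Finset.sum_congr rfl
          intro i _
          ring
        have h4 : ∑ i, β i * vnG e q.1 (some i)
            = e * (b - algebraMap (Pol n) (IB n K) (MvPolynomial.C (vnEv hS hq b))) := hβ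
        rw [h3, h4, h1, vn_smul]
        ring
      rw [h2]
      apply Ideal.sum_mem
      intro i _
      rw [pow_succ (vnI n K q.1) (k + 1)]
      exact Ideal.mul_mem_mul (hmem i) (Ideal.subset_span ⟨i, rfl⟩)

theorem vn_lin {V : Type*} [AddCommGroup V] [Module ℂ V] {ι₁ ι₂ : Type*} [Fintype ι₁] [Fintype ι₂]
    (g₁ : ι₁ → V) (g₂ : ι₂ → V) {D : ℕ} (hD : Fintype.card ι₁ + Fintype.card ι₂ < D)
    (v₁ v₂ : Fin D → V) (h₁ : ∀ l, v₁ l ∈ Submodule.span ℂ (Set.range g₁))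
    (h₂ : ∀ l, v₂ l ∈ Submodule.span ℂ (Set.range g₂)) :
    ∃ c : Fin D → ℂ, c ≠ 0 ∧ ∑ l, c l • v₁ l = 0 ∧ ∑ l, c l • v₂ l = 0 := by
  choose a ha using fun l => (Submodule.mem_span_range_iff_exists_fun ℂ).1 (h₁ l)
  choose b hb using fun l => (Submodule.mem_span_range_iff_exists_fun ℂ).1 (h₂ l)
  let L : (Fin D → ℂ) →ₗ[ℂ] (ι₁ → ℂ) × (ι₂ → ℂ) :=
    (Fintype.linearCombination ℂ a).prod (Fintype.linearCombination ℂ b)
  have hlt : Module.finrank ℂ ((ι₁ → ℂ) × (ι₂ → ℂ)) < Module.finrank ℂ (Fin D → ℂ) := by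
    rw [Module.finrank_prod, Module.finrank_fin_fun, Module.finrank_fintype_fun_eq_card,
      Module.finrank_fintype_fun_eq_card]
    exact hD
  have hker := LinearMap.ker_ne_bot_of_finrank_lt (f := L) hlt
  obtain ⟨c, hc, hc0⟩ := Submodule.exists_mem_ne_zero_of_ne_bot hker
  rw [LinearMap.mem_ker] at hc
  have hc₁ : ∑ l, c l • a l = 0 := congrArg Prod.fst hc
  have hc₂ : ∑ l, c l • b l = 0 := congrArg Prod.snd hc
  refine ⟨c, hc0, ?_, ?_⟩
  · have : ∑ l, c l • v₁ l = ∑ i, (∑ l, c l • a l) i • g₁ i := by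
      simp only [← ha, Finset.smul_sum, Finset.sum_apply, Finset.sum_smul, Pi.smul_apply,
        smul_eq_mul, mul_smul]
      rw [Finset.sum_comm]
    rw [this, hc₁]
    simp
  · have : ∑ l, c l • v₂ l = ∑ i, (∑ l, c l • b l) i • g₂ i := by
      simp only [← hb, Finset.smul_sum, Finset.sum_apply, Finset.sum_smul, Pi.smul_apply,
        smul_eq_mul, mul_smul]
      rw [Finset.sum_comm]
    rw [this, hc₂]
    simp

theorem vn_card (n k : ℕ) : Fintype.card (Sym (Option (Fin n)) k) = Nat.choose (n + k) n := by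
  rw [Sym.card_sym_eq_choose, Fintype.card_option, Fintype.card_fin]
  have : n + 1 + k - 1 = n + k := by omega
  rw [this, Nat.choose_symm_add]

theorem van_zero (hS : E.IsSheets S) {q : (Fin n → ℂ) × ℂ} (hq : q ∈ S.M) (b : IB n K) :
    E.Van 0 q b := by
  refine ⟨1, ?_, ?_⟩
  · rw [← vnEv_apply hS hq, map_one]
    exact one_ne_zero
  · rw [pow_zero, Ideal.one_eq_top]
    exact Submodule.mem_top

/-- Vanishing to order `m` at two points is `2 * choose (n + m - 1) n` linear conditions. -/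
theorem exists_van_comb (hS : E.IsSheets S) {m D : ℕ} (hD : 2 * Nat.choose (n + m - 1) n < D)
    {q₁ q₂ : (Fin n → ℂ) × ℂ} (h₁ : q₁ ∈ S.M) (h₂ : q₂ ∈ S.M) (f : Fin D → IB n K) :
    ∃ c : Fin D → ℂ, c ≠ 0 ∧
      E.Van m q₁ (∑ l, algebraMap (Pol n) (IB n K) (MvPolynomial.C (c l)) * f l) ∧
      E.Van m q₂ (∑ l, algebraMap (Pol n) (IB n K) (MvPolynomial.C (c l)) * f l) := by
  rcases m with _ | k
  · refine ⟨fun _ => 1, ?_, van_zero hS h₁ _, van_zero hS h₂ _⟩
    intro hc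
    have := congrFun hc ⟨0, by omega⟩
    exact one_ne_zero this
  · obtain ⟨e₁, he₁, hu₁⟩ := exists_unram hS h₁
    obtain ⟨e₂, he₂, hu₂⟩ := exists_unram hS h₂
    choose v₁ hv₁ hm₁ using fun l => vn_exp hS h₁ hu₁ k (f l)
    choose v₂ hv₂ hm₂ using fun l => vn_exp hS h₂ hu₂ k (f l)
    obtain ⟨c, hc0, hc₁, hc₂⟩ := vn_lin (vnMon e₁ q₁.1 k) (vnMon e₂ q₂.1 k) (D := D) (by
      rw [vn_card]
      have h3 : n + (k + 1) - 1 = n + k := by omega
      rw [h3] at hD
      omega) v₁ v₂ hv₁ hv₂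
    have key : ∀ (q : (Fin n → ℂ) × ℂ) (hq : q ∈ S.M) (e : IB n K), E.ev (e : K) q ≠ 0 →
        ∀ v : Fin D → IB n K, ∑ l, c l • v l = 0 →
        (∀ l, e ^ (k + 1) * f l - v l ∈ (vnI n K q.1) ^ (k + 1)) →
        E.Van (k + 1) q (∑ l, algebraMap (Pol n) (IB n K) (MvPolynomial.C (c l)) * f l) := by
      intro q hq e he v hv hm
      refine ⟨e ^ (k + 1), ?_, ?_⟩
      · rw [← vnEv_apply hS hq, map_pow]
        exact pow_ne_zero _ he
      · have h1 : e ^ (k + 1) * ∑ l, algebraMap (Pol n) (IB n K) (MvPolynomial.C (c l)) * f l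
            = ∑ l, algebraMap (Pol n) (IB n K) (MvPolynomial.C (c l))
                * (e ^ (k + 1) * f l - v l) := by
          have h2 : ∑ l, algebraMap (Pol n) (IB n K) (MvPolynomial.C (c l)) * v l = 0 := by
            rw [← hv]
            apply Finset.sum_congr rfl
            intro l _
            rw [vn_smul]
          rw [Finset.mul_sum, ← sub_zero (∑ l, e ^ (k + 1) *
            (algebraMap (Pol n) (IB n K) (MvPolynomial.C (c l)) * f l)), ← h2,
            ← Finset.sum_sub_distrib]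
          apply Finset.sum_congr rfl
          intro l _
          ring
        rw [h1]
        apply Ideal.sum_mem
        intro l _
        exact Ideal.mul_mem_left _ _ (hm l)
    exact ⟨c, hc0, key q₁ h₁ e₁ he₁ v₁ hc₁ hm₁, key q₂ h₂ e₂ he₂ v₂ hc₂ hm₂⟩

end Prim

end Vale.Agent.P282.L2
end

section

open MeasureTheory Filter Topology
open scoped ENNReal NNReal ComplexConjugate

namespace Vale.Agent.P282.L2

variable {n N : ℕ}

/-- The real determinant of a complex linear map. -/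
theorem det_restrictScalars_complex (A : (Fin n → ℂ) →L[ℂ] (Fin n → ℂ)) :
    LinearMap.det ((A.restrictScalars ℝ : (Fin n → ℂ) →L[ℝ] (Fin n → ℂ)) :
      (Fin n → ℂ) →ₗ[ℝ] (Fin n → ℂ)) =
      ‖LinearMap.det (A : (Fin n → ℂ) →ₗ[ℂ] (Fin n → ℂ))‖ ^ 2 := by
  have h1 := LinearMap.det_restrictScalars (R := ℝ) (S := ℂ)
    (f := (A : (Fin n → ℂ) →ₗ[ℂ] (Fin n → ℂ)))
  rw [Algebra.norm_complex_apply, Complex.normSq_eq_norm_sq] at h1
  exact h1

/-- Area formula for injective holomorphic maps. -/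
theorem lintegral_area_inj {W : Set (Fin n → ℂ)} (hW : MeasurableSet W)
    {f : (Fin n → ℂ) → (Fin n → ℂ)} {A : (Fin n → ℂ) → (Fin n → ℂ) →L[ℂ] (Fin n → ℂ)}
    (hf : ∀ z ∈ W, HasFDerivAt f (A z) z) (hinj : Set.InjOn f W)
    {Ψ : (Fin n → ℂ) → ℝ≥0∞} (hΨ : Measurable Ψ) :
    ∫⁻ z in W, Ψ (f z) * ENNReal.ofReal
      (‖LinearMap.det (A z : (Fin n → ℂ) →ₗ[ℂ] (Fin n → ℂ))‖ ^ 2) = ∫⁻ ζ in f '' W, Ψ ζ := by
  have h1 := MeasureTheory.lintegral_image_eq_lintegral_abs_det_fderiv_mul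
    (volume : Measure (Fin n → ℂ)) hW
    (f := f) (f' := fun z => (A z).restrictScalars ℝ)
    (fun z hz => ((hf z hz).restrictScalars ℝ).hasFDerivWithinAt) hinj Ψ
  rw [h1]
  refine setLIntegral_congr_fun hW fun z _ => ?_
  have h2 : |((A z).restrictScalars ℝ).det| =
      ‖LinearMap.det (A z : (Fin n → ℂ) →ₗ[ℂ] (Fin n → ℂ))‖ ^ 2 := by
    have h3 := det_restrictScalars_complex (A z)
    rw [ContinuousLinearMap.det, h3, abs_of_nonneg (sq_nonneg _)]
  rw [h2, mul_comm]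

end Vale.Agent.P282.L2
end

section

open MeasureTheory Filter Topology
open scoped ENNReal NNReal ComplexConjugate

namespace Vale.Agent.P282.L2

variable {n : ℕ}

lemma cov_pev_eq (f : Polynomial (Pol n)) (q : (Fin n → ℂ) × ℂ) :
    pev f q = ∑ i ∈ Finset.range (f.natDegree + 1), MvPolynomial.eval q.1 (f.coeff i) * q.2 ^ i := by
  unfold pev
  rw [Polynomial.eval_map, Polynomial.eval₂_eq_sum_range]

lemma cov_contDiff_eval (g : Pol n) : ContDiff ℂ 1 (fun z : Fin n → ℂ => MvPolynomial.eval z g) := by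
  induction g using MvPolynomial.induction_on with
  | C a => simpa using contDiff_const
  | add p q hp hq => simpa using hp.add hq
  | mul_X p i hp => simpa using hp.mul (contDiff_apply ℂ ℂ i)

lemma cov_contDiff (f : Polynomial (Pol n)) : ContDiff ℂ 1 (pev f) := by
  have h : pev f = fun q : (Fin n → ℂ) × ℂ =>
      ∑ i ∈ Finset.range (f.natDegree + 1), MvPolynomial.eval q.1 (f.coeff i) * q.2 ^ i :=
    funext (cov_pev_eq f)
  rw [h]
  exact ContDiff.sum fun i _ =>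
    ((cov_contDiff_eval (f.coeff i)).comp contDiff_fst).mul (contDiff_snd.pow i)

lemma cov_fderiv (f : Polynomial (Pol n)) (z : Fin n → ℂ) (w : ℂ)
    (h : ((f.map (MvPolynomial.eval z)).derivative).eval w ≠ 0) :
    (fderiv ℂ (pev f) (z, w) ∘L .inr ℂ (Fin n → ℂ) ℂ).IsInvertible := by
  have h1 : HasFDerivAt (pev f) (fderiv ℂ (pev f) (z, w)) (z, w) :=
    ((cov_contDiff f).differentiable (by norm_num)).differentiableAt.hasFDerivAt
  have h2 : HasFDerivAt (fun t : ℂ => (z, t)) (ContinuousLinearMap.inr ℂ (Fin n → ℂ) ℂ) w :=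
    hasFDerivAt_prodMk_right z w
  have h3 : HasFDerivAt (fun t : ℂ => pev f (z, t))
      (fderiv ℂ (pev f) (z, w) ∘L .inr ℂ (Fin n → ℂ) ℂ) w := h1.comp w h2
  have h4 : HasDerivAt (fun t : ℂ => pev f (z, t))
      (((f.map (MvPolynomial.eval z)).derivative).eval w) w :=
    (f.map (MvPolynomial.eval z)).hasDerivAt w
  refine ⟨ContinuousLinearEquiv.unitsEquivAut ℂ (Units.mk0 _ h), ?_⟩
  rw [h3.unique h4.hasFDerivAt]
  ext
  simp

variable {K : Type} [Field K] [Algebra ℂ K] [Algebra (Pol n) K]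
  [IsScalarTower ℂ (Pol n) K] [FaithfulSMul (Pol n) K]

omit [IsScalarTower ℂ (Pol n) K] in
lemma Prim.cov_simple (E : Prim n K) {z : Fin n → ℂ} (hz : MvPolynomial.eval z E.h ≠ 0) {w : ℂ}
    (hw : ((minpoly (Pol n) E.y).map (MvPolynomial.eval z)).eval w = 0) :
    (((minpoly (Pol n) E.y).map (MvPolynomial.eval z)).derivative).eval w ≠ 0 := by
  obtain ⟨f, hf⟩ := E.unram
  have h1 : minpoly (Pol n) E.y ∣
      f * Polynomial.derivative (minpoly (Pol n) E.y) - Polynomial.C E.h := by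
    apply minpoly.isIntegrallyClosed_dvd E.integral
    rw [map_sub, map_mul, hf, Polynomial.aeval_C, sub_self]
  obtain ⟨g, hg⟩ := h1
  intro h0
  apply hz
  have h2 := congrArg (fun t : Polynomial (Pol n) => (t.map (MvPolynomial.eval z)).eval w) hg
  simp only [Polynomial.map_sub, Polynomial.map_mul, Polynomial.map_C, Polynomial.eval_sub,
    Polynomial.eval_mul, Polynomial.eval_C, hw, zero_mul] at h2
  rw [← Polynomial.derivative_map, h0, mul_zero, zero_sub, neg_eq_zero] at h2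
  exact h2

omit [IsScalarTower ℂ (Pol n) K] in
lemma Prim.cov_card (E : Prim n K) {z : Fin n → ℂ} (hz : MvPolynomial.eval z E.h ≠ 0) :
    ((minpoly (Pol n) E.y).map (MvPolynomial.eval z)).roots.toFinset.card =
      (minpoly (Pol n) E.y).natDegree := by
  have hm : ((minpoly (Pol n) E.y).map (MvPolynomial.eval z)).Monic :=
    (minpoly.monic E.integral).map _
  have hnd : ((minpoly (Pol n) E.y).map (MvPolynomial.eval z)).roots.Nodup := by
    rw [Multiset.nodup_iff_count_le_one]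
    intro w
    rw [Polynomial.count_roots]
    by_contra hlt
    push Not at hlt
    have h1 : ((minpoly (Pol n) E.y).map (MvPolynomial.eval z)).eval w = 0 := by
      have : 0 < ((minpoly (Pol n) E.y).map (MvPolynomial.eval z)).rootMultiplicity w := by omega
      exact (Polynomial.rootMultiplicity_pos hm.ne_zero).1 this
    exact E.cov_simple hz h1
      (((Polynomial.one_lt_rootMultiplicity_iff_isRoot hm.ne_zero).1 hlt).2)
  rw [Multiset.toFinset_card_of_nodup hnd]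
  have h2 := (IsAlgClosed.splits ((minpoly (Pol n) E.y).map (MvPolynomial.eval z))).natDegree_eq_card_roots
  rw [← h2]
  exact (minpoly.monic E.integral).natDegree_map _

/-- The finite étale cover attached to `E`. -/
theorem Prim.exists_sheets (E : Prim n K) :
    ∃ S : Sheets n (minpoly (Pol n) E.y).natDegree, E.IsSheets S := by
  have hmem : ∀ z w, w ∈ ((minpoly (Pol n) E.y).map (MvPolynomial.eval z)).roots.toFinset ↔
      ((minpoly (Pol n) E.y).map (MvPolynomial.eval z)).eval w = 0 := by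
    intro z w
    have hm : ((minpoly (Pol n) E.y).map (MvPolynomial.eval z)).Monic :=
      (minpoly.monic E.integral).map _
    rw [Multiset.mem_toFinset, Polynomial.mem_roots hm.ne_zero]
    rfl
  have hopen : IsOpen {z : Fin n → ℂ | MvPolynomial.eval z E.h ≠ 0} :=
    isOpen_ne_fun (cov_contDiff_eval E.h).continuous continuous_const
  refine ⟨⟨{z | MvPolynomial.eval z E.h ≠ 0},
    fun z => ((minpoly (Pol n) E.y).map (MvPolynomial.eval z)).roots.toFinset, hopen, ?_⟩,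
    fun z => Iff.rfl, fun z w => hmem z w⟩
  intro z₀ hz₀
  set N := (minpoly (Pol n) E.y).natDegree with hN
  set p := minpoly (Pol n) E.y with hp
  have hcard := E.cov_card hz₀
  let e : ((p.map (MvPolynomial.eval z₀)).roots.toFinset) ≃ Fin N :=
    (Finset.equivFin _).trans (finCongr hcard)
  let w : Fin N → ℂ := fun i => (e.symm i : ℂ)
  have hw : ∀ i, (p.map (MvPolynomial.eval z₀)).eval (w i) = 0 := fun i =>
    (hmem z₀ _).1 (e.symm i).2
  have hwi : Function.Injective w := fun i j h => e.symm.injective (Subtype.ext h)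
  have hcd : ∀ i, ContDiffAt ℂ 1 (pev p) (z₀, w i) := fun i => (cov_contDiff p).contDiffAt
  have hinv : ∀ i, (fderiv ℂ (pev p) (z₀, w i) ∘L .inr ℂ (Fin n → ℂ) ℂ).IsInvertible := fun i =>
    cov_fderiv p z₀ (w i) (E.cov_simple hz₀ (hw i))
  let s : Fin N → (Fin n → ℂ) → ℂ := fun i =>
    (hcd i).implicitFunction one_ne_zero (hinv i)
  have hs0 : ∀ i, s i z₀ = w i := fun i =>
    (hcd i).implicitFunction_apply_self one_ne_zero (hinv i)
  have hs1 : ∀ i, ContDiffAt ℂ 1 (s i) z₀ := fun i =>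
    (hcd i).contDiffAt_implicitFunction one_ne_zero (hinv i)
  have hev1 : ∀ᶠ z in 𝓝 z₀, ∀ i, pev p (z, s i z) = 0 := by
    rw [eventually_all]
    intro i
    filter_upwards [(hcd i).eventually_apply_implicitFunction one_ne_zero (hinv i)] with z hz
    exact hz.trans (hw i)
  have hev2 : ∀ᶠ z in 𝓝 z₀, ∀ i, ContDiffAt ℂ 1 (s i) z := by
    rw [eventually_all]
    intro i
    exact (hs1 i).eventually (by simp)
  have hev3 : ∀ᶠ z in 𝓝 z₀, ∀ i j, i ≠ j → s i z ≠ s j z := by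
    rw [eventually_all]
    intro i
    rw [eventually_all]
    intro j
    by_cases hij : i = j
    · exact Filter.Eventually.of_forall fun z h => absurd hij h
    · have h0 : s i z₀ ≠ s j z₀ := by
        rw [hs0, hs0]
        exact fun h => hij (hwi h)
      have h := ((hs1 i).continuousAt.sub (hs1 j).continuousAt).eventually_ne (sub_ne_zero.2 h0)
      filter_upwards [h] with z hz _ he
      exact hz (sub_eq_zero.2 he)
  have hev4 : ∀ᶠ z in 𝓝 z₀, MvPolynomial.eval z E.h ≠ 0 := hopen.mem_nhds hz₀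
  obtain ⟨W, hW, hWo, hzW⟩ := eventually_nhds_iff.1 (hev1.and (hev2.and (hev3.and hev4)))
  refine ⟨W, s, hWo, hzW, fun z hz => (hW z hz).2.2.2, fun i z hz =>
    ((hW z hz).2.1 i).differentiableAt one_ne_zero |>.differentiableWithinAt, fun z hz => ?_⟩
  obtain ⟨h1, -, h3, h4⟩ := hW z hz
  have hinj : Function.Injective (fun i => s i z) := fun i j h => by
    by_contra hij
    exact h3 i j hij h
  refine ⟨hinj, ?_⟩
  symm
  apply Finset.eq_of_subset_of_card_le
  · intro t ht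
    obtain ⟨i, -, rfl⟩ := Finset.mem_image.1 ht
    exact (hmem z _).2 (h1 i)
  · rw [Finset.card_image_of_injective _ hinj, Finset.card_univ, Fintype.card_fin]
    exact (E.cov_card h4).le

end Vale.Agent.P282.L2
end

section

/-!
P282, equality case: hypersurface structures.
-/

open MeasureTheory Filter Topology

namespace Vale.Agent.P282.EQ

open Vale.Agent.P282.L2

variable {n N : ℕ} {K : Type} [Field K] [Algebra ℂ K] [Algebra (Pol n) K]
  [IsScalarTower ℂ (Pol n) K] [FaithfulSMul (Pol n) K]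
  [Algebra (FractionRing (Pol n)) K] [IsScalarTower (Pol n) (FractionRing (Pol n)) K]
  [FiniteDimensional (FractionRing (Pol n)) K]

/-- The local ring at `x` is the hypersurface `F(u) = 0`, where `u₁, …, uₙ` are linear coordinates
of the base. -/
structure Hyp (x : Pt n K) (J : K) (u : Fin (n + 1) → IB n K)
    (F : MvPolynomial (Fin (n + 1)) ℂ) : Prop where
  lin : ∃ L : Matrix (Fin n) (Fin n) ℂ, L.det ≠ 0 ∧ ∀ i : Fin n, u i.succ =
    algebraMap (Pol n) (IB n K) (∑ j, MvPolynomial.C (L i j) * MvPolynomial.X j)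
  zero : x.toFun (u 0) = 0
  sep : ∀ x' : Pt n K, x'.toFun (u 0) = 0 → x'.toFun = x.toFun
  eq : MvPolynomial.aeval u F = 0
  ker : ∀ G : MvPolynomial (Fin (n + 1)) ℂ, MvPolynomial.aeval u G = 0 → F ∣ G
  loc : ∀ b : IB n K, ∃ s a : MvPolynomial (Fin (n + 1)) ℂ, x.toFun (MvPolynomial.aeval u s) ≠ 0 ∧
    MvPolynomial.aeval u s * b = MvPolynomial.aeval u a
  jac : ∃ s c : IB n K, x.toFun s ≠ 0 ∧
    (s : K) * J = (c : K) * (MvPolynomial.aeval u (MvPolynomial.pderiv 0 F) : IB n K)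

/-- The standard coordinates. -/
noncomputable def stdCoord (y : IB n K) : Fin (n + 1) → IB n K :=
  Fin.cons y fun i => algebraMap (Pol n) (IB n K) (MvPolynomial.X i)

/-- The weighted ideals. -/
noncomputable def wIdeal (u : Fin (n + 1) → IB n K) (W : Fin (n + 1) → ℕ) (k : ℕ) : Ideal (IB n K) :=
  Ideal.span {b | ∃ e : Fin (n + 1) → ℕ, k ≤ ∑ i, W i * e i ∧ b = ∏ i, u i ^ e i}

end Vale.Agent.P282.EQ
end
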