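import Mathlib
import Vale.Agent.P282.Full.Germ

set_option linter.all false

section

/-!
P282, equality case: ordinary double points.
-/

open IsLocalRing

namespace Vale.Agent.P282.Full

/-- `R` is an ordinary double point of dimension `n`: its completion is isomorphic to
`ℂ⟦z₀, …, zₙ⟧ / (z₀² + ⋯ + zₙ²)`. -/
def IsODP (R : Type) [CommRing R] [IsLocalRing R] [Algebra ℂ R] (n : ℕ) : Prop :=
  Nonempty (AdicCompletion (maximalIdeal R) R ≃ₐ[ℂ] MvPowerSeries (Fin (n + 1)) ℂ ⧸
    Ideal.span {∑ i : Fin (n + 1), (MvPowerSeries.X i : MvPowerSeries (Fin (n + 1)) ℂ) ^ 2})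

end Vale.Agent.P282.Full
end

section

open scoped NNReal ENNReal Nat WithZero
open IsLocalRing

namespace Vale.Agent.P282.Full

/-- The set whose supremum is the log discrepancy. -/
def logSet {K : Type} [Field K] [Algebra ℂ K] (n r : ℕ) (ω : (Fin n → Derivation ℂ K K) → K)
    (v : Valuation K ℝ≥0) : Set ℝ :=
  {t : ℝ | ∃ (b : Fin n → K) (h : K), (∀ i, b i ≠ 0) ∧
    (∀ D : Fin n → Derivation ℂ K K,
      (∏ i, b i) ^ r * ω D = h * Matrix.det (Matrix.of fun i j => D i (b j)) ^ r) ∧
    t = -Real.log (v h) / r}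

theorem isLogDiscrepancy_iff {K : Type} [Field K] [Algebra ℂ K] (n r : ℕ)
    (ω : (Fin n → Derivation ℂ K K) → K) (v : Valuation K ℝ≥0) (a : ℝ) :
    IsLogDiscrepancy n r ω v a ↔ IsLUB (logSet n r ω v) a := Iff.rfl

/-- `R'` is the localization of the integral closure of `R` in the cyclic extension
`K' = K(ε)`, `ε ^ r = g`, at a maximal ideal. -/
structure IsCover (n r : ℕ) {R K R' K' : Type} [CommRing R] [IsDomain R] [IsLocalRing R]
    [Algebra ℂ R] [Field K] [Algebra ℂ K] [Algebra R K]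
    [CommRing R'] [IsDomain R'] [IsLocalRing R'] [Algebra ℂ R']
    [Field K'] [Algebra ℂ K'] [Algebra R' K'] [Algebra K K'] [Algebra R R']
    (g : K) (ε : K') : Prop where
  pow : ε ^ r = algebraMap K K' g
  adjoin : Algebra.adjoin K {ε} = ⊤
  finite : FiniteDimensional K K'
  galois : IsGalois K K'
  mem_iff : ∀ a : R, algebraMap R R' a ∈ maximalIdeal R' ↔ a ∈ maximalIdeal R
  integral : ∀ b : R', ∃ s : R', IsUnit s ∧ IsIntegral R s ∧ IsIntegral R (s * b)
  essFiniteType : Algebra.EssFiniteType ℂ R'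
  normal : IsIntegrallyClosed R'
  residue : Function.Surjective (algebraMap ℂ (ResidueField R'))
  dim : Algebra.trdeg ℂ R' = n

/-- The form `ε • d b₁ ∧ ⋯ ∧ d bₙ` on `K'`. -/
noncomputable def coverForm {K K' : Type} [Field K] [Field K'] [Algebra ℂ K'] [Algebra K K'] {n : ℕ}
    (ε : K') (b : Fin n → K) (D : Fin n → Derivation ℂ K' K') : K' :=
  ε * Matrix.det (Matrix.of fun i j => D i (algebraMap K K' (b j)))

end Vale.Agent.P282.Full
end

section

open scoped WithZero Nat ENNReal
open IsLocalRing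

namespace Vale.Agent.P282

/-- Top-degree differential forms of a field `K` over `ℂ`. -/
abbrev TopForm (K : Type) [Field K] [Algebra ℂ K] (n : ℕ) : Type := ⋀[K]^n (Ω[K⁄ℂ])

/-- The form `d b₁ ∧ ⋯ ∧ d bₙ`. -/
noncomputable def dWedge {K : Type} [Field K] [Algebra ℂ K] {n : ℕ} (b : Fin n → K) :
    TopForm K n :=
  exteriorPower.ιMulti K n (fun i => KaehlerDifferential.D ℂ K (b i))

/-- The `O_v`-module of top forms generated by `d b₁ ∧ ⋯ ∧ d bₙ` with all `bᵢ` in the valuation
ring `O_v`. -/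
noncomputable def regForms {K : Type} [Field K] [Algebra ℂ K] (n : ℕ) (v : Valuation K ℤᵐ⁰) :
    Submodule v.integer (TopForm K n) :=
  Submodule.span v.integer {θ | ∃ b : Fin n → K, (∀ i, v (b i) ≤ 1) ∧ θ = dWedge b}

/-- `v` is a divisorial valuation of the function field `K` of an `n`-dimensional variety,
normalized to have value group `ℤ` (so `v f = exp (-t)` means that `f` vanishes to order `t`). -/
structure IsDivisorial {K : Type} [Field K] [Algebra ℂ K] (n : ℕ) (v : Valuation K ℤᵐ⁰) :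
    Prop where
  surjective : Function.Surjective v
  residue : ∃ w : Fin (n - 1) → K, ∀ F : MvPolynomial (Fin (n - 1)) ℂ, F ≠ 0 →
    v (MvPolynomial.aeval w F) = 1

/-- `a = 1 + ord_v(ω)`. -/
def IsLogDiscrepancy {K : Type} [Field K] [Algebra ℂ K] (n : ℕ) (ω : TopForm K n)
    (v : Valuation K ℤᵐ⁰) (a : ℤ) : Prop :=
  ∃ (θ : TopForm K n) (g : K), regForms n v = Submodule.span v.integer {θ} ∧ ω = g • θ ∧
    v g = WithZero.exp (1 - a)

section germ

variable (R : Type) [CommRing R] [IsDomain R] [IsLocalRing R] [Algebra ℂ R]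

/-- `R` is the local ring of a normal complex variety of dimension `n` at a closed point. -/
structure IsNormalGerm (n : ℕ) : Prop where
  essFiniteType : Algebra.EssFiniteType ℂ R
  normal : IsIntegrallyClosed R
  residue : Function.Surjective (algebraMap ℂ (ResidueField R))
  dim : Algebra.trdeg ℂ R = n

/-- Cohen-Macaulay: every system of parameters is a regular sequence. -/
def IsCM (n : ℕ) : Prop :=
  ∀ x : Fin n → R, (∀ i, x i ∈ maximalIdeal R) →
    (∃ k : ℕ, maximalIdeal R ^ k ≤ Ideal.span (Set.range x)) →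
    RingTheory.Sequence.IsRegular R (List.ofFn x)

variable {R}

/-- The valuation `v` is nonnegative on `R`. -/
def IsOver (v : Valuation (FractionRing R) ℤᵐ⁰) : Prop :=
  ∀ f : R, v (algebraMap R (FractionRing R) f) ≤ 1

/-- The center of `v` on `Spec R`. -/
def center (v : Valuation (FractionRing R) ℤᵐ⁰) (hv : IsOver v) : Ideal R where
  carrier := {f | v (algebraMap R (FractionRing R) f) < 1}
  add_mem' := by
    intro a b ha hb
    simp only [Set.mem_ofPred_eq, map_add] at *
    exact lt_of_le_of_lt (v.map_add _ _) (max_lt ha hb)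
  zero_mem' := by simp
  smul_mem' := by
    intro c x hx
    simp only [Set.mem_ofPred_eq, smul_eq_mul, map_mul] at *
    exact lt_of_le_of_lt (mul_le_mul_left (hv c) _) (by simpa using hx)

/-- `ω` generates `ω_R`: it has neither zeros nor poles along the prime divisors of `Spec R`. -/
def IsCanonicalGenerator (n : ℕ) (ω : TopForm (FractionRing R) n) : Prop :=
  ∀ (v : Valuation (FractionRing R) ℤᵐ⁰) (hv : IsOver v), IsDivisorial n v →
    (center v hv).height = 1 → regForms n v = Submodule.span v.integer {ω}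

/-- klt: all log discrepancies are positive. -/
def IsKlt (n : ℕ) (ω : TopForm (FractionRing R) n) : Prop :=
  ∀ v : Valuation (FractionRing R) ℤᵐ⁰, IsOver v → IsDivisorial n v →
    ∀ a : ℤ, IsLogDiscrepancy n ω v a → 0 < a

/-- The valuation ideal `{f ∈ R : ord_v f ≥ t}`. -/
def valIdeal (v : Valuation (FractionRing R) ℤᵐ⁰) (hv : IsOver v) (t : ℕ) : Ideal R where
  carrier := {f | v (algebraMap R (FractionRing R) f) ≤ WithZero.exp (-(t : ℤ))}
  add_mem' := by
    intro a b ha hb
    simp only [Set.mem_ofPred_eq, map_add] at *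
    exact (v.map_add _ _).trans (max_le ha hb)
  zero_mem' := by simp
  smul_mem' := by
    intro c x hx
    simp only [Set.mem_ofPred_eq, smul_eq_mul, map_mul] at *
    exact (mul_le_mul_left (hv c) _).trans (by simpa using hx)

/-- The volume of `v`. -/
noncomputable def vol (n : ℕ) (v : Valuation (FractionRing R) ℤᵐ⁰) (hv : IsOver v) : ℝ≥0∞ :=
  Filter.limsup (fun t : ℕ => (n ! : ℝ≥0∞) * (Module.length R (R ⧸ valIdeal v hv t) : ℝ≥0∞) /
    (t : ℝ≥0∞) ^ n) Filter.atTop

/-- The normalized volume: the infimum of `A(v) ^ n * vol(v)` over the divisorial valuations `v`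
centered at the closed point. -/
noncomputable def normalizedVolume (n : ℕ) (ω : TopForm (FractionRing R) n) : ℝ≥0∞ :=
  ⨅ (v : Valuation (FractionRing R) ℤᵐ⁰) (hv : IsOver v) (_ : IsDivisorial n v)
    (_ : center v hv = maximalIdeal R) (a : ℤ) (_ : IsLogDiscrepancy n ω v a),
    ENNReal.ofReal a ^ n * vol n v hv

end germ

end Vale.Agent.P282
end

section

set_option linter.all false

/-!
P282, equality case, arbitrary index: descent for a trivial decomposition group.
-/

open scoped NNReal ENNReal Nat WithZero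
open IsLocalRing

namespace Vale.Agent.P282.Full

/-- Approximation of elements of `R'` by elements of `R`. -/
theorem ixd_approx {R R' : Type} [CommRing R] [IsLocalRing R] [CommRing R'] [IsLocalRing R']
    [Algebra ℂ R] [Algebra ℂ R'] [Algebra R R'] [IsScalarTower ℂ R R']
    (hres' : Function.Surjective (algebraMap ℂ (ResidueField R')))
    (hmap : (maximalIdeal R).map (algebraMap R R') = maximalIdeal R') (k : ℕ) (y : R') :
    ∃ x : R, y - algebraMap R R' x ∈ maximalIdeal R' ^ k := by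
  have hpow : ∀ k : ℕ, ((maximalIdeal R) ^ k).map (algebraMap R R') = maximalIdeal R' ^ k :=
    fun k => by rw [Ideal.map_pow, hmap]
  have key : ∀ (k : ℕ) (z : R'), z ∈ maximalIdeal R' ^ k →
      ∃ x : R, z - algebraMap R R' x ∈ maximalIdeal R' ^ (k + 1) := by
    intro k z hz
    rw [← hpow k, Ideal.map] at hz
    induction hz using Submodule.span_induction with
    | mem x hx =>
      obtain ⟨a, ha, rfl⟩ := hx
      exact ⟨a, by simp⟩
    | zero => exact ⟨0, by simp⟩
    | add x y _ _ hx hy =>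
      obtain ⟨a, ha⟩ := hx
      obtain ⟨b, hb⟩ := hy
      refine ⟨a + b, ?_⟩
      rw [map_add, add_sub_add_comm]
      exact add_mem ha hb
    | smul b x hx0 hx =>
      obtain ⟨a, ha⟩ := hx
      obtain ⟨c, hc⟩ := hres' (residue R' b)
      have hb : b - algebraMap ℂ R' c ∈ maximalIdeal R' := by
        rw [← residue_eq_zero_iff, map_sub, sub_eq_zero, ← hc]
        rfl
      have hxk : x ∈ maximalIdeal R' ^ k := by
        rw [← hpow k]
        exact hx0
      refine ⟨algebraMap ℂ R c * a, ?_⟩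
      have e : b • x - algebraMap R R' (algebraMap ℂ R c * a)
          = (b - algebraMap ℂ R' c) * x + algebraMap ℂ R' c * (x - algebraMap R R' a) := by
        rw [smul_eq_mul, map_mul, ← IsScalarTower.algebraMap_apply]
        ring
      rw [e]
      refine add_mem ?_ (Ideal.mul_mem_left _ _ ha)
      rw [pow_succ']
      exact Ideal.mul_mem_mul hb hxk
  induction k with
  | zero => exact ⟨0, by simp⟩
  | succ k ih =>
    obtain ⟨x, hx⟩ := ih
    obtain ⟨x', hx'⟩ := key k _ hx
    refine ⟨x + x', ?_⟩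
    rw [map_add, ← sub_sub]
    exact hx'

/-- Completions of local rings with the same residue field, `m R' = m'`, and closed ideals. -/
theorem completion_equiv {R R' : Type} [CommRing R] [IsLocalRing R] [CommRing R'] [IsLocalRing R']
    [Algebra ℂ R] [Algebra ℂ R'] [Algebra R R'] [IsScalarTower ℂ R R']
    (hres' : Function.Surjective (algebraMap ℂ (ResidueField R')))
    (hmap : (maximalIdeal R).map (algebraMap R R') = maximalIdeal R')
    (hcontr : ∀ a : Ideal R, (a.map (algebraMap R R')).comap (algebraMap R R') = a) :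
    Nonempty (AdicCompletion (maximalIdeal R) R ≃ₐ[ℂ] AdicCompletion (maximalIdeal R') R') := by
  classical
  have hpow : ∀ k : ℕ, ((maximalIdeal R) ^ k).map (algebraMap R R') = maximalIdeal R' ^ k :=
    fun k => by rw [Ideal.map_pow, hmap]
  have hle : ∀ k : ℕ, maximalIdeal R ^ k ≤
      (maximalIdeal R' ^ k).comap (IsScalarTower.toAlgHom ℂ R R') := fun k => by
    rw [← Ideal.map_le_iff_le_comap]
    exact (hpow k).le
  let f : ∀ k : ℕ, (R ⧸ maximalIdeal R ^ k) →ₐ[ℂ] (R' ⧸ maximalIdeal R' ^ k) := fun k =>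
    Ideal.quotientMapₐ _ (IsScalarTower.toAlgHom ℂ R R') (hle k)
  have hfmk : ∀ (k : ℕ) (x : R), f k (Ideal.Quotient.mk _ x)
      = Ideal.Quotient.mk _ (algebraMap R R' x) := fun k x => rfl
  have hinj : ∀ k, Function.Injective (f k) := by
    intro k
    rw [injective_iff_map_eq_zero]
    intro y hy
    obtain ⟨x, rfl⟩ := Ideal.Quotient.mk_surjective y
    rw [hfmk, Ideal.Quotient.eq_zero_iff_mem] at hy
    rw [Ideal.Quotient.eq_zero_iff_mem, ← hcontr (maximalIdeal R ^ k), Ideal.mem_comap, hpow]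
    exact hy
  have hsurj : ∀ k, Function.Surjective (f k) := by
    intro k y
    obtain ⟨y, rfl⟩ := Ideal.Quotient.mk_surjective y
    obtain ⟨x, hx⟩ := ixd_approx hres' hmap k y
    refine ⟨Ideal.Quotient.mk _ x, ?_⟩
    rw [hfmk, eq_comm, Ideal.Quotient.eq]
    exact hx
  let e : ∀ k : ℕ, (R ⧸ maximalIdeal R ^ k) ≃ₐ[ℂ] (R' ⧸ maximalIdeal R' ^ k) := fun k =>
    AlgEquiv.ofBijective (f k) ⟨hinj k, hsurj k⟩
  have he : ∀ k x, e k x = f k x := fun k x => rfl
  have hfc : ∀ {j k : ℕ} (h : j ≤ k) (x : R ⧸ maximalIdeal R ^ k),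
      Ideal.Quotient.factorₐ ℂ (Ideal.pow_le_pow_right h) (f k x)
        = f j (Ideal.Quotient.factorₐ ℂ (Ideal.pow_le_pow_right h) x) := by
    intro j k h x
    obtain ⟨x, rfl⟩ := Ideal.Quotient.mk_surjective x
    rfl
  have hec : ∀ {j k : ℕ} (h : j ≤ k) (x : R' ⧸ maximalIdeal R' ^ k),
      Ideal.Quotient.factorₐ ℂ (Ideal.pow_le_pow_right h) ((e k).symm x)
        = (e j).symm (Ideal.Quotient.factorₐ ℂ (Ideal.pow_le_pow_right h) x) := by
    intro j k h x
    obtain ⟨z, rfl⟩ := (e k).surjective x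
    rw [AlgEquiv.symm_apply_apply, AlgEquiv.eq_symm_apply, he, he, hfc h]
  have hev : ∀ {S : Type} [CommRing S] [Algebra ℂ S] (I : Ideal S) {j k : ℕ} (h : j ≤ k)
      (x : AdicCompletion I S),
      Ideal.Quotient.factorₐ ℂ (Ideal.pow_le_pow_right h) (AdicCompletion.evalₐ I k x)
        = AdicCompletion.evalₐ I j x := by
    intro S _ _ I j k h x
    obtain ⟨s, rfl⟩ := AdicCompletion.mk_surjective I S x
    rw [AdicCompletion.evalₐ_mk, AdicCompletion.evalₐ_mk]
    exact AdicCompletion.Ideal.mk_eq_mk I h s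
  let F : AdicCompletion (maximalIdeal R) R →ₐ[ℂ] AdicCompletion (maximalIdeal R') R' :=
    AdicCompletion.liftAlgHom (maximalIdeal R')
      (fun k => (f k).comp ((AdicCompletion.evalₐ (maximalIdeal R) k).restrictScalars ℂ))
      (by
        intro j k h
        ext x
        show Ideal.Quotient.factorₐ ℂ (Ideal.pow_le_pow_right h)
          (f k (AdicCompletion.evalₐ (maximalIdeal R) k x))
          = f j (AdicCompletion.evalₐ (maximalIdeal R) j x)
        rw [hfc h, hev _ h])
  let G : AdicCompletion (maximalIdeal R') R' →ₐ[ℂ] AdicCompletion (maximalIdeal R) R :=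
    AdicCompletion.liftAlgHom (maximalIdeal R)
      (fun k => ((e k).symm : (R' ⧸ maximalIdeal R' ^ k) →ₐ[ℂ] (R ⧸ maximalIdeal R ^ k)).comp
        ((AdicCompletion.evalₐ (maximalIdeal R') k).restrictScalars ℂ))
      (by
        intro j k h
        ext x
        show Ideal.Quotient.factorₐ ℂ (Ideal.pow_le_pow_right h)
          ((e k).symm (AdicCompletion.evalₐ (maximalIdeal R') k x))
          = (e j).symm (AdicCompletion.evalₐ (maximalIdeal R') j x)
        rw [hec h, hev _ h])
  have hF : ∀ k x, AdicCompletion.evalₐ (maximalIdeal R') k (F x)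
      = f k (AdicCompletion.evalₐ (maximalIdeal R) k x) := fun k x =>
    AdicCompletion.evalₐ_liftAlgHom _ _ _ k x
  have hG : ∀ k x, AdicCompletion.evalₐ (maximalIdeal R) k (G x)
      = (e k).symm (AdicCompletion.evalₐ (maximalIdeal R') k x) := fun k x =>
    AdicCompletion.evalₐ_liftAlgHom _ _ _ k x
  refine ⟨AlgEquiv.ofAlgHom F G ?_ ?_⟩
  · ext1 x
    refine AdicCompletion.ext_evalₐ fun k => ?_
    rw [AlgHom.comp_apply, hF, hG, ← he, AlgEquiv.apply_symm_apply, AlgHom.id_apply]
  · ext1 x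
    refine AdicCompletion.ext_evalₐ fun k => ?_
    rw [AlgHom.comp_apply, hG, hF, ← he, AlgEquiv.symm_apply_apply, AlgHom.id_apply]

variable {n r : ℕ} {R K R' K' : Type} [CommRing R] [IsDomain R] [IsLocalRing R] [Algebra ℂ R]
  [Field K] [Algebra ℂ K] [Algebra R K] [IsScalarTower ℂ R K] [IsFractionRing R K]
  [CommRing R'] [IsDomain R'] [IsLocalRing R'] [Algebra ℂ R']
  [Field K'] [Algebra ℂ K'] [Algebra R' K'] [IsScalarTower ℂ R' K'] [IsFractionRing R' K']
  [Algebra K K'] [IsScalarTower ℂ K K'] [Algebra R R'] [Algebra R K'] [IsScalarTower R R' K']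
  [IsScalarTower R K K'] [IsScalarTower ℂ R R']

/-- The conjugates of integral elements of `R'` are in `R'`. -/
theorem ixd_conj {g : K} {ε : K'} (hc : IsCover (R := R) (R' := R') n r g ε)
    (σ : K' ≃ₐ[K] K') {x : R'} (hx : IsIntegral R x) :
    ∃ y : R', IsIntegral R y ∧ algebraMap R' K' y = σ (algebraMap R' K' x) := by
  have hnorm := hc.normal
  have h1 : IsIntegral R (algebraMap R' K' x) := hx.algebraMap
  have h2 : IsIntegral R (σ (algebraMap R' K' x)) :=
    h1.map ((σ : K' →ₐ[K] K').restrictScalars R)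
  obtain ⟨y, hy⟩ := IsIntegrallyClosed.isIntegral_iff.1 (h2.tower_top (A := R'))
  refine ⟨y, ?_, hy⟩
  rw [← hy] at h2
  exact (isIntegral_algebraMap_iff (FaithfulSMul.algebraMap_injective R' K')).1 h2

/-- The trace of an integral element. -/
theorem ixd_trace (hnorm : IsIntegrallyClosed R) {g : K} {ε : K'}
    (hc : IsCover (R := R) (R' := R') n r g ε) {x : R'} (hx : IsIntegral R x) :
    ∃ y : R, algebraMap R K y = Algebra.trace K K' (algebraMap R' K' x) := by
  have := hc.finite
  have h1 : IsIntegral R (algebraMap R' K' x) := hx.algebraMap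
  exact IsIntegrallyClosed.isIntegral_iff.1 (Algebra.isIntegral_trace h1)

theorem ixd_trace_mul (x : R') (y : R) :
    Algebra.trace K K' (algebraMap R' K' (x * algebraMap R R' y)) =
      Algebra.trace K K' (algebraMap R' K' x) * algebraMap R K y := by
  rw [map_mul, ← IsScalarTower.algebraMap_apply R R' K', IsScalarTower.algebraMap_apply R K K',
    mul_comm (algebraMap R' K' x), ← Algebra.smul_def, map_smul, smul_eq_mul, mul_comm]

/-- If the decomposition group is trivial then `R → R'` is unramified with trivial residue field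
extension. -/
theorem facts_of_trivial (hess : Algebra.EssFiniteType ℂ R) (hnorm : IsIntegrallyClosed R)
    (hres : Function.Surjective (algebraMap ℂ (ResidueField R)))
    {g : K} {ε : K'} (hc : IsCover (R := R) (R' := R') n r g ε)
    (htriv : ∀ σ : K' ≃ₐ[K] K', (∀ a : R', ∃ b : R', algebraMap R' K' b =
      σ (algebraMap R' K' a)) → σ = 1) :
    (maximalIdeal R).map (algebraMap R R') = maximalIdeal R' ∧
    ∀ a : Ideal R, (a.map (algebraMap R R')).comap (algebraMap R R') = a := by
  classical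
  have hnoeth : IsNoetherianRing R := Algebra.EssFiniteType.isNoetherianRing ℂ R
  have hess' := hc.essFiniteType
  have hnoeth' : IsNoetherianRing R' := Algebra.EssFiniteType.isNoetherianRing ℂ R'
  have hfin := hc.finite
  have hgal := hc.galois
  have hinjR : Function.Injective (algebraMap R' K') := FaithfulSMul.algebraMap_injective R' K'
  have hinj : Function.Injective (algebraMap R K') := by
    rw [IsScalarTower.algebraMap_eq R K K']
    exact (algebraMap K K').injective.comp (IsFractionRing.injective R K)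
  -- the separating elements
  have h1 : ∀ σ : K' ≃ₐ[K] K', ∃ s : R', IsUnit s ∧ IsIntegral R s ∧
      (σ ≠ 1 → ∃ y ∈ maximalIdeal R', algebraMap R' K' y = σ (algebraMap R' K' s)) := by
    intro σ
    by_cases hσ : σ = 1
    · exact ⟨1, isUnit_one, isIntegral_one, fun h => absurd hσ h⟩
    have h2 : ∃ a : R', ∀ b : R', algebraMap R' K' b ≠ σ (algebraMap R' K' a) := by
      by_contra hcon
      push Not at hcon
      exact hσ (htriv σ hcon)
    obtain ⟨a, ha⟩ := h2
    obtain ⟨s, hs, hsi, hsa⟩ := hc.integral a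
    refine ⟨s, hs, hsi, fun _ => ?_⟩
    obtain ⟨y, -, hy⟩ := ixd_conj hc σ hsi
    obtain ⟨z, -, hz⟩ := ixd_conj hc σ hsa
    refine ⟨y, ?_, hy⟩
    rw [mem_maximalIdeal, mem_nonunits_iff]
    intro hu
    obtain ⟨u, rfl⟩ := hu
    apply ha ((↑u⁻¹ : R') * z)
    rw [map_mul, hz, map_mul, map_mul, ← hy, ← mul_assoc, ← map_mul, Units.inv_mul, map_one,
      one_mul]
  choose s hsu hsi hs using h1
  let e : R' := ∏ σ : K' ≃ₐ[K] K', s σ
  have heu : IsUnit e := by
    rw [IsUnit.prod_univ_iff]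
    exact hsu
  have hei : IsIntegral R e := IsIntegral.prod _ fun σ _ => hsi σ
  -- conjugates of `e`
  have hconj : ∀ (σ : K' ≃ₐ[K] K'), σ ≠ 1 →
      ∃ y ∈ maximalIdeal R', algebraMap R' K' y = σ (algebraMap R' K' e) := by
    intro σ hσ
    obtain ⟨y, hy, hy2⟩ := hs σ hσ
    have hpi : IsIntegral R (∏ τ ∈ Finset.univ.erase σ, s τ) :=
      IsIntegral.prod _ fun τ _ => hsi τ
    obtain ⟨z, -, hz⟩ := ixd_conj hc σ hpi
    refine ⟨y * z, Ideal.mul_mem_right _ _ hy, ?_⟩
    have he : e = s σ * ∏ τ ∈ Finset.univ.erase σ, s τ :=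
      (Finset.mul_prod_erase _ _ (Finset.mem_univ σ)).symm
    rw [he, map_mul, map_mul, map_mul, hy2, hz]
  -- trace formula modulo `I`
  have htr : ∀ (I : Ideal R') (c : R'), IsIntegral R c → (∀ σ : K' ≃ₐ[K] K', σ ≠ 1 →
      ∃ y ∈ I, algebraMap R' K' y = σ (algebraMap R' K' c)) →
      ∃ y : R, algebraMap R K y = Algebra.trace K K' (algebraMap R' K' c) ∧
        algebraMap R R' y - c ∈ I := by
    intro I c hci hcI
    obtain ⟨y, hy⟩ := ixd_trace hnorm hc hci
    refine ⟨y, hy, ?_⟩
    have h3 : ∀ σ : K' ≃ₐ[K] K', ∃ z : R', (σ ≠ 1 → z ∈ I ∧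
        algebraMap R' K' z = σ (algebraMap R' K' c)) := by
      intro σ
      by_cases hσ : σ = 1
      · exact ⟨0, fun h => absurd hσ h⟩
      · obtain ⟨z, hz, hz2⟩ := hcI σ hσ
        exact ⟨z, fun _ => ⟨hz, hz2⟩⟩
    choose z hz using h3
    have h4 : algebraMap R R' y - c = ∑ σ ∈ Finset.univ.erase (1 : K' ≃ₐ[K] K'), z σ := by
      apply hinjR
      rw [map_sub, ← IsScalarTower.algebraMap_apply, IsScalarTower.algebraMap_apply R K K', hy,
        trace_eq_sum_automorphisms, ← Finset.add_sum_erase _ _ (Finset.mem_univ 1), map_sum]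
      have h5 : ∑ σ ∈ Finset.univ.erase (1 : K' ≃ₐ[K] K'), σ (algebraMap R' K' c) =
          ∑ σ ∈ Finset.univ.erase (1 : K' ≃ₐ[K] K'), algebraMap R' K' (z σ) :=
        Finset.sum_congr rfl fun σ hσ => ((hz σ (Finset.ne_of_mem_erase hσ)).2).symm
      rw [h5, AlgEquiv.one_apply]
      ring
    rw [h4]
    exact Ideal.sum_mem _ fun σ hσ => (hz σ (Finset.ne_of_mem_erase hσ)).1
  -- (a) contraction
  have hcontr : ∀ a : Ideal R, (a.map (algebraMap R R')).comap (algebraMap R R') = a := by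
    intro a
    refine le_antisymm ?_ Ideal.le_comap_map
    intro f hf
    rw [Ideal.mem_comap] at hf
    have key : ∀ x ∈ a.map (algebraMap R R'), ∃ s : R', IsUnit s ∧ IsIntegral R s ∧
        ∀ c : R', IsIntegral R c → ∃ y ∈ a, algebraMap R K y =
          Algebra.trace K K' (algebraMap R' K' (c * (s * x))) := by
      intro x hx
      induction hx using Submodule.span_induction with
      | mem x hx =>
        obtain ⟨y, hy, rfl⟩ := hx
        refine ⟨1, isUnit_one, isIntegral_one, fun c hci => ?_⟩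
        obtain ⟨z, hz⟩ := ixd_trace hnorm hc hci
        refine ⟨y * z, Ideal.mul_mem_right _ _ hy, ?_⟩
        rw [one_mul, ixd_trace_mul, ← hz, map_mul, mul_comm]
      | zero =>
        refine ⟨1, isUnit_one, isIntegral_one, fun c hci => ⟨0, a.zero_mem, ?_⟩⟩
        simp
      | add x y _ _ hx hy =>
        obtain ⟨s, hs, hsi, hsx⟩ := hx
        obtain ⟨t, ht, hti, hty⟩ := hy
        refine ⟨s * t, hs.mul ht, hsi.mul hti, fun c hci => ?_⟩
        obtain ⟨p, hp, hp2⟩ := hsx (c * t) (hci.mul hti)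
        obtain ⟨q, hq, hq2⟩ := hty (c * s) (hci.mul hsi)
        refine ⟨p + q, a.add_mem hp hq, ?_⟩
        rw [map_add, hp2, hq2, ← map_add, ← map_add]
        congr 2
        ring
      | smul b x _ hx =>
        obtain ⟨s, hs, hsi, hsx⟩ := hx
        obtain ⟨t, ht, hti, htb⟩ := hc.integral b
        refine ⟨t * s, ht.mul hs, hti.mul hsi, fun c hci => ?_⟩
        obtain ⟨p, hp, hp2⟩ := hsx (c * (t * b)) (hci.mul htb)
        refine ⟨p, hp, ?_⟩
        rw [hp2, smul_eq_mul]
        congr 2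
        ring
    obtain ⟨s, hs, hsi, hsf⟩ := key _ hf
    obtain ⟨y, hy, hy2⟩ := hsf e hei
    -- the trace of `e * s` is a unit of `R`
    obtain ⟨u, hu, hu2⟩ := htr (maximalIdeal R') (e * s) (hei.mul hsi) (by
      intro σ hσ
      obtain ⟨p, hp, hp2⟩ := hconj σ hσ
      obtain ⟨q, -, hq⟩ := ixd_conj hc σ hsi
      refine ⟨p * q, Ideal.mul_mem_right _ _ hp, ?_⟩
      rw [map_mul, map_mul, map_mul, hp2, hq])
    have huu : IsUnit u := by
      by_contra hcon
      have h5 : u ∈ maximalIdeal R := by rwa [mem_maximalIdeal, mem_nonunits_iff]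
      have h6 := (hc.mem_iff u).2 h5
      have h7 : e * s ∈ maximalIdeal R' := by
        have := Ideal.sub_mem _ h6 hu2
        rwa [sub_sub_cancel] at this
      rw [mem_maximalIdeal, mem_nonunits_iff] at h7
      exact h7 (heu.mul hs)
    have h8 : y = u * f := by
      apply IsFractionRing.injective R K
      rw [hy2, ← mul_assoc, ixd_trace_mul, ← hu, map_mul]
    rw [h8] at hy
    exact (Ideal.unit_mul_mem_iff_mem a huu).1 hy
  -- (b) `m' = m R'`
  have hmap : (maximalIdeal R).map (algebraMap R R') = maximalIdeal R' := by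
    apply le_antisymm
    · rw [Ideal.map_le_iff_le_comap]
      intro f hf
      exact (hc.mem_iff f).2 hf
    · refine Submodule.le_of_le_smul_of_le_jacobson_bot (I := maximalIdeal R')
        (IsNoetherian.noetherian _) (IsLocalRing.maximalIdeal_le_jacobson _) ?_
      intro f hf
      obtain ⟨s, hs, hsi, hsf⟩ := hc.integral f
      obtain ⟨u, hu, hu2⟩ := htr (maximalIdeal R' ^ 2) (e * e * (s * f))
        ((hei.mul hei).mul hsf) (by
        intro σ hσ
        obtain ⟨p, hp, hp2⟩ := hconj σ hσ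
        obtain ⟨q, -, hq⟩ := ixd_conj hc σ hsf
        refine ⟨p * p * q, Ideal.mul_mem_right _ _ ?_, ?_⟩
        · rw [pow_two]
          exact Ideal.mul_mem_mul hp hp
        · rw [map_mul, map_mul, map_mul, map_mul, map_mul, map_mul, hp2, hq])
      have hsq : maximalIdeal R' ^ 2 ≤ maximalIdeal R' := Ideal.pow_le_self two_ne_zero
      have h9 : e * e * (s * f) ∈ maximalIdeal R' :=
        Ideal.mul_mem_left _ _ (Ideal.mul_mem_left _ _ hf)
      have h10 : algebraMap R R' u ∈ maximalIdeal R' := by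
        have := Ideal.add_mem _ (hsq hu2) h9
        rwa [sub_add_cancel] at this
      have h11 : u ∈ maximalIdeal R := (hc.mem_iff u).1 h10
      have h12 : e * e * (s * f) ∈ (maximalIdeal R).map (algebraMap R R') ⊔
          maximalIdeal R' • maximalIdeal R' := by
        have h13 : e * e * (s * f) = algebraMap R R' u - (algebraMap R R' u - e * e * (s * f)) := by
          ring
        rw [h13]
        apply Ideal.sub_mem
        · exact Ideal.mem_sup_left (Ideal.mem_map_of_mem _ h11)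
        · apply Ideal.mem_sup_right
          rw [smul_eq_mul, ← pow_two]
          exact hu2
      rw [← mul_assoc] at h12
      exact (Ideal.unit_mul_mem_iff_mem _ ((heu.mul heu).mul hs)).1 h12
  exact ⟨hmap, hcontr⟩

/-- Descent of ordinary double points. -/
theorem isODP_of_trivial (hess : Algebra.EssFiniteType ℂ R) (hnorm : IsIntegrallyClosed R)
    (hres : Function.Surjective (algebraMap ℂ (ResidueField R)))
    {g : K} {ε : K'} (hc : IsCover (R := R) (R' := R') n r g ε)
    (htriv : ∀ σ : K' ≃ₐ[K] K', (∀ a : R', ∃ b : R', algebraMap R' K' b =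
      σ (algebraMap R' K' a)) → σ = 1) (h : IsODP R' n) : IsODP R n := by
  obtain ⟨hmap, hcontr⟩ := facts_of_trivial hess hnorm hres hc htriv
  obtain ⟨e⟩ := completion_equiv hc.residue hmap hcontr
  obtain ⟨e'⟩ := h
  exact ⟨e.trans e'⟩

end Vale.Agent.P282.Full
end

section

open scoped WithZero
open IsLocalRing IsDedekindDomain

namespace Vale.Agent.P282

theorem idem_trace_field {k A : Type} [Field k] [CharZero k] [CommRing A] [Algebra k A]
    [Module.Finite k A] (z : A) (hz : z * z = z) (h : Algebra.trace k A z = 0) : z = 0 := by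
  rw [Algebra.trace_apply] at h
  have h4 : IsIdempotentElem (Algebra.lmul k A z) := by
    rw [IsIdempotentElem, ← map_mul, hz]
  have h5 := (LinearMap.IsIdempotentElem.trace_eq_zero_iff h4).mp h
  have := congrArg (fun f => f 1) h5
  simpa using this

attribute [local instance] Ideal.Quotient.field

/-- nilpotent mod the maximal ideal ⇒ trace in the maximal ideal -/
theorem trace_mem_of_pow_mem {O B : Type} [CommRing O] [IsLocalRing O] [CommRing B] [Algebra O B]
    [Module.Free O B] [Module.Finite O B] (z : B) (N : ℕ)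
    (hz : z ^ N ∈ Ideal.map (algebraMap O B) (maximalIdeal O)) :
    Algebra.trace O B z ∈ maximalIdeal O := by
  have h := Algebra.trace_quotient_mk (R := O) (S := B) z
  rw [← Ideal.Quotient.eq_zero_iff_mem, ← h]
  have h1 : IsNilpotent (Ideal.Quotient.mk (Ideal.map (algebraMap O B) (maximalIdeal O)) z) :=
    ⟨N, by rw [← map_pow, Ideal.Quotient.eq_zero_iff_mem]; exact hz⟩
  exact (Algebra.isNilpotent_trace_of_isNilpotent h1).eq_zero

theorem trace_notMem_of_idem {O B : Type} [CommRing O] [IsLocalRing O] [CommRing B] [Algebra O B]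
    [CharZero (O ⧸ maximalIdeal O)]
    [Module.Free O B] [Module.Finite O B] (z : B)
    (hz : z * z - z ∈ Ideal.map (algebraMap O B) (maximalIdeal O))
    (hz0 : z ∉ Ideal.map (algebraMap O B) (maximalIdeal O)) :
    Algebra.trace O B z ∉ maximalIdeal O := by
  have h := Algebra.trace_quotient_mk (R := O) (S := B) z
  rw [← Ideal.Quotient.eq_zero_iff_mem, ← h]
  rw [← Ideal.Quotient.eq_zero_iff_mem] at hz hz0
  intro h3
  have hfin : Module.Finite (O ⧸ maximalIdeal O) (B ⧸ Ideal.map (algebraMap O B) (maximalIdeal O)) :=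
    Module.Finite.of_restrictScalars_finite O _ _
  exact hz0 (idem_trace_field _ (by rw [map_sub, map_mul, sub_eq_zero] at hz; exact hz) h3)


section loc

variable {O B F K : Type} [CommRing O] [IsDomain O] [IsLocalRing O] [IsPrincipalIdealRing O]
  [CommRing B] [IsDedekindDomain B] [Algebra O B] [Field F] [Algebra O F] [IsFractionRing O F]
  [Field K] [Algebra F K] [Algebra O K] [IsScalarTower O F K] [Algebra B K] [IsScalarTower O B K]
  [IsFractionRing B K] [Algebra.IsIntegral O B] [Module.Finite O B] [Module.Free O B]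

omit [IsPrincipalIdealRing O] [IsDomain O] [Module.Finite O B] [Module.Free O B] in
theorem mem_iff_mem_max (w : HeightOneSpectrum B) (o : O) :
    algebraMap O B o ∈ w.asIdeal ↔ o ∈ maximalIdeal O := by
  have h1 : (w.asIdeal.comap (algebraMap O B)).IsMaximal := by
    have := w.isMaximal
    exact Ideal.isMaximal_comap_of_isIntegral_of_isMaximal w.asIdeal
  have h2 := IsLocalRing.eq_maximalIdeal h1
  rw [← h2, Ideal.mem_comap]

omit [IsDomain O] [IsLocalRing O] [IsPrincipalIdealRing O] [Algebra.IsIntegral O B]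
  [Module.Finite O B] [Module.Free O B] [Algebra O B] in
theorem w_alg (w : HeightOneSpectrum B) (b : B) :
    w.valuation K (algebraMap B K b) ≤ 1 := w.valuation_le_one b

theorem finite_hos (t : O) (ht : maximalIdeal O = Ideal.span {t}) (ht0 : algebraMap O B t ≠ 0) :
    Finite (HeightOneSpectrum B) := by
  have h1 := Ideal.finite_factors (R := B) (I := Ideal.span {algebraMap O B t}) (by
    simpa using ht0)
  rw [← Set.finite_univ_iff]
  refine h1.subset ?_
  intro w _
  rw [Set.mem_ofPred_eq, Ideal.dvd_span_singleton, mem_iff_mem_max, ht]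
  exact Ideal.mem_span_singleton_self t


/-- an element whose valuations are all at most those of `t` lies in `t B` -/
theorem mem_map_of_val (t : O) (ht : maximalIdeal O = Ideal.span {t}) (ht0 : algebraMap O B t ≠ 0)
    (b : B) (h : ∀ w : HeightOneSpectrum B, w.valuation K (algebraMap B K b) ≤
      w.valuation K (algebraMap B K (algebraMap O B t))) :
    b ∈ Ideal.map (algebraMap O B) (maximalIdeal O) := by
  have ht1 : algebraMap B K (algebraMap O B t) ≠ 0 := by
    rw [Ne, FaithfulSMul.algebraMap_eq_zero_iff]; exact ht0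
  have h1 := HeightOneSpectrum.mem_integers_of_valuation_le_one (R := B) K
    (algebraMap B K b / algebraMap B K (algebraMap O B t)) (by
      intro w
      rw [map_div₀]
      exact div_le_one_of_le₀ (h w) zero_le)
  obtain ⟨c, hc⟩ := h1
  rw [eq_div_iff ht1, ← map_mul] at hc
  have h2 := FaithfulSMul.algebraMap_injective B K hc
  rw [ht, Ideal.map_span, Set.image_singleton, Ideal.mem_span_singleton]
  exact ⟨c, by rw [← h2, mul_comm]⟩

theorem exists_N_ge (t : K) (ht0 : t ≠ 0) (hfin : Finite (HeightOneSpectrum B)) :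
    ∃ N : ℕ, 1 ≤ N ∧ ∀ w : HeightOneSpectrum B, WithZero.exp (-(N : ℤ)) ≤ w.valuation K t := by
  have := Fintype.ofFinite (HeightOneSpectrum B)
  have h : ∀ w : HeightOneSpectrum B, ∃ N : ℕ, WithZero.exp (-(N : ℤ)) ≤ w.valuation K t := by
    intro w
    have hw : w.valuation K t ≠ 0 := (Valuation.ne_zero_iff _).mpr ht0
    refine ⟨(-(WithZero.log (w.valuation K t))).toNat, ?_⟩
    rw [← WithZero.le_log_iff_exp_le hw]
    have := Int.self_le_toNat (-(WithZero.log (w.valuation K t)))
    omega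
  choose N hN using h
  refine ⟨(∑ w, N w) + 1, by omega, fun w => le_trans ?_ (hN w)⟩
  rw [WithZero.exp_le_exp]
  have : N w ≤ ∑ w, N w := Finset.single_le_sum (f := N) (fun _ _ => Nat.zero_le _) (Finset.mem_univ w)
  push_cast
  have h2 : (N w : ℤ) ≤ ((∑ w, N w : ℕ) : ℤ) := by exact_mod_cast this
  push_cast at h2
  omega

theorem trace_local_one [IsIntegrallyClosed O] [Module.IsTorsionFree O B] [FiniteDimensional F K]
    (t : O) (ht : maximalIdeal O = Ideal.span {t}) (ht0 : algebraMap O B t ≠ 0)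
    (z : K) (hz : ∀ w : HeightOneSpectrum B, w.valuation K z < 1) :
    ∃ o ∈ maximalIdeal O, algebraMap O F o = Algebra.trace F K z := by
  obtain ⟨b, rfl⟩ := HeightOneSpectrum.mem_integers_of_valuation_le_one (R := B) K z
    (fun w => (hz w).le)
  have ht1 : algebraMap B K (algebraMap O B t) ≠ 0 := by
    rw [Ne, FaithfulSMul.algebraMap_eq_zero_iff]; exact ht0
  obtain ⟨N, _, hN⟩ := exists_N_ge (B := B) (algebraMap B K (algebraMap O B t)) ht1 (finite_hos t ht ht0)
  have h1 := mem_map_of_val (K := K) t ht ht0 (b ^ N) (by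
    intro w
    refine le_trans ?_ (hN w)
    rw [map_pow, map_pow]
    have h2 : w.valuation K (algebraMap B K b) ≤ WithZero.exp (-1 : ℤ) := by
      by_cases h0 : w.valuation K (algebraMap B K b) = 0
      · rw [h0]; exact zero_le
      · rw [← WithZero.log_le_iff_le_exp h0]
        have := hz w
        rw [← WithZero.exp_zero, ← WithZero.log_lt_iff_lt_exp h0] at this
        omega
    calc _ ≤ (WithZero.exp (-1 : ℤ)) ^ N := pow_le_pow_left' h2 N
      _ = _ := by rw [← WithZero.exp_nsmul]; simp)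
  refine ⟨Algebra.trace O B b, trace_mem_of_pow_mem b N h1, ?_⟩
  rw [← Algebra.intTrace_eq_trace]
  exact Algebra.algebraMap_intTrace b


theorem trace_local_two [IsIntegrallyClosed O] [Module.IsTorsionFree O B] [FiniteDimensional F K]
    [CharZero (O ⧸ maximalIdeal O)]
    (t : O) (ht : maximalIdeal O = Ideal.span {t}) (ht0 : algebraMap O B t ≠ 0)
    (g : K) (hg : ∀ b : B, ∃ o : O, algebraMap O F o = Algebra.trace F K (g * algebraMap B K b))
    (w0 : HeightOneSpectrum B) :
    w0.valuation K (g * algebraMap B K (algebraMap O B t)) < 1 := by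
  classical
  by_contra hcon
  push Not at hcon
  set T := algebraMap B K (algebraMap O B t) with hT
  have ht1 : T ≠ 0 := by
    rw [hT, Ne, FaithfulSMul.algebraMap_eq_zero_iff]; exact ht0
  have hgT : g * T ≠ 0 := by
    intro h
    rw [h, map_zero] at hcon
    exact absurd hcon (by simp)
  have hfin := finite_hos (B := B) t ht ht0
  have := Fintype.ofFinite (HeightOneSpectrum B)
  obtain ⟨N1, hN1, hN1'⟩ := exists_N_ge (B := B) (g * T) hgT hfin
  obtain ⟨N2, hN2, hN2'⟩ := exists_N_ge (B := B) T ht1 hfin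
  have hN1'' : ∀ w : HeightOneSpectrum B, WithZero.exp (-((N1 + N2 : ℕ) : ℤ)) ≤
      w.valuation K (g * T) := fun w => le_trans (WithZero.exp_le_exp.mpr (by push_cast; omega)) (hN1' w)
  have hN2'' : ∀ w : HeightOneSpectrum B, WithZero.exp (-((N1 + N2 : ℕ) : ℤ)) ≤
      w.valuation K T := fun w => le_trans (WithZero.exp_le_exp.mpr (by push_cast; omega)) (hN2' w)
  set N := N1 + N2 with hN
  have hcop : IsCoprime (w0.asIdeal ^ N) (∏ w ∈ Finset.univ.erase w0, w.asIdeal ^ N) := by
    apply IsCoprime.prod_right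
    intro w hw
    apply IsCoprime.pow
    rw [Ideal.isCoprime_iff_sup_eq]
    exact w0.isMaximal.coprime_of_ne w.isMaximal (fun h => (Finset.ne_of_mem_erase hw)
      (HeightOneSpectrum.ext h.symm))
  rw [Ideal.isCoprime_iff_exists] at hcop
  obtain ⟨i, hi, z, hz, hiz⟩ := hcop
  have hzw : ∀ w : HeightOneSpectrum B, w ≠ w0 → z ∈ w.asIdeal ^ N := by
    intro w hw
    exact Ideal.le_of_dvd (Finset.dvd_prod_of_mem (fun w : HeightOneSpectrum B => w.asIdeal ^ N)
      (Finset.mem_erase.mpr ⟨hw, Finset.mem_univ w⟩)) hz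
  have hz0 : z ∉ w0.asIdeal := by
    intro h
    have h1 : i ∈ w0.asIdeal := Ideal.pow_le_self (by omega) hi
    have h2 := w0.asIdeal.add_mem h1 h
    rw [hiz] at h2
    exact w0.isPrime.ne_top ((Ideal.eq_top_iff_one _).mpr h2)
  have hz0' : w0.valuation K (algebraMap B K z) = 1 := by
    rw [HeightOneSpectrum.valuation_eq_one_iff_notMem]; exact hz0
  have hzw' : ∀ w : HeightOneSpectrum B, w ≠ w0 →
      w.valuation K (algebraMap B K z) ≤ WithZero.exp (-(N : ℤ)) := by
    intro w hw
    rw [HeightOneSpectrum.valuation_of_algebraMap, HeightOneSpectrum.intValuation_le_pow_iff_mem]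
    exact hzw w hw
  -- `z / (g T)` is integral
  obtain ⟨a, ha⟩ := HeightOneSpectrum.mem_integers_of_valuation_le_one (R := B) K
    (algebraMap B K z / (g * T)) (by
      intro w
      rw [map_div₀]
      apply div_le_one_of_le₀ _ zero_le
      by_cases hw : w = w0
      · subst hw; rw [hz0']; exact hcon
      · exact (hzw' w hw).trans (hN1'' w))
  obtain ⟨o, ho⟩ := hg a
  have h1 : algebraMap B K z = algebraMap O F t • (g * algebraMap B K a) := by
    rw [ha, Algebra.smul_def, ← IsScalarTower.algebraMap_apply, IsScalarTower.algebraMap_apply O B K]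
    rw [← hT]
    have hg0 : g ≠ 0 := left_ne_zero_of_mul hgT
    field_simp
  have h2 : algebraMap O F (Algebra.trace O B z) = algebraMap O F (t * o) := by
    rw [← Algebra.intTrace_eq_trace, Algebra.algebraMap_intTrace (K := F) (L := K), h1, map_smul,
      ← ho, map_mul, smul_eq_mul]
  have h3 := IsFractionRing.injective O F h2
  have h5 : Algebra.trace O B z ∈ maximalIdeal O := by
    rw [h3, ht]
    exact Ideal.mul_mem_right _ _ (Ideal.mem_span_singleton_self t)
  refine trace_notMem_of_idem z ?_ ?_ h5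
  · apply mem_map_of_val (K := K) t ht ht0
    intro w
    refine le_trans ?_ (hN2'' w)
    have h4 : z * z - z = - (i * z) := by
      have : i = 1 - z := by rw [← hiz]; ring
      rw [this]; ring
    rw [h4, map_neg, Valuation.map_neg, map_mul, map_mul]
    by_cases hw : w = w0
    · subst hw
      rw [hz0', mul_one, HeightOneSpectrum.valuation_of_algebraMap,
        HeightOneSpectrum.intValuation_le_pow_iff_mem]
      exact hi
    · exact (mul_le_of_le_one_left' (w_alg w i)).trans (hzw' w hw)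
  · intro h
    rw [ht, Ideal.map_span, Set.image_singleton, Ideal.mem_span_singleton] at h
    apply hz0
    obtain ⟨c, rfl⟩ := h
    exact w0.asIdeal.mul_mem_right _ ((mem_iff_mem_max w0 t).mpr (by
      rw [ht]; exact Ideal.mem_span_singleton_self t))

end loc

theorem dedekind_chart_aux {P O B F K : Type} [CommRing P] [IsDomain P]
    [Algebra ℂ P] [CommRing O] [IsDomain O] [IsLocalRing O] [IsPrincipalIdealRing O] [Algebra P O]
    [CommRing B] [IsDedekindDomain B] [Algebra O B]
    [Field F] [Algebra P F] [Algebra O F] [IsScalarTower P O F] [IsFractionRing P F]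
    [IsFractionRing O F] [Field K] [Algebra P K] [Algebra F K] [Algebra O K] [Algebra B K]
    [IsScalarTower P O K] [IsScalarTower P F K] [IsScalarTower O F K] [IsScalarTower O B K]
    [IsFractionRing B K] [Algebra.IsIntegral O B] [Module.Finite O B] [Module.Free O B]
    [Module.IsTorsionFree O B] [FiniteDimensional F K] (f : P) (hf : Prime f)
    (hp : (Ideal.span {f}).IsPrime) (hloc : IsLocalization.AtPrime O (Ideal.span {f}))
    (hmax : maximalIdeal O = Ideal.span {algebraMap P O f}) :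
    ∃ V : Set (Valuation K ℤᵐ⁰), V.Finite ∧
      (∀ v ∈ V, Function.Surjective v ∧ (∀ p : P, v (algebraMap P K p) ≤ 1) ∧
        (∀ p : P, v (algebraMap P K p) < 1 ↔ f ∣ p) ∧
        (∃ (N : ℕ) (β : Fin N → K), ∀ z : K, v z ≤ 1 → ∃ p q : Fin N → P,
          v (∑ j, algebraMap P K (q j) * β j) = 1 ∧
          z * (∑ j, algebraMap P K (q j) * β j) = ∑ j, algebraMap P K (p j) * β j)) ∧
      (∀ z : K, (∀ v ∈ V, v z ≤ 1) → ∃ s : P, ¬ f ∣ s ∧ IsIntegral P (algebraMap P K s * z)) ∧
      (∀ z : K, (∀ v ∈ V, v z < 1) → ∃ s p : P, ¬ f ∣ s ∧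
        algebraMap P F s * Algebra.trace F K z = algebraMap P F (f * p)) ∧
      (∀ g : K, (∀ z : K, IsIntegral P z →
          ∃ p : P, algebraMap P F p = Algebra.trace F K (g * z)) →
        ∀ v ∈ V, v (g * algebraMap P K f) < 1) := by
  classical
  have hchar : CharZero (O ⧸ maximalIdeal O) := by
    have h1 := ((Ideal.Quotient.mk (maximalIdeal O)).comp
      ((algebraMap P O).comp (algebraMap ℂ P))).injective
    exact ⟨fun a b hab => by
      have h2 : ((Ideal.Quotient.mk (maximalIdeal O)).comp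
        ((algebraMap P O).comp (algebraMap ℂ P))) a = ((Ideal.Quotient.mk (maximalIdeal O)).comp
        ((algebraMap P O).comp (algebraMap ℂ P))) b := by simpa using hab
      exact_mod_cast h1 h2⟩
  have hinj : Function.Injective (algebraMap P O) :=
    IsLocalization.injective O (Ideal.primeCompl_le_nonZeroDivisors (Ideal.span {f}))
  have hPO : ∀ p : P, algebraMap P O p ∈ maximalIdeal O ↔ f ∣ p := by
    intro p
    rw [IsLocalization.AtPrime.to_map_mem_maximal_iff O (Ideal.span {f}), Ideal.mem_span_singleton]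
  have ht0 : algebraMap O B (algebraMap P O f) ≠ 0 := by
    rw [Ne, FaithfulSMul.algebraMap_eq_zero_iff, map_eq_zero_iff _ hinj]
    exact hf.ne_zero
  have hfin : Finite (HeightOneSpectrum B) := finite_hos (algebraMap P O f) hmax ht0
  have hPK : ∀ p : P, algebraMap P K p = algebraMap B K (algebraMap O B (algebraMap P O p)) := by
    intro p
    rw [← IsScalarTower.algebraMap_apply O B K, ← IsScalarTower.algebraMap_apply P O K]
  have hval : ∀ (w : HeightOneSpectrum B) (p : P), w.valuation K (algebraMap P K p) < 1 ↔ f ∣ p := by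
    intro w p
    rw [hPK, HeightOneSpectrum.valuation_lt_one_iff_mem, mem_iff_mem_max, hPO]
  refine ⟨Set.range (fun w : HeightOneSpectrum B => w.valuation K), Set.finite_range _, ?_, ?_, ?_, ?_⟩
  · rintro _ ⟨w, rfl⟩
    refine ⟨w.valuation_surjective K, fun p => ?_, hval w, ?_⟩
    · show w.valuation K (algebraMap P K p) ≤ 1
      rw [hPK]; exact w.valuation_le_one _
    · obtain ⟨N, s, hs⟩ := Module.Finite.exists_fin (R := O) (M := B)
      refine ⟨N, fun j => algebraMap B K (s j), fun z hz => ?_⟩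
      obtain ⟨b, ⟨c, hc⟩, hbc⟩ := w.exists_primeCompl_mul_eq_of_integer z hz
      have hspan : ∀ b : B, ∃ o : Fin N → O, ∑ j, o j • s j = b := by
        intro b
        have : b ∈ Submodule.span O (Set.range s) := by rw [hs]; trivial
        exact (Submodule.mem_span_range_iff_exists_fun O).mp this
      obtain ⟨o1, ho1⟩ := hspan b
      obtain ⟨o2, ho2⟩ := hspan c
      obtain ⟨⟨m, hm⟩, hm'⟩ := IsLocalization.exist_integer_multiples_of_finite
        (Ideal.span {f}).primeCompl (Sum.elim o1 o2)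
      choose p hp using fun j => hm' (Sum.inl j)
      choose q hq using fun j => hm' (Sum.inr j)
      have hmf : ¬ f ∣ m := by
        intro h; exact hm (Ideal.mem_span_singleton.mpr h)
      have hsum : ∀ (o : Fin N → O) (r : Fin N → P) (b : B), (∑ j, o j • s j = b) →
          (∀ j, algebraMap P O (r j) = m • o j) →
          ∑ j, algebraMap P K (r j) * algebraMap B K (s j) =
            algebraMap P K m * algebraMap B K b := by
        intro o r b hb hr
        rw [← hb, map_sum, Finset.mul_sum]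
        refine Finset.sum_congr rfl fun j _ => ?_
        rw [hPK (r j), hr j, Algebra.smul_def, Algebra.smul_def, map_mul, map_mul, map_mul, hPK m]
        ring
      have h1 := hsum o1 p b ho1 (fun j => by simpa using hp j)
      have h2 := hsum o2 q c ho2 (fun j => by simpa using hq j)
      refine ⟨p, q, ?_, ?_⟩
      · show w.valuation K _ = 1
        rw [h2, map_mul]
        have h3 : w.valuation K (algebraMap P K m) = 1 := by
          apply le_antisymm
          · rw [hPK]; exact w.valuation_le_one _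
          · rw [← not_lt, hval]; exact hmf
        have h4 : w.valuation K (algebraMap B K c) = 1 := by
          rw [HeightOneSpectrum.valuation_eq_one_iff_notMem]; exact hc
        rw [h3, h4, one_mul]
      · rw [h1, h2, ← hbc]
        ring
  · intro z hz
    obtain ⟨b, rfl⟩ := HeightOneSpectrum.mem_integers_of_valuation_le_one (R := B) K z
      (fun w => hz _ ⟨w, rfl⟩)
    have h1 : IsIntegral O (algebraMap B K b) := (Algebra.IsIntegral.isIntegral b).algebraMap
    obtain ⟨⟨m, hm⟩, hm'⟩ := IsIntegral.exists_multiple_integral_of_isLocalization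
      (Ideal.span {f}).primeCompl _ h1
    refine ⟨m, fun h => hm (Ideal.mem_span_singleton.mpr h), ?_⟩
    rw [← Algebra.smul_def]
    exact hm'
  · intro z hz
    obtain ⟨o, ho, ho'⟩ := trace_local_one (B := B) (F := F) (algebraMap P O f) hmax ht0 z
      (fun w => hz _ ⟨w, rfl⟩)
    rw [hmax, Ideal.mem_span_singleton] at ho
    obtain ⟨o2, rfl⟩ := ho
    obtain ⟨⟨p, ⟨s, hs⟩⟩, hps⟩ := IsLocalization.surj (Ideal.span {f}).primeCompl o2
    refine ⟨s, p, fun h => hs (Ideal.mem_span_singleton.mpr h), ?_⟩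
    rw [← ho', IsScalarTower.algebraMap_apply P O F, IsScalarTower.algebraMap_apply P O F, ← map_mul]
    congr 1
    rw [map_mul, ← hps]
    ring
  · rintro g hg _ ⟨w, rfl⟩
    show w.valuation K _ < 1
    rw [hPK]
    apply trace_local_two (F := F) (algebraMap P O f) hmax ht0 g
    intro b
    have h1 : IsIntegral O (algebraMap B K b) := (Algebra.IsIntegral.isIntegral b).algebraMap
    obtain ⟨⟨m, hm⟩, hm'⟩ := IsIntegral.exists_multiple_integral_of_isLocalization
      (Ideal.span {f}).primeCompl _ h1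
    obtain ⟨p, hp⟩ := hg _ hm'
    have h2 : g * ((⟨m, hm⟩ : (Ideal.span {f}).primeCompl) • algebraMap B K b) =
        algebraMap P F m • (g * algebraMap B K b) := by
      rw [Submonoid.smul_def, Algebra.smul_def, Algebra.smul_def, ← IsScalarTower.algebraMap_apply]
      ring
    rw [h2, map_smul, smul_eq_mul] at hp
    refine ⟨IsLocalization.mk' O p (⟨m, hm⟩ : (Ideal.span {f}).primeCompl), ?_⟩
    have h3 : algebraMap P F m ≠ 0 := by
      rw [Ne, FaithfulSMul.algebraMap_eq_zero_iff]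
      rintro rfl
      exact hm (Ideal.zero_mem _)
    apply mul_left_cancel₀ h3
    rw [← hp, IsScalarTower.algebraMap_apply P O F, IsScalarTower.algebraMap_apply P O F p, ← map_mul]
    congr 1
    rw [mul_comm]
    exact IsLocalization.mk'_spec O p _

/-- T4. Valuations of a finite extension `K` of `F = Frac P` over the prime `(f)`. -/
theorem dedekind_chart {P F K : Type} [CommRing P] [IsDomain P] [IsNoetherianRing P]
    [Algebra ℂ P] [Field F] [Algebra P F] [IsFractionRing P F] [Field K] [CharZero K]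
    [Algebra P K] [Algebra F K] [IsScalarTower P F K] [FiniteDimensional F K]
    (f : P) (hf : Prime f) :
    ∃ V : Set (Valuation K ℤᵐ⁰), V.Finite ∧
      (∀ v ∈ V, Function.Surjective v ∧ (∀ p : P, v (algebraMap P K p) ≤ 1) ∧
        (∀ p : P, v (algebraMap P K p) < 1 ↔ f ∣ p) ∧
        (∃ (N : ℕ) (β : Fin N → K), ∀ z : K, v z ≤ 1 → ∃ p q : Fin N → P,
          v (∑ j, algebraMap P K (q j) * β j) = 1 ∧
          z * (∑ j, algebraMap P K (q j) * β j) = ∑ j, algebraMap P K (p j) * β j)) ∧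
      (∀ z : K, (∀ v ∈ V, v z ≤ 1) → ∃ s : P, ¬ f ∣ s ∧ IsIntegral P (algebraMap P K s * z)) ∧
      (∀ z : K, (∀ v ∈ V, v z < 1) → ∃ s p : P, ¬ f ∣ s ∧
        algebraMap P F s * Algebra.trace F K z = algebraMap P F (f * p)) ∧
      (∀ g : K, (∀ z : K, IsIntegral P z →
          ∃ p : P, algebraMap P F p = Algebra.trace F K (g * z)) →
        ∀ v ∈ V, v (g * algebraMap P K f) < 1) := by
  classical
  have hp : (Ideal.span {f}).IsPrime := (Ideal.span_singleton_prime hf.ne_zero).mpr hf
  have hM : (Ideal.span {f}).primeCompl ≤ nonZeroDivisors P :=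
    Ideal.primeCompl_le_nonZeroDivisors _
  let O := Localization.subalgebra.ofField F (Ideal.span {f}).primeCompl hM
  have hloc : IsLocalization.AtPrime O (Ideal.span {f}) :=
    Localization.subalgebra.isLocalization_ofField _ _ _
  have hOlocal : IsLocalRing O := IsLocalization.AtPrime.isLocalRing O (Ideal.span {f})
  have hOnoeth : IsNoetherianRing O :=
    IsLocalization.isNoetherianRing (Ideal.span {f}).primeCompl O inferInstance
  have hmax : maximalIdeal O = Ideal.span {algebraMap P O f} := by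
    rw [← IsLocalization.AtPrime.map_eq_maximalIdeal (Ideal.span {f}) O, Ideal.map_span,
      Set.image_singleton]
  have hPID : IsPrincipalIdealRing O :=
    ((tfae_of_isNoetherianRing_of_isLocalRing_of_isDomain O).out 4 0).mp (⟨_, hmax⟩ : (maximalIdeal O).IsPrincipal)
  have hchar : CharZero F := by
    have : CharZero P := by
      have : FaithfulSMul ℂ P := (faithfulSMul_iff_algebraMap_injective _ _).mpr
        (algebraMap ℂ P).injective
      exact charZero_of_injective_algebraMap (FaithfulSMul.algebraMap_injective ℂ P)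
    exact charZero_of_injective_algebraMap (IsFractionRing.injective P F)
  let B := integralClosure O K
  have hBfrac : IsFractionRing B K := integralClosure.isFractionRing_of_finite_extension F K
  have hBded : IsDedekindDomain B := integralClosure.isDedekindDomain O F K
  have hBfin : Module.Finite O B := IsIntegralClosure.finite O F K B
  have hOtf : Module.IsTorsionFree O K := Module.IsTorsionFree.trans_faithfulSMul O F K
  have hBfree : Module.Free O B := IsIntegralClosure.module_free O F K B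
  exact dedekind_chart_aux (O := O) (B := B) f hf hp hloc hmax

end Vale.Agent.P282
end

section

open IsLocalRing
open scoped WithZero

namespace Vale.Agent.P282

open KaehlerDifferential TensorProduct

theorem exists_kaehler_basis {n : ℕ} {K : Type} [Field K] [Algebra ℂ K] (x : Fin n → K)
    (hx : IsTranscendenceBasis ℂ x) :
    ∃ b : Module.Basis (Fin n) K (Ω[K⁄ℂ]), ∀ i, b i = KaehlerDifferential.D ℂ K (x i) := by
  classical
  let P := MvPolynomial (Fin n) ℂ
  let _ : Algebra P K := (MvPolynomial.aeval x).toAlgebra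
  have _ : IsScalarTower ℂ P K := IsScalarTower.of_algebraMap_eq' (by
    ext; simp [RingHom.algebraMap_toAlgebra])
  have hinj : Function.Injective (algebraMap P K) := hx.1
  have _ : FaithfulSMul P K := (faithfulSMul_iff_algebraMap_injective _ _).mpr hinj
  let _ : Algebra (FractionRing P) K := FractionRing.liftAlgebra P K
  have _ : IsScalarTower P (FractionRing P) K := FractionRing.isScalarTower_liftAlgebra P K
  have halg : Algebra.IsAlgebraic P K := by
    have h1 := hx.isAlgebraic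
    constructor
    intro a
    have h2 := h1.isAlgebraic a
    refine IsAlgebraic.of_ringHom_of_comp_eq (f := (hx.1.aevalEquiv : P ≃ₐ[ℂ] _)) (g := RingHom.id K)
      (by simpa using h2) (hx.1.aevalEquiv).surjective Function.injective_id ?_
    ext z
    · simp [IsScalarTower.algebraMap_apply ℂ P K]; rfl
    · simp [RingHom.algebraMap_toAlgebra]
  have _ : Algebra.IsAlgebraic (FractionRing P) K :=
    (IsFractionRing.comap_isAlgebraic_iff (A := P) (K := FractionRing P) (C := K)).mp halg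
  have _ : CharZero (FractionRing P) := charZero_of_injective_algebraMap (R := ℂ)
    (FaithfulSMul.algebraMap_injective ℂ (FractionRing P))
  have _ : Algebra.FormallyEtale P (FractionRing P) :=
    Algebra.FormallyEtale.of_isLocalization (nonZeroDivisors P)
  have _ : Algebra.FormallyEtale (FractionRing P) K := Algebra.FormallyEtale.of_isSeparable _ _
  have _ : Algebra.FormallyEtale P K := Algebra.FormallyEtale.comp P (FractionRing P) K
  let b0 := (KaehlerDifferential.mvPolynomialBasis ℂ (Fin n)).baseChange K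
  let E := KaehlerDifferential.tensorKaehlerEquivOfFormallyEtale ℂ P K
  refine ⟨b0.map E, fun i => ?_⟩
  simp only [Module.Basis.map_apply, Module.Basis.baseChange_apply, mvPolynomialBasis_apply, b0, E]
  rw [tensorKaehlerEquivOfFormallyEtale_apply, mapBaseChange_tmul, map_D, one_smul]
  congr 1
  exact MvPolynomial.aeval_X _ _




theorem v_aeval_le {K ι : Type} [Field K] [Algebra ℂ K] (v : Valuation K ℤᵐ⁰) (u : ι → K)
    (hu : ∀ F : MvPolynomial ι ℂ, F ≠ 0 → v (MvPolynomial.aeval u F) = 1)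
    (F : MvPolynomial ι ℂ) : v (MvPolynomial.aeval u F) ≤ 1 := by
  by_cases h : F = 0
  · simp [h]
  · exact (hu F h).le

theorem algInd_of_residual {K ι : Type} [Field K] [Algebra ℂ K] (v : Valuation K ℤᵐ⁰) (u : ι → K)
    (hu : ∀ F : MvPolynomial ι ℂ, F ≠ 0 → v (MvPolynomial.aeval u F) = 1)
    (π : K) (h0 : π ≠ 0) (hπ : v π < 1) :
    AlgebraicIndependent ℂ (fun o : Option ι => o.elim π u) := by
  have hind : AlgebraicIndependent ℂ u := by
    rw [algebraicIndependent_iff]
    intro F hF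
    by_contra h
    have := hu F h
    rw [hF, map_zero] at this
    exact zero_ne_one this
  rw [hind.option_iff_transcendental, transcendental_iff]
  have hS : ∀ c : Algebra.adjoin ℂ (Set.range u), v (c : K) ≤ 1 ∧ (c ≠ 0 → v (c : K) = 1) := by
    intro c
    obtain ⟨F, hF⟩ := hind.aevalEquiv.surjective c
    have : (c : K) = MvPolynomial.aeval u F := by
      rw [← hF]; simp
    refine ⟨this ▸ v_aeval_le v u hu F, fun hc => ?_⟩
    rw [this]
    apply hu
    rintro rfl
    apply hc
    rw [← hF, map_zero]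
  suffices ∀ (d : ℕ) (p : Polynomial (Algebra.adjoin ℂ (Set.range u))), p.natDegree ≤ d →
      Polynomial.aeval π p = 0 → p = 0 from fun p hp => this _ p le_rfl hp
  have hle : ∀ p : Polynomial (Algebra.adjoin ℂ (Set.range u)), v (Polynomial.aeval π p) ≤ 1 := by
    intro p
    rw [Polynomial.aeval_eq_sum_range]
    refine v.map_sum_le fun i _ => ?_
    rw [Algebra.smul_def, map_mul, map_pow]
    exact mul_le_one' ((hS _).1) (pow_le_one' hπ.le _)
  intro d
  induction d with
  | zero =>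
    intro p hd hp
    rw [Polynomial.eq_C_of_natDegree_le_zero hd] at hp ⊢
    simp only [Polynomial.aeval_C] at hp
    rw [Polynomial.C_eq_zero]
    by_contra hc
    have := (hS _).2 hc
    rw [show ((p.coeff 0 : Algebra.adjoin ℂ (Set.range u)) : K) = 0 from hp, map_zero] at this
    exact zero_ne_one this
  | succ d ih =>
    intro p hd hp
    have hp' := Polynomial.divX_mul_X_add p
    have h1 : Polynomial.aeval π p.divX * π + ((p.coeff 0 : Algebra.adjoin ℂ (Set.range u)) : K)
        = 0 := by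
      rw [← hp', map_add, map_mul, Polynomial.aeval_X, Polynomial.aeval_C] at hp
      exact hp
    have h2 : p.coeff 0 = 0 := by
      by_contra hc
      have h3 := (hS _).2 hc
      rw [eq_neg_of_add_eq_zero_right h1, Valuation.map_neg, map_mul] at h3
      have : v (Polynomial.aeval π p.divX) * v π < 1 :=
        lt_of_le_of_lt (mul_le_of_le_one_left' (hle _)) hπ
      exact absurd h3 this.ne
    rw [h2] at h1
    have h4 : Polynomial.aeval π p.divX = 0 := by
      simpa [h0] using h1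
    have h5 := ih p.divX (by rw [Polynomial.natDegree_divX_eq_natDegree_tsub_one]; omega) h4
    rw [← hp', h5, h2]
    simp




section poly
open MvPolynomial

theorem degreeOf_pderiv_lt {σ : Type} (i : σ) (p : MvPolynomial σ ℂ) (h : 0 < degreeOf i p) :
    degreeOf i (pderiv i p) < degreeOf i p := by
  classical
  rw [degreeOf_lt_iff h]
  intro m hm
  rw [mem_support_iff, coeff_pderiv] at hm
  have : m + Finsupp.single i 1 ∈ p.support := by
    rw [mem_support_iff]
    intro h0
    simp [h0] at hm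
  have := monomial_le_degreeOf i this
  simp at this
  omega

theorem pderiv_ne_zero {σ : Type} (i : σ) (p : MvPolynomial σ ℂ) (h : 0 < degreeOf i p) :
    pderiv i p ≠ 0 := by
  classical
  obtain ⟨m, hm, hmi⟩ : ∃ m ∈ p.support, 0 < m i := by
    by_contra hcon
    push Not at hcon
    have : degreeOf i p ≤ 0 := by
      rw [degreeOf_le_iff]
      exact hcon
    omega
  intro h0
  have h1 : coeff (m - Finsupp.single i 1) (pderiv i p) = 0 := by rw [h0]; simp
  rw [coeff_pderiv] at h1
  have h2 : m - Finsupp.single i 1 + Finsupp.single i 1 = m := by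
    ext j
    by_cases hj : j = i
    · subst hj
      simp
      omega
    · simp [Finsupp.single_apply, Ne.symm hj]
  rw [h2] at h1
  rw [mem_support_iff] at hm
  rcases mul_eq_zero.mp h1 with h3 | h3
  · exact hm h3
  · exact Nat.cast_add_one_ne_zero _ h3

theorem degreeOf_le_of_dvd {σ : Type} (i : σ) {p q : MvPolynomial σ ℂ} (h : p ∣ q) (hq : q ≠ 0) :
    degreeOf i p ≤ degreeOf i q := by
  obtain ⟨r, rfl⟩ := h
  rw [degreeOf_mul_eq (left_ne_zero_of_mul hq) (right_ne_zero_of_mul hq)]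
  omega

theorem exists_degreeOf_pos {σ : Type} {p : MvPolynomial σ ℂ} (hp : Prime p) :
    ∃ i, 0 < degreeOf i p := by
  by_contra hcon
  push Not at hcon
  have hv : p.vars = ∅ := by
    ext i
    rw [mem_vars_iff_degreeOf_ne_zero]
    simp [Nat.le_zero.mp (hcon i)]
  rw [vars_eq_empty_iff_eq_C] at hv
  have h0 : coeff 0 p ≠ 0 := by
    intro h
    rw [h, map_zero] at hv
    exact hp.ne_zero hv
  apply hp.not_isUnit
  rw [hv]
  exact (isUnit_iff_ne_zero.mpr h0).map C

end poly

section diff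

variable {K : Type} [Field K] [Algebra ℂ K]

theorem D_aeval {ι : Type} [Fintype ι] (u : ι → K) (F : MvPolynomial ι ℂ) :
    KaehlerDifferential.D ℂ K (MvPolynomial.aeval u F) =
      ∑ j, MvPolynomial.aeval u (MvPolynomial.pderiv j F) • KaehlerDifferential.D ℂ K (u j) := by
  classical
  induction F using MvPolynomial.induction_on with
  | C a => simp [MvPolynomial.aeval_C]
  | add p q hp hq => simp [hp, hq, add_smul, Finset.sum_add_distrib]
  | mul_X p i hp =>
    simp only [map_mul, MvPolynomial.aeval_X, Derivation.leibniz, hp, smul_eq_mul, map_add,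
      MvPolynomial.pderiv_X, add_smul, Finset.sum_add_distrib, Finset.smul_sum, smul_smul]
    congr 1
    rw [Finset.sum_eq_single i]
    · simp
    · intro b _ hb
      simp [Pi.single_apply, hb, Ne.symm hb]
    · simp

end diff




theorem v_algebraMap_le {K ι : Type} [Field K] [Algebra ℂ K] (v : Valuation K ℤᵐ⁰) (w : ι → K)
    (hw : ∀ F : MvPolynomial ι ℂ, F ≠ 0 → v (MvPolynomial.aeval w F) = 1) (c : ℂ) :
    v (algebraMap ℂ K c) ≤ 1 := by
  by_cases hc : c = 0
  · simp [hc]
  · have := hw (MvPolynomial.C c) (by simpa using hc)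
    rw [MvPolynomial.aeval_C] at this
    exact this.le

theorem v_aeval_le' {K ι : Type} [Field K] [Algebra ℂ K] (v : Valuation K ℤᵐ⁰)
    (hC : ∀ c : ℂ, v (algebraMap ℂ K c) ≤ 1) (u : ι → K) (hu : ∀ i, v (u i) ≤ 1)
    (F : MvPolynomial ι ℂ) : v (MvPolynomial.aeval u F) ≤ 1 := by
  induction F using MvPolynomial.induction_on with
  | C a => simpa using hC a
  | add p q hp hq => rw [map_add]; exact (v.map_add _ _).trans (max_le hp hq)
  | mul_X p i hp =>
    rw [map_mul, map_mul, MvPolynomial.aeval_X]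
    exact mul_le_one' hp (hu i)

theorem exists_sep_relation {K ι : Type} [Fintype ι] [Field K] [Algebra ℂ K]
    (v : Valuation K ℤᵐ⁰) (w : ι → K)
    (hw : ∀ F : MvPolynomial ι ℂ, F ≠ 0 → v (MvPolynomial.aeval w F) = 1)
    (htr : Algebra.trdeg ℂ K ≤ (Fintype.card ι + 1 : ℕ))
    (π : K) (h0 : π ≠ 0) (hπ : v π < 1) (z : K) (hz : v z ≤ 1) :
    ∃ G : MvPolynomial (Option ι) ℂ,
      v (MvPolynomial.aeval (fun o : Option ι => o.elim z w) G) < 1 ∧
      v (MvPolynomial.aeval (fun o : Option ι => o.elim z w) (MvPolynomial.pderiv none G)) = 1 := by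
  classical
  set u : Option ι → K := fun o : Option ι => o.elim z w with hu
  have hC := v_algebraMap_le v w hw
  have hu1 : ∀ o, v (u o) ≤ 1 := by
    rintro (_ | i)
    · exact hz
    · have := hw (MvPolynomial.X i) (MvPolynomial.X_ne_zero i)
      rw [MvPolynomial.aeval_X] at this
      exact this.le
  have hle := v_aeval_le' v hC u hu1
  have hex : ∃ G : MvPolynomial (Option ι) ℂ, G ≠ 0 ∧ v (MvPolynomial.aeval u G) < 1 := by
    by_contra hcon
    push Not at hcon
    have h1 := algInd_of_residual v u (fun F hF => le_antisymm (hle F) (hcon F hF)) π h0 hπ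
    have h2 := h1.cardinalMk_le_trdeg.trans htr
    rw [Cardinal.mk_fintype] at h2
    have h3 := Nat.cast_le.mp h2
    simp at h3
  obtain ⟨G, ⟨hG0, hG1⟩, hmin⟩ := exists_minimalFor_of_wellFoundedLT
    (fun G : MvPolynomial (Option ι) ℂ => G ≠ 0 ∧ v (MvPolynomial.aeval u G) < 1)
    (fun G => MvPolynomial.degreeOf none G) hex
  refine ⟨G, hG1, ?_⟩
  have hpos : 0 < MvPolynomial.degreeOf none G := by
    by_contra h
    have h0 : MvPolynomial.degreeOf none G = 0 := by omega
    have hvars : (G.vars : Set (Option ι)) ⊆ Set.range some := by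
      intro o ho
      rcases o with _ | i
      · rw [Finset.mem_coe, MvPolynomial.mem_vars_iff_degreeOf_ne_zero] at ho
        exact absurd h0 ho
      · exact ⟨i, rfl⟩
    obtain ⟨G', rfl⟩ := MvPolynomial.exists_rename_eq_of_vars_subset_range G some
      (Option.some_injective _) hvars
    rw [MvPolynomial.aeval_rename] at hG1
    have : G' ≠ 0 := by rintro rfl; simp at hG0
    have h3 := hw G' this
    have h4 : (u ∘ some) = w := by ext i; simp [hu]
    rw [h4, h3] at hG1
    exact lt_irrefl _ hG1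
  apply le_antisymm (hle _)
  by_contra hcon
  push Not at hcon
  have h5 := hmin ⟨pderiv_ne_zero none G hpos, hcon⟩ (degreeOf_pderiv_lt none G hpos).le
  exact absurd h5 (not_le.mpr (degreeOf_pderiv_lt none G hpos))


section lattice

variable {K : Type} [Field K] [Algebra ℂ K]

/-- `ω` is a combination of the `dζᵢ` with coefficients of pole order at most `k`. -/
def InN (v : Valuation K ℤᵐ⁰) {n : ℕ} (ζ : Fin n → K) (k : ℤ) (ω : Ω[K⁄ℂ]) : Prop :=
  ∃ c : Fin n → K, (∀ i, v (c i) ≤ WithZero.exp k) ∧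
    ω = ∑ i, c i • KaehlerDifferential.D ℂ K (ζ i)

variable {v : Valuation K ℤᵐ⁰} {n : ℕ} {ζ : Fin n → K}

theorem InN.zero {k : ℤ} : InN v ζ k 0 := ⟨0, by simp, by simp⟩

theorem InN.add {k : ℤ} {ω η : Ω[K⁄ℂ]} (h1 : InN v ζ k ω) (h2 : InN v ζ k η) :
    InN v ζ k (ω + η) := by
  obtain ⟨c, hc, rfl⟩ := h1
  obtain ⟨d, hd, rfl⟩ := h2
  exact ⟨c + d, fun i => (v.map_add _ _).trans (max_le (hc i) (hd i)), by
    simp [add_smul, Finset.sum_add_distrib]⟩

theorem InN.smul {k j : ℤ} {ω : Ω[K⁄ℂ]} {a : K} (ha : v a ≤ WithZero.exp j)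
    (h1 : InN v ζ k ω) : InN v ζ (k + j) (a • ω) := by
  obtain ⟨c, hc, rfl⟩ := h1
  refine ⟨fun i => a * c i, fun i => ?_, by simp [Finset.smul_sum, mul_smul]⟩
  rw [map_mul, WithZero.exp_add, mul_comm]
  exact mul_le_mul' (hc i) ha

theorem InN.smul' {k : ℤ} {ω : Ω[K⁄ℂ]} {a : K} (ha : v a ≤ 1)
    (h1 : InN v ζ k ω) : InN v ζ k (a • ω) := by
  have := InN.smul (j := 0) (by simpa using ha) h1
  simpa using this

theorem InN.neg {k : ℤ} {ω : Ω[K⁄ℂ]} (h1 : InN v ζ k ω) : InN v ζ k (-ω) := by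
  have := InN.smul' (a := -1) (by simp [Valuation.map_neg]) h1
  simpa using this

theorem InN.sub {k : ℤ} {ω η : Ω[K⁄ℂ]} (h1 : InN v ζ k ω) (h2 : InN v ζ k η) :
    InN v ζ k (ω - η) := by
  rw [sub_eq_add_neg]; exact h1.add h2.neg

theorem InN.mono {k j : ℤ} (hkj : k ≤ j) {ω : Ω[K⁄ℂ]} (h1 : InN v ζ k ω) : InN v ζ j ω := by
  obtain ⟨c, hc, rfl⟩ := h1
  exact ⟨c, fun i => (hc i).trans (WithZero.exp_le_exp.mpr hkj), rfl⟩

theorem InN.sum {ι : Type} (s : Finset ι) {k : ℤ} {ω : ι → Ω[K⁄ℂ]} (h : ∀ i ∈ s, InN v ζ k (ω i)) :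
    InN v ζ k (∑ i ∈ s, ω i) := by
  classical
  induction s using Finset.induction_on with
  | empty => simpa using InN.zero
  | insert a s ha ih =>
    rw [Finset.sum_insert ha]
    exact (h a (Finset.mem_insert_self a s)).add (ih fun i hi => h i (Finset.mem_insert_of_mem hi))

theorem InN.basis (i : Fin n) : InN v ζ 0 (KaehlerDifferential.D ℂ K (ζ i)) := by
  classical
  refine ⟨Pi.single i 1, fun j => ?_, ?_⟩
  · by_cases h : j = i
    · subst h; simp
    · simp [h]
  · rw [Finset.sum_eq_single i]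
    · simp
    · intro b _ hb; simp [hb]
    · simp

theorem exists_exp_ge (x : ℤᵐ⁰) : ∃ k : ℕ, x ≤ WithZero.exp (k : ℤ) := by
  by_cases hx : x = 0
  · exact ⟨0, by simp [hx]⟩
  · refine ⟨(WithZero.log x).toNat, ?_⟩
    rw [← WithZero.log_le_iff_le_exp hx]
    exact Int.self_le_toNat _

theorem exists_exp_ge_family {ι : Type} [Fintype ι] (x : ι → ℤᵐ⁰) :
    ∃ k : ℕ, ∀ i, x i ≤ WithZero.exp (k : ℤ) := by
  choose k hk using fun i => exists_exp_ge (x i)
  refine ⟨∑ i, k i, fun i => (hk i).trans (WithZero.exp_le_exp.mpr ?_)⟩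
  exact_mod_cast Finset.single_le_sum (f := k) (fun _ _ => Nat.zero_le _) (Finset.mem_univ i)

theorem exists_InN (b : Module.Basis (Fin n) K (Ω[K⁄ℂ]))
    (hb : ∀ i, b i = KaehlerDifferential.D ℂ K (ζ i)) (ω : Ω[K⁄ℂ]) : ∃ k : ℕ, InN v ζ k ω := by
  obtain ⟨k, hk⟩ := exists_exp_ge_family (fun i => v (b.repr ω i))
  refine ⟨k, fun i => b.repr ω i, hk, ?_⟩
  conv_lhs => rw [← b.sum_repr ω]
  simp [hb]

theorem exists_InN_family (b : Module.Basis (Fin n) K (Ω[K⁄ℂ]))
    (hb : ∀ i, b i = KaehlerDifferential.D ℂ K (ζ i)) {ι : Type} [Fintype ι]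
    (ω : ι → Ω[K⁄ℂ]) : ∃ k : ℕ, ∀ i, InN v ζ k (ω i) := by
  choose k hk using fun i => exists_InN (v := v) b hb (ω i)
  refine ⟨∑ i, k i, fun i => (hk i).mono ?_⟩
  exact_mod_cast Finset.single_le_sum (f := k) (fun _ _ => Nat.zero_le _) (Finset.mem_univ i)

end lattice

section descent

variable {K : Type} [Field K] [Algebra ℂ K]

theorem descent {m : ℕ} (v : Valuation K ℤᵐ⁰) (w : Fin m → K)
    (hw : ∀ F : MvPolynomial (Fin m) ℂ, F ≠ 0 → v (MvPolynomial.aeval w F) = 1)
    (htr : Algebra.trdeg ℂ K ≤ (m + 1 : ℕ))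
    (π : K) (hπ : v π = WithZero.exp (-1 : ℤ)) (ζ : Fin (m + 1) → K)
    (hπζ : InN v ζ 0 (KaehlerDifferential.D ℂ K π))
    (hwζ : ∀ j, InN v ζ 0 (KaehlerDifferential.D ℂ K (w j)))
    (k : ℕ) (hk : ∀ z, v z ≤ 1 → InN v ζ ((k + 1 : ℕ) : ℤ) (KaehlerDifferential.D ℂ K z)) :
    ∀ z, v z ≤ 1 → InN v ζ (k : ℤ) (KaehlerDifferential.D ℂ K z) := by
  intro z hz
  have h0 : π ≠ 0 := by
    rintro rfl
    rw [map_zero] at hπ
    exact WithZero.exp_ne_zero hπ.symm
  have hπ1 : v π < 1 := by
    rw [hπ, ← WithZero.exp_zero]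
    exact WithZero.exp_lt_exp.mpr (by norm_num)
  obtain ⟨G, hG1, hG2⟩ := exists_sep_relation v w hw (by simpa using htr) π h0 hπ1 z hz
  set u : Option (Fin m) → K := fun o => o.elim z w with hu
  have hu1 : ∀ o, v (u o) ≤ 1 := by
    rintro (_ | i)
    · exact hz
    · have := hw (MvPolynomial.X i) (MvPolynomial.X_ne_zero i)
      rw [MvPolynomial.aeval_X] at this
      exact this.le
  have hle := v_aeval_le' v (v_algebraMap_le v w hw) u hu1
  set y := MvPolynomial.aeval u G with hy
  have hyπ : v (y / π) ≤ 1 := by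
    by_cases hy0 : y = 0
    · simp [hy0]
    · have hvy : v y ≠ 0 := (v.ne_zero_iff).mpr hy0
      rw [map_div₀, hπ, ← WithZero.exp_log hvy, ← WithZero.exp_sub, ← WithZero.exp_zero,
        WithZero.exp_le_exp]
      have : WithZero.log (v y) < 0 := by
        rw [WithZero.log_lt_iff_lt_exp hvy]
        simpa using hG1
      omega
  have hDy : InN v ζ (k : ℤ) (KaehlerDifferential.D ℂ K y) := by
    have h1 : y = (y / π) * π := by field_simp
    rw [h1, Derivation.leibniz]
    apply InN.add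
    · exact (InN.smul' hyπ hπζ).mono (by positivity)
    · have h2 := InN.smul (a := π) hπ.le (hk (y / π) hyπ)
      have h3 : ((k + 1 : ℕ) : ℤ) + -1 = k := by push_cast; ring
      rw [h3] at h2
      exact h2
  rw [hy, D_aeval, Fintype.sum_option] at hDy
  have h4 : InN v ζ (k : ℤ) (∑ i, (MvPolynomial.aeval u) ((MvPolynomial.pderiv (some i)) G) •
      (KaehlerDifferential.D ℂ K) (u (some i))) := by
    apply InN.sum
    intro i _
    exact (InN.smul' (hle _) (hwζ i)).mono (by positivity)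
  have h5 := hDy.sub h4
  rw [add_sub_cancel_right] at h5
  have h6 := InN.smul' (a := ((MvPolynomial.aeval u) ((MvPolynomial.pderiv none) G))⁻¹)
    (by rw [map_inv₀, hG2]; simp) h5
  rw [smul_smul, inv_mul_cancel₀, one_smul] at h6
  · exact h6
  · intro h7
    rw [h7] at hG2
    simp at hG2

theorem D_mem_lattice {m : ℕ} (v : Valuation K ℤᵐ⁰) (w : Fin m → K)
    (hw : ∀ F : MvPolynomial (Fin m) ℂ, F ≠ 0 → v (MvPolynomial.aeval w F) = 1)
    (htr : Algebra.trdeg ℂ K ≤ (m + 1 : ℕ))
    (π : K) (hπ : v π = WithZero.exp (-1 : ℤ)) (ζ : Fin (m + 1) → K)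
    (hπζ : InN v ζ 0 (KaehlerDifferential.D ℂ K π))
    (hwζ : ∀ j, InN v ζ 0 (KaehlerDifferential.D ℂ K (w j)))
    (hbd : ∃ k : ℕ, ∀ z, v z ≤ 1 → InN v ζ (k : ℤ) (KaehlerDifferential.D ℂ K z)) :
    ∀ z, v z ≤ 1 → InN v ζ 0 (KaehlerDifferential.D ℂ K z) := by
  obtain ⟨k, hk⟩ := hbd
  induction k with
  | zero => simpa using hk
  | succ k ih => exact ih (descent v w hw htr π hπ ζ hπζ hwζ k hk)

end descent

end Vale.Agent.P282
end

section

open IsLocalRing

namespace Vale.Agent.P282

/-- Every element is congruent to an element of a fixed finite-dimensional space modulo `𝔪 ^ k`. -/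
theorem exists_fd_complement {R : Type} [CommRing R] [IsLocalRing R] [IsNoetherianRing R]
    [Algebra ℂ R] (hres : Function.Surjective (algebraMap ℂ (ResidueField R))) (k : ℕ) :
    ∃ W : Submodule ℂ R, W.FG ∧ ∀ r : R, ∃ w ∈ W, r - w ∈ maximalIdeal R ^ k := by
  induction k with
  | zero => exact ⟨⊥, Submodule.fg_bot, fun r => ⟨0, Submodule.zero_mem _, by simp⟩⟩
  | succ k ih =>
    obtain ⟨W, hW, h⟩ := ih
    obtain ⟨s, hs⟩ := (IsNoetherian.noetherian (maximalIdeal R ^ k) : (maximalIdeal R ^ k).FG)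
    refine ⟨W ⊔ Submodule.span ℂ (s : Set R), hW.sup (Submodule.fg_span s.finite_toSet), ?_⟩
    have key : ∀ y ∈ maximalIdeal R ^ k, ∃ w ∈ Submodule.span ℂ (s : Set R),
        y - w ∈ maximalIdeal R ^ (k + 1) := by
      intro y hy
      have hy' : y ∈ Submodule.span R (s : Set R) := by rw [hs]; exact hy
      refine Submodule.span_induction (p := fun y _ => ∃ w ∈ Submodule.span ℂ (s : Set R),
        y - w ∈ maximalIdeal R ^ (k + 1)) ?_ ?_ ?_ ?_ hy'
      · intro x hx
        exact ⟨x, Submodule.subset_span hx, by simp⟩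
      · exact ⟨0, Submodule.zero_mem _, by simp⟩
      · rintro x y _ _ ⟨w1, hw1, h1⟩ ⟨w2, hw2, h2⟩
        refine ⟨w1 + w2, Submodule.add_mem _ hw1 hw2, ?_⟩
        have : x + y - (w1 + w2) = (x - w1) + (y - w2) := by ring
        rw [this]
        exact Ideal.add_mem _ h1 h2
      · rintro a x hx ⟨w, hw, h1⟩
        obtain ⟨c, hc⟩ := hres (residue R a)
        have hac : a - algebraMap ℂ R c ∈ maximalIdeal R := by
          rw [← residue_eq_zero_iff, map_sub, ← hc, sub_eq_zero]
          rw [IsScalarTower.algebraMap_apply ℂ R (ResidueField R)]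
          rfl
        refine ⟨c • w, Submodule.smul_mem _ _ hw, ?_⟩
        have hx' : x ∈ maximalIdeal R ^ k := by
          have : x ∈ Submodule.span R (s : Set R) := hx
          rw [hs] at this; exact this
        have : a • x - c • w = (a - algebraMap ℂ R c) * x + algebraMap ℂ R c * (x - w) := by
          rw [smul_eq_mul, Algebra.smul_def]; ring
        rw [this]
        refine Ideal.add_mem _ ?_ (Ideal.mul_mem_left _ _ h1)
        rw [pow_succ']
        exact Ideal.mul_mem_mul hac hx'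
    intro r
    obtain ⟨w, hw, h1⟩ := h r
    obtain ⟨w', hw', h2⟩ := key _ h1
    refine ⟨w + w', Submodule.add_mem_sup hw hw', ?_⟩
    have : r - (w + w') = r - w - w' := by ring
    rw [this]
    exact h2

theorem finite_quotient_of_pow_le {R : Type} [CommRing R] [IsLocalRing R] [IsNoetherianRing R]
    [Algebra ℂ R] (hres : Function.Surjective (algebraMap ℂ (ResidueField R))) (I : Ideal R)
    (k : ℕ) (hk : maximalIdeal R ^ k ≤ I) : Module.Finite ℂ (R ⧸ I) := by
  obtain ⟨W, hW, h⟩ := exists_fd_complement hres k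
  have : Module.Finite ℂ W := Module.Finite.iff_fg.mpr hW
  refine Module.Finite.of_surjective ((Ideal.Quotient.mkₐ ℂ I).toLinearMap.comp W.subtype) ?_
  intro y
  obtain ⟨r, rfl⟩ := Ideal.Quotient.mk_surjective y
  obtain ⟨w, hw, h1⟩ := h r
  refine ⟨⟨w, hw⟩, ?_⟩
  simp only [LinearMap.comp_apply, Submodule.subtype_apply, AlgHom.toLinearMap_apply,
    Ideal.Quotient.mkₐ_eq_mk]
  rw [eq_comm, Ideal.Quotient.eq]
  exact hk h1

theorem zmt_aux {P S R : Type} [CommRing P] [CommRing S] [CommRing R] [Algebra P S] [Algebra S R]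
    [Algebra P R] [IsScalarTower P S R] [Algebra.FiniteType P S] (q : Ideal S) (hq : q.IsPrime)
    (hloc : IsLocalization.AtPrime R q)
    (hfin : Module.Finite P (R ⧸ (q.under P).map (algebraMap P R))) (r : R) :
    ∃ s : R, IsUnit s ∧ IsIntegral P s ∧ IsIntegral P (s * r) := by
  let e : Localization.AtPrime q ≃ₐ[S] R := IsLocalization.algEquiv q.primeCompl _ _
  have hwqf : Algebra.WeaklyQuasiFiniteAt P q := by
    rw [Algebra.weaklyQuasiFiniteAt_iff]
    have hJ : Ideal.map (algebraMap P R) (q.under P) =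
        Ideal.map ((e.restrictScalars P : Localization.AtPrime q ≃ₐ[P] R) :
        Localization.AtPrime q →+* R)
        ((q.under P).map (algebraMap P (Localization.AtPrime q))) := by
      rw [Ideal.map_map]
      congr 1
      ext1 p
      exact ((e.restrictScalars P).commutes p).symm
    have h3 : Algebra.QuasiFinite P (R ⧸ (q.under P).map (algebraMap P R)) := inferInstance
    exact (Algebra.QuasiFinite.iff_of_algEquiv (Ideal.quotientEquivAlg _ _
      (e.restrictScalars P) hJ)).mpr h3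
  have hzmt : Algebra.ZariskisMainProperty P q := .of_finiteType_of_weaklyQuasiFiniteAt q
  rw [Algebra.zariskisMainProperty_iff] at hzmt
  obtain ⟨t, htq, ht, hint⟩ := hzmt
  obtain ⟨⟨a, b⟩, hab⟩ := IsLocalization.surj q.primeCompl r
  obtain ⟨m1, hm1⟩ := hint a
  obtain ⟨m2, hm2⟩ := hint b
  have hunit : ∀ y : S, y ∉ q → IsUnit (algebraMap S R y) := by
    intro y hy
    exact IsLocalization.map_units R (⟨y, hy⟩ : q.primeCompl)
  refine ⟨algebraMap S R (t ^ m1 * (t ^ m2 * b)), hunit _ ?_, ?_, ?_⟩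
  · intro h
    rcases hq.mem_or_mem h with h | h
    · exact htq (hq.mem_of_pow_mem _ h)
    · rcases hq.mem_or_mem h with h | h
      · exact htq (hq.mem_of_pow_mem _ h)
      · exact b.2 h
  · exact ((ht.pow m1).mul hm2).algebraMap
  · have : algebraMap S R (t ^ m1 * (t ^ m2 * b)) * r = algebraMap S R (t ^ m2 * (t ^ m1 * a)) := by
      rw [map_mul, map_mul, map_mul, map_mul, ← hab]
      ring
    rw [this]
    exact ((ht.pow m2).mul hm1).algebraMap

theorem zmt {n : ℕ} {R : Type} [CommRing R] [IsDomain R] [IsLocalRing R] [Algebra ℂ R]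
    [Algebra.EssFiniteType ℂ R]
    [Algebra (MvPolynomial (Fin n) ℂ) R] [IsScalarTower ℂ (MvPolynomial (Fin n) ℂ) R]
    (hres : Function.Surjective (algebraMap ℂ (ResidueField R)))
    (hx : ∀ i : Fin n, algebraMap (MvPolynomial (Fin n) ℂ) R (MvPolynomial.X i) ∈ maximalIdeal R)
    (hk : ∃ k : ℕ, maximalIdeal R ^ k ≤ Ideal.span
      (Set.range fun i : Fin n => algebraMap (MvPolynomial (Fin n) ℂ) R (MvPolynomial.X i)))
    (r : R) :
    ∃ s : R, IsUnit s ∧ IsIntegral (MvPolynomial (Fin n) ℂ) s ∧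
      IsIntegral (MvPolynomial (Fin n) ℂ) (s * r) := by
  classical
  let P := MvPolynomial (Fin n) ℂ
  have hnoeth : IsNoetherianRing R := Algebra.EssFiniteType.isNoetherianRing ℂ R
  have hess : Algebra.EssFiniteType P R := Algebra.EssFiniteType.of_comp ℂ P R
  let S := Algebra.EssFiniteType.subalgebra P R
  have hloc := Algebra.EssFiniteType.isLocalization (R := P) (S := R)
  let q : Ideal S := (maximalIdeal R).comap (algebraMap S R)
  have hq : q.IsPrime := Ideal.IsPrime.comap _
  have hqM : q.primeCompl = Algebra.EssFiniteType.submonoid P R := by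
    ext a
    rw [Ideal.mem_primeCompl_iff, Ideal.mem_comap, mem_maximalIdeal, mem_nonunits_iff, not_not]
    rfl
  have hloc' : IsLocalization.AtPrime R q := by
    rw [IsLocalization.AtPrime, hqM]; exact hloc
  have hxq : ∀ i : Fin n, (MvPolynomial.X i : P) ∈ q.under P := by
    intro i
    rw [Ideal.under_def, Ideal.mem_comap, Ideal.mem_comap, ← IsScalarTower.algebraMap_apply]
    exact hx i
  obtain ⟨k, hk⟩ := hk
  have hkJ : maximalIdeal R ^ k ≤ (q.under P).map (algebraMap P R) := by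
    refine hk.trans ?_
    rw [Ideal.span_le]
    rintro _ ⟨i, rfl⟩
    exact Ideal.mem_map_of_mem _ (hxq i)
  have h1 : Module.Finite ℂ (R ⧸ (q.under P).map (algebraMap P R)) :=
    finite_quotient_of_pow_le hres _ k hkJ
  have h2 : Module.Finite P (R ⧸ (q.under P).map (algebraMap P R)) :=
    Module.Finite.of_restrictScalars_finite ℂ P _
  exact zmt_aux q hq hloc' h2 r

end Vale.Agent.P282
end

section

open scoped NNReal ENNReal Nat WithZero
open IsLocalRing

namespace Vale.Agent.P282.Full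

variable {n r : ℕ} {K K' : Type} [Field K] [Algebra ℂ K]
  [Field K'] [Algebra ℂ K'] [Algebra K K'] [IsScalarTower ℂ K K']

/-- The real absolute value of a conjugate of `v`. -/
noncomputable def absConj (v : Valuation K' ℝ≥0) (σ : K' ≃ₐ[K] K') : AbsoluteValue K' ℝ where
  toFun x := (v (σ x) : ℝ)
  map_mul' x y := by simp
  nonneg' x := NNReal.coe_nonneg _
  eq_zero' x := by simp
  add_le' x y := by
    have h := v.map_add (σ x) (σ y)
    rw [← map_add] at h
    calc (v (σ (x + y)) : ℝ) ≤ ((max (v (σ x)) (v (σ y)) : ℝ≥0) : ℝ) := by exact_mod_cast h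
      _ ≤ v (σ x) + v (σ y) := by
          rw [NNReal.coe_max]
          exact max_le_add_of_nonneg (NNReal.coe_nonneg _) (NNReal.coe_nonneg _)

theorem absConj_apply (v : Valuation K' ℝ≥0) (σ : K' ≃ₐ[K] K') (x : K') :
    absConj v σ x = (v (σ x) : ℝ) := rfl

theorem absConj_eq_of_isEquiv (v : Valuation K' ℝ≥0)
    (hv : ∃ a : K, a ≠ 0 ∧ v (algebraMap K K' a) < 1) (σ τ : K' ≃ₐ[K] K')
    (h : (absConj v σ).IsEquiv (absConj v τ)) : absConj v σ = absConj v τ := by
  obtain ⟨a, ha0, ha1⟩ := hv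
  obtain ⟨c, hc, hceq⟩ := AbsoluteValue.isEquiv_iff_exists_rpow_eq.1 h
  have h1 := congrFun hceq (algebraMap K K' a)
  simp only [absConj_apply, AlgEquiv.commutes] at h1
  have hpos : (0 : ℝ) < v (algebraMap K K' a) := by
    have : v (algebraMap K K' a) ≠ 0 := by
      rw [Valuation.ne_zero_iff]
      simpa using ha0
    exact_mod_cast pos_iff_ne_zero.2 this
  have hlt : (v (algebraMap K K' a) : ℝ) < 1 := by exact_mod_cast ha1
  have hc1 : c = 1 := by
    have h2 := congrArg Real.log h1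
    rw [Real.log_rpow hpos] at h2
    have hlog : Real.log (v (algebraMap K K' a) : ℝ) < 0 := Real.log_neg hpos hlt
    have : (c - 1) * Real.log (v (algebraMap K K' a) : ℝ) = 0 := by linarith
    rcases mul_eq_zero.1 this with h3 | h3
    · linarith
    · exact absurd h3 hlog.ne
  ext x
  have h2 := congrFun hceq x
  rw [hc1, Real.rpow_one] at h2
  exact h2

/-- Approximation: an element which is a unit for `v` and small for the other conjugates. -/
theorem exists_approx (hfin : FiniteDimensional K K') (v : Valuation K' ℝ≥0)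
    (hv : ∃ a : K, a ≠ 0 ∧ v (algebraMap K K' a) < 1) (δ : ℝ≥0) (hδ : 0 < δ) :
    ∃ t : K', v t = 1 ∧ ∀ σ : K' ≃ₐ[K] K', (∃ a, v (σ a) ≠ v a) → v (σ t) < δ := by
  classical
  let ι : Type := Set.range (fun σ : K' ≃ₐ[K] K' => absConj v σ)
  have hfinG : Finite (K' ≃ₐ[K] K') := inferInstance
  have hfinι : Finite ι := Set.finite_range _
  have hnt : ∀ i : ι, (i.1 : AbsoluteValue K' ℝ).IsNontrivial := by
    rintro ⟨w, σ, rfl⟩
    obtain ⟨a, ha0, ha1⟩ := hv
    refine ⟨algebraMap K K' a, by simpa using ha0, ?_⟩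
    simp only [absConj_apply, AlgEquiv.commutes]
    intro h
    have : v (algebraMap K K' a) = 1 := by exact_mod_cast h
    exact ha1.ne this
  have hpair : Pairwise fun i j : ι => ¬ (i.1).IsEquiv j.1 := by
    rintro ⟨w, σ, rfl⟩ ⟨w', τ, rfl⟩ hne heq
    exact hne (Subtype.ext (absConj_eq_of_isEquiv v hv σ τ heq))
  obtain ⟨y, hy1, hy2⟩ := AbsoluteValue.exists_one_lt_lt_one_pi_of_not_isEquiv hnt hpair
    (⟨absConj v (AlgEquiv.refl), ⟨AlgEquiv.refl, rfl⟩⟩ : ι)
  simp only [absConj_apply, AlgEquiv.coe_refl, id_eq] at hy1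
  have hvy : 1 < v y := by exact_mod_cast hy1
  have hbad : ∀ σ : K' ≃ₐ[K] K', (∃ a, v (σ a) ≠ v a) → v (σ y) < 1 := by
    rintro σ ⟨a, ha⟩
    have := hy2 (⟨absConj v σ, ⟨σ, rfl⟩⟩ : ι) (by
      intro h
      have h1 : absConj v σ = absConj v AlgEquiv.refl := congrArg Subtype.val h
      have h2 := congrArg (fun w : AbsoluteValue K' ℝ => w a) h1
      simp only [absConj_apply, AlgEquiv.coe_refl, id_eq] at h2
      exact ha (by exact_mod_cast h2))
    simp only [absConj_apply] at this
    exact_mod_cast this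
  -- choose the exponent
  have hev : ∀ᶠ k : ℕ in Filter.atTop, ∀ σ : K' ≃ₐ[K] K', (∃ a, v (σ a) ≠ v a) →
      v (σ y) ^ k < δ := by
    rw [Filter.eventually_all]
    intro σ
    by_cases hσ : ∃ a, v (σ a) ≠ v a
    · have := (NNReal.tendsto_pow_atTop_nhds_zero_of_lt_one (hbad σ hσ)).eventually_lt_const hδ
      filter_upwards [this] with k hk _ using hk
    · exact Filter.Eventually.of_forall fun k h => absurd h hσ
  obtain ⟨k, hk, hk1⟩ := (hev.and (Filter.eventually_ge_atTop 1)).exists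
  have hk0 : k ≠ 0 := by omega
  refine ⟨y ^ k / (1 + y ^ k), ?_, fun σ hσ => ?_⟩
  · have h1 : v (1 : K') < v (y ^ k) := by
      rw [map_one, map_pow]
      exact one_lt_pow₀ hvy hk0
    rw [map_div₀, Valuation.map_add_eq_of_lt_right v h1]
    refine div_self ?_
    exact (lt_of_le_of_lt zero_le h1).ne'
  · have h1 : v ((σ y) ^ k) < v (1 : K') := by
      rw [map_one, map_pow]
      exact pow_lt_one₀ zero_le (hbad σ hσ) hk0
    rw [map_div₀, map_add, map_one, map_pow, map_div₀, Valuation.map_add_eq_of_lt_left v h1,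
      map_one, div_one, map_pow]
    exact hk σ hσ

/-- The ratio `σ u / u`. -/
noncomputable def rat (u : K') (σ : K' ≃ₐ[K] K') : K' := σ u / u

theorem rat_exists (hr : 0 < r) {u : K'} (hu0 : u ≠ 0) {c : K} (huc : u ^ r = algebraMap K K' c)
    (σ : K' ≃ₐ[K] K') : ∃ ζ : ℂ, ζ ≠ 0 ∧ rat u σ = algebraMap ℂ K' ζ := by
  have h1 : (rat u σ) ^ r = 1 := by
    rw [rat, div_pow, ← map_pow, huc, AlgEquiv.commutes, ← huc]
    exact div_self (pow_ne_zero _ hu0)
  have : NeZero r := ⟨hr.ne'⟩
  have hprim := Complex.isPrimitiveRoot_exp r hr.ne'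
  have hprim' := hprim.map_of_injective (f := algebraMap ℂ K') (algebraMap ℂ K').injective
  obtain ⟨i, -, hi⟩ := hprim'.eq_pow_of_pow_eq_one h1
  refine ⟨(Complex.exp (2 * Real.pi * Complex.I / r)) ^ i, pow_ne_zero _ (Complex.exp_ne_zero _), ?_⟩
  rw [map_pow]
  exact hi.symm

theorem rat_fixed (hr : 0 < r) {u : K'} (hu0 : u ≠ 0) {c : K} (huc : u ^ r = algebraMap K K' c)
    (σ τ : K' ≃ₐ[K] K') : τ (rat u σ) = rat u σ := by
  obtain ⟨ζ, -, hζ⟩ := rat_exists hr hu0 huc σ
  rw [hζ, IsScalarTower.algebraMap_apply ℂ K K', AlgEquiv.commutes]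

theorem rat_mul (hr : 0 < r) {u : K'} (hu0 : u ≠ 0) {c : K} (huc : u ^ r = algebraMap K K' c)
    (σ τ : K' ≃ₐ[K] K') : rat u (σ * τ) = rat u σ * rat u τ := by
  have h := rat_fixed hr hu0 huc τ σ
  have h2 : τ u = rat u τ * u := by rw [rat, div_mul_cancel₀ _ hu0]
  rw [rat, AlgEquiv.mul_apply, h2, map_mul, h, rat, rat]
  ring

theorem rat_val (hr : 0 < r) {u : K'} (hu0 : u ≠ 0) {c : K} (huc : u ^ r = algebraMap K K' c)
    (v : Valuation K' ℝ≥0) (hvC : ∀ c : ℂ, c ≠ 0 → v (algebraMap ℂ K' c) = 1)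
    (σ : K' ≃ₐ[K] K') : v (rat u σ) = 1 := by
  obtain ⟨ζ, hζ0, hζ⟩ := rat_exists hr hu0 huc σ
  rw [hζ]
  exact hvC ζ hζ0

theorem apply_eq_rat {u : K'} (hu0 : u ≠ 0) (σ : K' ≃ₐ[K] K') : σ u = rat u σ * u := by
  rw [rat, div_mul_cancel₀ _ hu0]

/-- Orthogonality of the characters. -/
theorem sum_rat (hfin : FiniteDimensional K K') (hgal : IsGalois K K') (hr : 0 < r)
    {u : K'} (hu0 : u ≠ 0) {c : K} (huc : u ^ r = algebraMap K K' c) (d : ℕ)
    (hli : LinearIndependent K (fun i : Fin d => u ^ (i : ℕ))) (i j : Fin d) (hij : i ≠ j) :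
    ∑ σ : K' ≃ₐ[K] K', (rat u σ) ^ (i : ℕ) / (rat u σ) ^ (j : ℕ) = 0 := by
  classical
  have hr0 : ∀ σ : K' ≃ₐ[K] K', rat u σ ≠ 0 := fun σ => by
    rw [rat]
    exact div_ne_zero (by simpa using hu0) hu0
  have hτ : ∃ τ : K' ≃ₐ[K] K', (rat u τ) ^ (i : ℕ) / (rat u τ) ^ (j : ℕ) ≠ 1 := by
    by_contra hcon
    push Not at hcon
    have hfix : ∀ τ : K' ≃ₐ[K] K', τ (u ^ (i : ℕ) / u ^ (j : ℕ)) = u ^ (i : ℕ) / u ^ (j : ℕ) := by
      intro τ
      have h1 := hcon τ
      rw [div_eq_one_iff_eq (pow_ne_zero _ (hr0 τ))] at h1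
      rw [map_div₀, map_pow, map_pow, apply_eq_rat hu0 τ, mul_pow, mul_pow, h1]
      exact mul_div_mul_left _ _ (pow_ne_zero _ (hr0 τ))
    obtain ⟨k, hk⟩ := (IsGalois.mem_range_algebraMap_iff_fixed (F := K) (E := K') _).2 hfix
    have h2 : u ^ (i : ℕ) = k • u ^ (j : ℕ) := by
      rw [Algebra.smul_def, hk, div_mul_cancel₀ _ (pow_ne_zero _ hu0)]
    have h3 := linearIndependent_iff'.1 hli {i, j} (fun l => if l = i then 1 else -k) (by
      rw [Finset.sum_pair hij]
      simp only [if_true, one_smul, if_neg hij.symm, neg_smul]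
      rw [h2]
      abel) i (by simp)
    simp at h3
  obtain ⟨τ, hτ⟩ := hτ
  have hS : ∑ σ : K' ≃ₐ[K] K', (rat u σ) ^ (i : ℕ) / (rat u σ) ^ (j : ℕ) =
      (rat u τ) ^ (i : ℕ) / (rat u τ) ^ (j : ℕ) *
        ∑ σ : K' ≃ₐ[K] K', (rat u σ) ^ (i : ℕ) / (rat u σ) ^ (j : ℕ) := by
    rw [Finset.mul_sum]
    refine Fintype.sum_equiv (Equiv.mulLeft τ⁻¹) _ _ fun σ => ?_
    have h : rat u σ = rat u τ * rat u (τ⁻¹ * σ) := by
      rw [← rat_mul hr hu0 huc, mul_inv_cancel_left]
    simp only [Equiv.coe_mulLeft]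
    rw [h, mul_pow, mul_pow]
    exact mul_div_mul_comm _ _ _ _
  have h5 : ((rat u τ) ^ (i : ℕ) / (rat u τ) ^ (j : ℕ) - 1) *
      ∑ σ : K' ≃ₐ[K] K', (rat u σ) ^ (i : ℕ) / (rat u σ) ^ (j : ℕ) = 0 := by
    rw [sub_mul, one_mul, ← hS, sub_self]
  rcases mul_eq_zero.1 h5 with h6 | h6
  · exact absurd (sub_eq_zero.1 h6) hτ
  · exact h6

/-- Eigencomponents: if `u ^ r` is a unit of `K` then `max_σ v(σ a) = max_j v(a_j)` for
`a = ∑ a_j u ^ j`. -/
theorem exists_eigen (hfin : FiniteDimensional K K') (hgal : IsGalois K K') (hr : 0 < r)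
    {u : K'} (hu : Algebra.adjoin K {u} = ⊤) {c : K} (huc : u ^ r = algebraMap K K' c)
    (v : Valuation K' ℝ≥0)
    (hvC : ∀ c : ℂ, c ≠ 0 → v (algebraMap ℂ K' c) = 1) (hvu : v u = 1) (a : K') :
    ∃ (m : ℕ) (x : Fin m → K), a = ∑ j : Fin m, algebraMap K K' (x j) * u ^ (j : ℕ) ∧
      (∀ j, ∃ σ : K' ≃ₐ[K] K', v (algebraMap K K' (x j)) ≤ v (σ a)) ∧
      ∀ σ : K' ≃ₐ[K] K', ∃ j, v (σ a) ≤ v (algebraMap K K' (x j)) ∨ a = 0 := by
  classical
  have hu0 : u ≠ 0 := by
    rintro rfl
    rw [map_zero] at hvu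
    exact zero_ne_one hvu
  let pb : PowerBasis K K' := PowerBasis.ofAdjoinEqTop (Algebra.IsIntegral.isIntegral u) hu
  have hgen : pb.gen = u := PowerBasis.ofAdjoinEqTop_gen _ _
  have hbas : ∀ j, pb.basis j = u ^ (j : ℕ) := fun j => by rw [pb.basis_eq_pow, hgen]
  have hli : LinearIndependent K (fun i : Fin pb.dim => u ^ (i : ℕ)) := by
    have := pb.basis.linearIndependent
    rwa [show (pb.basis : Fin pb.dim → K') = fun i : Fin pb.dim => u ^ (i : ℕ) from
      funext hbas] at this
  have hsum : a = ∑ j : Fin pb.dim, algebraMap K K' (pb.basis.repr a j) * u ^ (j : ℕ) := by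
    conv_lhs => rw [← pb.basis.sum_repr a]
    refine Finset.sum_congr rfl fun j _ => ?_
    rw [hbas, Algebra.smul_def]
  refine ⟨pb.dim, fun j => pb.basis.repr a j, hsum, ?_, ?_⟩
  · intro j
    obtain ⟨σ₀, -, hσ₀⟩ := Finset.exists_max_image (Finset.univ : Finset (K' ≃ₐ[K] K'))
      (fun σ => v (σ a)) ⟨1, Finset.mem_univ _⟩
    refine ⟨σ₀, ?_⟩
    have hσa : ∀ σ : K' ≃ₐ[K] K', σ a =
        ∑ i : Fin pb.dim, algebraMap K K' (pb.basis.repr a i) * u ^ (i : ℕ) *
          (rat u σ) ^ (i : ℕ) := by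
      intro σ
      conv_lhs => rw [hsum]
      rw [map_sum]
      refine Finset.sum_congr rfl fun i _ => ?_
      rw [map_mul, AlgEquiv.commutes, map_pow, apply_eq_rat hu0 σ, mul_pow]
      ring
    have hr0 : ∀ σ : K' ≃ₐ[K] K', rat u σ ≠ 0 := fun σ => by
      rw [rat]
      exact div_ne_zero (by simpa using hu0) hu0
    have hkey : ∑ σ : K' ≃ₐ[K] K', σ a / (rat u σ) ^ (j : ℕ) =
        (Fintype.card (K' ≃ₐ[K] K') : K') *
          (algebraMap K K' (pb.basis.repr a j) * u ^ (j : ℕ)) := by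
      have h1 : ∀ σ : K' ≃ₐ[K] K', σ a / (rat u σ) ^ (j : ℕ) =
          ∑ i : Fin pb.dim, algebraMap K K' (pb.basis.repr a i) * u ^ (i : ℕ) *
            ((rat u σ) ^ (i : ℕ) / (rat u σ) ^ (j : ℕ)) := by
        intro σ
        rw [hσa σ, Finset.sum_div]
        refine Finset.sum_congr rfl fun i _ => ?_
        rw [mul_div_assoc]
      simp_rw [h1]
      rw [Finset.sum_comm, Finset.sum_eq_single j]
      · have h2 : ∀ σ : K' ≃ₐ[K] K', algebraMap K K' (pb.basis.repr a j) * u ^ (j : ℕ) *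
            ((rat u σ) ^ (j : ℕ) / (rat u σ) ^ (j : ℕ)) =
            algebraMap K K' (pb.basis.repr a j) * u ^ (j : ℕ) := fun σ => by
          rw [div_self (pow_ne_zero _ (hr0 σ)), mul_one]
        simp_rw [h2]
        rw [Finset.sum_const, Finset.card_univ, nsmul_eq_mul]
      · intro i _ hij
        rw [← Finset.mul_sum, sum_rat hfin hgal hr hu0 huc pb.dim hli i j hij, mul_zero]
      · intro h
        exact absurd (Finset.mem_univ _) h
    have hcard : v (Fintype.card (K' ≃ₐ[K] K') : K') = 1 := by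
      have := hvC (Fintype.card (K' ≃ₐ[K] K') : ℂ) (by
        exact_mod_cast Fintype.card_ne_zero)
      rwa [map_natCast] at this
    have h3 : v (∑ σ : K' ≃ₐ[K] K', σ a / (rat u σ) ^ (j : ℕ)) ≤ v (σ₀ a) := by
      refine Valuation.map_sum_le v fun σ _ => ?_
      rw [map_div₀, map_pow, rat_val hr hu0 huc v hvC, one_pow, div_one]
      exact hσ₀ σ (Finset.mem_univ _)
    rw [hkey, map_mul, hcard, one_mul, map_mul, map_pow, hvu, one_pow, mul_one] at h3
    exact h3
  · intro σ
    have hpos : 0 < pb.dim := by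
      have := pb.finrank
      have h2 : 0 < Module.finrank K K' := Module.finrank_pos
      omega
    have : Nonempty (Fin pb.dim) := ⟨⟨0, hpos⟩⟩
    obtain ⟨j₀, -, hj₀⟩ := Finset.exists_max_image (Finset.univ : Finset (Fin pb.dim))
      (fun j => v (algebraMap K K' (pb.basis.repr a j))) ⟨⟨0, hpos⟩, Finset.mem_univ _⟩
    refine ⟨j₀, Or.inl ?_⟩
    conv_lhs => rw [hsum]
    rw [map_sum]
    refine Valuation.map_sum_le v fun i _ => ?_
    rw [map_mul, AlgEquiv.commutes, map_pow, apply_eq_rat hu0 σ, map_mul, map_pow, map_mul,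
      rat_val hr hu0 huc v hvC, hvu, one_mul, one_pow, mul_one]
    exact hj₀ i (Finset.mem_univ _)

/-- A multiplier `t` with `v t = 1`, `v (σ t) ≤ 1` for all `σ` and `v (σ (t * a)) ≤ v a`. -/
theorem exists_mult (hfin : FiniteDimensional K K') (v : Valuation K' ℝ≥0)
    (hv : ∃ a : K, a ≠ 0 ∧ v (algebraMap K K' a) < 1) {a : K'} (ha : a ≠ 0) :
    ∃ t : K', v t = 1 ∧ ∀ σ : K' ≃ₐ[K] K', v (σ t) ≤ 1 ∧ v (σ (t * a)) ≤ v a := by
  classical
  obtain ⟨σ₀, -, hσ₀⟩ := Finset.exists_max_image (Finset.univ : Finset (K' ≃ₐ[K] K'))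
    (fun σ => v (σ a)) ⟨1, Finset.mem_univ _⟩
  have hva : 0 < v a := pos_iff_ne_zero.2 ((Valuation.ne_zero_iff v).2 ha)
  have hS : 0 < v (σ₀ a) := by
    refine pos_iff_ne_zero.2 ((Valuation.ne_zero_iff v).2 ?_)
    simpa using ha
  obtain ⟨t, ht1, ht2⟩ := exists_approx hfin v hv (min 1 (v a / v (σ₀ a)))
    (lt_min one_pos (div_pos hva hS))
  refine ⟨t, ht1, fun σ => ?_⟩
  by_cases hσ : ∃ b, v (σ b) ≠ v b
  · have h1 := ht2 σ hσ
    refine ⟨(h1.le.trans (min_le_left _ _)), ?_⟩
    rw [map_mul, map_mul]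
    calc v (σ t) * v (σ a) ≤ (v a / v (σ₀ a)) * v (σ₀ a) :=
          mul_le_mul' (h1.le.trans (min_le_right _ _)) (hσ₀ σ (Finset.mem_univ _))
      _ = v a := div_mul_cancel₀ _ hS.ne'
  · push Not at hσ
    refine ⟨by rw [hσ, ht1], ?_⟩
    rw [hσ, map_mul, ht1, one_mul]

/-- The value groups agree. -/
theorem exists_val_eq (hfin : FiniteDimensional K K') (hgal : IsGalois K K') (hr : 0 < r)
    {u : K'} (hu : Algebra.adjoin K {u} = ⊤) {c : K} (huc : u ^ r = algebraMap K K' c)
    (v : Valuation K' ℝ≥0)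
    (hvC : ∀ c : ℂ, c ≠ 0 → v (algebraMap ℂ K' c) = 1) (hvu : v u = 1) (hv : ∃ a : K, a ≠ 0 ∧ v (algebraMap K K' a) < 1)
    (a : K') : ∃ b : K, v (algebraMap K K' b) = v a := by
  by_cases ha : a = 0
  · exact ⟨0, by rw [ha, map_zero]⟩
  obtain ⟨t, ht1, ht2⟩ := exists_mult hfin v hv ha
  obtain ⟨m, x, -, hx1, hx2⟩ := exists_eigen hfin hgal hr hu huc v hvC hvu (t * a)
  obtain ⟨j, hj⟩ := hx2 1
  have ht0 : t ≠ 0 := by
    rintro rfl
    rw [map_zero] at ht1
    exact zero_ne_one ht1
  have hta : t * a ≠ 0 := mul_ne_zero ht0 ha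
  have hj' := hj.resolve_right hta
  rw [AlgEquiv.one_apply, map_mul, ht1, one_mul] at hj'
  obtain ⟨σ, hσ⟩ := hx1 j
  exact ⟨x j, le_antisymm (hσ.trans (ht2 σ).2) hj'⟩

theorem val_derivation_le (hfin : FiniteDimensional K K') (hgal : IsGalois K K') (hr : 0 < r)
    {u : K'} (hu : Algebra.adjoin K {u} = ⊤) {c : K} (huc : u ^ r = algebraMap K K' c)
    (v : Valuation K' ℝ≥0)
    (hvC : ∀ c : ℂ, c ≠ 0 → v (algebraMap ℂ K' c) = 1) (hvu : v u = 1)
    {D : Derivation ℂ K K} (hD : ∀ b : K, v (algebraMap K K' (D b)) ≤ v (algebraMap K K' b))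
    {D' : Derivation ℂ K' K'} (hD' : ∀ a : K, D' (algebraMap K K' a) = algebraMap K K' (D a))
    (b : K') : ∃ σ : K' ≃ₐ[K] K', v (D' b) ≤ v (σ b) := by
  classical
  have hu0 : u ≠ 0 := by
    rintro rfl
    rw [map_zero] at hvu
    exact zero_ne_one hvu
  -- the value of `D' u`
  have hDu : v (D' u) ≤ 1 := by
    have h1 : D' (u ^ r) = (r : K') * (u ^ (r - 1) * D' u) := by
      rw [Derivation.leibniz_pow, nsmul_eq_mul, smul_eq_mul]
    rw [huc, hD'] at h1
    have hvr : v (r : K') = 1 := by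
      have := hvC (r : ℂ) (by exact_mod_cast hr.ne')
      rwa [map_natCast] at this
    have h2 : v (D' u) = v (algebraMap K K' (D c)) := by
      rw [h1, map_mul, hvr, one_mul, map_mul, map_pow, hvu, one_pow, one_mul]
    rw [h2]
    refine (hD c).trans ?_
    rw [← huc, map_pow, hvu, one_pow]
  obtain ⟨σ₀, -, hσ₀⟩ := Finset.exists_max_image (Finset.univ : Finset (K' ≃ₐ[K] K'))
    (fun σ => v (σ b)) ⟨1, Finset.mem_univ _⟩
  refine ⟨σ₀, ?_⟩
  obtain ⟨m, x, hsum, hx1, -⟩ := exists_eigen hfin hgal hr hu huc v hvC hvu b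
  have hx : ∀ j, v (algebraMap K K' (x j)) ≤ v (σ₀ b) := fun j => by
    obtain ⟨σ, hσ⟩ := hx1 j
    exact hσ.trans (hσ₀ σ (Finset.mem_univ _))
  conv_lhs => rw [hsum]
  rw [map_sum]
  refine Valuation.map_sum_le v fun j _ => ?_
  rw [Derivation.leibniz, smul_eq_mul, smul_eq_mul, hD', Derivation.leibniz_pow, nsmul_eq_mul,
    smul_eq_mul]
  refine (v.map_add _ _).trans (max_le ?_ ?_)
  · rw [map_mul, map_mul, map_mul, map_pow, hvu, one_pow, one_mul]
    have hj : v ((j : ℕ) : K') ≤ 1 := by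
      by_cases hj0 : (j : ℕ) = 0
      · rw [hj0, Nat.cast_zero, map_zero]
        exact zero_le_one
      · have := hvC ((j : ℕ) : ℂ) (by exact_mod_cast hj0)
        rw [map_natCast] at this
        exact this.le
    calc v (algebraMap K K' (x j)) * (v ((j : ℕ) : K') * v (D' u))
        ≤ v (σ₀ b) * (1 * 1) := mul_le_mul' (hx j) (mul_le_mul' hj hDu)
      _ = v (σ₀ b) := by rw [one_mul, mul_one]
  · rw [map_mul, map_pow, hvu, one_pow, one_mul]
    exact (hD _).trans (hx j)

/-- Log derivations extend to log derivations. -/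
theorem extend_log (hfin : FiniteDimensional K K') (hgal : IsGalois K K') (hr : 0 < r)
    {u : K'} (hu : Algebra.adjoin K {u} = ⊤) {c : K} (huc : u ^ r = algebraMap K K' c)
    (v : Valuation K' ℝ≥0)
    (hvC : ∀ c : ℂ, c ≠ 0 → v (algebraMap ℂ K' c) = 1) (hvu : v u = 1) (hv : ∃ a : K, a ≠ 0 ∧ v (algebraMap K K' a) < 1)
    {D : Derivation ℂ K K} (hD : ∀ b : K, v (algebraMap K K' (D b)) ≤ v (algebraMap K K' b))
    {D' : Derivation ℂ K' K'} (hD' : ∀ a : K, D' (algebraMap K K' a) = algebraMap K K' (D a))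
    (b : K') : v (D' b) ≤ v b := by
  by_cases hb : b = 0
  · rw [hb, map_zero]
  obtain ⟨t, ht1, ht2⟩ := exists_mult hfin v hv hb
  obtain ⟨σ, hσ⟩ := val_derivation_le hfin hgal hr hu huc v hvC hvu hD hD' (t * b)
  obtain ⟨τ, hτ⟩ := val_derivation_le hfin hgal hr hu huc v hvC hvu hD hD' t
  have h1 : v (D' (t * b)) ≤ v b := hσ.trans (ht2 σ).2
  have h2 : v (D' t) ≤ 1 := hτ.trans (ht2 τ).1
  have h3 : t * D' b = D' (t * b) - b * D' t := by
    rw [Derivation.leibniz, smul_eq_mul, smul_eq_mul]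
    ring
  have h4 : v (D' b) = v (t * D' b) := by rw [map_mul, ht1, one_mul]
  rw [h4, h3]
  refine (v.map_sub _ _).trans (max_le h1 ?_)
  rw [map_mul]
  calc v b * v (D' t) ≤ v b * 1 := mul_le_mul' le_rfl h2
    _ = v b := mul_one _

end Vale.Agent.P282.Full
end

section

/-!
P282, equality case: the formal Morse lemma.
-/

namespace Vale.Agent.P282.EQ

open MvPowerSeries

namespace MorseAux

variable {m : ℕ}

/-- all coefficients of degree `< k` vanish -/
def Lo (k : ℕ) (f : MvPowerSeries (Fin m) ℂ) : Prop := ∀ e : Fin m →₀ ℕ, e.degree < k → coeff e f = 0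

theorem Lo.mono {k l : ℕ} (h : l ≤ k) {f : MvPowerSeries (Fin m) ℂ} (hf : Lo k f) : Lo l f :=
  fun e he => hf e (he.trans_le h)

theorem Lo.add {k : ℕ} {f g : MvPowerSeries (Fin m) ℂ} (hf : Lo k f) (hg : Lo k g) :
    Lo k (f + g) := fun e he => by rw [map_add, hf e he, hg e he, add_zero]

theorem Lo.sub {k : ℕ} {f g : MvPowerSeries (Fin m) ℂ} (hf : Lo k f) (hg : Lo k g) :
    Lo k (f - g) := fun e he => by rw [map_sub, hf e he, hg e he, sub_zero]

theorem Lo.mul {a b : ℕ} {f g : MvPowerSeries (Fin m) ℂ} (hf : Lo a f) (hg : Lo b g) :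
    Lo (a + b) (f * g) := by
  classical
  intro e he
  rw [coeff_mul]
  refine Finset.sum_eq_zero fun p hp => ?_
  rw [Finset.HasAntidiagonal.mem_antidiagonal] at hp
  have h1 : p.1.degree + p.2.degree = e.degree := by rw [← hp, map_add]
  rcases Nat.lt_or_ge p.1.degree a with h | h
  · rw [hf _ h, zero_mul]
  · rw [hg _ (by omega), mul_zero]

theorem lo_zero (f : MvPowerSeries (Fin m) ℂ) : Lo 0 f := fun e he => absurd he (by omega)

theorem lo_one_iff {f : MvPowerSeries (Fin m) ℂ} : Lo 1 f ↔ constantCoeff f = 0 := by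
  constructor
  · intro h
    have := h 0 (by simp)
    simpa using this
  · intro h e he
    have h0 : e = 0 := by
      rw [← Finsupp.degree_eq_zero_iff]
      omega
    subst h0
    simpa using h

/-- the relation `a ≡ b` modulo degree `p + 1`, both of order at least `p` -/
structure Rel (p : ℕ) (a b : MvPowerSeries (Fin m) ℂ) : Prop where
  l : Lo p a
  r : Lo p b
  d : Lo (p + 1) (a - b)

theorem Rel.mul {p q : ℕ} {a b a' b' : MvPowerSeries (Fin m) ℂ} (h : Rel p a b)
    (h' : Rel q a' b') : Rel (p + q) (a * a') (b * b') := by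
  refine ⟨h.l.mul h'.l, h.r.mul h'.r, ?_⟩
  have e : a * a' - b * b' = a * (a' - b') + (a - b) * b' := by ring
  rw [e]
  refine Lo.add ?_ ?_
  · exact (h.l.mul h'.d).mono (by omega)
  · exact (h.d.mul h'.r).mono (by omega)

theorem rel_one : Rel 0 (1 : MvPowerSeries (Fin m) ℂ) 1 :=
  ⟨lo_zero _, lo_zero _, by rw [sub_self]; exact fun e _ => map_zero _⟩

theorem Rel.pow {p : ℕ} {a b : MvPowerSeries (Fin m) ℂ} (h : Rel p a b) (n : ℕ) :
    Rel (n * p) (a ^ n) (b ^ n) := by
  induction n with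
  | zero => simpa using rel_one
  | succ n ih =>
    rw [pow_succ, pow_succ, Nat.succ_mul]
    exact ih.mul h

theorem rel_prod {ι : Type*} (s : Finset ι) (p : ι → ℕ) (a b : ι → MvPowerSeries (Fin m) ℂ)
    (h : ∀ i, Rel (p i) (a i) (b i)) :
    Rel (∑ i ∈ s, p i) (∏ i ∈ s, a i) (∏ i ∈ s, b i) := by
  classical
  induction s using Finset.induction_on with
  | empty => simpa using rel_one
  | insert i s hi ih =>
    rw [Finset.sum_insert hi, Finset.prod_insert hi, Finset.prod_insert hi]
    exact (h i).mul ih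

theorem rel_mon {w w' : Fin m → MvPowerSeries (Fin m) ℂ} (h : ∀ i, Rel 1 (w i) (w' i))
    (d : Fin m →₀ ℕ) :
    Rel d.degree (d.prod fun s e => w s ^ e) (d.prod fun s e => w' s ^ e) := by
  rw [Finsupp.prod_fintype _ _ (fun i => pow_zero _), Finsupp.prod_fintype _ _ (fun i => pow_zero _),
    Finsupp.degree_eq_sum]
  refine rel_prod _ _ _ _ fun i => ?_
  simpa using (h i).pow (d i)

theorem hs {w : Fin m → MvPowerSeries (Fin m) ℂ} (hw : ∀ i, constantCoeff (w i) = 0) :
    HasSubst w := hasSubst_of_constantCoeff_zero hw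

theorem subst_lo {w : Fin m → MvPowerSeries (Fin m) ℂ} (hw : ∀ i, constantCoeff (w i) = 0)
    {k : ℕ} {f : MvPowerSeries (Fin m) ℂ} (hf : Lo k f) : Lo k (subst w f) := by
  intro e he
  rw [coeff_subst (hs hw)]
  refine finsum_eq_zero_of_forall_eq_zero fun d => ?_
  rcases Nat.lt_or_ge d.degree k with h | h
  · rw [hf _ h, zero_smul]
  · have hr := rel_mon (w := w) (w' := w) (fun i => ⟨lo_one_iff.2 (hw i), lo_one_iff.2 (hw i),
      by rw [sub_self]; exact fun e _ => map_zero _⟩) d
    rw [hr.l e (by omega), smul_zero]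

theorem subst_sub_lo {w : Fin m → MvPowerSeries (Fin m) ℂ} (hw : ∀ i, Rel 1 (w i) (X i))
    {k : ℕ} {f : MvPowerSeries (Fin m) ℂ} (hf : Lo k f) : Lo (k + 1) (subst w f - f) := by
  intro e he
  have hw0 : ∀ i, constantCoeff (w i) = 0 := fun i => lo_one_iff.1 (hw i).l
  have h1 : coeff e f = coeff e (subst (X : Fin m → MvPowerSeries (Fin m) ℂ) f) := by
    rw [subst_self]
    rfl
  rw [map_sub, h1, coeff_subst (hs hw0), coeff_subst HasSubst.X, sub_eq_zero]
  refine finsum_congr fun d => ?_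
  rcases Nat.lt_or_ge d.degree k with h | h
  · rw [hf _ h, zero_smul, zero_smul]
  · have hr := (rel_mon hw d).d e (by omega)
    rw [map_sub, sub_eq_zero] at hr
    rw [hr]

theorem surj_aux {w : Fin m → MvPowerSeries (Fin m) ℂ} (hw : ∀ i, Rel 1 (w i) (X i))
    (H : MvPowerSeries (Fin m) ℂ) : ∃ G : MvPowerSeries (Fin m) ℂ, subst w G = H := by
  have hw0 : ∀ i, constantCoeff (w i) = 0 := fun i => lo_one_iff.1 (hw i).l
  have hS := hs hw0
  obtain ⟨h, h0, hstep⟩ : ∃ h : ℕ → MvPowerSeries (Fin m) ℂ, h 0 = H ∧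
      ∀ n, h (n + 1) = h n - subst w (h n) :=
    ⟨fun n => Nat.rec H (fun _ x => x - subst w x) n, rfl, fun n => rfl⟩
  have hlo : ∀ n, Lo n (h n) := by
    intro n
    induction n with
    | zero => exact lo_zero _
    | succ n ih =>
      rw [hstep]
      intro e he
      have := subst_sub_lo hw ih e he
      rw [map_sub] at this ⊢
      linear_combination -this
  let G : MvPowerSeries (Fin m) ℂ := fun e => ∑ n ∈ Finset.range (e.degree + 1), coeff e (h n)
  have hG : ∀ e, coeff e G = ∑ n ∈ Finset.range (e.degree + 1), coeff e (h n) := fun e => rfl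
  have hGN : ∀ N, Lo N (G - ∑ n ∈ Finset.range N, h n) := by
    intro N e he
    rw [map_sub, hG, map_sum, sub_eq_zero]
    refine Finset.sum_subset ?_ ?_
    · intro n hn
      rw [Finset.mem_range] at hn ⊢
      omega
    · intro n _ hn
      rw [Finset.mem_range, not_lt] at hn
      exact hlo n e (by omega)
  have hsum : ∀ N, subst w (∑ n ∈ Finset.range N, h n) = H - h N := by
    intro N
    rw [← coe_substAlgHom hS, map_sum]
    induction N with
    | zero => simp [h0]
    | succ N ih =>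
      rw [Finset.sum_range_succ, ih, hstep, coe_substAlgHom hS]
      ring
  refine ⟨G, ?_⟩
  ext e
  have h1 := subst_lo hw0 (hGN (e.degree + 1)) e (by omega)
  rw [subst_sub hS, hsum, map_sub, map_sub, hlo (e.degree + 1) e (by omega), sub_zero,
    sub_eq_zero] at h1
  exact h1

theorem deg_lt_two {e : Fin m →₀ ℕ} (he : e.degree < 2) :
    e = 0 ∨ ∃ i, e = Finsupp.single i 1 := by
  by_cases h0 : e = 0
  · exact Or.inl h0
  · right
    obtain ⟨i, hi⟩ : ∃ i, e i ≠ 0 := by
      by_contra! hc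
      exact h0 (Finsupp.ext hc)
    refine ⟨i, ?_⟩
    have hle : Finsupp.single i 1 ≤ e := by
      rw [Finsupp.single_le_iff]
      omega
    obtain ⟨c, rfl⟩ := le_iff_exists_add.1 hle
    rw [map_add, Finsupp.degree_single] at he
    have : c = 0 := by
      rw [← Finsupp.degree_eq_zero_iff]
      omega
    rw [this, add_zero]

theorem coeff_lin (v : Fin m → ℂ) (w : Fin m → MvPowerSeries (Fin m) ℂ) (e : Fin m →₀ ℕ) :
    coeff e (∑ i, C (v i) * w i : MvPowerSeries (Fin m) ℂ) = ∑ i, v i * coeff e (w i) := by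
  rw [map_sum]
  refine Finset.sum_congr rfl fun i _ => ?_
  rw [coeff_C_mul]

theorem subst_surj (w : Fin m → MvPowerSeries (Fin m) ℂ)
    (hw : ∀ i, constantCoeff (w i) = 0)
    (hdet : Matrix.det (Matrix.of fun i j => coeff (Finsupp.single j 1) (w i)) ≠ 0) :
    Function.Surjective (subst w : MvPowerSeries (Fin m) ℂ → MvPowerSeries (Fin m) ℂ) := by
  set W : Matrix (Fin m) (Fin m) ℂ := Matrix.of fun i j => coeff (Finsupp.single j 1) (w i)
    with hW
  have hVW : W⁻¹ * W = 1 := Matrix.nonsing_inv_mul _ (isUnit_iff_ne_zero.2 hdet)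
  set V := W⁻¹ with hV
  let L : Fin m → MvPowerSeries (Fin m) ℂ := fun j => ∑ i, C (V j i) * X i
  let w' : Fin m → MvPowerSeries (Fin m) ℂ := fun j => ∑ i, C (V j i) * w i
  have hL0 : ∀ j, constantCoeff (L j) = 0 := by
    intro j
    simp [L]
  have hw'0 : ∀ j, constantCoeff (w' j) = 0 := by
    intro j
    simp [w', hw]
  have hrel : ∀ j, Rel 1 (w' j) (X j) := by
    intro j
    refine ⟨lo_one_iff.2 (hw'0 j), lo_one_iff.2 (by simp), ?_⟩
    intro e he
    rcases deg_lt_two he with rfl | ⟨k, rfl⟩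
    · have := hw'0 j
      simp only [coeff_zero_eq_constantCoeff, map_sub, this, constantCoeff_X, sub_zero]
    · rw [map_sub, coeff_lin]
      have h2 : ∑ i, V j i * coeff (Finsupp.single k 1) (w i) = (1 : Matrix (Fin m) (Fin m) ℂ) j k := by
        rw [← hVW, Matrix.mul_apply]
        rfl
      rw [h2, coeff_index_single_X, Matrix.one_apply]
      simp [eq_comm]
  intro H
  obtain ⟨G, hG⟩ := surj_aux hrel H
  refine ⟨subst L G, ?_⟩
  rw [subst_comp_subst_apply (hs hL0) (hs hw), ← hG]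
  congr 1
  funext j
  have : subst w (L j) = w' j := by
    rw [← coe_substAlgHom (hs hw)]
    simp only [L, w', map_sum, map_mul, substAlgHom_X]
    refine Finset.sum_congr rfl fun i _ => ?_
    congr 1
    rw [coe_substAlgHom, subst_C]
  exact this

theorem inj_of_surj {R : Type*} [CommRing R] [IsNoetherianRing R] (f : R →+* R)
    (hf : Function.Surjective f) : Function.Injective f := by
  let K : ℕ →o Ideal R :=
    ⟨fun n => RingHom.ker (f ^ n), by
      refine monotone_nat_of_le_succ fun n x hx => ?_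
      rw [RingHom.mem_ker] at hx ⊢
      rw [pow_succ', RingHom.mul_def, RingHom.comp_apply, hx, map_zero]⟩
  obtain ⟨n, hn⟩ := monotone_stabilizes_iff_noetherian.mpr (inferInstance : IsNoetherian R R) K
  have hsn : Function.Surjective (f ^ n) := by
    rw [RingHom.coe_pow]
    exact hf.iterate n
  rw [injective_iff_map_eq_zero]
  intro x hx
  obtain ⟨y, rfl⟩ := hsn x
  have h1 : y ∈ K (n + 1) := by
    change (f ^ (n + 1)) y = 0
    rw [pow_succ', RingHom.mul_def, RingHom.comp_apply, hx]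
  rw [← hn (n + 1) (by omega)] at h1
  exact h1

/-- square roots of power series with constant term one -/
theorem exists_sqrt (h : MvPowerSeries (Fin m) ℂ) (h1 : constantCoeff h = 1) :
    ∃ s : MvPowerSeries (Fin m) ℂ, s * s = h ∧ constantCoeff s = 1 := by
  have hb : PowerSeries.HasSubst (h - 1 : MvPowerSeries (Fin m) ℂ) :=
    PowerSeries.HasSubst.of_constantCoeff_zero (by rw [map_sub, h1, map_one, sub_self])
  set b : PowerSeries ℂ := PowerSeries.binomialSeries ℂ (1 / 2 : ℚ) with hbdef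
  have hbb : b * b = 1 + PowerSeries.X := by
    rw [hbdef, ← PowerSeries.binomialSeries_add]
    have h2 : (1 / 2 : ℚ) + 1 / 2 = ((1 : ℕ) : ℚ) := by norm_num
    rw [h2, PowerSeries.binomialSeries_nat, pow_one]
  refine ⟨PowerSeries.subst (h - 1) b, ?_, ?_⟩
  · rw [← PowerSeries.subst_mul hb, hbb, PowerSeries.subst_add hb, PowerSeries.subst_X hb]
    have : (1 : PowerSeries ℂ) = PowerSeries.C (1 : ℂ) := by simp
    rw [this, PowerSeries.subst_C, map_one]
    ring
  · have hb0 : PowerSeries.constantCoeff b = 1 := PowerSeries.binomialSeries_constantCoeff _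
    have h3 : b = (b - 1) + PowerSeries.C (1 : ℂ) := by simp
    rw [h3, PowerSeries.subst_add hb, PowerSeries.subst_C, map_add,
      PowerSeries.constantCoeff_subst_eq_zero (by rw [map_sub, h1, map_one, sub_self])]
    · simp
    · rw [map_sub, hb0, map_one, sub_self]

/-- Cholesky decomposition over the power series ring -/
theorem cholesky (k : ℕ) : ∀ (H : Matrix (Fin k) (Fin k) (MvPowerSeries (Fin m) ℂ)),
    H.transpose = H → (∀ i j, constantCoeff (H i j) = (1 : Matrix (Fin k) (Fin k) ℂ) i j) →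
    ∃ G : Matrix (Fin k) (Fin k) (MvPowerSeries (Fin m) ℂ), G.transpose * G = H ∧
      ∀ i j, constantCoeff (G i j) = (1 : Matrix (Fin k) (Fin k) ℂ) i j := by
  induction k with
  | zero =>
    intro H _ _
    exact ⟨H, by ext i; exact i.elim0, fun i => i.elim0⟩
  | succ k ih =>
    intro H hs h1
    have hsym : ∀ i j, H j i = H i j := fun i j => congrFun (congrFun hs i) j
    obtain ⟨s, hss, hs1⟩ := exists_sqrt (H 0 0) (by rw [h1]; simp)
    have hinv : s * s⁻¹ = 1 := MvPowerSeries.mul_inv_cancel s (by rw [hs1]; exact one_ne_zero)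
    have hinv0 : constantCoeff s⁻¹ = 1 := by
      rw [constantCoeff_inv, hs1, inv_one]
    have hv0 : ∀ j : Fin k, constantCoeff (H 0 j.succ) = 0 := by
      intro j
      rw [h1, Matrix.one_apply_ne]
      exact (Fin.succ_ne_zero j).symm
    let H' : Matrix (Fin k) (Fin k) (MvPowerSeries (Fin m) ℂ) :=
      fun i j => H i.succ j.succ - (s⁻¹ * H 0 i.succ) * (s⁻¹ * H 0 j.succ)
    obtain ⟨G', hG', hG1⟩ := ih H' (by
      refine Matrix.ext fun i j => ?_
      rw [Matrix.transpose_apply]
      change H j.succ i.succ - (s⁻¹ * H 0 j.succ) * (s⁻¹ * H 0 i.succ)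
        = H i.succ j.succ - (s⁻¹ * H 0 i.succ) * (s⁻¹ * H 0 j.succ)
      rw [hsym i.succ j.succ]
      ring) (by
      intro i j
      simp only [H', map_sub, map_mul, hv0, mul_zero, sub_zero, h1]
      simp [Matrix.one_apply])
    let G : Matrix (Fin (k + 1)) (Fin (k + 1)) (MvPowerSeries (Fin m) ℂ) :=
      fun i j => Fin.cases (Fin.cases s (fun j' => s⁻¹ * H 0 j'.succ) j)
        (fun i' => Fin.cases 0 (fun j' => G' i' j') j) i
    have g00 : G 0 0 = s := rfl
    have g0s : ∀ j : Fin k, G 0 j.succ = s⁻¹ * H 0 j.succ := fun j => rfl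
    have gs0 : ∀ i : Fin k, G i.succ 0 = 0 := fun i => rfl
    have gss : ∀ i j : Fin k, G i.succ j.succ = G' i j := fun i j => rfl
    refine ⟨G, ?_, ?_⟩
    · ext1 i j
      rw [Matrix.mul_apply, Fin.sum_univ_succ]
      simp only [Matrix.transpose_apply]
      refine Fin.cases ?_ (fun i' => ?_) i
      · refine Fin.cases ?_ (fun j' => ?_) j
        · simp only [g00, gs0, mul_zero, Finset.sum_const_zero, add_zero]
          exact hss
        · simp only [g00, gs0, g0s, zero_mul, Finset.sum_const_zero, add_zero]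
          rw [← mul_assoc, hinv, one_mul]
      · refine Fin.cases ?_ (fun j' => ?_) j
        · simp only [g00, gs0, g0s, mul_zero, Finset.sum_const_zero, add_zero]
          rw [hsym 0 i'.succ, mul_comm, ← mul_assoc, hinv, one_mul]
        · simp only [g0s, gss]
          have h5 := congrFun (congrFun hG' i') j'
          rw [Matrix.mul_apply] at h5
          simp only [Matrix.transpose_apply] at h5
          rw [h5]
          simp only [H']
          ring
    · intro i j
      refine Fin.cases ?_ (fun i' => ?_) i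
      · refine Fin.cases ?_ (fun j' => ?_) j
        · rw [g00, hs1, Matrix.one_apply_eq]
        · rw [g0s, map_mul, hv0, mul_zero, Matrix.one_apply_ne (Fin.succ_ne_zero j').symm]
      · refine Fin.cases ?_ (fun j' => ?_) j
        · rw [gs0, map_zero, Matrix.one_apply_ne (Fin.succ_ne_zero i')]
        · rw [gss, hG1]
          simp [Matrix.one_apply]

theorem coeff_single_mul_X (f : MvPowerSeries (Fin m) ℂ) (j k : Fin m) :
    coeff (Finsupp.single j 1) (f * X k) = if j = k then constantCoeff f else 0 := by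
  classical
  rw [X_def, coeff_mul_monomial, mul_one]
  by_cases h : j = k
  · subst h
    simp
  · rw [if_neg, if_neg h]
    rw [Finsupp.single_le_iff, Finsupp.single_apply, if_neg h]
    omega

/-- division by the variables -/
theorem exists_div {k : ℕ} {D : MvPowerSeries (Fin m) ℂ} (hD : Lo (k + 1) D) :
    ∃ g : Fin m → MvPowerSeries (Fin m) ℂ, (∀ i, Lo k (g i)) ∧ D = ∑ i, g i * X i := by
  classical
  let g : Fin m → MvPowerSeries (Fin m) ℂ := fun i e =>
    if ∀ j < i, e j = 0 then coeff (e + Finsupp.single i 1) D else 0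
  have hg : ∀ i e, coeff e (g i) = if ∀ j < i, e j = 0 then coeff (e + Finsupp.single i 1) D
    else 0 := fun i e => rfl
  refine ⟨g, ?_, ?_⟩
  · intro i e he
    rw [hg]
    split_ifs
    · refine hD _ ?_
      rw [map_add, Finsupp.degree_single]
      omega
    · rfl
  · ext e
    rw [map_sum]
    have hterm : ∀ i, coeff e (g i * X i) =
        if e i ≠ 0 ∧ ∀ j < i, e j = 0 then coeff e D else 0 := by
      intro i
      rw [X_def, coeff_mul_monomial, mul_one]
      by_cases h0 : e i = 0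
      · rw [if_neg (by rw [Finsupp.single_le_iff]; omega), if_neg (fun h => h.1 h0)]
      · rw [if_pos (by rw [Finsupp.single_le_iff]; omega), hg,
          tsub_add_cancel_of_le (by rw [Finsupp.single_le_iff]; omega)]
        have hiff : (∀ j < i, (e - Finsupp.single i 1 : Fin m →₀ ℕ) j = 0) ↔
            (e i ≠ 0 ∧ ∀ j < i, e j = 0) := by
          refine ⟨fun h => ⟨h0, fun j hj => ?_⟩, fun h j hj => ?_⟩
          · have := h j hj
            rwa [Finsupp.tsub_apply, Finsupp.single_apply, if_neg hj.ne', Nat.sub_zero] at this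
          · rw [Finsupp.tsub_apply, h.2 j hj, Nat.zero_sub]
        simp only [hiff]
    simp only [hterm]
    by_cases h0 : e = 0
    · subst h0
      simpa using hD 0 (by simp)
    · obtain ⟨i, hi⟩ : ∃ i, e i ≠ 0 := by
        by_contra! hc
        exact h0 (Finsupp.ext hc)
      have hex : ∃ i, e i ≠ 0 ∧ ∀ j < i, e j = 0 := by
        have hne : (Finset.univ.filter fun i : Fin m => e i ≠ 0).Nonempty :=
          ⟨i, by simpa using hi⟩
        refine ⟨Finset.min' _ hne, ?_, fun j hj => ?_⟩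
        · have := Finset.min'_mem _ hne
          rw [Finset.mem_filter] at this
          exact this.2
        · by_contra hjj
          have := Finset.min'_le (Finset.univ.filter fun i : Fin m => e i ≠ 0) j
            (by simpa using hjj)
          exact absurd hj (not_lt.2 this)
      obtain ⟨i, hi1, hi2⟩ := hex
      rw [Finset.sum_eq_single i]
      · rw [if_pos ⟨hi1, hi2⟩]
      · intro j _ hji
        rw [if_neg]
        rintro ⟨h1, h2⟩
        rcases lt_trichotomy j i with h | h | h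
        · exact h1 (hi2 j h)
        · exact hji h
        · exact hi1 (h2 i h)
      · simp

theorem exists_quad {D : MvPowerSeries (Fin m) ℂ} (hD : Lo 3 D) :
    ∃ N : Fin m → Fin m → MvPowerSeries (Fin m) ℂ, (∀ i j, N j i = N i j) ∧
      (∀ i j, constantCoeff (N i j) = 0) ∧ D = ∑ i, ∑ j, N i j * (X i * X j) := by
  obtain ⟨g, hg, hD2⟩ := exists_div (k := 2) hD
  choose g2 hg2 hg3 using fun i => exists_div (k := 1) (hg i)
  have key : D = ∑ i, ∑ j, g2 i j * (X i * X j) := by
    rw [hD2]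
    refine Finset.sum_congr rfl fun i _ => ?_
    rw [hg3 i, Finset.sum_mul]
    refine Finset.sum_congr rfl fun j _ => ?_
    ring
  have key2 : D = ∑ i, ∑ j, g2 j i * (X i * X j) := by
    rw [key, Finset.sum_comm]
    refine Finset.sum_congr rfl fun i _ => Finset.sum_congr rfl fun j _ => ?_
    ring
  refine ⟨fun i j => C (1 / 2 : ℂ) * (g2 i j + g2 j i), fun i j => by ring, fun i j => ?_, ?_⟩
  · rw [map_mul, map_add, lo_one_iff.1 (hg2 i j), lo_one_iff.1 (hg2 j i), add_zero, mul_zero]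
  · have h2 : (C (1 / 2 : ℂ) : MvPowerSeries (Fin m) ℂ) * D + C (1 / 2 : ℂ) * D = D := by
      rw [← add_mul, ← map_add]
      norm_num
    rw [← h2]
    conv_lhs =>
      enter [1]
      rw [key]
    conv_lhs =>
      enter [2]
      rw [key2]
    rw [Finset.mul_sum, Finset.mul_sum, ← Finset.sum_add_distrib]
    refine Finset.sum_congr rfl fun i _ => ?_
    rw [Finset.mul_sum, Finset.mul_sum, ← Finset.sum_add_distrib]
    refine Finset.sum_congr rfl fun j _ => ?_
    ring

theorem eq_zero_of_quad (S : Matrix (Fin m) (Fin m) ℂ) (hS : S.transpose = S)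
    (h : ∀ x : Fin m → ℂ, x ⬝ᵥ S.mulVec x = 0) : S = 0 := by
  ext i j
  have hsym : S j i = S i j := congrFun (congrFun hS i) j
  have e1 := h (Pi.single i 1)
  have e2 := h (Pi.single j 1)
  have e3 := h (Pi.single i 1 + Pi.single j 1)
  simp only [Matrix.mulVec_add, add_dotProduct, dotProduct_add, Matrix.mulVec_single_one,
    single_one_dotProduct, Matrix.col_apply] at e1 e2 e3
  rw [Matrix.zero_apply]
  linear_combination (1 / 2 : ℂ) * e3 - (1 / 2 : ℂ) * e1 - (1 / 2 : ℂ) * e2 - (1 / 2 : ℂ) * hsym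

theorem exists_square_root (A : Matrix (Fin m) (Fin m) ℂ) (hA : A.IsSymm) (hdet : A.det ≠ 0) :
    ∃ B : Matrix (Fin m) (Fin m) ℂ, B.transpose * B = A := by
  have hbil : ∀ x y : Fin m → ℂ, Matrix.toLinearMap₂' ℂ A x y = x ⬝ᵥ A.mulVec y := fun x y =>
    Matrix.toLinearMap₂'_apply' A x y
  have hsymb : ∀ x y : Fin m → ℂ, Matrix.toLinearMap₂' ℂ A x y = Matrix.toLinearMap₂' ℂ A y x := by
    intro x y
    rw [hbil, hbil, Matrix.dotProduct_mulVec, ← Matrix.mulVec_transpose, hA.eq, dotProduct_comm]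
  have hassoc : QuadraticMap.associated (R := ℂ) (Matrix.toQuadraticForm' A)
      = Matrix.toLinearMap₂' ℂ A := by
    refine LinearMap.ext fun x => LinearMap.ext fun y => ?_
    rw [Matrix.toQuadraticForm', QuadraticMap.associated_toQuadraticMap, hsymb y x]
    rw [invOf_smul_eq_iff, two_smul]
  have hsep : (QuadraticMap.associated (R := ℂ) (Matrix.toQuadraticForm' A)).SeparatingLeft := by
    rw [hassoc]
    exact Matrix.separatingLeft_toLinearMap₂'_iff.2 (Matrix.separatingLeft_iff_det_ne_zero.2 hdet)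
  obtain ⟨e⟩ := QuadraticForm.equivalent_weightedSumSquares_of_isAlgClosed
    (Matrix.toQuadraticForm' A) hsep
  have hr : Module.finrank ℂ (Fin m → ℂ) = m := by simp
  let B : Matrix (Fin m) (Fin m) ℂ := fun i j => e (Pi.single j 1) (Fin.cast hr.symm i)
  have hBx : ∀ (x : Fin m → ℂ) (i : Fin m), B.mulVec x i = e x (Fin.cast hr.symm i) := by
    intro x i
    have hx : x = ∑ j, x j • (Pi.single j (1 : ℂ) : Fin m → ℂ) := by
      funext k
      simp [Finset.sum_apply, Pi.single_apply]
    have h1 : e.toLinearEquiv x = ∑ j, x j • e.toLinearEquiv (Pi.single j (1 : ℂ) : Fin m → ℂ) := by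
      conv_lhs => rw [hx]
      rw [map_sum]
      refine Finset.sum_congr rfl fun j _ => ?_
      rw [map_smul]
    have h2 := congrFun h1 (Fin.cast hr.symm i)
    rw [Finset.sum_apply] at h2
    change B.mulVec x i = e.toLinearEquiv x (Fin.cast hr.symm i)
    rw [h2, Matrix.mulVec]
    refine Finset.sum_congr rfl fun j _ => ?_
    rw [Pi.smul_apply, smul_eq_mul, mul_comm]
    rfl
  have hq : ∀ x : Fin m → ℂ, (B.mulVec x) ⬝ᵥ (B.mulVec x) = x ⬝ᵥ A.mulVec x := by
    intro x
    have h1 : QuadraticMap.weightedSumSquares ℂ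
        (1 : Fin (Module.finrank ℂ (Fin m → ℂ)) → ℂ) (e x) = Matrix.toQuadraticForm' A x :=
      e.map_app x
    have h2 : Matrix.toQuadraticForm' A x = x ⬝ᵥ A.mulVec x := hbil x x
    rw [h2, QuadraticMap.weightedSumSquares_apply] at h1
    rw [← h1, dotProduct, ← (finCongr hr.symm).sum_comp]
    refine Finset.sum_congr rfl fun i _ => ?_
    rw [hBx, Pi.one_apply, one_smul]
    rfl
  refine ⟨B, ?_⟩
  rw [← sub_eq_zero]
  refine eq_zero_of_quad _ ?_ fun x => ?_
  · rw [Matrix.transpose_sub, Matrix.transpose_mul, Matrix.transpose_transpose, hA.eq]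
  · rw [Matrix.sub_mulVec, dotProduct_sub, ← hq x, ← Matrix.mulVec_mulVec,
      Matrix.dotProduct_mulVec, Matrix.vecMul_transpose, sub_self]

end MorseAux

/-- The formal Morse lemma: a power series with vanishing terms of degree `≤ 1` and
nondegenerate quadratic part is a sum of squares of formal coordinates. -/
theorem morse {m : ℕ} (F : MvPowerSeries (Fin m) ℂ) (A : Matrix (Fin m) (Fin m) ℂ)
    (hA : A.IsSymm) (hdet : A.det ≠ 0)
    (hF : ∀ e : Fin m →₀ ℕ, e.degree ≤ 2 → coeff e F =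
      coeff e (∑ i, ∑ j, C (A i j) * X i * X j : MvPowerSeries (Fin m) ℂ)) :
    ∃ w : Fin m → MvPowerSeries (Fin m) ℂ, (∀ i, constantCoeff (w i) = 0) ∧
      Matrix.det (Matrix.of fun i j => coeff (Finsupp.single j 1) (w i)) ≠ 0 ∧
      F = ∑ i, w i ^ 2 := by
  obtain ⟨B, hB⟩ := MorseAux.exists_square_root A hA hdet
  obtain ⟨N, hNs, hN0, hN⟩ := MorseAux.exists_quad
    (D := F - (∑ i, ∑ j, C (A i j) * X i * X j : MvPowerSeries (Fin m) ℂ)) (by
      intro e he
      rw [map_sub, hF e (by omega), sub_self])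
  have hBdet : B.det ≠ 0 := by
    intro h
    apply hdet
    rw [← hB, Matrix.det_mul, h, mul_zero]
  have hBB : B * B⁻¹ = 1 := Matrix.mul_nonsing_inv _ (isUnit_iff_ne_zero.2 hBdet)
  have hBB' : B⁻¹ * B = 1 := Matrix.nonsing_inv_mul _ (isUnit_iff_ne_zero.2 hBdet)
  let c : Matrix (Fin m) (Fin m) ℂ →+* Matrix (Fin m) (Fin m) (MvPowerSeries (Fin m) ℂ) :=
    (C : ℂ →+* MvPowerSeries (Fin m) ℂ).mapMatrix
  let z : Matrix (Fin m) (Fin m) (MvPowerSeries (Fin m) ℂ) →+* Matrix (Fin m) (Fin m) ℂ :=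
    (constantCoeff : MvPowerSeries (Fin m) ℂ →+* ℂ).mapMatrix
  have hzc : ∀ M, z (c M) = M := by
    intro M
    ext i j
    simp [z, c]
  have hct : ∀ M, (c M).transpose = c M.transpose := by
    intro M
    ext i j
    rfl
  set H : Matrix (Fin m) (Fin m) (MvPowerSeries (Fin m) ℂ) := c A + Matrix.of N with hH
  have hHs : H.transpose = H := by
    rw [hH, Matrix.transpose_add, hct, hA.eq]
    congr 1
    ext i j
    simp [hNs i j]
  have hzH : z H = A := by
    rw [hH, map_add, hzc]
    have : z (Matrix.of N) = 0 := by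
      ext i j
      simp [z, hN0]
    rw [this, add_zero]
  set K : Matrix (Fin m) (Fin m) (MvPowerSeries (Fin m) ℂ) :=
    (c B⁻¹).transpose * H * c B⁻¹ with hK
  have hKs : K.transpose = K := by
    rw [hK, Matrix.transpose_mul, Matrix.transpose_mul, hHs, Matrix.transpose_transpose,
      Matrix.mul_assoc]
  have hzK : z K = 1 := by
    rw [hK, map_mul, map_mul, hzH, hct, hzc, hzc, ← hB]
    have h1 : (B⁻¹).transpose * B.transpose = 1 := by
      rw [← Matrix.transpose_mul, hBB, Matrix.transpose_one]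
    calc (B⁻¹).transpose * (B.transpose * B) * B⁻¹
        = ((B⁻¹).transpose * B.transpose) * (B * B⁻¹) := by
          simp only [Matrix.mul_assoc]
      _ = 1 := by rw [h1, hBB, one_mul]
  obtain ⟨G, hG, hG1⟩ := MorseAux.cholesky m K hKs (fun i j => by
    have := congrFun (congrFun hzK i) j
    simpa [z] using this)
  set P : Matrix (Fin m) (Fin m) (MvPowerSeries (Fin m) ℂ) := G * c B with hP
  have hPH : P.transpose * P = H := by
    have h2 : c B⁻¹ * c B = 1 := by rw [← map_mul, hBB', map_one]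
    have h3 : (c B).transpose * (c B⁻¹).transpose = 1 := by
      rw [← Matrix.transpose_mul, h2, Matrix.transpose_one]
    calc P.transpose * P = (c B).transpose * (G.transpose * G) * c B := by
          rw [hP, Matrix.transpose_mul]
          simp only [Matrix.mul_assoc]
      _ = ((c B).transpose * (c B⁻¹).transpose) * H * (c B⁻¹ * c B) := by
          rw [hG, hK]
          simp only [Matrix.mul_assoc]
      _ = H := by rw [h2, h3, one_mul, mul_one]
  have hzP : z P = B := by
    have : z G = 1 := by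
      ext i j
      simpa [z] using hG1 i j
    rw [hP, map_mul, this, hzc, one_mul]
  refine ⟨fun i => ∑ j, P i j * X j, fun i => by simp, ?_, ?_⟩
  · have : (Matrix.of fun i j => coeff (Finsupp.single j 1)
        (∑ k, P i k * X k : MvPowerSeries (Fin m) ℂ)) = B := by
      ext i j
      rw [← hzP]
      simp only [Matrix.of_apply, map_sum, z, RingHom.mapMatrix_apply, Matrix.map_apply]
      rw [Finset.sum_eq_single j]
      · rw [MorseAux.coeff_single_mul_X, if_pos rfl]
      · intro k _ hk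
        rw [MorseAux.coeff_single_mul_X, if_neg hk.symm]
      · simp
    rw [this]
    exact hBdet
  · have h4 : F = ∑ i, ∑ j, H i j * (X i * X j) := by
      have : F = (∑ i, ∑ j, C (A i j) * X i * X j : MvPowerSeries (Fin m) ℂ)
          + ∑ i, ∑ j, N i j * (X i * X j) := by
        rw [← hN]
        ring
      rw [this, ← Finset.sum_add_distrib]
      refine Finset.sum_congr rfl fun i _ => ?_
      rw [← Finset.sum_add_distrib]
      refine Finset.sum_congr rfl fun j _ => ?_
      have h5 : H i j = C (A i j) + N i j := rfl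
      rw [h5]
      ring
    rw [h4, ← hPH]
    simp only [Matrix.mul_apply, Matrix.transpose_apply, sq, Finset.sum_mul, Finset.mul_sum]
    rw [Finset.sum_comm_cycle]
    refine Finset.sum_congr rfl fun k _ => ?_
    rw [Finset.sum_comm]
    refine Finset.sum_congr rfl fun i _ => Finset.sum_congr rfl fun j _ => ?_
    ring

/-- Formal coordinates define an automorphism of the power series ring. -/
theorem exists_equiv {m : ℕ} (w : Fin m → MvPowerSeries (Fin m) ℂ)
    (hw : ∀ i, constantCoeff (w i) = 0)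
    (hdet : Matrix.det (Matrix.of fun i j => coeff (Finsupp.single j 1) (w i)) ≠ 0) :
    ∃ φ : MvPowerSeries (Fin m) ℂ ≃ₐ[ℂ] MvPowerSeries (Fin m) ℂ, ∀ i, φ (X i) = w i := by
  have hS := MorseAux.hs hw
  have hsur := MorseAux.subst_surj w hw hdet
  have hsur' : Function.Surjective (substAlgHom (R := ℂ) hS) := by
    rw [coe_substAlgHom]
    exact hsur
  have hinj : Function.Injective (substAlgHom (R := ℂ) hS) :=
    MorseAux.inj_of_surj (substAlgHom (R := ℂ) hS).toRingHom hsur'
  refine ⟨AlgEquiv.ofBijective (substAlgHom (R := ℂ) hS) ⟨hinj, hsur'⟩, fun i => ?_⟩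
  exact substAlgHom_X hS i

end Vale.Agent.P282.EQ
end

section

/-!
P282, equality case: the completion of a hypersurface.
-/

open IsLocalRing

namespace Vale.Agent.P282.EQ

open Vale.Agent.P282.Full

variable {m : ℕ} {R : Type} [CommRing R] [IsLocalRing R] [Algebra ℂ R]

/-! ### Truncations -/

theorem cpl_map (u : Fin m → R) (hu : Ideal.span (Set.range u) = maximalIdeal R) :
    Ideal.map (MvPolynomial.aeval u : MvPolynomial (Fin m) ℂ →ₐ[ℂ] R)
      (MvPolynomial.idealOfVars (Fin m) ℂ) = maximalIdeal R := by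
  rw [MvPolynomial.idealOfVars, Ideal.map_span, ← hu]
  congr 1
  ext x
  simp

theorem cpl_mem (u : Fin m → R) (hu : Ideal.span (Set.range u) = maximalIdeal R) {k : ℕ}
    {p : MvPolynomial (Fin m) ℂ} (hp : p ∈ MvPolynomial.idealOfVars (Fin m) ℂ ^ k) :
    MvPolynomial.aeval u p ∈ maximalIdeal R ^ k := by
  have h : MvPolynomial.aeval u p ∈ Ideal.map (MvPolynomial.aeval u :
      MvPolynomial (Fin m) ℂ →ₐ[ℂ] R) (MvPolynomial.idealOfVars (Fin m) ℂ ^ k) :=
    Ideal.mem_map_of_mem _ hp
  rwa [Ideal.map_pow, cpl_map u hu] at h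

/-- Evaluation of power series modulo a power of the maximal ideal. -/
noncomputable def cplEv (u : Fin m → R) (hu : Ideal.span (Set.range u) = maximalIdeal R) (k : ℕ) :
    MvPowerSeries (Fin m) ℂ →ₐ[ℂ] R ⧸ maximalIdeal R ^ k where
  toFun G := Ideal.Quotient.mk _ (MvPolynomial.aeval u (MvPowerSeries.truncTotal k G))
  map_one' := by
    rw [← map_one (Ideal.Quotient.mk (maximalIdeal R ^ k)),
      ← map_one (MvPolynomial.aeval u : MvPolynomial (Fin m) ℂ →ₐ[ℂ] R), Ideal.Quotient.eq,
      ← map_sub]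
    refine cpl_mem u hu ((MvPolynomial.mem_pow_idealOfVars_iff' _ _).2 fun x hx => ?_)
    rw [MvPolynomial.coeff_sub, MvPowerSeries.coeff_truncTotal _ hx, MvPowerSeries.coeff_one,
      MvPolynomial.coeff_one]
    simp [eq_comm]
  map_mul' p q := by
    rw [← map_mul, ← map_mul, Ideal.Quotient.eq, ← map_sub]
    exact cpl_mem u hu
      (MvPowerSeries.truncTotal_mul_sub_mul_truncTotal_mem_pow_idealOfVars p q)
  map_zero' := by simp
  map_add' p q := by simp
  commutes' c := by
    rw [IsScalarTower.algebraMap_apply ℂ R (R ⧸ maximalIdeal R ^ k) c]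
    show Ideal.Quotient.mk _ _ = Ideal.Quotient.mk _ (algebraMap ℂ R c)
    rw [← MvPolynomial.aeval_C u c, Ideal.Quotient.eq, ← map_sub]
    refine cpl_mem u hu ((MvPolynomial.mem_pow_idealOfVars_iff' _ _).2 fun x hx => ?_)
    rw [MvPolynomial.coeff_sub, MvPowerSeries.coeff_truncTotal _ hx,
      MvPowerSeries.algebraMap_apply, MvPowerSeries.coeff_C, MvPolynomial.coeff_C]
    simp [eq_comm]

theorem cplEv_apply (u : Fin m → R) (hu : Ideal.span (Set.range u) = maximalIdeal R) (k : ℕ)
    (G : MvPowerSeries (Fin m) ℂ) : cplEv u hu k G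
      = Ideal.Quotient.mk _ (MvPolynomial.aeval u (MvPowerSeries.truncTotal k G)) := rfl

theorem cplEv_compat (u : Fin m → R) (hu : Ideal.span (Set.range u) = maximalIdeal R)
    {a b : ℕ} (h : a ≤ b) :
    (Ideal.Quotient.factorₐ ℂ (Ideal.pow_le_pow_right h)).comp (cplEv u hu b) = cplEv u hu a := by
  ext G
  show Ideal.Quotient.factorₐ ℂ (Ideal.pow_le_pow_right h) (cplEv u hu b G) = cplEv u hu a G
  rw [cplEv_apply, cplEv_apply, Ideal.Quotient.factorₐ_apply_mk, Ideal.Quotient.eq, ← map_sub]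
  exact cpl_mem u hu
    (MvPowerSeries.truncTotal_sub_truncTotal_mem_pow_idealOfVars h le_rfl G)

/-- Evaluation of power series in the completion. -/
noncomputable def cplPhi (u : Fin m → R) (hu : Ideal.span (Set.range u) = maximalIdeal R) :
    MvPowerSeries (Fin m) ℂ →ₐ[ℂ] AdicCompletion (maximalIdeal R) R :=
  AdicCompletion.liftAlgHom (maximalIdeal R) (cplEv u hu) (cplEv_compat u hu)

theorem cplPhi_eval (u : Fin m → R) (hu : Ideal.span (Set.range u) = maximalIdeal R) (k : ℕ)
    (G : MvPowerSeries (Fin m) ℂ) :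
    AdicCompletion.evalₐ (maximalIdeal R) k (cplPhi u hu G) = cplEv u hu k G :=
  AdicCompletion.evalₐ_liftAlgHom (maximalIdeal R) (cplEv u hu) (cplEv_compat u hu) k G

/-! ### Surjectivity -/

/-- Leading terms. -/
theorem cpl_lead (hres : Function.Surjective (algebraMap ℂ (ResidueField R)))
    (u : Fin m → R) (hu : Ideal.span (Set.range u) = maximalIdeal R) (k : ℕ) (r : R)
    (hr : r ∈ maximalIdeal R ^ k) :
    ∃ q ∈ MvPolynomial.idealOfVars (Fin m) ℂ ^ k,
      r - MvPolynomial.aeval u q ∈ maximalIdeal R ^ (k + 1) := by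
  have h1 : r ∈ Ideal.map (MvPolynomial.aeval u : MvPolynomial (Fin m) ℂ →ₐ[ℂ] R)
      (MvPolynomial.idealOfVars (Fin m) ℂ ^ k) := by
    rwa [Ideal.map_pow, cpl_map u hu]
  clear hr
  rw [Ideal.map] at h1
  induction h1 using Submodule.span_induction with
  | mem x hx =>
    obtain ⟨q, hq, rfl⟩ := hx
    exact ⟨q, hq, by simp⟩
  | zero => exact ⟨0, zero_mem _, by simp⟩
  | add x y _ _ hx hy =>
    obtain ⟨q, hq, h⟩ := hx
    obtain ⟨q', hq', h'⟩ := hy
    refine ⟨q + q', add_mem hq hq', ?_⟩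
    rw [map_add, add_sub_add_comm]
    exact add_mem h h'
  | smul a x hx0 hx =>
    obtain ⟨q, hq, h⟩ := hx
    obtain ⟨c, hc⟩ := hres (residue R a)
    have ha : a - algebraMap ℂ R c ∈ maximalIdeal R := by
      rw [← residue_eq_zero_iff, map_sub, sub_eq_zero, ← hc]
      rfl
    have hxk : x ∈ maximalIdeal R ^ k := by
      have h2 : x ∈ Ideal.map (MvPolynomial.aeval u : MvPolynomial (Fin m) ℂ →ₐ[ℂ] R)
        (MvPolynomial.idealOfVars (Fin m) ℂ ^ k) := hx0
      rwa [Ideal.map_pow, cpl_map u hu] at h2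
    refine ⟨c • q, Submodule.smul_of_tower_mem _ c hq, ?_⟩
    have e : a • x - MvPolynomial.aeval u (c • q)
        = (a - algebraMap ℂ R c) * x + algebraMap ℂ R c * (x - MvPolynomial.aeval u q) := by
      rw [smul_eq_mul, map_smul, Algebra.smul_def]
      ring
    rw [e]
    refine add_mem ?_ (Ideal.mul_mem_left _ _ h)
    rw [pow_succ']
    exact Ideal.mul_mem_mul ha hxk

/-- Compatible sequences of polynomials. -/
theorem cpl_seq (hres : Function.Surjective (algebraMap ℂ (ResidueField R)))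
    (u : Fin m → R) (hu : Ideal.span (Set.range u) = maximalIdeal R)
    (x : AdicCompletion (maximalIdeal R) R) :
    ∃ p : ℕ → MvPolynomial (Fin m) ℂ,
      (∀ k, Ideal.Quotient.mk (maximalIdeal R ^ k) (MvPolynomial.aeval u (p k))
        = AdicCompletion.evalₐ (maximalIdeal R) k x) ∧
      ∀ k, p (k + 1) - p k ∈ MvPolynomial.idealOfVars (Fin m) ℂ ^ k := by
  have step : ∀ (k : ℕ) (p : MvPolynomial (Fin m) ℂ),
      Ideal.Quotient.mk (maximalIdeal R ^ k) (MvPolynomial.aeval u p)
        = AdicCompletion.evalₐ (maximalIdeal R) k x →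
      ∃ p' : MvPolynomial (Fin m) ℂ,
        Ideal.Quotient.mk (maximalIdeal R ^ (k + 1)) (MvPolynomial.aeval u p')
          = AdicCompletion.evalₐ (maximalIdeal R) (k + 1) x ∧
        p' - p ∈ MvPolynomial.idealOfVars (Fin m) ℂ ^ k := by
    intro k p hp
    obtain ⟨r, hr⟩ := Ideal.Quotient.mk_surjective
      (AdicCompletion.evalₐ (maximalIdeal R) (k + 1) x)
    have h1 : Ideal.Quotient.mk (maximalIdeal R ^ k) r
        = AdicCompletion.evalₐ (maximalIdeal R) k x := by
      obtain ⟨s, rfl⟩ := AdicCompletion.mk_surjective (maximalIdeal R) R x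
      rw [AdicCompletion.evalₐ_mk] at hr ⊢
      rw [Ideal.Quotient.eq] at hr ⊢
      have h3 : r - s.val (k + 1) ∈ maximalIdeal R ^ k := Ideal.pow_le_pow_right (Nat.le_succ k) hr
      have h4 := AdicCompletion.Ideal.mk_eq_mk (maximalIdeal R) (Nat.le_succ k) s
      rw [Ideal.Quotient.eq] at h4
      have e : r - s.val k = (r - s.val (k + 1)) + (s.val (k + 1) - s.val k) := by ring
      rw [e]
      exact add_mem h3 h4
    have h2 : r - MvPolynomial.aeval u p ∈ maximalIdeal R ^ k := by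
      rw [← Ideal.Quotient.eq, h1, hp]
    obtain ⟨q, hq, hq'⟩ := cpl_lead hres u hu k _ h2
    refine ⟨p + q, ?_, by simpa using hq⟩
    rw [← hr, eq_comm, Ideal.Quotient.eq, map_add, ← sub_sub]
    exact hq'
  have h0 : Ideal.Quotient.mk (maximalIdeal R ^ 0) (MvPolynomial.aeval u
      (0 : MvPolynomial (Fin m) ℂ)) = AdicCompletion.evalₐ (maximalIdeal R) 0 x := by
    have : Subsingleton (R ⧸ maximalIdeal R ^ 0) :=
      Ideal.Quotient.subsingleton_iff.2 (by simp)
    exact Subsingleton.elim _ _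
  let S : (k : ℕ) → {p : MvPolynomial (Fin m) ℂ //
      Ideal.Quotient.mk (maximalIdeal R ^ k) (MvPolynomial.aeval u p)
        = AdicCompletion.evalₐ (maximalIdeal R) k x} := fun k =>
    Nat.rec ⟨0, h0⟩ (fun k p => ⟨(step k p.1 p.2).choose, (step k p.1 p.2).choose_spec.1⟩) k
  exact ⟨fun k => (S k).1, fun k => (S k).2, fun k => (step k (S k).1 (S k).2).choose_spec.2⟩

theorem cpl_seq_le {p : ℕ → MvPolynomial (Fin m) ℂ}
    (hp : ∀ k, p (k + 1) - p k ∈ MvPolynomial.idealOfVars (Fin m) ℂ ^ k) {j k : ℕ} (h : j ≤ k) :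
    p k - p j ∈ MvPolynomial.idealOfVars (Fin m) ℂ ^ j := by
  induction k, h using Nat.le_induction with
  | base => simp
  | succ k hk ih =>
    have e : p (k + 1) - p j = (p (k + 1) - p k) + (p k - p j) := by ring
    rw [e]
    exact add_mem (Ideal.pow_le_pow_right hk (hp k)) ih

theorem cplPhi_surjective (hres : Function.Surjective (algebraMap ℂ (ResidueField R)))
    (u : Fin m → R) (hu : Ideal.span (Set.range u) = maximalIdeal R) :
    Function.Surjective (cplPhi u hu) := by
  intro x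
  obtain ⟨p, hp1, hp2⟩ := cpl_seq hres u hu x
  let G : MvPowerSeries (Fin m) ℂ := fun e => MvPolynomial.coeff e (p (e.degree + 1))
  have hG : ∀ e, MvPowerSeries.coeff e G = MvPolynomial.coeff e (p (e.degree + 1)) := fun e => rfl
  refine ⟨G, AdicCompletion.ext_evalₐ fun k => ?_⟩
  rw [cplPhi_eval, cplEv_apply, ← hp1 k, Ideal.Quotient.eq, ← map_sub]
  refine cpl_mem u hu ((MvPolynomial.mem_pow_idealOfVars_iff' _ _).2 fun e he => ?_)
  rw [MvPolynomial.coeff_sub, MvPowerSeries.coeff_truncTotal _ he, hG]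
  have h1 := cpl_seq_le hp2 (Nat.succ_le_of_lt he)
  have h2 := (MvPolynomial.mem_pow_idealOfVars_iff' _ _).1 h1 e (Nat.lt_succ_self _)
  rw [MvPolynomial.coeff_sub] at h2
  rw [← neg_eq_zero, neg_sub]
  exact h2

/-! ### The kernel -/

theorem cplPhi_eq_zero_iff (u : Fin m → R) (hu : Ideal.span (Set.range u) = maximalIdeal R)
    (G : MvPowerSeries (Fin m) ℂ) : cplPhi u hu G = 0 ↔
      ∀ k, MvPolynomial.aeval u (MvPowerSeries.truncTotal k G) ∈ maximalIdeal R ^ k := by
  constructor
  · intro h k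
    have h1 := cplPhi_eval u hu k G
    rw [h, map_zero, cplEv_apply] at h1
    exact Ideal.Quotient.eq_zero_iff_mem.1 h1.symm
  · intro h
    refine AdicCompletion.ext_evalₐ fun k => ?_
    rw [cplPhi_eval, map_zero, cplEv_apply]
    exact Ideal.Quotient.eq_zero_iff_mem.2 (h k)

theorem cpl_trunc_sub (F : MvPolynomial (Fin m) ℂ) (k : ℕ) :
    MvPowerSeries.truncTotal k (F : MvPowerSeries (Fin m) ℂ) - F ∈
      MvPolynomial.idealOfVars (Fin m) ℂ ^ k := by
  refine (MvPolynomial.mem_pow_idealOfVars_iff' _ _).2 fun e he => ?_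
  rw [MvPolynomial.coeff_sub, MvPowerSeries.coeff_truncTotal _ he, MvPolynomial.coeff_coe,
    sub_self]

/-- Division by a nonzero polynomial. -/
theorem cpl_div {F : MvPolynomial (Fin m) ℂ} (hF0 : F ≠ 0) (G : MvPowerSeries (Fin m) ℂ)
    (h : ∀ k, MvPowerSeries.truncTotal k G ∈ Ideal.span {F} ⊔
      MvPolynomial.idealOfVars (Fin m) ℂ ^ k) :
    G ∈ Ideal.span {(F : MvPowerSeries (Fin m) ℂ)} := by
  have h1 : ∀ k, ∃ H : MvPolynomial (Fin m) ℂ, MvPowerSeries.truncTotal k G - H * F ∈
      MvPolynomial.idealOfVars (Fin m) ℂ ^ k := by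
    intro k
    obtain ⟨a, ha, b, hb, hab⟩ := Submodule.mem_sup.1 (h k)
    obtain ⟨H, rfl⟩ := Ideal.mem_span_singleton'.1 ha
    refine ⟨H, ?_⟩
    rw [← hab, add_sub_cancel_left]
    exact hb
  choose H hH using h1
  have hFS : (F : MvPowerSeries (Fin m) ℂ) ≠ 0 := by
    rwa [Ne, MvPolynomial.coe_eq_zero_iff]
  obtain ⟨d, hd⟩ : ∃ d : ℕ, (F : MvPowerSeries (Fin m) ℂ).order = d :=
    ⟨_, (MvPowerSeries.ne_zero_iff_order_finite.1 hFS).symm⟩
  -- the quotients agree in low degrees
  have hagree : ∀ k l : ℕ, k ≤ l → ∀ e : Fin m →₀ ℕ, e.degree + d < k →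
      MvPolynomial.coeff e (H l) = MvPolynomial.coeff e (H k) := by
    intro k l hkl e he
    have h2 : (H l - H k) * F ∈ MvPolynomial.idealOfVars (Fin m) ℂ ^ k := by
      have e1 : (H l - H k) * F = (MvPowerSeries.truncTotal l G - MvPowerSeries.truncTotal k G)
          - (MvPowerSeries.truncTotal l G - H l * F)
          + (MvPowerSeries.truncTotal k G - H k * F) := by ring
      rw [e1]
      exact add_mem (sub_mem
        (MvPowerSeries.truncTotal_sub_truncTotal_mem_pow_idealOfVars hkl le_rfl G)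
        (Ideal.pow_le_pow_right hkl (hH l))) (hH k)
    have h3 : (k : ℕ∞) ≤ (((H l - H k) * F : MvPolynomial (Fin m) ℂ) :
        MvPowerSeries (Fin m) ℂ).order := by
      refine MvPowerSeries.nat_le_order fun e' he' => ?_
      rw [MvPolynomial.coeff_coe]
      exact (MvPolynomial.mem_pow_idealOfVars_iff' _ _).1 h2 e' he'
    rw [MvPolynomial.coe_mul, MvPowerSeries.order_mul, hd] at h3
    by_contra hne
    have h4 : MvPowerSeries.coeff e ((H l - H k : MvPolynomial (Fin m) ℂ) :
        MvPowerSeries (Fin m) ℂ) ≠ 0 := by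
      rw [MvPolynomial.coeff_coe, MvPolynomial.coeff_sub]
      exact sub_ne_zero.2 hne
    have h5 := MvPowerSeries.order_le h4
    have h6 : (k : ℕ∞) ≤ ((e.degree + d : ℕ) : ℕ∞) := by
      refine h3.trans ?_
      push_cast
      exact add_le_add_left h5 _
    have h7 : k ≤ e.degree + d := by exact_mod_cast h6
    omega
  let HH : MvPowerSeries (Fin m) ℂ := fun e => MvPolynomial.coeff e (H (e.degree + d + 1))
  have hHH : ∀ (k : ℕ) (e : Fin m →₀ ℕ), e.degree + d < k →
      MvPowerSeries.coeff e HH = MvPolynomial.coeff e (H k) := by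
    intro k e he
    exact (hagree (e.degree + d + 1) k he e (Nat.lt_succ_self _)).symm
  rw [Ideal.mem_span_singleton']
  refine ⟨HH, ?_⟩
  ext e
  classical
  have h8 : MvPowerSeries.coeff e (HH * (F : MvPowerSeries (Fin m) ℂ))
      = MvPowerSeries.coeff e ((H (e.degree + d + 1) * F : MvPolynomial (Fin m) ℂ) :
        MvPowerSeries (Fin m) ℂ) := by
    rw [MvPolynomial.coe_mul, MvPowerSeries.coeff_mul, MvPowerSeries.coeff_mul]
    refine Finset.sum_congr rfl fun ab hab => ?_
    have hab' : ab.1 + ab.2 = e := Finset.HasAntidiagonal.mem_antidiagonal.1 hab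
    have hdeg : ab.1.degree ≤ e.degree := by
      rw [← hab', map_add]
      exact Nat.le_add_right _ _
    rw [hHH (e.degree + d + 1) ab.1 (by omega), MvPolynomial.coeff_coe, MvPolynomial.coeff_coe]
  rw [h8, MvPolynomial.coeff_coe]
  have h9 := (MvPolynomial.mem_pow_idealOfVars_iff' _ _).1 (hH (e.degree + d + 1)) e (by omega)
  rw [MvPolynomial.coeff_sub, sub_eq_zero, MvPowerSeries.coeff_truncTotal _ (by omega)] at h9
  exact h9.symm

/-- The completion of a hypersurface. -/
theorem exists_completion [IsNoetherianRing R]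
    (hres : Function.Surjective (algebraMap ℂ (ResidueField R)))
    (u : Fin m → R) (hu : Ideal.span (Set.range u) = maximalIdeal R) {F : MvPolynomial (Fin m) ℂ}
    (hF0 : F ≠ 0) (hF : MvPolynomial.aeval u F = 0)
    (hker : ∀ (G : MvPolynomial (Fin m) ℂ) (k : ℕ), MvPolynomial.aeval u G ∈ maximalIdeal R ^ k →
      G ∈ Ideal.span {F} ⊔ (Ideal.span (Set.range (MvPolynomial.X : Fin m → MvPolynomial (Fin m) ℂ))) ^ k) :
    ∃ Φ : MvPowerSeries (Fin m) ℂ →ₐ[ℂ] AdicCompletion (maximalIdeal R) R,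
      Function.Surjective Φ ∧
      RingHom.ker Φ = Ideal.span {(F : MvPowerSeries (Fin m) ℂ)} := by
  refine ⟨cplPhi u hu, cplPhi_surjective hres u hu, le_antisymm ?_ ?_⟩
  · intro G hG
    have h1 := (cplPhi_eq_zero_iff u hu G).1 hG
    exact cpl_div hF0 G fun k => hker _ k (h1 k)
  · rw [Ideal.span_singleton_le_iff_mem]
    show cplPhi u hu F = 0
    rw [cplPhi_eq_zero_iff]
    intro k
    have h1 := cpl_mem u hu (cpl_trunc_sub F k)
    rwa [map_sub, hF, sub_zero] at h1

/-- Hypersurfaces with a nondegenerate quadratic part are ordinary double points. -/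
theorem isODP_of {n : ℕ} {R : Type} [CommRing R] [IsLocalRing R] [Algebra ℂ R]
    [IsNoetherianRing R] (hres : Function.Surjective (algebraMap ℂ (ResidueField R)))
    (u : Fin (n + 1) → R) (hu : Ideal.span (Set.range u) = maximalIdeal R)
    {F : MvPolynomial (Fin (n + 1)) ℂ} (hF : MvPolynomial.aeval u F = 0)
    (hker : ∀ (G : MvPolynomial (Fin (n + 1)) ℂ) (k : ℕ),
      MvPolynomial.aeval u G ∈ maximalIdeal R ^ k →
      G ∈ Ideal.span {F} ⊔
        (Ideal.span (Set.range (MvPolynomial.X : Fin (n + 1) → MvPolynomial (Fin (n + 1)) ℂ))) ^ k)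
    (A : Matrix (Fin (n + 1)) (Fin (n + 1)) ℂ) (hA : A.IsSymm) (hdet : A.det ≠ 0)
    (hquad : ∀ e : Fin (n + 1) →₀ ℕ, e.degree ≤ 2 → MvPolynomial.coeff e F =
      MvPolynomial.coeff e (∑ i, ∑ j, MvPolynomial.C (A i j) * MvPolynomial.X i *
        MvPolynomial.X j)) : IsODP R n := by
  have hq : ∀ e : Fin (n + 1) →₀ ℕ, e.degree ≤ 2 → MvPowerSeries.coeff e
      (F : MvPowerSeries (Fin (n + 1)) ℂ) = MvPowerSeries.coeff e
        (∑ i, ∑ j, MvPowerSeries.C (A i j) * MvPowerSeries.X i * MvPowerSeries.X j :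
          MvPowerSeries (Fin (n + 1)) ℂ) := by
    intro e he
    rw [MvPolynomial.coeff_coe, hquad e he, ← MvPolynomial.coeff_coe]
    congr 1
    rw [← MvPolynomial.coeToMvPowerSeries.ringHom_apply]
    simp only [map_sum, map_mul, MvPolynomial.coeToMvPowerSeries.ringHom_apply,
      MvPolynomial.coe_C, MvPolynomial.coe_X]
  obtain ⟨w, hw0, hwd, hFw⟩ := morse (F : MvPowerSeries (Fin (n + 1)) ℂ) A hA hdet hq
  obtain ⟨φ, hφ⟩ := exists_equiv w hw0 hwd
  set Q : MvPowerSeries (Fin (n + 1)) ℂ :=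
    ∑ i : Fin (n + 1), (MvPowerSeries.X i : MvPowerSeries (Fin (n + 1)) ℂ) ^ 2 with hQ
  have hφQ : φ Q = (F : MvPowerSeries (Fin (n + 1)) ℂ) := by
    rw [hQ, map_sum, hFw]
    simp only [map_pow, hφ]
  have hQ0 : Q ≠ 0 := by
    intro h
    have h1 := congrArg (MvPowerSeries.coeff (Finsupp.single (0 : Fin (n + 1)) 2)) h
    rw [hQ, map_sum, map_zero, Finset.sum_eq_single 0] at h1
    · rw [MvPowerSeries.coeff_X_pow] at h1
      simp at h1
    · intro i _ hi
      rw [MvPowerSeries.coeff_X_pow, if_neg]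
      intro h2
      have h3 := DFunLike.congr_fun h2 0
      simp [hi] at h3
    · intro h2
      exact absurd (Finset.mem_univ _) h2
  have hF0 : F ≠ 0 := by
    rintro rfl
    rw [MvPolynomial.coe_zero] at hφQ
    exact hQ0 (φ.injective (by rw [hφQ, map_zero]))
  obtain ⟨Φ, hΦ1, hΦ2⟩ := exists_completion hres u hu hF0 hF hker
  let Ψ : MvPowerSeries (Fin (n + 1)) ℂ →ₐ[ℂ] AdicCompletion (maximalIdeal R) R :=
    Φ.comp (φ : MvPowerSeries (Fin (n + 1)) ℂ →ₐ[ℂ] MvPowerSeries (Fin (n + 1)) ℂ)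
  have hΨ1 : Function.Surjective Ψ := hΦ1.comp φ.surjective
  have hΨ2 : RingHom.ker Ψ = Ideal.span {Q} := by
    ext g
    rw [Ideal.mem_span_singleton, RingHom.mem_ker]
    show Φ (φ g) = 0 ↔ _
    rw [← RingHom.mem_ker, hΦ2, Ideal.mem_span_singleton, ← hφQ]
    exact map_dvd_iff φ
  have e1 := Ideal.quotientKerAlgEquivOfSurjective hΨ1
  have e2 := Ideal.quotientEquivAlgOfEq ℂ hΨ2
  exact ⟨e1.symm.trans e2⟩

end Vale.Agent.P282.EQ
end

section

/-!
# P282 EQ: complex points of a finitely generated domain are classically dense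

`dense_points`: `S` a finitely generated `ℂ`-domain, `p : S →ₐ[ℂ] ℂ`, `e ≠ 0`: there are points
`π` with `π e ≠ 0` converging pointwise to `p`.
-/

open Filter Topology Polynomial

namespace Vale.Agent.P282.EQ

section lift

variable {A S : Type*} [CommRing A] [Algebra ℂ A] [CommRing S] [Algebra ℂ S]

/-- Lifting a complex point along an integral ring homomorphism. -/
theorem exists_point_over (ψ : A →ₐ[ℂ] S) (hψ : ψ.toRingHom.IsIntegral) (φ : A →ₐ[ℂ] ℂ)
    (hker : ∀ a, ψ a = 0 → φ a = 0) : ∃ π : S →ₐ[ℂ] ℂ, ∀ a, π (ψ a) = φ a := by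
  letI : Algebra A S := ψ.toRingHom.toAlgebra
  have hmap : ∀ a, algebraMap A S a = ψ a := fun _ => rfl
  have hi : Algebra.IsIntegral A S := ⟨hψ⟩
  let P : Ideal A := RingHom.ker φ.toRingHom
  have hPp : P.IsPrime := RingHom.ker_isPrime _
  have hP : RingHom.ker (algebraMap A S) ≤ P := fun a ha => hker a ha
  obtain ⟨Q, -, hQp, hQ⟩ := Ideal.exists_ideal_over_prime_of_isIntegral P (⊥ : Ideal S) hP
  have hmem : ∀ a, ψ a ∈ Q ↔ φ a = 0 := by
    intro a
    have : a ∈ Q.comap (algebraMap A S) ↔ a ∈ P := by rw [hQ]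
    exact this
  have hdom : IsDomain (S ⧸ Q) := Ideal.Quotient.isDomain Q
  have hint : Algebra.IsIntegral ℂ (S ⧸ Q) := by
    refine ⟨fun x => ?_⟩
    obtain ⟨s, rfl⟩ := Ideal.Quotient.mk_surjective x
    obtain ⟨f, hf, hfs⟩ := hψ s
    refine ⟨f.map φ.toRingHom, hf.map _, ?_⟩
    have h1 : (algebraMap ℂ (S ⧸ Q)).comp φ.toRingHom =
        (Ideal.Quotient.mk Q).comp ψ.toRingHom := by
      ext a
      show algebraMap ℂ (S ⧸ Q) (φ a) = Ideal.Quotient.mk Q (ψ a)
      have h2 : ψ (a - algebraMap ℂ A (φ a)) ∈ Q := by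
        rw [hmem, map_sub, AlgHom.commutes]
        simp
      rw [map_sub, AlgHom.commutes] at h2
      have h3 := Ideal.Quotient.eq.2 h2
      rw [h3]
      rfl
    rw [eval₂_map, h1, ← hom_eval₂, hfs, map_zero]
  have hbij := IsAlgClosed.algebraMap_bijective_of_isIntegral (k := ℂ) (K := S ⧸ Q)
  let E : ℂ ≃ₐ[ℂ] (S ⧸ Q) := AlgEquiv.ofBijective (Algebra.ofId ℂ (S ⧸ Q)) hbij
  refine ⟨(E.symm : (S ⧸ Q) →ₐ[ℂ] ℂ).comp (Ideal.Quotient.mkₐ ℂ Q), fun a => ?_⟩
  show E.symm (Ideal.Quotient.mk Q (ψ a)) = φ a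
  rw [AlgEquiv.symm_apply_eq]
  show _ = algebraMap ℂ (S ⧸ Q) (φ a)
  have h2 : ψ (a - algebraMap ℂ A (φ a)) ∈ Q := by
    rw [hmem, map_sub, AlgHom.commutes]
    simp
  rw [map_sub, AlgHom.commutes] at h2
  exact Ideal.Quotient.eq.2 h2

end lift

section poly

variable {d : ℕ}

theorem mv_dense (c : MvPolynomial (Fin d) ℂ) (hc : c ≠ 0) (a : Fin d → ℂ) :
    (𝓝 a ⊓ 𝓟 {z | MvPolynomial.eval z c ≠ 0}).NeBot := by
  classical
  obtain ⟨b, hb⟩ : ∃ b, MvPolynomial.eval b c ≠ 0 := by
    by_contra h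
    push Not at h
    exact hc (MvPolynomial.funext (fun x => by rw [h x, map_zero]))
  -- restriction to the line `a + t (b - a)`
  let q : ℂ[X] := MvPolynomial.aeval (fun i => C (a i) + X * C (b i - a i)) c
  have hq : ∀ t, q.eval t = MvPolynomial.eval (fun i => a i + t * (b i - a i)) c := by
    intro t
    have h1 : (Polynomial.evalRingHom t).comp
        (MvPolynomial.aeval (R := ℂ) (fun i => C (a i) + X * C (b i - a i))).toRingHom =
        MvPolynomial.eval (fun i => a i + t * (b i - a i)) := by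
      apply MvPolynomial.ringHom_ext
      · intro r; simp
      · intro i; simp
    exact congrArg (fun φ : MvPolynomial (Fin d) ℂ →+* ℂ => φ c) h1
  have hq0 : q ≠ 0 := by
    intro h
    apply hb
    have := hq 1
    rw [h, eval_zero] at this
    rw [this]
    congr 2
    ext i
    ring
  have hfr : ∃ᶠ t in 𝓝 (0 : ℂ), q.eval t ≠ 0 := by
    have h1 : ∀ᶠ t in 𝓝[≠] (0 : ℂ), q.eval t ≠ 0 := by
      have hfin : {t : ℂ | q.eval t = 0}.Finite := by
        refine (q.roots.toFinset.finite_toSet).subset fun t ht => ?_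
        simp only [Finset.mem_coe, Multiset.mem_toFinset, mem_roots hq0]
        exact ht
      have h2 := (hfin.subset (Set.diff_subset (t := {0}))).isClosed.isOpen_compl
      have h3 : ({t : ℂ | q.eval t = 0} \ {0})ᶜ ∈ 𝓝 (0 : ℂ) := h2.mem_nhds (by simp)
      filter_upwards [nhdsWithin_le_nhds h3, self_mem_nhdsWithin] with t ht ht0 h
      exact ht ⟨h, ht0⟩
    exact h1.frequently.filter_mono nhdsWithin_le_nhds
  rw [← frequently_mem_iff_neBot]
  have hcont : Tendsto (fun t : ℂ => fun i => a i + t * (b i - a i)) (𝓝 0) (𝓝 a) := by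
    have : Continuous (fun t : ℂ => fun i => a i + t * (b i - a i)) := by fun_prop
    have h := this.tendsto 0
    simpa using h
  refine hcont.frequently (hfr.mono fun t ht => ?_)
  show MvPolynomial.eval _ c ≠ 0
  rwa [← hq]

theorem pow_card_le_norm_prod (c : ℝ) (hc : 0 ≤ c) (m : Multiset ℂ) (h : ∀ r ∈ m, c ≤ ‖r‖) :
    c ^ m.card ≤ ‖(m.map (fun r => 0 - r)).prod‖ := by
  induction m using Multiset.induction_on with
  | empty => simp
  | cons a m ih =>
    rw [Multiset.card_cons, Multiset.map_cons, Multiset.prod_cons, norm_mul, pow_succ, mul_comm]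
    have h1 := ih fun r hr => h r (Multiset.mem_cons_of_mem hr)
    have h2 : c ≤ ‖0 - a‖ := by
      rw [zero_sub, norm_neg]
      exact h a (Multiset.mem_cons_self a m)
    exact mul_le_mul h2 h1 (pow_nonneg hc _) (norm_nonneg _)

/-- A monic polynomial has a root near `0` if its value at `0` is small. -/
theorem exists_root_norm_le (f : ℂ[X]) (hf : f.Monic) (hd : f.natDegree ≠ 0) :
    ∃ r, f.IsRoot r ∧ ‖r‖ ^ f.natDegree ≤ ‖f.eval 0‖ := by
  have hs : f.Splits := IsAlgClosed.splits f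
  have hcard : f.roots.card = f.natDegree := (splits_iff_card_roots.1 hs)
  have hprod : f.eval 0 = (f.roots.map (fun r => 0 - r)).prod := by
    have h1 := hs.eq_prod_roots_of_monic hf
    conv_lhs => rw [h1]
    rw [eval_multiset_prod, Multiset.map_map]
    congr 1
    apply Multiset.map_congr rfl
    intro r _
    simp
  have hne : f.roots.toFinset.Nonempty := by
    rw [Finset.nonempty_iff_ne_empty]
    intro h
    rw [Multiset.toFinset_eq_empty] at h
    rw [h] at hcard
    exact hd (by simpa using hcard.symm)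
  obtain ⟨r, hr, hmin⟩ := Finset.exists_min_image f.roots.toFinset (fun r => ‖r‖) hne
  refine ⟨r, isRoot_of_mem_roots (Multiset.mem_toFinset.1 hr), ?_⟩
  rw [hprod, ← hcard]
  exact pow_card_le_norm_prod _ (norm_nonneg r) _ fun x hx => hmin x (Multiset.mem_toFinset.2 hx)

end poly

theorem norm_le_of_monic_root (f : ℂ[X]) (hf : f.Monic) (K : ℝ)
    (h : ∀ i < f.natDegree, ‖f.coeff i‖ ≤ K) (x : ℂ) (hx : f.IsRoot x) : ‖x‖ ≤ K + 1 := by
  have h1 := IsRoot.norm_lt_cauchyBound hf.ne_zero hx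
  rcases Nat.eq_zero_or_pos f.natDegree with h0 | h0
  · exfalso
    have h2 := hf.natDegree_eq_zero.1 h0
    rw [h2, IsRoot, eval_one] at hx
    exact one_ne_zero hx
  have hK : 0 ≤ K := (norm_nonneg _).trans (h 0 h0)
  have h2 : (cauchyBound f : ℝ) ≤ K + 1 := by
    rw [cauchyBound, hf.leadingCoeff, nnnorm_one, div_one, NNReal.coe_add, NNReal.coe_one]
    gcongr
    have h3 : (Finset.range f.natDegree).sup (fun i => ‖f.coeff i‖₊) ≤ (⟨K, hK⟩ : NNReal) := by
      refine Finset.sup_le fun i hi => ?_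
      exact h i (Finset.mem_range.1 hi)
    exact h3
  have h3 : ‖x‖ ≤ (cauchyBound f : ℝ) := by exact_mod_cast h1.le
  exact h3.trans h2

section dense

variable {S : Type*} [CommRing S] [IsDomain S] [Algebra ℂ S]

/-- The pointwise topology on complex points. -/
noncomputable def ptNhd (p : S →ₐ[ℂ] ℂ) : Filter (S →ₐ[ℂ] ℂ) :=
  comap (fun π : S →ₐ[ℂ] ℂ => (π : S → ℂ)) (𝓝 (p : S → ℂ))

theorem tendsto_ptNhd_iff {ι : Type*} {l : Filter ι} {u : ι → (S →ₐ[ℂ] ℂ)} {p : S →ₐ[ℂ] ℂ} :
    Tendsto u l (ptNhd p) ↔ ∀ s, Tendsto (fun i => u i s) l (𝓝 (p s)) := by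
  rw [ptNhd, tendsto_comap_iff, tendsto_pi_nhds]
  rfl

theorem dense_points [Algebra.FiniteType ℂ S] (p : S →ₐ[ℂ] ℂ) {e : S} (he : e ≠ 0) :
    (ptNhd p ⊓ 𝓟 {π | π e ≠ 0}).NeBot := by
  classical
  obtain ⟨d, g, hg, hint⟩ := exists_integral_inj_algHom_of_fg ℂ S
  letI : Algebra (MvPolynomial (Fin d) ℂ) S := g.toRingHom.toAlgebra
  have hmap : ∀ a, algebraMap (MvPolynomial (Fin d) ℂ) S a = g a := fun _ => rfl
  have hi : Algebra.IsIntegral (MvPolynomial (Fin d) ℂ) S := ⟨hint⟩
  have hft : FaithfulSMul (MvPolynomial (Fin d) ℂ) S := by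
    rw [faithfulSMul_iff_algebraMap_injective]; exact hg
  have htow : IsScalarTower ℂ (MvPolynomial (Fin d) ℂ) S := IsScalarTower.of_algebraMap_eq
    fun c => by rw [hmap, AlgHom.commutes]
  -- a multiple of `e` in the polynomial ring
  obtain ⟨c, hc0, s', hcs⟩ : ∃ c : MvPolynomial (Fin d) ℂ, c ≠ 0 ∧ ∃ s', g c = e * s' := by
    have h1 := Ideal.comap_ne_bot_of_integral_mem (I := Ideal.span {e}) he
      (Ideal.mem_span_singleton_self e) (hi.isIntegral e)
    obtain ⟨c, hc, hc0⟩ := Submodule.exists_mem_ne_zero_of_ne_bot h1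
    rw [Ideal.mem_comap, Ideal.mem_span_singleton] at hc
    obtain ⟨s', hs'⟩ := hc
    exact ⟨c, hc0, s', hs'⟩
  let a : Fin d → ℂ := fun i => p (g (MvPolynomial.X i))
  have hpa : ∀ q, p (g q) = MvPolynomial.eval a q := by
    intro q
    have : (p.comp g).toRingHom = MvPolynomial.eval a := by
      apply MvPolynomial.ringHom_ext
      · intro r
        show p (g (MvPolynomial.C r)) = _
        rw [MvPolynomial.eval_C, ← MvPolynomial.algebraMap_eq, AlgHom.commutes, AlgHom.commutes]
        rfl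
      · intro i
        show p (g (MvPolynomial.X i)) = _
        rw [MvPolynomial.eval_X]
    exact congrArg (fun φ : MvPolynomial (Fin d) ℂ →+* ℂ => φ q) this
  -- finitely many points over `a`
  let F : Set (S →ₐ[ℂ] ℂ) := {π | ∀ q, π (g q) = p (g q)}
  have hF : F.Finite := by
    have h1 : ∀ s : S, ((fun π : S →ₐ[ℂ] ℂ => π s) '' F).Finite := by
      intro s
      obtain ⟨f, hf, hfs⟩ := hint s
      refine ((f.map ((p.comp g).toRingHom)).roots.toFinset.finite_toSet).subset ?_
      rintro _ ⟨π, hπ, rfl⟩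
      simp only [Finset.mem_coe, Multiset.mem_toFinset]
      rw [mem_roots (hf.map _).ne_zero, IsRoot, eval_map]
      have h2 : (p.comp g).toRingHom = (π : S →+* ℂ).comp g.toRingHom :=
        RingHom.ext fun q => (hπ q).symm
      rw [h2]
      have h3 := congrArg (π : S →+* ℂ) hfs
      rw [hom_eval₂, map_zero] at h3
      exact h3
    obtain ⟨G, hG⟩ := ‹Algebra.FiniteType ℂ S›.out
    have h2 : (Set.pi (Set.univ : Set (G : Set S)) fun s =>
        (fun π : S →ₐ[ℂ] ℂ => π (s : S)) '' F).Finite :=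
      Set.Finite.pi fun s => h1 s
    refine Set.Finite.of_finite_image (f := fun π => fun s : (G : Set S) => π (s : S))
      (h2.subset ?_) ?_
    · rintro _ ⟨π, hπ, rfl⟩ s _
      exact ⟨π, hπ, rfl⟩
    · intro π _ π' _ h
      apply AlgHom.ext_of_adjoin_eq_top hG
      intro x hx
      exact congrFun h ⟨x, hx⟩
  -- an element separating `p` from the other points over `a`
  obtain ⟨u, hu0, hu⟩ : ∃ u, p u = 0 ∧ ∀ π ∈ F, π u = 0 → π = p := by
    let T : Finset (S →ₐ[ℂ] ℂ) := hF.toFinset.erase p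
    have h1 : ¬ ((RingHom.ker (p : S →+* ℂ) : Set S) ⊆
        ⋃ i ∈ (↑T : Set (S →ₐ[ℂ] ℂ)), RingHom.ker (i : S →+* ℂ)) := by
      rw [Ideal.subset_union_prime p p (fun i _ _ _ => RingHom.ker_isPrime _)]
      rintro ⟨π, hπ, hle⟩
      have hmx : (RingHom.ker (p : S →+* ℂ)).IsMaximal :=
        RingHom.ker_isMaximal_of_surjective _ fun z => ⟨algebraMap ℂ S z, p.commutes z⟩
      have h2 := hmx.eq_of_le (RingHom.ker_ne_top _) hle
      have h3 : π = p := by
        ext s
        have h4 : s - algebraMap ℂ S (p s) ∈ RingHom.ker (p : S →+* ℂ) := by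
          rw [RingHom.mem_ker]
          show p (s - algebraMap ℂ S (p s)) = 0
          rw [map_sub, AlgHom.commutes]
          simp
        rw [h2, RingHom.mem_ker] at h4
        have h5 : π (s - algebraMap ℂ S (p s)) = 0 := h4
        rw [map_sub, AlgHom.commutes, sub_eq_zero] at h5
        exact h5
      exact (Finset.mem_erase.1 hπ).1 h3
    rw [Set.not_subset] at h1
    obtain ⟨u, hu1, hu2⟩ := h1
    refine ⟨u, hu1, fun π hπ h => ?_⟩
    by_contra hne
    apply hu2
    rw [Set.mem_iUnion₂]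
    exact ⟨π, Finset.mem_coe.2 (Finset.mem_erase.2 ⟨hne, hF.mem_toFinset.2 hπ⟩), h⟩
  -- minimal polynomial of `u`
  let f := minpoly (MvPolynomial (Fin d) ℂ) u
  have hfm : f.Monic := minpoly.monic (hi.isIntegral u)
  have hfd : f.natDegree ≠ 0 := (minpoly.natDegree_pos (hi.isIntegral u)).ne'
  have hdeg : ∀ z : Fin d → ℂ, (f.map (MvPolynomial.eval z)).natDegree = f.natDegree := fun z =>
    hfm.natDegree_map _
  have hroot : ∀ z : Fin d → ℂ, ∃ r, (f.map (MvPolynomial.eval z)).IsRoot r ∧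
      ‖r‖ ^ f.natDegree ≤ ‖(f.map (MvPolynomial.eval z)).eval 0‖ := by
    intro z
    have := exists_root_norm_le (f.map (MvPolynomial.eval z)) (hfm.map _) (by rw [hdeg]; exact hfd)
    rwa [hdeg] at this
  choose r hr1 hr2 using hroot
  -- points over `z`
  have hpt : ∀ z : Fin d → ℂ, ∃ π : S →ₐ[ℂ] ℂ, (∀ q, π (g q) = MvPolynomial.eval z q) ∧
      π u = r z := by
    intro z
    let ψ : (MvPolynomial (Fin d) ℂ)[X] →ₐ[ℂ] S :=
      { (Polynomial.aeval u : (MvPolynomial (Fin d) ℂ)[X] →ₐ[MvPolynomial (Fin d) ℂ] S).toRingHom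
        with
        commutes' := fun c => by
          show Polynomial.aeval u (algebraMap ℂ (MvPolynomial (Fin d) ℂ)[X] c) = _
          rw [IsScalarTower.algebraMap_apply ℂ (MvPolynomial (Fin d) ℂ) (MvPolynomial (Fin d) ℂ)[X],
            AlgHom.commutes, hmap, AlgHom.commutes] }
    have hψ : ∀ q, ψ q = Polynomial.aeval u q := fun _ => rfl
    let φ : (MvPolynomial (Fin d) ℂ)[X] →ₐ[ℂ] ℂ :=
      { (Polynomial.eval₂RingHom (MvPolynomial.eval z) (r z)) with
        commutes' := fun c => by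
          show Polynomial.eval₂ (MvPolynomial.eval z) (r z)
            (algebraMap ℂ (MvPolynomial (Fin d) ℂ)[X] c) = _
          rw [IsScalarTower.algebraMap_apply ℂ (MvPolynomial (Fin d) ℂ) (MvPolynomial (Fin d) ℂ)[X],
            Polynomial.algebraMap_eq, eval₂_C, MvPolynomial.algebraMap_eq, MvPolynomial.eval_C]
          rfl }
    have hφ : ∀ q, φ q = Polynomial.eval₂ (MvPolynomial.eval z) (r z) q := fun _ => rfl
    have hψi : ψ.toRingHom.IsIntegral := by
      have h1 : (ψ.toRingHom.comp (C : MvPolynomial (Fin d) ℂ →+* _)).IsIntegral := by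
        have h2 : ψ.toRingHom.comp (C : MvPolynomial (Fin d) ℂ →+* _) = g.toRingHom := by
          refine RingHom.ext fun q => ?_
          show Polynomial.aeval u (C q) = g q
          rw [aeval_C, hmap]
        rw [h2]
        exact hint
      exact RingHom.IsIntegral.tower_top _ _ h1
    obtain ⟨π, hπ⟩ := exists_point_over ψ hψi φ (by
      intro q hq
      rw [hψ] at hq
      obtain ⟨w, hw⟩ := minpoly.isIntegrallyClosed_dvd (hi.isIntegral u) hq
      rw [hφ, hw, eval₂_mul]
      have h1 := hr1 z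
      rw [IsRoot, eval_map] at h1
      rw [h1, zero_mul])
    refine ⟨π, fun q => ?_, ?_⟩
    · have := hπ (C q)
      rw [hψ, hφ, aeval_C, eval₂_C, hmap] at this
      exact this
    · have := hπ X
      rw [hψ, hφ, aeval_X, eval₂_X] at this
      exact this
  choose π hπ1 hπ2 using hpt
  -- ultrafilter limit
  have hNe := mv_dense c hc0 a
  let W : Ultrafilter (Fin d → ℂ) := Ultrafilter.of (𝓝 a ⊓ 𝓟 {z | MvPolynomial.eval z c ≠ 0})
  have hW : (W : Filter (Fin d → ℂ)) ≤ 𝓝 a ⊓ 𝓟 {z | MvPolynomial.eval z c ≠ 0} :=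
    Ultrafilter.of_le _
  have hWa : (W : Filter (Fin d → ℂ)) ≤ 𝓝 a := hW.trans inf_le_left
  have hWc : ∀ᶠ z in (W : Filter (Fin d → ℂ)), MvPolynomial.eval z c ≠ 0 :=
    (hW.trans inf_le_right) (mem_principal_self _)
  have hcontq : ∀ q : MvPolynomial (Fin d) ℂ, Tendsto (fun z => MvPolynomial.eval z q)
      (W : Filter (Fin d → ℂ)) (𝓝 (MvPolynomial.eval a q)) := fun q =>
    ((MvPolynomial.continuous_eval q).tendsto a).mono_left hWa
  have hlim : ∀ s : S, ∃ x, Tendsto (fun z => π z s) (W : Filter (Fin d → ℂ)) (𝓝 x) := by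
    intro s
    obtain ⟨h, hh, hhs⟩ := hint s
    let K : ℝ := ∑ i ∈ Finset.range h.natDegree, (‖MvPolynomial.eval a (h.coeff i)‖ + 1)
    have hK : ∀ᶠ z in (W : Filter (Fin d → ℂ)), ∀ i ∈ Finset.range h.natDegree,
        ‖MvPolynomial.eval z (h.coeff i)‖ ≤ ‖MvPolynomial.eval a (h.coeff i)‖ + 1 := by
      rw [Filter.eventually_all_finset]
      intro i _
      exact ((hcontq (h.coeff i)).norm.eventually_lt_const (lt_add_one _)).mono fun z hz => hz.le
    have hb : ∀ᶠ z in (W : Filter (Fin d → ℂ)), π z s ∈ Metric.closedBall (0 : ℂ) (K + 1) := by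
      filter_upwards [hK] with z hz
      rw [mem_closedBall_zero_iff]
      have h1 : (h.map (MvPolynomial.eval z)).IsRoot (π z s) := by
        rw [IsRoot, eval_map]
        have h2 : MvPolynomial.eval z = ((π z : S →+* ℂ).comp g.toRingHom) :=
          RingHom.ext fun q => (hπ1 z q).symm
        rw [h2]
        have h3 := congrArg (π z : S →+* ℂ) hhs
        rw [hom_eval₂, map_zero] at h3
        exact h3
      refine norm_le_of_monic_root _ (hh.map _) K ?_ _ h1
      intro i hi'
      rw [hh.natDegree_map] at hi'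
      rw [coeff_map]
      have h4 := hz i (Finset.mem_range.2 hi')
      refine h4.trans ?_
      exact Finset.single_le_sum (f := fun i => ‖MvPolynomial.eval a (h.coeff i)‖ + 1)
        (fun j _ => by positivity) (Finset.mem_range.2 hi')
    obtain ⟨x, -, hx⟩ := (isCompact_closedBall (0 : ℂ) (K + 1)).ultrafilter_le_nhds'
      (W.map fun z => π z s) hb
    exact ⟨x, hx⟩
  choose L hL using hlim
  let p'' : S →ₐ[ℂ] ℂ :=
    { toFun := L
      map_one' := tendsto_nhds_unique (hL 1) (by simp)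
      map_mul' := fun x y => tendsto_nhds_unique (hL (x * y)) (by
        simpa only [map_mul] using (hL x).mul (hL y))
      map_zero' := tendsto_nhds_unique (hL 0) (by simp)
      map_add' := fun x y => tendsto_nhds_unique (hL (x + y)) (by
        simpa only [map_add] using (hL x).add (hL y))
      commutes' := fun x => tendsto_nhds_unique (hL _) (by simp) }
  have hp'' : p'' = p := by
    apply hu
    · intro q
      refine tendsto_nhds_unique (hL (g q)) ?_
      simp only [hπ1, hpa]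
      exact hcontq q
    · refine tendsto_nhds_unique (hL u) ?_
      simp only [hπ2]
      rw [tendsto_zero_iff_norm_tendsto_zero]
      have h0 : Tendsto (fun z => ‖(f.map (MvPolynomial.eval z)).eval 0‖)
          (W : Filter (Fin d → ℂ)) (𝓝 0) := by
        have h1 : ∀ z : Fin d → ℂ, (f.map (MvPolynomial.eval z)).eval 0 =
            MvPolynomial.eval z (f.coeff 0) := by
          intro z
          rw [← coeff_zero_eq_eval_zero, coeff_map]
        simp only [h1]
        have h2 := (hcontq (f.coeff 0)).norm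
        have h3 : MvPolynomial.eval a (f.coeff 0) = 0 := by
          have h4 := congrArg p (minpoly.aeval (MvPolynomial (Fin d) ℂ) u)
          rw [map_zero, aeval_def] at h4
          have h5 : p (eval₂ (algebraMap (MvPolynomial (Fin d) ℂ) S) u f) =
              eval₂ (((p : S →+* ℂ)).comp (algebraMap (MvPolynomial (Fin d) ℂ) S)) (p u) f :=
            hom_eval₂ _ _ (p : S →+* ℂ) _
          rw [h5, hu0, eval₂_at_zero] at h4
          rw [← hpa]
          exact h4
        rw [h3, norm_zero] at h2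
        exact h2
      rw [Metric.tendsto_nhds]
      intro ε hε
      have h5 := (h0.eventually_lt_const (pow_pos hε f.natDegree))
      filter_upwards [h5] with z hz
      rw [dist_zero_right, norm_norm]
      exact lt_of_pow_lt_pow_left₀ _ hε.le ((hr2 z).trans_lt hz)
  have hT : Tendsto π (W : Filter (Fin d → ℂ)) (ptNhd p ⊓ 𝓟 {π | π e ≠ 0}) := by
    rw [tendsto_inf]
    refine ⟨?_, ?_⟩
    · rw [← hp'', tendsto_ptNhd_iff]
      exact hL
    · rw [tendsto_principal]
      filter_upwards [hWc] with z hz h0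
      apply hz
      rw [← hπ1, hcs, map_mul]
      have h0' : π z e = 0 := h0
      rw [h0', zero_mul]
  exact hT.neBot

end dense

section ratio

variable {C : Type*} [CommRing C] [IsDomain C] [IsIntegrallyClosed C] [Algebra ℂ C]
  [Algebra.FiniteType ℂ C]

/-- If `x / d` is not in the localization of the normal domain `C` at the kernel of `p`, then
there are points `π → p`, outside any given hypersurface, with `π d / π x → 0`. -/
theorem exists_ratio_tendsto_zero (p : C →ₐ[ℂ] ℂ) {d x e : C} (hd : d ≠ 0) (he : e ≠ 0)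
    (h : ¬ ∃ s, p s ≠ 0 ∧ d ∣ s * x) :
    ∃ U : Filter (C →ₐ[ℂ] ℂ), U.NeBot ∧ U ≤ ptNhd p ∧ (∀ᶠ π in U, π e ≠ 0 ∧ π d ≠ 0 ∧ π x ≠ 0) ∧
      Tendsto (fun π => π d / π x) U (𝓝 0) := by
  classical
  have hx : x ≠ 0 := by
    rintro rfl
    exact h ⟨1, by simp, by simp⟩
  let N := FractionRing C
  have hinj : Function.Injective (algebraMap C N) := IsFractionRing.injective C N
  have hdN : algebraMap C N d ≠ 0 := by rwa [Ne, map_eq_zero_iff _ hinj]
  have hxN : algebraMap C N x ≠ 0 := by rwa [Ne, map_eq_zero_iff _ hinj]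
  let w : N := algebraMap C N d / algebraMap C N x
  let g : N := algebraMap C N x / algebraMap C N d
  have hwg : g = w⁻¹ := by simp [w, g, inv_div]
  have hw0 : w ≠ 0 := div_ne_zero hdN hxN
  -- the key algebraic fact
  have key : ∀ f : C[X], Polynomial.aeval w f = 0 → p (f.coeff 0) = 0 := by
    intro f hf
    by_contra hne
    have hc0 : f.coeff 0 ≠ 0 := fun h0 => hne (by rw [h0, map_zero])
    have htr : f.natTrailingDegree = 0 := by
      rw [natTrailingDegree_eq_zero]; exact Or.inr hc0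
    have hlead : f.reverse.leadingCoeff = f.coeff 0 := by
      rw [reverse_leadingCoeff, trailingCoeff, htr]
    have hrev : Polynomial.aeval g f.reverse = 0 := by
      rw [aeval_def, hwg]
      letI : Invertible w := invertibleOfNonzero hw0
      have h2 := eval₂_reverse_mul_pow (algebraMap C N) w f
      rw [invOf_eq_inv, ← aeval_def w, hf] at h2
      exact (mul_eq_zero.1 h2).resolve_right (pow_ne_zero _ hw0)
    have h3 := isIntegral_leadingCoeff_smul f.reverse g hrev
    rw [hlead] at h3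
    obtain ⟨c, hc⟩ := IsIntegrallyClosed.isIntegral_iff.1 h3
    refine h ⟨f.coeff 0, hne, c, hinj ?_⟩
    rw [map_mul, map_mul, hc, Algebra.smul_def]
    show _ = algebraMap C N d * (algebraMap C N (f.coeff 0) *
      (algebraMap C N x / algebraMap C N d))
    rw [mul_left_comm, mul_div_cancel₀ _ hdN]
  -- the ring `C[w]`
  let ψ : C[X] →ₐ[ℂ] N := (Polynomial.aeval w : C[X] →ₐ[C] N).restrictScalars ℂ
  let S := ψ.range
  let φ : C[X] →ₐ[ℂ] ℂ :=
    { (Polynomial.eval₂RingHom (p : C →+* ℂ) 0) with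
      commutes' := fun c => by
        show Polynomial.eval₂ (p : C →+* ℂ) 0 (algebraMap ℂ C[X] c) = _
        rw [IsScalarTower.algebraMap_apply ℂ C C[X], Polynomial.algebraMap_eq, eval₂_C]
        exact p.commutes c }
  have hφ : ∀ q, φ q = p (q.coeff 0) := fun q => by
    show Polynomial.eval₂ (p : C →+* ℂ) 0 q = _
    rw [eval₂_at_zero]
    rfl
  obtain ⟨p', hp'⟩ := exists_point_over (ψ.rangeRestrict)
    (RingHom.isIntegral_of_surjective _ ψ.rangeRestrict_surjective) φ (by
      intro q hq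
      rw [hφ]
      apply key
      have h1 := congrArg (Subtype.val) hq
      exact h1)
  have hfg : Algebra.FiniteType ℂ S :=
    Algebra.FiniteType.of_surjective ψ.rangeRestrict ψ.rangeRestrict_surjective
  let ι : C →ₐ[ℂ] S := ψ.rangeRestrict.comp (IsScalarTower.toAlgHom ℂ C C[X])
  have hι : ∀ c, ((ι c : S) : N) = algebraMap C N c := fun c => by
    show Polynomial.aeval w (Polynomial.C c) = _
    rw [aeval_C]
  have hpι : ∀ c, p' (ι c) = p c := fun c => by
    have := hp' (Polynomial.C c)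
    rw [hφ, coeff_C_zero] at this
    exact this
  have hιinj : Function.Injective ι := fun a b hab => hinj (by rw [← hι, ← hι, hab])
  let W : S := ψ.rangeRestrict X
  have hW : (W : N) = w := by
    show Polynomial.aeval w X = w
    rw [aeval_X]
  have hpW : p' W = 0 := by
    rw [hp' X, hφ, coeff_X_zero, map_zero]
  have hWx : W * ι x = ι d := by
    apply Subtype.ext
    show (W : N) * (ι x : N) = (ι d : N)
    rw [hW, hι, hι]
    exact div_mul_cancel₀ _ hxN
  have hne : ι (e * d * x) ≠ 0 := by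
    rw [Ne, map_eq_zero_iff _ hιinj]
    exact mul_ne_zero (mul_ne_zero he hd) hx
  have hN := dense_points p' hne
  let R : (S →ₐ[ℂ] ℂ) → (C →ₐ[ℂ] ℂ) := fun π => π.comp ι
  have hev : ∀ᶠ π in (ptNhd p' ⊓ 𝓟 {π | π (ι (e * d * x)) ≠ 0}),
      π (ι e) ≠ 0 ∧ π (ι d) ≠ 0 ∧ π (ι x) ≠ 0 := by
    apply Filter.Eventually.filter_mono inf_le_right
    rw [eventually_principal]
    intro π hπ
    have hπ' : π (ι (e * d * x)) ≠ 0 := hπ
    rw [map_mul, map_mul, map_mul, map_mul] at hπ'
    exact ⟨left_ne_zero_of_mul (left_ne_zero_of_mul hπ'),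
      right_ne_zero_of_mul (left_ne_zero_of_mul hπ'), right_ne_zero_of_mul hπ'⟩
  have hid : ∀ s, Tendsto (fun π : S →ₐ[ℂ] ℂ => π s)
      (ptNhd p' ⊓ 𝓟 {π | π (ι (e * d * x)) ≠ 0}) (𝓝 (p' s)) := fun s =>
    (tendsto_ptNhd_iff.1 (tendsto_id (x := ptNhd p')) s).mono_left inf_le_left
  refine ⟨Filter.map R (ptNhd p' ⊓ 𝓟 {π | π (ι (e * d * x)) ≠ 0}), inferInstance, ?_, ?_, ?_⟩
  · show Tendsto R _ (ptNhd p)
    rw [tendsto_ptNhd_iff]
    intro s
    rw [← hpι]
    exact hid (ι s)
  · rw [eventually_map]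
    exact hev
  · rw [tendsto_map'_iff]
    have h1 := hid W
    rw [hpW] at h1
    refine h1.congr' ?_
    filter_upwards [hev] with π hπ
    show π W = π (ι d) / π (ι x)
    rw [eq_div_iff hπ.2.2, ← map_mul, hWx]

end ratio

end Vale.Agent.P282.EQ
end

section

set_option linter.all false

open scoped NNReal ENNReal Nat WithZero
open IsLocalRing

namespace Vale.Agent.P282.Full

/-- The cyclic extension of the function field. -/
theorem exist_field {K : Type} [Field K] [Algebra ℂ K] {r : ℕ} (hr : 0 < r) (g : K) (hg : g ≠ 0) :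
    ∃ (K' : Type) (_ : Field K') (_ : Algebra K K') (ε : K'), ε ^ r = algebraMap K K' g ∧
      Algebra.adjoin K {ε} = ⊤ ∧ FiniteDimensional K K' ∧ IsGalois K K' := by
  have hch : CharZero K := charZero_of_injective_algebraMap (algebraMap ℂ K).injective
  have hne : NeZero r := ⟨hr.ne'⟩
  have hr' : (r : K) ≠ 0 := Nat.cast_ne_zero.2 hr.ne'
  let f : Polynomial K := Polynomial.X ^ r - Polynomial.C g
  have hf0 : f ≠ 0 := Polynomial.X_pow_sub_C_ne_zero hr g
  have hsp : Polynomial.IsSplittingField K f.SplittingField f := inferInstance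
  have hε : (rootOfSplitsXPowSubC hr g f.SplittingField) ^ r = algebraMap K f.SplittingField g :=
    rootOfSplitsXPowSubC_pow g f.SplittingField
  set ε := rootOfSplitsXPowSubC hr g f.SplittingField with hεdef
  refine ⟨f.SplittingField, inferInstance, inferInstance, ε, hε, ?_,
    Polynomial.IsSplittingField.finiteDimensional _ f,
    IsGalois.of_separable_splitting_field (p := f)
      (Polynomial.separable_X_pow_sub_C g hr' hg)⟩
  have hε0 : ε ≠ 0 := by
    intro h
    rw [h, zero_pow hr.ne'] at hε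
    exact hg ((map_eq_zero _).1 hε.symm)
  have hζ := (Complex.isPrimitiveRoot_exp r hr.ne').map_of_injective (algebraMap ℂ K).injective
  have hζ' := hζ.map_of_injective (algebraMap K f.SplittingField).injective
  rw [eq_top_iff, ← Polynomial.IsSplittingField.adjoin_rootSet f.SplittingField f,
    Algebra.adjoin_le_iff]
  intro x hx
  have hx1 : x ^ r = algebraMap K f.SplittingField g := by
    have h1 := (Polynomial.mem_rootSet.1 hx).2
    simp only [f, map_sub, map_pow, Polynomial.aeval_X, Polynomial.aeval_C] at h1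
    exact sub_eq_zero.1 h1
  have h2 : (x / ε) ^ r = 1 := by
    rw [div_pow, hx1, hε, div_self]
    exact (map_ne_zero _).2 hg
  obtain ⟨i, -, hi⟩ := hζ'.eq_pow_of_pow_eq_one h2
  have h3 : x = algebraMap K f.SplittingField (algebraMap ℂ K
      (Complex.exp (2 * Real.pi * Complex.I / r)) ^ i) * ε := by
    rw [map_pow, hi, div_mul_cancel₀ _ hε0]
  rw [h3]
  exact Subalgebra.mul_mem _ (Subalgebra.algebraMap_mem _ _)
    (Algebra.subset_adjoin (Set.mem_singleton ε))

/-- Properties of the localization of a finite extension at a maximal ideal. -/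
theorem exist_props {n : ℕ} {R T R' : Type} [CommRing R] [IsDomain R] [IsLocalRing R]
    [Algebra ℂ R] (hess : Algebra.EssFiniteType ℂ R)
    (hres : Function.Surjective (algebraMap ℂ (ResidueField R))) (hdim : Algebra.trdeg ℂ R = n)
    [CommRing T] [IsDomain T] [Algebra R T] [Module.Finite R T] (hT : IsIntegrallyClosed T)
    (hinj : Function.Injective (algebraMap R T))
    [CommRing R'] [IsDomain R'] [IsLocalRing R'] [Algebra R R'] [Algebra T R']
    [IsScalarTower R T R'] [Algebra ℂ R'] [IsScalarTower ℂ R R'] (n' : Ideal T)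
    [hn' : n'.IsMaximal] [IsLocalization.AtPrime R' n'] :
    (∀ a : R, algebraMap R R' a ∈ maximalIdeal R' ↔ a ∈ maximalIdeal R) ∧
    (∀ b : R', ∃ s : R', IsUnit s ∧ IsIntegral R s ∧ IsIntegral R (s * b)) ∧
    Algebra.EssFiniteType ℂ R' ∧ IsIntegrallyClosed R' ∧
    Function.Surjective (algebraMap ℂ (ResidueField R')) ∧ Algebra.trdeg ℂ R' = n := by
  have hle : n'.primeCompl ≤ nonZeroDivisors T := Ideal.primeCompl_le_nonZeroDivisors n'
  have hinj' : Function.Injective (algebraMap T R') := IsLocalization.injective R' hle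
  have hinjR : Function.Injective (algebraMap R R') := by
    rw [IsScalarTower.algebraMap_eq R T R']
    exact hinj'.comp hinj
  have hint : Algebra.IsIntegral R T := inferInstance
  have hcomap : n'.comap (algebraMap R T) = maximalIdeal R :=
    IsLocalRing.eq_maximalIdeal (Ideal.isMaximal_comap_of_isIntegral_of_isMaximal n')
  have hmem : ∀ a : R, algebraMap R R' a ∈ maximalIdeal R' ↔ a ∈ maximalIdeal R := by
    intro a
    rw [IsScalarTower.algebraMap_apply R T R', IsLocalization.AtPrime.to_map_mem_maximal_iff R' n',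
      ← hcomap, Ideal.mem_comap]
  have hintT : ∀ t : T, IsIntegral R (algebraMap T R' t) := fun t =>
    (hint.isIntegral t).map (IsScalarTower.toAlgHom R T R')
  have hsurj : ∀ b : R', ∃ t s : T, IsUnit (algebraMap T R' s) ∧
      algebraMap T R' s * b = algebraMap T R' t := by
    intro b
    obtain ⟨⟨t, s⟩, h⟩ := IsLocalization.surj n'.primeCompl b
    refine ⟨t, s, IsLocalization.map_units R' s, ?_⟩
    rw [mul_comm]
    exact h
  refine ⟨hmem, ?_, ?_, ?_, ?_, ?_⟩
  · intro b
    obtain ⟨t, s, hs, h⟩ := hsurj b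
    exact ⟨algebraMap T R' s, hs, hintT s, by rw [h]; exact hintT t⟩
  · have h1 : Algebra.EssFiniteType R T := inferInstance
    have h2 : Algebra.EssFiniteType T R' := Algebra.EssFiniteType.of_isLocalization R' n'.primeCompl
    have h3 : Algebra.EssFiniteType R R' := Algebra.EssFiniteType.comp R T R'
    exact Algebra.EssFiniteType.comp ℂ R R'
  · exact isIntegrallyClosed_of_isLocalization R' n'.primeCompl hle
  · have hloc : IsLocalHom (algebraMap R R') := by
      refine ⟨fun a ha => ?_⟩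
      by_contra h
      have h1 : a ∈ maximalIdeal R := (IsLocalRing.mem_maximalIdeal a).2 h
      have h2 := (hmem a).2 h1
      exact (IsLocalRing.mem_maximalIdeal _).1 h2 ha
    have hC : Algebra.IsIntegral ℂ (ResidueField R) :=
      Algebra.isIntegral_of_surjective hres
    have hint2 : Algebra.IsIntegral (ResidueField R) (ResidueField R') := by
      have key : ∀ t : T, IsIntegral (ResidueField R) (residue R' (algebraMap T R' t)) := by
        intro t
        have h1 : IsIntegral R (residue R' (algebraMap T R' t)) :=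
          (hintT t).map (IsScalarTower.toAlgHom R R' (ResidueField R'))
        exact h1.tower_top
      refine ⟨fun y => ?_⟩
      obtain ⟨b, rfl⟩ := residue_surjective y
      obtain ⟨t, s, hs, h⟩ := hsurj b
      have h2 : residue R' (algebraMap T R' s) * residue R' b =
          residue R' (algebraMap T R' t) := by
        rw [← map_mul, h]
      have h3 : residue R' (algebraMap T R' s) ≠ 0 := (hs.map (residue R')).ne_zero
      have h4 : residue R' b = (residue R' (algebraMap T R' s))⁻¹ *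
          residue R' (algebraMap T R' t) := by
        rw [← h2, inv_mul_cancel_left₀ h3]
      rw [h4]
      exact ((key s).isAlgebraic.inv.isIntegral).mul (key t)
    have htower : IsScalarTower ℂ (ResidueField R) (ResidueField R') := by
      refine IsScalarTower.of_algebraMap_eq' ?_
      ext z
      have e1 : algebraMap ℂ (ResidueField R) z = residue R (algebraMap ℂ R z) := rfl
      have e2 : algebraMap ℂ (ResidueField R') z = residue R' (algebraMap ℂ R' z) := rfl
      rw [RingHom.comp_apply, e1, e2, IsScalarTower.algebraMap_apply ℂ R R']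
      rfl
    have hint3 : Algebra.IsIntegral ℂ (ResidueField R') :=
      Algebra.IsIntegral.trans (ResidueField R)
    exact (IsAlgClosed.algebraMap_bijective_of_isIntegral (k := ℂ)
      (K := ResidueField R')).2
  · have hfR : FaithfulSMul R R' := (faithfulSMul_iff_algebraMap_injective R R').2 hinjR
    have hfC : FaithfulSMul ℂ R :=
      (faithfulSMul_iff_algebraMap_injective ℂ R).2 (algebraMap ℂ R).injective
    have halg : Algebra.IsAlgebraic R R' := by
      refine ⟨fun b => ?_⟩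
      obtain ⟨t, s, hs, h⟩ := hsurj b
      have h1 : IsAlgebraic R (algebraMap T R' s * b) := by
        rw [h]; exact (hintT t).isAlgebraic
      have h2 : IsAlgebraic R (algebraMap T R' s) := (hintT s).isAlgebraic
      exact IsAlgebraic.of_mul (mem_nonZeroDivisors_iff_ne_zero.2 hs.ne_zero) h2 h1
    rw [← trdeg_add_eq ℂ R (A := R'), trdeg_eq_zero_iff.2 halg, add_zero, hdim]

/-- The localization of the integral closure at a maximal ideal. -/
theorem exist_local {n : ℕ} {R K K' : Type} [CommRing R] [IsDomain R]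
    [IsLocalRing R] [Algebra ℂ R] [Field K] [Algebra ℂ K] [Algebra R K] [IsScalarTower ℂ R K]
    [IsFractionRing R K] (hess : Algebra.EssFiniteType ℂ R) (hnorm : IsIntegrallyClosed R)
    (hres : Function.Surjective (algebraMap ℂ (ResidueField R))) (hdim : Algebra.trdeg ℂ R = n)
    [Field K'] [Algebra K K'] [Algebra ℂ K'] [Algebra R K'] [IsScalarTower R K K']
    [IsScalarTower ℂ K K'] [IsScalarTower ℂ R K'] [FiniteDimensional K K']
    [Algebra.IsSeparable K K'] :
    ∃ (R' : Type) (_ : CommRing R') (_ : IsDomain R') (_ : IsLocalRing R') (_ : Algebra ℂ R')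
      (_ : Algebra R' K') (_ : IsScalarTower ℂ R' K') (_ : IsFractionRing R' K')
      (_ : Algebra R R') (_ : IsScalarTower R R' K') (_ : IsScalarTower ℂ R R'),
      (∀ a : R, algebraMap R R' a ∈ maximalIdeal R' ↔ a ∈ maximalIdeal R) ∧
      (∀ b : R', ∃ s : R', IsUnit s ∧ IsIntegral R s ∧ IsIntegral R (s * b)) ∧
      Algebra.EssFiniteType ℂ R' ∧ IsIntegrallyClosed R' ∧
      Function.Surjective (algebraMap ℂ (ResidueField R')) ∧ Algebra.trdeg ℂ R' = n := by
  have hnoeth : IsNoetherianRing R := Algebra.EssFiniteType.isNoetherianRing ℂ R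
  have hfr : IsFractionRing (integralClosure R K') K' :=
    integralClosure.isFractionRing_of_finite_extension K K'
  have hic : IsIntegrallyClosed (integralClosure R K') :=
    integralClosure.isIntegrallyClosedOfFiniteExtension K
  have hfin : Module.Finite R (integralClosure R K') :=
    IsIntegralClosure.finite R K K' (integralClosure R K')
  obtain ⟨n', hn'⟩ := Ideal.exists_maximal (integralClosure R K')
  have hle : n'.primeCompl ≤ nonZeroDivisors (integralClosure R K') :=
    Ideal.primeCompl_le_nonZeroDivisors n'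
  have hloc : IsLocalization.AtPrime (Localization.subalgebra.ofField K' n'.primeCompl hle) n' :=
    Localization.subalgebra.isLocalization_ofField K' n'.primeCompl hle
  have hlr : IsLocalRing (Localization.subalgebra.ofField K' n'.primeCompl hle) :=
    IsLocalization.AtPrime.isLocalRing _ n'
  have hinj : Function.Injective (algebraMap R (integralClosure R K')) := by
    have h1 : Function.Injective (algebraMap R K') := by
      rw [IsScalarTower.algebraMap_eq R K K']
      exact (algebraMap K K').injective.comp (IsFractionRing.injective R K)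
    intro a b hab
    refine h1 ?_
    rw [IsScalarTower.algebraMap_apply R (integralClosure R K') K', hab,
      ← IsScalarTower.algebraMap_apply R (integralClosure R K') K']
  have htw : IsScalarTower ℂ R (Localization.subalgebra.ofField K' n'.primeCompl hle) := by
    refine IsScalarTower.of_algebraMap_eq' ?_
    ext z
    change algebraMap ℂ K' z = algebraMap R K' (algebraMap ℂ R z)
    rw [← IsScalarTower.algebraMap_apply]
  exact ⟨Localization.subalgebra.ofField K' n'.primeCompl hle, inferInstance, inferInstance, hlr,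
    inferInstance, inferInstance, inferInstance,
    Localization.subalgebra.isFractionRing_ofField K' n'.primeCompl hle, inferInstance,
    inferInstance, htw, exist_props hess hres hdim hic hinj n'⟩

/-- Existence of the cyclic cover. -/
theorem exists_cover {n r : ℕ} (hr : 0 < r) {R K : Type} [CommRing R] [IsDomain R]
    [IsLocalRing R] [Algebra ℂ R] [Field K] [Algebra ℂ K] [Algebra R K] [IsScalarTower ℂ R K]
    [IsFractionRing R K] (hess : Algebra.EssFiniteType ℂ R) (hnorm : IsIntegrallyClosed R)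
    (hres : Function.Surjective (algebraMap ℂ (ResidueField R))) (hdim : Algebra.trdeg ℂ R = n)
    (g : K) (hg : g ≠ 0) :
    ∃ (R' K' : Type) (_ : CommRing R') (_ : IsDomain R') (_ : IsLocalRing R') (_ : Algebra ℂ R')
      (_ : Field K') (_ : Algebra ℂ K') (_ : Algebra R' K') (_ : IsScalarTower ℂ R' K')
      (_ : IsFractionRing R' K') (_ : Algebra K K') (_ : IsScalarTower ℂ K K') (_ : Algebra R R')
      (_ : Algebra R K') (_ : IsScalarTower R R' K') (_ : IsScalarTower R K K')
      (_ : IsScalarTower ℂ R R') (ε : K'),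
      IsCover (R := R) (R' := R') n r g ε := by
  obtain ⟨K', i1, i2, ε, h1, h2, h3, h4⟩ := exist_field hr g hg
  letI j1 : Algebra ℂ K' := ((algebraMap K K').comp (algebraMap ℂ K)).toAlgebra
  letI j2 : Algebra R K' := ((algebraMap K K').comp (algebraMap R K)).toAlgebra
  haveI t1 : IsScalarTower ℂ K K' := IsScalarTower.of_algebraMap_eq' rfl
  haveI t2 : IsScalarTower R K K' := IsScalarTower.of_algebraMap_eq' rfl
  haveI t3 : IsScalarTower ℂ R K' := by
    refine IsScalarTower.of_algebraMap_eq' ?_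
    ext z
    change algebraMap K K' (algebraMap ℂ K z) = algebraMap K K' (algebraMap R K (algebraMap ℂ R z))
    rw [← IsScalarTower.algebraMap_apply ℂ R K]
  obtain ⟨R', k1, k2, k3, k4, k5, k6, k7, k8, k9, k10, p1, p2, p3, p4, p5, p6⟩ :=
    exist_local (n := n) (R := R) (K := K) (K' := K') hess hnorm hres hdim
  exact ⟨R', K', k1, k2, k3, k4, i1, j1, k5, k6, k7, i2, t1, k8, j2, k9, t2, k10, ε,
    ⟨h1, h2, h3, h4, p1, p2, p3, p4, p5, p6⟩⟩

end Vale.Agent.P282.Full
end

section

/-!
P282, converse: the completion of an ordinary double point.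
-/

open IsLocalRing

namespace Vale.Agent.P282.CV

open Vale.Agent.P282.Full

/-- The ring `ℂ⟦X₀, …, Xₙ⟧ / (X₀² + ⋯ + Xₙ²)`. -/
abbrev Q (n : ℕ) : Type := MvPowerSeries (Fin (n + 1)) ℂ ⧸
  Ideal.span {∑ i : Fin (n + 1), (MvPowerSeries.X i : MvPowerSeries (Fin (n + 1)) ℂ) ^ 2}

/-- The coordinates. -/
noncomputable def qx (n : ℕ) (i : Fin (n + 1)) : Q n :=
  Ideal.Quotient.mk (Ideal.span {∑ i : Fin (n + 1),
    (MvPowerSeries.X i : MvPowerSeries (Fin (n + 1)) ℂ) ^ 2}) (MvPowerSeries.X i)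

/-- The maximal ideal. -/
noncomputable def qm (n : ℕ) : Ideal (Q n) := Ideal.span (Set.range (qx n))

/-- `j` is the completion map of an ordinary double point. -/
structure IsJet {R : Type} [CommRing R] [IsLocalRing R] [Algebra ℂ R] {n : ℕ}
    (j : R →ₐ[ℂ] Q n) : Prop where
  mem : ∀ (N : ℕ) (f : R), j f ∈ qm n ^ N ↔ f ∈ maximalIdeal R ^ N
  dense : ∀ (N : ℕ) (s : Q n), ∃ f : R, s - j f ∈ qm n ^ N

theorem odpJet_vars_isMaximal (m : ℕ) : (MvPolynomial.idealOfVars (Fin m) ℂ).IsMaximal := by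
  have h : MvPolynomial.idealOfVars (Fin m) ℂ =
      RingHom.ker (MvPolynomial.constantCoeff : MvPolynomial (Fin m) ℂ →+* ℂ) := by
    ext p
    have h1 := MvPolynomial.mem_pow_idealOfVars_iff' (R := ℂ) (σ := Fin m) 1 p
    rw [pow_one] at h1
    rw [h1, RingHom.mem_ker, MvPolynomial.constantCoeff_eq]
    constructor
    · intro h
      exact h 0 (by simp)
    · intro h x hx
      have : x = 0 := by
        rw [← Finsupp.degree_eq_zero_iff]
        omega
      rw [this, h]
  rw [h]
  exact RingHom.ker_isMaximal_of_surjective _ fun c => ⟨MvPolynomial.C c, by simp⟩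

theorem odpJet_ps (m : ℕ) : Ideal.span (Set.range MvPowerSeries.X) =
    maximalIdeal (MvPowerSeries (Fin m) ℂ) := by
  have h1 : Ideal.map (MvPowerSeries.toAdicCompletionAlgEquiv (Fin m) ℂ).toRingEquiv
      (Ideal.span (Set.range MvPowerSeries.X)) =
      (MvPolynomial.idealOfVars (Fin m) ℂ).map (algebraMap (MvPolynomial (Fin m) ℂ)
        (AdicCompletion (MvPolynomial.idealOfVars (Fin m) ℂ) (MvPolynomial (Fin m) ℂ))) := by
    simp_rw [MvPolynomial.idealOfVars, Ideal.map_span, ← Set.range_comp]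
    congr 2; ext1
    simp [AdicCompletion.algebraMap_apply, ← MvPolynomial.coe_X,
      MvPowerSeries.toAdicCompletion_coe]
  have h2 := odpJet_vars_isMaximal m
  have h3 := AdicCompletion.isMaximal_map_of_le (I := MvPolynomial.idealOfVars (Fin m) ℂ)
    (MvPolynomial.idealOfVars (Fin m) ℂ) le_rfl (MvPolynomial.idealOfVars_fg (Fin m) ℂ)
  rw [← h1] at h3
  have h4 : (Ideal.span (Set.range (MvPowerSeries.X : Fin m → MvPowerSeries (Fin m) ℂ))).IsMaximal
      := by
    have h5 := Ideal.comap_isMaximal_of_surjective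
      (MvPowerSeries.toAdicCompletionAlgEquiv (Fin m) ℂ).toRingEquiv
      (MvPowerSeries.toAdicCompletionAlgEquiv (Fin m) ℂ).toRingEquiv.surjective (K := Ideal.map
        (MvPowerSeries.toAdicCompletionAlgEquiv (Fin m) ℂ).toRingEquiv
        (Ideal.span (Set.range MvPowerSeries.X)))
    rwa [Ideal.comap_map_of_bijective _
      (MvPowerSeries.toAdicCompletionAlgEquiv (Fin m) ℂ).toRingEquiv.bijective] at h5
  exact IsLocalRing.eq_maximalIdeal h4

theorem odpJet_qm (n : ℕ) [IsLocalRing (Q n)] : qm n = maximalIdeal (Q n) := by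
  rw [← map_maximalIdeal_of_surjective (Ideal.Quotient.mk (Ideal.span {∑ i : Fin (n + 1),
    (MvPowerSeries.X i : MvPowerSeries (Fin (n + 1)) ℂ) ^ 2})) Ideal.Quotient.mk_surjective,
    ← odpJet_ps, Ideal.map_span, ← Set.range_comp]
  rfl

theorem exists_jet {R : Type} [CommRing R] [IsLocalRing R] [IsNoetherianRing R] [Algebra ℂ R]
    {n : ℕ} (h : IsODP R n) : ∃ j : R →ₐ[ℂ] Q n, IsJet j := by
  obtain ⟨e⟩ := h
  have hfg : (maximalIdeal R).FG := (maximalIdeal R).fg_of_isNoetherianRing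
  have : IsLocalRing (Q n) := e.toRingEquiv.isLocalRing
  have hmax : (maximalIdeal (AdicCompletion (maximalIdeal R) R)).map e.toRingEquiv = qm n := by
    rw [odpJet_qm]
    exact map_ringEquiv_maximalIdeal e.toRingEquiv
  have hker : ∀ (N : ℕ) (x : AdicCompletion (maximalIdeal R) R), e x ∈ qm n ^ N ↔
      AdicCompletion.eval (maximalIdeal R) R N x = 0 := by
    intro N x
    have h1 : e x ∈ qm n ^ N ↔ x ∈ maximalIdeal (AdicCompletion (maximalIdeal R) R) ^ N := by
      rw [← hmax, ← Ideal.map_pow]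
      constructor
      · intro hx
        have h2 : x ∈ Ideal.comap e.toRingEquiv (Ideal.map e.toRingEquiv
            (maximalIdeal (AdicCompletion (maximalIdeal R) R) ^ N)) := hx
        rwa [Ideal.comap_map_of_bijective _ e.toRingEquiv.bijective] at h2
      · intro hx
        exact Ideal.mem_map_of_mem e.toRingEquiv hx
    rw [h1, AdicCompletion.maximalIdeal_eq_map, ← Ideal.map_pow,
      ← Submodule.restrictScalars_mem R, ← Ideal.smul_top_eq_map,
      AdicCompletion.pow_smul_top_eq_ker_eval hfg, LinearMap.mem_ker]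
  have hmk : ∀ (N : ℕ) (f : R), AdicCompletion.eval (maximalIdeal R) R N
      (algebraMap R (AdicCompletion (maximalIdeal R) R) f) = Submodule.Quotient.mk f := by
    intro N f
    rw [AdicCompletion.algebraMap_apply]
    rfl
  refine ⟨(e : AdicCompletion (maximalIdeal R) R →ₐ[ℂ] Q n).comp
    (IsScalarTower.toAlgHom ℂ R (AdicCompletion (maximalIdeal R) R)), ?_, ?_⟩
  · intro N f
    have h1 := hker N (algebraMap R (AdicCompletion (maximalIdeal R) R) f)
    refine h1.trans ?_
    rw [hmk, Submodule.Quotient.mk_eq_zero, smul_eq_mul, Ideal.mul_top]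
  · intro N s
    obtain ⟨f, hf⟩ := Submodule.Quotient.mk_surjective _
      (AdicCompletion.eval (maximalIdeal R) R N (e.symm s))
    refine ⟨f, ?_⟩
    have h1 := (hker N (e.symm s - algebraMap R (AdicCompletion (maximalIdeal R) R) f)).2 ?_
    · rwa [map_sub, e.apply_symm_apply] at h1
    · rw [map_sub, ← hf, hmk, sub_self]

end Vale.Agent.P282.CV
end

section

/-!
P282, converse: graded families of semigroup ideals.
-/

open Filter Topology

namespace Vale.Agent.P282.CV

/-- The real vector of an integral vector. -/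
def toR {d : ℕ} (z : Fin d → ℤ) : Fin d → ℝ := fun i => (z i : ℝ)

/-- A closed convex cone. -/
structure IsCone {d : ℕ} (C : Set (Fin d → ℝ)) : Prop where
  closed : IsClosed C
  zero : (0 : Fin d → ℝ) ∈ C
  add : ∀ x ∈ C, ∀ y ∈ C, x + y ∈ C
  smul : ∀ x ∈ C, ∀ c : ℝ, 0 ≤ c → c • x ∈ C

/-- A graded family of semigroup ideals of a cone. -/
structure IsGraded {d : ℕ} (C : Set (Fin d → ℝ)) (S : ℕ → Set (Fin d → ℤ)) (c : ℕ) : Prop where
  mem : ∀ t, ∀ z ∈ S t, toR z ∈ C
  add : ∀ s t, ∀ z ∈ S s, ∀ z' ∈ S t, z + z' ∈ S (s + t)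
  ideal : ∀ t, ∀ z ∈ S t, ∀ z' : Fin d → ℤ, toR z' ∈ C → z + z' ∈ S t
  anti : ∀ t, S (t + 1) ⊆ S t
  lin : ∀ t, ∀ z : Fin d → ℤ, toR z ∈ C → z ∉ S t → ∀ i, |z i| ≤ c * (t + 1)

/-- `toR` as an additive homomorphism. -/
def monA_hom (d : ℕ) : (Fin d → ℤ) →+ (Fin d → ℝ) where
  toFun := toR
  map_zero' := by funext i; simp [toR]
  map_add' := fun z z' => by funext i; simp [toR]

theorem monA_hom_apply {d : ℕ} (z : Fin d → ℤ) : monA_hom d z = toR z := rfl

theorem monA_nsmul {d : ℕ} {C : Set (Fin d → ℝ)} {S : ℕ → Set (Fin d → ℤ)} {c : ℕ}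
    (hS : IsGraded C S c) {s : ℕ} {z : Fin d → ℤ} (hz : z ∈ S s) (n : ℕ) :
    (n + 1) • z ∈ S ((n + 1) * s) := by
  induction n with
  | zero => simpa using hz
  | succ n ih =>
    rw [succ_nsmul, add_mul ((n + 1)) 1 s, one_mul]
    exact hS.add _ _ _ ih _ hz

theorem monA_sum {d : ℕ} {C : Set (Fin d → ℝ)} {S : ℕ → Set (Fin d → ℤ)} {c : ℕ}
    (hS : IsGraded C S c) {ι : Type} (W : Finset ι) (q : ι → Fin d → ℤ) {s : ℕ}
    (hq : ∀ w ∈ W, q w ∈ S s) (m : ι → ℕ) :
    (∑ w ∈ W, m w = 0 ∧ ∑ w ∈ W, m w • q w = 0) ∨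
      ∑ w ∈ W, m w • q w ∈ S ((∑ w ∈ W, m w) * s) := by
  classical
  induction W using Finset.induction_on with
  | empty => left; simp
  | insert w W hw ih =>
    have ih' := ih (fun v hv => hq v (Finset.mem_insert_of_mem hv))
    rw [Finset.sum_insert hw, Finset.sum_insert hw]
    have hqw := hq w (Finset.mem_insert_self w W)
    rcases Nat.eq_zero_or_pos (m w) with h0 | h0
    · rw [h0, zero_nsmul, zero_add, zero_add]
      exact ih'
    · obtain ⟨n, hn⟩ := Nat.exists_eq_succ_of_ne_zero h0.ne'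
      rw [hn]
      have h1 := monA_nsmul hS hqw n
      right
      rcases ih' with ⟨h2, h3⟩ | h2
      · rw [h2, h3, add_zero, add_zero]
        exact h1
      · rw [add_mul]
        exact hS.add _ _ _ h1 _ h2

theorem monA_anti {d : ℕ} {C : Set (Fin d → ℝ)} {S : ℕ → Set (Fin d → ℤ)} {c : ℕ}
    (hS : IsGraded C S c) {s t : ℕ} (h : s ≤ t) : S t ⊆ S s :=
  antitone_nat_of_succ_le (f := S) (fun n => hS.anti n) h

theorem monA_cone_sum {d : ℕ} {C : Set (Fin d → ℝ)} (hC : IsCone C) {ι : Type} (W : Finset ι)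
    (f : ι → Fin d → ℝ) (hf : ∀ w ∈ W, f w ∈ C) : ∑ w ∈ W, f w ∈ C := by
  classical
  induction W using Finset.induction_on with
  | empty => simpa using hC.zero
  | insert w W hw ih =>
    rw [Finset.sum_insert hw]
    exact hC.add _ (hf w (Finset.mem_insert_self w W)) _
      (ih fun v hv => hf v (Finset.mem_insert_of_mem hv))

/-- An interior point of a convex hull lies in the interior of the convex hull of finitely many
points. -/
theorem monA_finite {d : ℕ} {U : Set (Fin d → ℝ)} {x : Fin d → ℝ}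
    (hx : x ∈ interior (convexHull ℝ U)) :
    ∃ W : Finset (Fin d → ℝ), (W : Set (Fin d → ℝ)) ⊆ U ∧ ∃ η : ℝ, 0 < η ∧
      Metric.closedBall x η ⊆ convexHull ℝ (W : Set (Fin d → ℝ)) := by
  classical
  rw [mem_interior_iff_mem_nhds, Metric.nhds_basis_closedBall.mem_iff] at hx
  obtain ⟨η, hη, hball⟩ := hx
  let F : Finset (Fin d → ℝ) := Fintype.piFinset fun i => {x i - η, x i + η}
  have hF : Metric.closedBall x η = convexHull ℝ (F : Set (Fin d → ℝ)) := by
    rw [Fintype.coe_piFinset, convexHull_pi, closedBall_pi _ hη.le]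
    refine Set.pi_congr rfl fun i _ => ?_
    rw [Finset.coe_insert, Finset.coe_singleton, convexHull_pair, Real.closedBall_eq_Icc,
      segment_eq_Icc (by linarith)]
  have h1 : ∀ f ∈ F, ∃ t : Finset (Fin d → ℝ), (t : Set (Fin d → ℝ)) ⊆ U ∧
      f ∈ convexHull ℝ (t : Set (Fin d → ℝ)) := by
    intro f hf
    have h2 : f ∈ convexHull ℝ U := hball (by
      rw [hF]; exact subset_convexHull ℝ _ hf)
    rw [convexHull_eq_union_convexHull_finite_subsets] at h2
    simp only [Set.mem_iUnion] at h2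
    obtain ⟨t, ht, h3⟩ := h2
    exact ⟨t, ht, h3⟩
  choose! t ht using h1
  refine ⟨F.biUnion t, ?_, η, hη, ?_⟩
  · intro p hp
    rw [Finset.mem_coe, Finset.mem_biUnion] at hp
    obtain ⟨f, hf, hp⟩ := hp
    exact (ht f hf).1 hp
  · rw [hF]
    refine convexHull_min ?_ (convex_convexHull ℝ _)
    intro f hf
    refine convexHull_mono ?_ (ht f hf).2
    intro p hp
    rw [Finset.mem_coe, Finset.mem_biUnion]
    exact ⟨f, hf, hp⟩

/-- Points of the interior of the convex hull. -/
theorem IsGraded.eventually_mem {d : ℕ} {C : Set (Fin d → ℝ)} (hC : IsCone C)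
    {S : ℕ → Set (Fin d → ℤ)} {c : ℕ} (hS : IsGraded C S c) {x : Fin d → ℝ}
    (hx : x ∈ interior (convexHull ℝ {y : Fin d → ℝ | ∃ s : ℕ, 0 < s ∧ ∃ z ∈ S s,
      y = (s : ℝ)⁻¹ • toR z})) :
    ∀ᶠ t : ℕ in atTop, (fun i => ⌊(t : ℝ) * x i⌋) ∈ S t := by
  classical
  obtain ⟨W, hWU, η, hη, hball⟩ := monA_finite hx
  have hWU' : ∀ w ∈ W, ∃ s : ℕ, 0 < s ∧ ∃ z ∈ S s, w = (s : ℝ)⁻¹ • toR z :=
    fun w hw => hWU hw
  choose! sw hsw0 zw hzw hweq using hWU'
  -- the common denominator
  set s : ℕ := ∏ w ∈ W, sw w with hsdef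
  have hs0 : 0 < s := Finset.prod_pos fun w hw => hsw0 w hw
  have hs0' : (0 : ℝ) < s := by exact_mod_cast hs0
  have hq : ∀ w ∈ W, ∃ q : Fin d → ℤ, q ∈ S s ∧ (s : ℝ) • w = toR q := by
    intro w hw
    have hdvd : sw w ∣ s := Finset.dvd_prod_of_mem sw hw
    obtain ⟨e, he⟩ := hdvd
    have he0 : e ≠ 0 := by
      rintro rfl
      rw [mul_zero] at he
      omega
    obtain ⟨n, rfl⟩ := Nat.exists_eq_succ_of_ne_zero he0
    refine ⟨(n + 1) • zw w, ?_, ?_⟩
    · have := monA_nsmul hS (hzw w hw) n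
      rw [he, mul_comm]
      exact this
    · have h1 : (sw w : ℝ) ≠ 0 := by
        have := hsw0 w hw
        positivity
      have h2 : toR ((n + 1) • zw w) = ((n + 1 : ℕ) : ℝ) • toR (zw w) := by
        rw [← monA_hom_apply, map_nsmul, monA_hom_apply, Nat.cast_smul_eq_nsmul]
      rw [h2]
      conv_lhs => rw [hweq w hw]
      rw [smul_smul, he]
      congr 1
      push_cast
      field_simp
  choose! q hqS hqeq using hq
  -- the threshold
  set N : ℕ := W.card with hNdef
  set B : ℝ := 1 + (N : ℝ) * s * ‖x‖ with hBdef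
  have hB0 : 0 < B := by (clear * - hs0; positivity)
  filter_upwards [eventually_ge_atTop (⌈B / η⌉₊ + 1)] with t ht
  have ht1 : 1 ≤ t := by omega
  have ht1' : (1 : ℝ) ≤ t := by exact_mod_cast ht1
  have htB : B ≤ η * t := by
    have h1 : B / η ≤ ⌈B / η⌉₊ := Nat.le_ceil _
    have h2 : ((⌈B / η⌉₊ + 1 : ℕ) : ℝ) ≤ t := by exact_mod_cast ht
    push_cast at h2
    have h3 : B / η ≤ t := by linarith only [h2, h1]
    rw [div_le_iff₀ hη] at h3
    linarith only [h3]
  set z : Fin d → ℤ := fun i => ⌊(t : ℝ) * x i⌋ with hzdef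
  have hden : (0 : ℝ) < t + N * s := by (clear * - ht1 hs0; positivity)
  -- the scaled point lies in the ball
  have hmem : ((t : ℝ) + N * s)⁻¹ • toR z ∈ Metric.closedBall x η := by
    rw [mem_closedBall_iff_norm, pi_norm_le_iff_of_nonneg hη.le]
    intro i
    have hxi : |x i| ≤ ‖x‖ := norm_le_pi_norm x i
    have h1 := Int.floor_le ((t : ℝ) * x i)
    have h2 := Int.lt_floor_add_one ((t : ℝ) * x i)
    have h3 : (((t : ℝ) + N * s)⁻¹ • toR z - x) i =
        ((z i : ℝ) - (t + N * s) * x i) / (t + N * s) := by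
      simp only [Pi.sub_apply, Pi.smul_apply, smul_eq_mul, toR]
      field_simp
    rw [h3, Real.norm_eq_abs, abs_div, abs_of_pos hden, div_le_iff₀ hden]
    have h4 : |(z i : ℝ) - (t + N * s) * x i| ≤ B := by
      have h5 : (z i : ℝ) - (t + N * s) * x i = ((z i : ℝ) - t * x i) - (N * s) * x i := by ring
      rw [h5]
      have h6 : |(z i : ℝ) - t * x i| ≤ 1 := by
        rw [abs_le]
        constructor
        · have : (z i : ℝ) = (⌊(t : ℝ) * x i⌋ : ℝ) := rfl
          rw [this]; linarith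
        · have : (z i : ℝ) = (⌊(t : ℝ) * x i⌋ : ℝ) := rfl
          rw [this]; linarith only [h1]
      have h7 : |((N : ℝ) * s) * x i| ≤ N * s * ‖x‖ := by
        rw [abs_mul, abs_of_nonneg (by (clear * - hs0; positivity) : (0 : ℝ) ≤ (N : ℝ) * s)]
        exact mul_le_mul_of_nonneg_left hxi (by (clear * - hs0; positivity))
      calc _ ≤ |(z i : ℝ) - t * x i| + |((N : ℝ) * s) * x i| := abs_sub _ _
        _ ≤ 1 + N * s * ‖x‖ := add_le_add h6 h7
    refine h4.trans (htB.trans ?_)
    have : η * t ≤ η * (t + N * s) := mul_le_mul_of_nonneg_left (by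
      have : (0 : ℝ) ≤ (N : ℝ) * s := by (clear * - hs0; positivity)
      linarith) hη.le
    exact this
  have hhull := hball hmem
  rw [Finset.mem_convexHull'] at hhull
  obtain ⟨lam, hlam0, hlam1, hlameq⟩ := hhull
  -- the multiplicities
  set K : ℝ := (t + N * s) / s with hKdef
  have hK0 : 0 < K := by (clear * - ht1 hs0; positivity)
  have hKs : K * s = t + N * s := by rw [hKdef]; field_simp
  have hrep : toR z = ∑ w ∈ W, (K * lam w) • toR (q w) := by
    have h1 : toR z = (t + N * s : ℝ) • (((t : ℝ) + N * s)⁻¹ • toR z) := by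
      rw [smul_smul, mul_inv_cancel₀ hden.ne', one_smul]
    rw [h1, ← hlameq, Finset.smul_sum]
    refine Finset.sum_congr rfl fun w hw => ?_
    rw [← hqeq w hw, smul_smul, smul_smul, ← hKs]
    congr 1
    ring
  let m : (Fin d → ℝ) → ℕ := fun w => ⌊K * lam w⌋₊
  have hm1 : ∀ w ∈ W, (m w : ℝ) ≤ K * lam w := fun w hw =>
    Nat.floor_le (mul_nonneg hK0.le (hlam0 w hw))
  have hm2 : ∀ w ∈ W, K * lam w - 1 ≤ (m w : ℝ) := fun w hw => by
    have := Nat.lt_floor_add_one (K * lam w)
    linarith only [this]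
  have hM : K - N ≤ ((∑ w ∈ W, m w : ℕ) : ℝ) := by
    push_cast
    calc K - N = ∑ w ∈ W, (K * lam w - 1) := by
          rw [Finset.sum_sub_distrib, ← Finset.mul_sum, hlam1, mul_one, Finset.sum_const,
            nsmul_eq_mul, mul_one]
      _ ≤ ∑ w ∈ W, (m w : ℝ) := Finset.sum_le_sum hm2
  have hMs : t ≤ (∑ w ∈ W, m w) * s := by
    have h1 : (t : ℝ) ≤ ((∑ w ∈ W, m w : ℕ) : ℝ) * s := by
      have h2 : (K - N) * s = t := by rw [sub_mul, hKs]; ring
      calc (t : ℝ) = (K - N) * s := h2.symm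
        _ ≤ _ := mul_le_mul_of_nonneg_right hM hs0'.le
    exact_mod_cast h1
  have hz' : toR (z - ∑ w ∈ W, m w • q w) ∈ C := by
    have h1 : toR (z - ∑ w ∈ W, m w • q w) = ∑ w ∈ W, (K * lam w - m w) • toR (q w) := by
      rw [← monA_hom_apply, map_sub, map_sum, monA_hom_apply, hrep, ← Finset.sum_sub_distrib]
      refine Finset.sum_congr rfl fun w hw => ?_
      rw [map_nsmul, monA_hom_apply, sub_smul, Nat.cast_smul_eq_nsmul]
    rw [h1]
    refine monA_cone_sum hC W _ fun w hw => ?_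
    exact hC.smul _ (hS.mem s _ (hqS w hw)) _ (by linarith [hm1 w hw])
  have hsum := monA_sum hS W q hqS m
  rcases hsum with ⟨h1, -⟩ | h1
  · rw [h1, zero_mul] at hMs
    omega
  · have h2 := hS.ideal _ _ h1 _ hz'
    rw [add_sub_cancel] at h2
    exact monA_anti hS hMs h2

end Vale.Agent.P282.CV
end

section

/-!
P282, converse: leading exponents on the quadric cone.
-/

set_option linter.unusedSectionVars false

namespace Vale.Agent.P282.CV

open MvPolynomial

/-! ### leading exponents of Hahn series -/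

section ld

variable {Γ : Type*} [AddCommMonoid Γ] [LinearOrder Γ] [IsOrderedCancelAddMonoid Γ]

/-- `g` is the leading exponent of `x`. -/
def QLd (x : HahnSeries Γ ℂ) (g : Γ) : Prop := x ≠ 0 ∧ x.order = g

theorem QLd.mul {x y : HahnSeries Γ ℂ} {g h : Γ} (hx : QLd x g) (hy : QLd y h) :
    QLd (x * y) (g + h) :=
  ⟨mul_ne_zero hx.1 hy.1, by rw [HahnSeries.order_mul hx.1 hy.1, hx.2, hy.2]⟩

theorem QLd.pow {x : HahnSeries Γ ℂ} {g : Γ} (hx : QLd x g) (k : ℕ) : QLd (x ^ k) (k • g) :=
  ⟨pow_ne_zero _ hx.1, by rw [HahnSeries.order_pow, hx.2]⟩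

theorem QLd.neg {x : HahnSeries Γ ℂ} {g : Γ} (hx : QLd x g) : QLd (-x) g :=
  ⟨neg_ne_zero.2 hx.1, by rw [HahnSeries.order_neg, hx.2]⟩

theorem qld_single (g : Γ) : QLd (HahnSeries.single g (1 : ℂ)) g :=
  ⟨HahnSeries.single_ne_zero one_ne_zero, HahnSeries.order_single one_ne_zero⟩

theorem QLd.prod {ι : Type*} (s : Finset ι) (f : ι → HahnSeries Γ ℂ) (g : ι → Γ)
    (h : ∀ i ∈ s, QLd (f i) (g i)) : QLd (∏ i ∈ s, f i) (∑ i ∈ s, g i) := by
  classical
  induction s using Finset.induction_on with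
  | empty =>
    rw [Finset.prod_empty, Finset.sum_empty]
    exact qld_single 0
  | insert a s ha ih =>
    rw [Finset.prod_insert ha, Finset.sum_insert ha]
    exact (h a (Finset.mem_insert_self a s)).mul
      (ih fun i hi => h i (Finset.mem_insert_of_mem hi))

theorem QLd.coeff_ne {x : HahnSeries Γ ℂ} {g : Γ} (h : QLd x g) : x.coeff g ≠ 0 := by
  rw [← h.2]
  exact fun h0 => h.1 (HahnSeries.coeff_order_eq_zero.1 h0)

theorem QLd.coeff_lt {x : HahnSeries Γ ℂ} {g h : Γ} (hx : QLd x g) (hh : h < g) :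
    x.coeff h = 0 := by
  rw [← hx.2] at hh
  exact HahnSeries.coeff_eq_zero_of_lt_order hh

theorem qld_of {x : HahnSeries Γ ℂ} {g : Γ} (h1 : x.coeff g ≠ 0) (h2 : ∀ h < g, x.coeff h = 0) :
    QLd x g := by
  have hx : x ≠ 0 := by
    rintro rfl
    exact h1 rfl
  refine ⟨hx, le_antisymm (HahnSeries.order_le_of_coeff_ne_zero h1) ?_⟩
  by_contra hcon
  push Not at hcon
  exact hx (HahnSeries.coeff_order_eq_zero.1 (h2 _ hcon))

theorem QLd.unique {x : HahnSeries Γ ℂ} {g h : Γ} (hg : QLd x g) (hh : QLd x h) : g = h := by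
  rw [← hg.2, ← hh.2]

/-- the leading exponent of a sum of terms with distinct leading exponents. -/
theorem qld_sum {ι : Type*} (s : Finset ι) (hs : s.Nonempty) (a : ι → ℂ)
    (f : ι → HahnSeries Γ ℂ) (g : ι → Γ) (ha : ∀ i ∈ s, a i ≠ 0)
    (h : ∀ i ∈ s, QLd (f i) (g i)) (hg : Set.InjOn g s) :
    ∃ i₀ ∈ s, (∀ i ∈ s, g i₀ ≤ g i) ∧ QLd (∑ i ∈ s, a i • f i) (g i₀) := by
  classical
  obtain ⟨i₀, hi₀, hmin⟩ := s.exists_min_image g hs
  refine ⟨i₀, hi₀, hmin, qld_of ?_ ?_⟩
  · rw [HahnSeries.coeff_sum, Finset.sum_eq_single i₀]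
    · rw [HahnSeries.coeff_smul]
      exact mul_ne_zero (ha i₀ hi₀) (h i₀ hi₀).coeff_ne
    · intro i hi hne
      have hlt : g i₀ < g i := lt_of_le_of_ne (hmin i hi) fun h1 => hne (hg hi hi₀ h1.symm)
      rw [HahnSeries.coeff_smul, (h i hi).coeff_lt hlt, smul_zero]
    · exact fun h1 => absurd hi₀ h1
  · intro k hk
    rw [HahnSeries.coeff_sum]
    refine Finset.sum_eq_zero fun i hi => ?_
    rw [HahnSeries.coeff_smul, (h i hi).coeff_lt (lt_of_lt_of_le hk (hmin i hi)), smul_zero]

end ld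

/-! ### the order of the exponents -/

section expo

variable (m : ℕ)

/-- the ordered group of exponents. -/
abbrev QG : Type := Lex (ℤ × Lex (Fin (m + 2) → ℤ))

/-- total degree first, then the opposite of the lexicographic order. -/
def qD : (Fin (m + 2) → ℤ) →+ QG m where
  toFun z := toLex (∑ i, z i, toLex (-z))
  map_zero' := by
    simp only [Pi.zero_apply, Finset.sum_const_zero, neg_zero]
    rfl
  map_add' x y := by
    have h1 : ∑ i, (x + y) i = ∑ i, x i + ∑ i, y i := by
      rw [← Finset.sum_add_distrib]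
      rfl
    rw [h1, neg_add]
    rfl

theorem qD_apply (z : Fin (m + 2) → ℤ) : qD m z = toLex (∑ i, z i, toLex (-z)) := rfl

theorem qD_injective : Function.Injective (qD m) := by
  intro x y h
  have h1 : (toLex (-x) : Lex (Fin (m + 2) → ℤ)) = toLex (-y) :=
    congrArg (fun p : QG m => (ofLex p).2) h
  exact neg_injective (toLex.injective h1)

/-- the exponents of the terms of `y_1`. -/
def qe (k : Fin (m + 1)) : Fin (m + 2) → ℤ := Pi.single k.succ 2 - Pi.single 0 1

theorem sum_qe (k : Fin (m + 1)) : ∑ i, qe m k i = 1 := by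
  simp [qe, Finset.sum_sub_distrib]

theorem qD_qe_lt {k : Fin (m + 1)} (hk : k ≠ 0) : qD m (qe m 0) < qD m (qe m k) := by
  rw [qD_apply, qD_apply, Prod.Lex.toLex_lt_toLex]
  right
  refine ⟨by rw [sum_qe, sum_qe], ?_⟩
  refine ⟨1, ?_, ?_⟩
  · intro j hj
    have hj0 : j = 0 := by
      have h1 : (j : ℕ) < ((1 : Fin (m + 2)) : ℕ) := hj
      rw [Fin.val_one] at h1
      exact Fin.ext (by simpa using Nat.lt_one_iff.1 h1)
    subst hj0
    simp [qe]
  · have h3 : (1 : Fin (m + 2)) ≠ k.succ := by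
      have h4 : (1 : Fin (m + 2)) = Fin.succ 0 := rfl
      rw [h4]
      exact fun h => hk (Fin.succ_injective _ h).symm
    show (-qe m 0) 1 < (-qe m k) 1
    simp [qe, h3]

/-- the exponents of the coordinates. -/
def qζ : Fin (m + 2 + 1) → Fin (m + 2) → ℤ :=
  Fin.cons (Pi.single 0 1) (Fin.cons (qe m 0) fun k : Fin (m + 1) => Pi.single k.succ 1)

theorem qζ_zero : qζ m 0 = Pi.single 0 1 := rfl

theorem qζ_one : qζ m (Fin.succ 0) = qe m 0 := rfl

theorem qζ_succ (k : Fin (m + 1)) : qζ m k.succ.succ = Pi.single k.succ 1 := rfl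

/-- the exponent of a monomial. -/
def qZ (s : Fin (m + 2 + 1) → ℕ) : Fin (m + 2) → ℤ := ∑ i, s i • qζ m i

variable {m}

theorem one_ne_ss (k : Fin m) : (1 : Fin (m + 2)) ≠ k.succ.succ := by
  have h4 : (1 : Fin (m + 2)) = Fin.succ 0 := rfl
  rw [h4]
  exact fun h => (Fin.succ_ne_zero k) (Fin.succ_injective _ h).symm

theorem qZ_zero (s : Fin (m + 2 + 1) → ℕ) : qZ m s 0 = s 0 - s (Fin.succ 0) := by
  rw [qZ, Finset.sum_apply, Fin.sum_univ_succ, Fin.sum_univ_succ, qζ_zero, qζ_one]
  simp only [qζ_succ, qe]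
  simp
  ring

theorem qZ_one (s : Fin (m + 2 + 1) → ℕ) :
    qZ m s (Fin.succ 0) = 2 * s (Fin.succ 0) + s (Fin.succ (Fin.succ 0)) := by
  rw [qZ, Finset.sum_apply, Fin.sum_univ_succ, Fin.sum_univ_succ, Fin.sum_univ_succ, qζ_zero,
    qζ_one]
  simp only [qζ_succ, qe, Pi.smul_apply, Pi.sub_apply, Pi.single_apply]
  simp [one_ne_ss]
  ring

theorem qZ_succ (s : Fin (m + 2 + 1) → ℕ) (k : Fin m) :
    qZ m s k.succ.succ = s k.succ.succ.succ := by
  rw [qZ, Finset.sum_apply, Fin.sum_univ_succ, Fin.sum_univ_succ, Fin.sum_univ_succ, qζ_zero,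
    qζ_one]
  simp only [qζ_succ, qe, Pi.smul_apply, Pi.sub_apply, Pi.single_apply]
  simp [(one_ne_ss _).symm]

theorem sum_qZ (s : Fin (m + 2 + 1) → ℕ) : ∑ j, qZ m s j = ∑ i, (s i : ℤ) := by
  have h1 : ∀ i, ∑ j, qζ m i j = 1 := by
    intro i
    refine Fin.cases ?_ (fun i => Fin.cases ?_ (fun k => ?_) i) i
    · rw [qζ_zero]; simp
    · rw [qζ_one, sum_qe]
    · rw [qζ_succ]; simp
  have h2 : ∀ j, qZ m s j = ∑ i, (s i : ℤ) * qζ m i j := by
    intro j
    rw [qZ, Finset.sum_apply]
    refine Finset.sum_congr rfl fun i _ => ?_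
    rw [Pi.smul_apply, nsmul_eq_mul]
  simp only [h2]
  rw [Finset.sum_comm]
  refine Finset.sum_congr rfl fun i _ => ?_
  rw [← Finset.mul_sum, h1, mul_one]

theorem qD_qZ (s : Fin (m + 2 + 1) → ℕ) : qD m (qZ m s) = ∑ i, s i • qD m (qζ m i) := by
  rw [qZ, map_sum]
  refine Finset.sum_congr rfl fun i _ => ?_
  rw [map_nsmul]

variable (m) in
/-- the cone of the exponents. -/
def qC : Set (Fin (m + 2) → ℝ) :=
  {x | 0 ≤ 2 * x 0 + x (Fin.succ 0) ∧ ∀ k : Fin (m + 1), 0 ≤ x k.succ}

theorem isCone_qC : IsCone (qC m) where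
  closed := by
    have h1 : qC m = {x | 0 ≤ 2 * x 0 + x (Fin.succ 0)} ∩
        ⋂ k : Fin (m + 1), {x | 0 ≤ x k.succ} := by
      ext x
      simp [qC]
    rw [h1]
    refine IsClosed.inter (isClosed_le (by fun_prop) (by fun_prop)) ?_
    exact isClosed_iInter fun k => isClosed_le (by fun_prop) (by fun_prop)
  zero := by
    refine ⟨?_, fun k => ?_⟩ <;> simp
  add x hx y hy := by
    refine ⟨?_, fun k => ?_⟩
    · have h1 := hx.1
      have h2 := hy.1
      simp only [Pi.add_apply]
      linarith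
    · exact add_nonneg (hx.2 k) (hy.2 k)
  smul x hx c hc := by
    refine ⟨?_, fun k => ?_⟩
    · have h1 := mul_nonneg hc hx.1
      simp only [Pi.smul_apply, smul_eq_mul]
      linarith
    · exact mul_nonneg hc (hx.2 k)

theorem toR_mem_qC {z : Fin (m + 2) → ℤ} :
    toR z ∈ qC m ↔ 0 ≤ 2 * z 0 + z (Fin.succ 0) ∧ ∀ k : Fin (m + 1), 0 ≤ z k.succ := by
  have h0 : toR z ∈ qC m ↔ (0 : ℝ) ≤ 2 * (z 0 : ℝ) + (z (Fin.succ 0) : ℝ) ∧
    ∀ k : Fin (m + 1), (0 : ℝ) ≤ (z k.succ : ℝ) := Iff.rfl
  rw [h0]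
  constructor
  · rintro ⟨h1, h2⟩
    exact ⟨by exact_mod_cast h1, fun k => by exact_mod_cast h2 k⟩
  · rintro ⟨h1, h2⟩
    exact ⟨by exact_mod_cast h1, fun k => by exact_mod_cast h2 k⟩

theorem toR_qZ_mem (s : Fin (m + 2 + 1) → ℕ) : toR (qZ m s) ∈ qC m := by
  rw [toR_mem_qC]
  refine ⟨?_, fun k => ?_⟩
  · rw [qZ_zero, qZ_one]
    omega
  · refine Fin.cases ?_ (fun k => ?_) k
    · rw [qZ_one]
      omega
    · rw [qZ_succ]
      omega

/-- the normal monomial with a given exponent. -/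
def qsig (z : Fin (m + 2) → ℤ) : Fin (m + 2 + 1) → ℕ :=
  Fin.cons (z 0 + z (Fin.succ 0) / 2).toNat (Fin.cons (z (Fin.succ 0) / 2).toNat
    (Fin.cons (z (Fin.succ 0) % 2).toNat fun k : Fin m => (z k.succ.succ).toNat))

theorem qZ_qsig {z : Fin (m + 2) → ℤ} (hz : toR z ∈ qC m) : qZ m (qsig z) = z := by
  obtain ⟨h1, h2⟩ := toR_mem_qC.1 hz
  have h3 := h2 0
  have e0 : (qsig z) 0 = (z 0 + z (Fin.succ 0) / 2).toNat := rfl
  have e1 : (qsig z) (Fin.succ 0) = (z (Fin.succ 0) / 2).toNat := rfl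
  have e2 : (qsig z) (Fin.succ (Fin.succ 0)) = (z (Fin.succ 0) % 2).toNat := rfl
  funext j
  refine Fin.cases ?_ (fun j => Fin.cases ?_ (fun k => ?_) j) j
  · rw [qZ_zero, e0, e1]
    omega
  · rw [qZ_one, e1, e2]
    omega
  · have e3 : (qsig z) k.succ.succ.succ = (z k.succ.succ).toNat := rfl
    have h4 := h2 k.succ
    rw [qZ_succ, e3]
    omega

/-- a monomial of exponent at most one in `y_2` is determined by its exponent. -/
theorem qsig_qZ {s : Fin (m + 2 + 1) → ℕ} (hs : s (Fin.succ (Fin.succ 0)) ≤ 1) :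
    qsig (qZ m s) = s := by
  funext j
  refine Fin.cases ?_ (fun j => Fin.cases ?_ (fun j => Fin.cases ?_ (fun k => ?_) j) j) j
  · show (qZ m s 0 + qZ m s (Fin.succ 0) / 2).toNat = _
    rw [qZ_zero, qZ_one]
    omega
  · show (qZ m s (Fin.succ 0) / 2).toNat = _
    rw [qZ_one]
    omega
  · show (qZ m s (Fin.succ 0) % 2).toNat = _
    rw [qZ_one]
    omega
  · show (qZ m s k.succ.succ).toNat = _
    rw [qZ_succ]
    omega

theorem abs_qZ_le (s : Fin (m + 2 + 1) → ℕ) (j : Fin (m + 2)) :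
    |qZ m s j| ≤ 2 * ∑ i, (s i : ℤ) := by
  have hnn : ∀ i, (0 : ℤ) ≤ s i := fun i => Int.natCast_nonneg _
  have hle : ∀ i, (s i : ℤ) ≤ ∑ i, (s i : ℤ) := fun i =>
    Finset.single_le_sum (fun i _ => hnn i) (Finset.mem_univ i)
  have h0 := hle 0
  have h1 := hle (Fin.succ 0)
  have h12 : (s (Fin.succ 0) : ℤ) + s (Fin.succ (Fin.succ 0)) ≤ ∑ i, (s i : ℤ) := by
    rw [Fin.sum_univ_succ, Fin.sum_univ_succ, Fin.sum_univ_succ]
    have h5 : (0 : ℤ) ≤ ∑ i : Fin m, (s i.succ.succ.succ : ℤ) :=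
      Finset.sum_nonneg fun i _ => hnn _
    have h6 := hnn 0
    omega
  have g0 := hnn 0
  have g1 := hnn (Fin.succ 0)
  have g2 := hnn (Fin.succ (Fin.succ 0))
  refine Fin.cases ?_ (fun j => Fin.cases ?_ (fun k => ?_) j) j
  · rw [qZ_zero, abs_le]
    constructor <;> omega
  · rw [qZ_one, abs_le]
    constructor <;> omega
  · have h7 := hle k.succ.succ.succ
    have g7 := hnn k.succ.succ.succ
    rw [qZ_succ, abs_le]
    constructor <;> omega

end expo

/-! ### the coordinates -/

section coord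

variable {m : ℕ}

variable (m) in
/-- coordinates in which the quadratic form is `y_0 y_1 + y_2 ^ 2 + ..`. -/
noncomputable def qY : Fin (m + 2 + 1) → MvPolynomial (Fin (m + 2 + 1)) ℂ :=
  Fin.cons (X 0 + C Complex.I * X (Fin.succ 0)) (Fin.cons (X 0 - C Complex.I * X (Fin.succ 0))
    fun k : Fin (m + 1) => X k.succ.succ)

variable (m) in
/-- the change of coordinates. -/
noncomputable def qΘ : MvPolynomial (Fin (m + 2 + 1)) ℂ →ₐ[ℂ] MvPolynomial (Fin (m + 2 + 1)) ℂ :=
  aeval (qY m)

theorem qY_zero : qY m 0 = X 0 + C Complex.I * X (Fin.succ 0) := rfl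

theorem qY_one : qY m (Fin.succ 0) = X 0 - C Complex.I * X (Fin.succ 0) := rfl

theorem qY_succ (k : Fin (m + 1)) : qY m k.succ.succ = X k.succ.succ := rfl

theorem C_I_sq : (C Complex.I : MvPolynomial (Fin (m + 2 + 1)) ℂ) * C Complex.I = -1 := by
  rw [← C_mul, Complex.I_mul_I, C_neg, C_1]

theorem q_eq : ∑ i, (X i : MvPolynomial (Fin (m + 2 + 1)) ℂ) ^ 2 =
    qY m 0 * qY m (Fin.succ 0) + ∑ k : Fin (m + 1), qY m k.succ.succ ^ 2 := by
  rw [Fin.sum_univ_succ, Fin.sum_univ_succ, qY_zero, qY_one]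
  simp only [qY_succ]
  linear_combination (X (Fin.succ 0)) ^ 2 * C_I_sq (m := m)

theorem qΘ_surjective : Function.Surjective (qΘ m) := by
  rw [← AlgHom.range_eq_top, eq_top_iff, ← MvPolynomial.adjoin_range_X, Algebra.adjoin_le_iff]
  rintro _ ⟨i, rfl⟩
  have e0 : qΘ m (X 0) = qY m 0 := aeval_X _ _
  have e1 : qΘ m (X (Fin.succ 0)) = qY m (Fin.succ 0) := aeval_X _ _
  refine Fin.cases ?_ (fun i => Fin.cases ?_ (fun k => ?_) i) i
  · refine ⟨C (1 / 2) * (X 0 + X (Fin.succ 0)), ?_⟩
    show qΘ m (C (1 / 2) * (X 0 + X (Fin.succ 0))) = X 0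
    rw [map_mul, map_add, e0, e1, qY_zero, qY_one, qΘ, algHom_C, algebraMap_eq]
    have h1 : (C (1 / 2) : MvPolynomial (Fin (m + 2 + 1)) ℂ) * 2 = 1 := by
      have h2 : (2 : MvPolynomial (Fin (m + 2 + 1)) ℂ) = C 2 := rfl
      rw [h2, ← C_mul]
      norm_num
    linear_combination (X 0) * h1
  · refine ⟨C (-Complex.I / 2) * (X 0 - X (Fin.succ 0)), ?_⟩
    show qΘ m (C (-Complex.I / 2) * (X 0 - X (Fin.succ 0))) = X (Fin.succ 0)
    rw [map_mul, map_sub, e0, e1, qY_zero, qY_one, qΘ, algHom_C, algebraMap_eq]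
    have h1 : (C (-Complex.I / 2) : MvPolynomial (Fin (m + 2 + 1)) ℂ) * 2 * C Complex.I = 1 := by
      have h2 : (2 : MvPolynomial (Fin (m + 2 + 1)) ℂ) = C 2 := rfl
      rw [h2, ← C_mul, ← C_mul]
      have h3 : -Complex.I / 2 * 2 * Complex.I = 1 := by
        linear_combination -Complex.I_mul_I
      rw [h3, C_1]
    linear_combination (X (Fin.succ 0)) * h1
  · exact ⟨X k.succ.succ, aeval_X _ _⟩

variable (m) in
/-- monomials in the new coordinates. -/
noncomputable def qmon (s : Fin (m + 2 + 1) → ℕ) : MvPolynomial (Fin (m + 2 + 1)) ℂ :=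
  ∏ i, qY m i ^ s i

theorem qmon_add (s t : Fin (m + 2 + 1) → ℕ) : qmon m (s + t) = qmon m s * qmon m t := by
  rw [qmon, qmon, qmon, ← Finset.prod_mul_distrib]
  exact Finset.prod_congr rfl fun i _ => pow_add _ _ _

theorem qmon_single (i : Fin (m + 2 + 1)) (k : ℕ) : qmon m (Pi.single i k) = qY m i ^ k := by
  rw [qmon, Finset.prod_eq_single i]
  · rw [Pi.single_eq_same]
  · intro j _ hj
    rw [Pi.single_eq_of_ne hj, pow_zero]
  · intro h
    exact absurd (Finset.mem_univ i) h

theorem qΘ_monomial (s : Fin (m + 2 + 1) →₀ ℕ) (c : ℂ) :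
    qΘ m (monomial s c) = c • qmon m s := by
  rw [qΘ, aeval_monomial, qmon, algebraMap_eq, smul_eq_C_mul,
    Finsupp.prod_fintype _ _ fun i => pow_zero _]

/-- the monomials span. -/
theorem span_qmon : Submodule.span ℂ (Set.range (qmon m)) = ⊤ := by
  rw [eq_top_iff]
  intro P _
  obtain ⟨p, rfl⟩ := qΘ_surjective P
  rw [p.as_sum, map_sum]
  refine Submodule.sum_mem _ fun s _ => ?_
  rw [qΘ_monomial]
  exact Submodule.smul_mem _ _ (Submodule.subset_span ⟨_, rfl⟩)

variable (m) in
/-- the quadratic form. -/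
noncomputable def qq : MvPolynomial (Fin (m + 2 + 1)) ℂ := ∑ i, X i ^ 2

theorem qq_eq : qq m = qY m 0 * qY m (Fin.succ 0) + (qY m (Fin.succ (Fin.succ 0)) ^ 2 +
    ∑ k : Fin m, qY m k.succ.succ.succ ^ 2) := by
  rw [qq, q_eq, Fin.sum_univ_succ]

variable (m) in
/-- the space of normal forms modulo the quadratic form. -/
noncomputable def qM : Submodule ℂ (MvPolynomial (Fin (m + 2 + 1)) ℂ) :=
  Submodule.span ℂ (qmon m '' {s | s (Fin.succ (Fin.succ 0)) ≤ 1}) ⊔
    (Ideal.span {qq m}).restrictScalars ℂ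

theorem qmon_mem (N : ℕ) : ∀ s : Fin (m + 2 + 1) → ℕ, s (Fin.succ (Fin.succ 0)) ≤ N →
    qmon m s ∈ qM m := by
  induction N using Nat.strong_induction_on with
  | _ N ih =>
    intro s hs
    by_cases h1 : s (Fin.succ (Fin.succ 0)) ≤ 1
    · exact Submodule.mem_sup_left (Submodule.subset_span ⟨s, h1, rfl⟩)
    · set t : Fin (m + 2 + 1) → ℕ := s - Pi.single (Fin.succ (Fin.succ 0)) 2 with ht
      have ht2 : t (Fin.succ (Fin.succ 0)) = s (Fin.succ (Fin.succ 0)) - 2 := by
        rw [ht, Pi.sub_apply, Pi.single_eq_same]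
      have hst : s = t + Pi.single (Fin.succ (Fin.succ 0)) 2 := by
        funext i
        rw [ht, Pi.add_apply, Pi.sub_apply]
        by_cases hi : i = Fin.succ (Fin.succ 0)
        · subst hi
          rw [Pi.single_eq_same]
          omega
        · rw [Pi.single_eq_of_ne hi]
          rfl
      have key : ∀ u : Fin (m + 2 + 1) → ℕ, u (Fin.succ (Fin.succ 0)) = 0 →
          qmon m t * qmon m u ∈ qM m := by
        intro u hu
        rw [← qmon_add]
        refine ih (N - 2) (by omega) _ ?_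
        rw [Pi.add_apply, hu, ht2]
        omega
      have e1 : qmon m s = qmon m t * qq m -
          qmon m t * qmon m (Pi.single 0 1 + Pi.single (Fin.succ 0) 1) -
          ∑ k : Fin m, qmon m t * qmon m (Pi.single k.succ.succ.succ 2) := by
        have e2 : qmon m s = qmon m t * qY m (Fin.succ (Fin.succ 0)) ^ 2 := by
          conv_lhs => rw [hst, qmon_add, qmon_single]
        rw [e2, qmon_add, qmon_single, qmon_single, qq_eq, ← Finset.mul_sum]
        simp only [qmon_single]
        ring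
      rw [e1]
      refine Submodule.sub_mem _ (Submodule.sub_mem _ ?_ ?_) (Submodule.sum_mem _ fun k _ => ?_)
      · refine Submodule.mem_sup_right ?_
        exact Ideal.mul_mem_left _ _ (Ideal.subset_span rfl)
      · refine key _ ?_
        have g1 : (Fin.succ (Fin.succ 0) : Fin (m + 2 + 1)) ≠ 0 := Fin.succ_ne_zero _
        have g2 : (Fin.succ (Fin.succ 0) : Fin (m + 2 + 1)) ≠ Fin.succ 0 := fun h =>
          Fin.succ_ne_zero _ (Fin.succ_injective _ h)
        rw [Pi.add_apply, Pi.single_eq_of_ne g1, Pi.single_eq_of_ne g2, add_zero]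
      · refine key _ ?_
        have g3 : (Fin.succ (Fin.succ 0) : Fin (m + 2 + 1)) ≠ k.succ.succ.succ := fun h =>
          Fin.succ_ne_zero _ (Fin.succ_injective _ (Fin.succ_injective _ h)).symm
        rw [Pi.single_eq_of_ne g3]

theorem qM_eq_top : qM m = ⊤ := by
  rw [eq_top_iff, ← span_qmon, Submodule.span_le]
  rintro _ ⟨s, rfl⟩
  exact qmon_mem _ s le_rfl

end coord

/-! ### the embedding in the Laurent series -/

section lau

variable {m : ℕ} {Γ : Type*} [AddCommGroup Γ] [LinearOrder Γ] [IsOrderedCancelAddMonoid Γ]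
  (D : (Fin (m + 2) → ℤ) →+ Γ)

/-- the images of the coordinates. -/
noncomputable def qyv : Fin (m + 2 + 1) → HahnSeries Γ ℂ :=
  Fin.cons (HahnSeries.single (D (Pi.single 0 1)) 1)
    (Fin.cons (-∑ k : Fin (m + 1), HahnSeries.single (D (qe m k)) 1)
      fun k : Fin (m + 1) => HahnSeries.single (D (Pi.single k.succ 1)) 1)

/-- the images of the variables. -/
noncomputable def qxv : Fin (m + 2 + 1) → HahnSeries Γ ℂ :=
  Fin.cons (algebraMap ℂ _ (1 / 2 : ℂ) * (qyv D 0 + qyv D (Fin.succ 0)))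
    (Fin.cons (algebraMap ℂ _ (-Complex.I / 2) * (qyv D 0 - qyv D (Fin.succ 0)))
      fun k : Fin (m + 1) => qyv D k.succ.succ)

/-- the map to the Laurent series. -/
noncomputable def qφ : MvPolynomial (Fin (m + 2 + 1)) ℂ →ₐ[ℂ] HahnSeries Γ ℂ :=
  aeval (qxv D)

theorem qφ_Y (i : Fin (m + 2 + 1)) : qφ D (qY m i) = qyv D i := by
  have e0 : qφ D (X 0) = qxv D 0 := aeval_X _ _
  have e1 : qφ D (X (Fin.succ 0)) = qxv D (Fin.succ 0) := aeval_X _ _
  have f0 : qxv D 0 = algebraMap ℂ _ (1 / 2 : ℂ) * (qyv D 0 + qyv D (Fin.succ 0)) := rfl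
  have f1 : qxv D (Fin.succ 0) =
    algebraMap ℂ _ (-Complex.I / 2) * (qyv D 0 - qyv D (Fin.succ 0)) := rfl
  have eC : ∀ c : ℂ, qφ D (C c) = algebraMap ℂ _ c := fun c => algHom_C _ _
  have h3 : (algebraMap ℂ (HahnSeries Γ ℂ) Complex.I) *
      algebraMap ℂ (HahnSeries Γ ℂ) (-Complex.I / 2) = algebraMap ℂ (HahnSeries Γ ℂ) (1 / 2) := by
    rw [← map_mul]
    congr 1
    linear_combination (-1 / 2 : ℂ) * Complex.I_mul_I
  have h4 : (algebraMap ℂ (HahnSeries Γ ℂ) (1 / 2)) + algebraMap ℂ (HahnSeries Γ ℂ) (1 / 2) = 1 := by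
    rw [← map_add, ← map_one (algebraMap ℂ (HahnSeries Γ ℂ))]
    congr 1
    norm_num
  refine Fin.cases ?_ (fun i => Fin.cases ?_ (fun k => ?_) i) i
  · rw [qY_zero, map_add, map_mul, eC, e0, e1, f0, f1]
    linear_combination (qyv D 0 - qyv D (Fin.succ 0)) * h3 + qyv D 0 * h4
  · rw [qY_one, map_sub, map_mul, eC, e0, e1, f0, f1]
    linear_combination -(qyv D 0 - qyv D (Fin.succ 0)) * h3 + qyv D (Fin.succ 0) * h4
  · exact aeval_X _ _

theorem qφ_qq : qφ D (qq m) = 0 := by
  rw [qq, q_eq, map_add, map_mul, map_sum, qφ_Y, qφ_Y]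
  have h0 : qyv D 0 = HahnSeries.single (D (Pi.single 0 1)) 1 := rfl
  have h1 : qyv D (Fin.succ 0) = -∑ k : Fin (m + 1), HahnSeries.single (D (qe m k)) 1 := rfl
  have h5 : HahnSeries.single (D (Pi.single 0 1)) 1 *
      ∑ k : Fin (m + 1), HahnSeries.single (D (qe m k)) (1 : ℂ) =
      ∑ k : Fin (m + 1), qφ D (qY m k.succ.succ ^ 2) := by
    rw [Finset.mul_sum]
    refine Finset.sum_congr rfl fun k _ => ?_
    have h2 : qyv D k.succ.succ = HahnSeries.single (D (Pi.single k.succ 1)) 1 := rfl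
    rw [map_pow, qφ_Y, h2, HahnSeries.single_mul_single, sq, HahnSeries.single_mul_single,
      ← map_add, ← map_add]
    have h6 : (Pi.single 0 1 + qe m k : Fin (m + 2) → ℤ) =
        Pi.single k.succ 1 + Pi.single k.succ 1 := by
      rw [qe]
      funext j
      simp only [Pi.add_apply, Pi.sub_apply, Pi.single_apply]
      split_ifs <;> ring
    rw [h6]
  rw [h0, h1]
  linear_combination -h5

variable {D} (hinj : Function.Injective D) (hlt : ∀ k : Fin (m + 1), k ≠ 0 →
  D (qe m 0) < D (qe m k))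

include hinj hlt

theorem qld_yv (i : Fin (m + 2 + 1)) : QLd (qyv D i) (D (qζ m i)) := by
  refine Fin.cases ?_ (fun i => Fin.cases ?_ (fun k => ?_) i) i
  · exact qld_single _
  · have h1 := qld_sum (Finset.univ : Finset (Fin (m + 1))) Finset.univ_nonempty (fun _ => 1)
      (fun k => HahnSeries.single (D (qe m k)) (1 : ℂ)) (fun k => D (qe m k))
      (fun _ _ => one_ne_zero) (fun _ _ => qld_single _) ?_
    · obtain ⟨k, -, hk, h⟩ := h1
      have hk0 : k = 0 := by
        by_contra hne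
        exact absurd (hk 0 (Finset.mem_univ 0)) (not_le.2 (hlt k hne))
      subst hk0
      simp only [one_smul] at h
      exact h.neg
    · intro k _ k' _ h
      have h2 := hinj h
      by_contra hne
      have h3 := congrFun h2 k.succ
      simp [qe, hne] at h3
  · exact qld_single _

theorem qld_mon (s : Fin (m + 2 + 1) → ℕ) : QLd (qφ D (qmon m s)) (D (qZ m s)) := by
  have h : D (qZ m s) = ∑ i, s i • D (qζ m i) := by
    rw [qZ, map_sum]
    refine Finset.sum_congr rfl fun i _ => ?_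
    rw [map_nsmul]
  rw [qmon, map_prod, h]
  refine QLd.prod _ _ _ fun i _ => ?_
  rw [map_pow, qφ_Y]
  exact (qld_yv hinj hlt i).pow _

omit hinj hlt

variable (m) in
/-- the normal monomials. -/
noncomputable def qN (z : Fin (m + 2) → ℤ) : MvPolynomial (Fin (m + 2 + 1)) ℂ := qmon m (qsig z)

/-- normal forms. -/
theorem exists_nf (P : MvPolynomial (Fin (m + 2 + 1)) ℂ) :
    ∃ a : (Fin (m + 2) → ℤ) →₀ ℂ, (∀ z ∈ a.support, toR z ∈ qC m) ∧
      P - Finsupp.linearCombination ℂ (qN m) a ∈ Ideal.span {qq m} := by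
  have hP : P ∈ qM m := by
    rw [qM_eq_top]
    exact Submodule.mem_top
  obtain ⟨P1, hP1, P2, hP2, rfl⟩ := Submodule.mem_sup.1 hP
  have h1 : P1 ∈ Submodule.span ℂ (qN m '' {z | toR z ∈ qC m}) := by
    refine Submodule.span_mono ?_ hP1
    rintro _ ⟨s, hs, rfl⟩
    exact ⟨qZ m s, toR_qZ_mem s, by rw [qN, qsig_qZ hs]⟩
  obtain ⟨a, ha, rfl⟩ := (Finsupp.mem_span_image_iff_linearCombination ℂ).1 h1
  refine ⟨a, fun z hz => (Finsupp.mem_supported ℂ a).1 ha hz, ?_⟩
  rw [add_sub_cancel_left]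
  exact hP2

theorem qφ_span {P : MvPolynomial (Fin (m + 2 + 1)) ℂ} (hP : P ∈ Ideal.span {qq m}) :
    qφ D P = 0 := by
  obtain ⟨Q, rfl⟩ := Ideal.mem_span_singleton'.1 hP
  rw [map_mul, qφ_qq, mul_zero]

include hinj hlt

theorem qld_qN {z : Fin (m + 2) → ℤ} (hz : toR z ∈ qC m) : QLd (qφ D (qN m z)) (D z) := by
  have h := qld_mon hinj hlt (qsig z)
  rwa [qZ_qsig hz] at h

theorem qld_nf {a : (Fin (m + 2) → ℤ) →₀ ℂ} (ha : ∀ z ∈ a.support, toR z ∈ qC m) (ha0 : a ≠ 0) :
    ∃ z₀ ∈ a.support, (∀ z ∈ a.support, D z₀ ≤ D z) ∧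
      QLd (qφ D (Finsupp.linearCombination ℂ (qN m) a)) (D z₀) := by
  have h := qld_sum a.support (Finsupp.support_nonempty_iff.2 ha0) a (fun z => qφ D (qN m z)) D
    (fun z hz => Finsupp.mem_support_iff.1 hz) (fun z hz => qld_qN hinj hlt (ha z hz))
    (hinj.injOn)
  rw [Finsupp.linearCombination_apply, Finsupp.sum, map_sum]
  simpa only [map_smul] using h

/-- normal forms and leading exponents. -/
theorem qld_exists {P : MvPolynomial (Fin (m + 2 + 1)) ℂ} {z : Fin (m + 2) → ℤ}
    (hP : QLd (qφ D P) (D z)) : ∃ a : (Fin (m + 2) → ℤ) →₀ ℂ,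
      (∀ w ∈ a.support, toR w ∈ qC m) ∧ a z ≠ 0 ∧ (∀ w ∈ a.support, D z ≤ D w) ∧
      P - Finsupp.linearCombination ℂ (qN m) a ∈ Ideal.span {qq m} := by
  obtain ⟨a, ha, hPa⟩ := exists_nf P
  have h1 : qφ D P = qφ D (Finsupp.linearCombination ℂ (qN m) a) := by
    rw [← sub_eq_zero, ← map_sub]
    exact qφ_span hPa
  have ha0 : a ≠ 0 := by
    rintro rfl
    rw [map_zero, map_zero] at h1
    exact hP.1 h1
  obtain ⟨z₀, hz₀, hmin, hld⟩ := qld_nf hinj hlt ha ha0
  rw [h1] at hP
  have hz : z = z₀ := hinj (hP.unique hld)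
  subst hz
  exact ⟨a, ha, Finsupp.mem_support_iff.1 hz₀, hmin, hPa⟩

omit hinj hlt

variable (D) in
/-- the leading exponents of an ideal. -/
def qE (I : Ideal (MvPolynomial (Fin (m + 2 + 1)) ℂ)) : Set (Fin (m + 2) → ℤ) :=
  {z | ∃ P ∈ I, QLd (qφ D P) (D z)}

theorem qN_mem_pow (z : Fin (m + 2) → ℤ) (N : ℕ) (h : N ≤ ∑ i, qsig z i) :
    qN m z ∈ MvPolynomial.idealOfVars (Fin (m + 2 + 1)) ℂ ^ N := by
  refine Ideal.pow_le_pow_right h ?_
  rw [← Finset.prod_pow_eq_pow_sum]
  refine Ideal.prod_mem_prod fun i _ => Ideal.pow_mem_pow ?_ _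
  have hX : ∀ i, (X i : MvPolynomial (Fin (m + 2 + 1)) ℂ) ∈ MvPolynomial.idealOfVars _ ℂ :=
    fun i => Ideal.subset_span ⟨i, rfl⟩
  refine Fin.cases ?_ (fun i => Fin.cases ?_ (fun k => ?_) i) i
  · exact Ideal.add_mem _ (hX _) (Ideal.mul_mem_left _ _ (hX _))
  · exact Ideal.sub_mem _ (hX _) (Ideal.mul_mem_left _ _ (hX _))
  · exact hX _

theorem abs_le_of_sum_lt {z : Fin (m + 2) → ℤ} (hz : toR z ∈ qC m) {N : ℕ}
    (h : ∑ i, qsig z i < N) (i : Fin (m + 2)) : |z i| ≤ 2 * N := by
  have h1 := abs_qZ_le (qsig z) i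
  rw [qZ_qsig hz] at h1
  have h2 : ∑ i, (qsig z i : ℤ) < N := by exact_mod_cast h
  omega

include hinj hlt

theorem abs_le_of_notMem {N : ℕ} {z : Fin (m + 2) → ℤ} (hz : toR z ∈ qC m)
    (hN : z ∉ qE D (MvPolynomial.idealOfVars (Fin (m + 2 + 1)) ℂ ^ N)) (i : Fin (m + 2)) :
    |z i| ≤ 2 * N := by
  refine abs_le_of_sum_lt hz ?_ i
  by_contra hcon
  exact hN ⟨qN m z, qN_mem_pow z N (not_lt.1 hcon), qld_qN hinj hlt hz⟩

/-- the normal monomials with exponents outside of `qE` are independent. -/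
theorem qN_indep {I : Ideal (MvPolynomial (Fin (m + 2 + 1)) ℂ)} :
    LinearIndependent ℂ (fun z : {z : Fin (m + 2) → ℤ | toR z ∈ qC m ∧ z ∉ qE D I} =>
      (Ideal.Quotient.mkₐ ℂ I).toLinearMap (qN m z)) := by
  rw [linearIndependent_iff]
  intro l hl
  by_contra hne
  set a : (Fin (m + 2) → ℤ) →₀ ℂ := l.mapDomain Subtype.val with ha
  have ha0 : a ≠ 0 := by
    intro h0
    apply hne
    refine Finsupp.mapDomain_injective Subtype.val_injective ?_
    rw [← ha, h0, Finsupp.mapDomain_zero]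
  have hsup : ∀ z ∈ a.support, toR z ∈ qC m ∧ z ∉ qE D I := by
    intro z hz
    obtain ⟨w, -, rfl⟩ := Finset.mem_image.1 (Finsupp.mapDomain_support hz)
    exact w.2
  obtain ⟨z₀, hz₀, -, hld⟩ := qld_nf hinj hlt (fun z hz => (hsup z hz).1) ha0
  refine (hsup z₀ hz₀).2 ⟨_, ?_, hld⟩
  have h1 : (Ideal.Quotient.mkₐ ℂ I).toLinearMap (Finsupp.linearCombination ℂ (qN m) a) = 0 := by
    rw [ha, Finsupp.linearCombination_mapDomain, ← hl, LinearMap.map_finsupp_linearCombination]
    rfl
  exact Ideal.Quotient.eq_zero_iff_mem.1 h1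

/-- the normal monomials with exponents outside of `qE` span. -/
theorem qN_span {I : Ideal (MvPolynomial (Fin (m + 2 + 1)) ℂ)} {N : ℕ} (hq : qq m ∈ I)
    (hN : MvPolynomial.idealOfVars (Fin (m + 2 + 1)) ℂ ^ N ≤ I) (z : Fin (m + 2) → ℤ)
    (hz : toR z ∈ qC m) : (Ideal.Quotient.mkₐ ℂ I).toLinearMap (qN m z) ∈
      Submodule.span ℂ (Set.range
        (fun z : {z : Fin (m + 2) → ℤ | toR z ∈ qC m ∧ z ∉ qE D I} =>
          (Ideal.Quotient.mkₐ ℂ I).toLinearMap (qN m z))) := by
  set T : Set (Fin (m + 2) → ℤ) := {z | toR z ∈ qC m ∧ ∑ i, qsig z i < N} with hT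
  have hTf : T.Finite := by
    refine (Set.finite_Icc (fun _ => -(2 * (N : ℤ))) (fun _ => 2 * (N : ℤ))).subset ?_
    intro z hz
    exact ⟨fun i => (abs_le.1 (abs_le_of_sum_lt hz.1 hz.2 i)).1,
      fun i => (abs_le.1 (abs_le_of_sum_lt hz.1 hz.2 i)).2⟩
  have hout : ∀ z, toR z ∈ qC m → z ∉ T →
      (Ideal.Quotient.mkₐ ℂ I).toLinearMap (qN m z) = 0 := by
    intro z hz hzT
    refine Ideal.Quotient.eq_zero_iff_mem.2 (hN (qN_mem_pow z N ?_))
    by_contra hcon
    exact hzT ⟨hz, not_le.1 hcon⟩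
  by_cases hzT : z ∈ T
  · have hwf : T.WellFoundedOn fun x y => D y < D x := by
      have : IsStrictOrder (Fin (m + 2) → ℤ) fun x y => D y < D x :=
        { irrefl := fun x => lt_irrefl _
          trans := fun x y z h1 h2 => lt_trans h2 h1 }
      exact hTf.wellFoundedOn
    refine hwf.induction (P := fun z => (Ideal.Quotient.mkₐ ℂ I).toLinearMap (qN m z) ∈
      Submodule.span ℂ (Set.range
        (fun z : {z : Fin (m + 2) → ℤ | toR z ∈ qC m ∧ z ∉ qE D I} =>
          (Ideal.Quotient.mkₐ ℂ I).toLinearMap (qN m z)))) hzT fun z hzT ih => ?_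
    by_cases hzE : z ∈ qE D I
    · obtain ⟨P, hPI, hP⟩ := hzE
      obtain ⟨a, ha, haz, hmin, hPa⟩ := qld_exists hinj hlt hP
      have h1 : (Ideal.Quotient.mkₐ ℂ I).toLinearMap
          (Finsupp.linearCombination ℂ (qN m) a) = 0 := by
        refine Ideal.Quotient.eq_zero_iff_mem.2 ?_
        have h2 : Ideal.span {qq m} ≤ I := (Ideal.span_singleton_le_iff_mem I).2 hq
        have h3 := Ideal.sub_mem I hPI (h2 hPa)
        rwa [sub_sub_cancel] at h3
      rw [Finsupp.linearCombination_apply, Finsupp.sum, map_sum,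
        ← Finset.add_sum_erase a.support _ (Finsupp.mem_support_iff.2 haz), map_smul,
        add_eq_zero_iff_eq_neg] at h1
      have h4 : (Ideal.Quotient.mkₐ ℂ I).toLinearMap (qN m z) = (a z)⁻¹ •
          -∑ x ∈ a.support.erase z, (Ideal.Quotient.mkₐ ℂ I).toLinearMap (a x • qN m x) := by
        rw [← h1, smul_smul, inv_mul_cancel₀ haz, one_smul]
      rw [h4]
      refine Submodule.smul_mem _ _ (Submodule.neg_mem _ (Submodule.sum_mem _ fun w hw => ?_))
      rw [map_smul]
      refine Submodule.smul_mem _ _ ?_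
      obtain ⟨hwz, hw⟩ := Finset.mem_erase.1 hw
      by_cases hwT : w ∈ T
      · exact ih w hwT (lt_of_le_of_ne (hmin w hw) fun h => hwz (hinj h).symm)
      · rw [hout w (ha w hw) hwT]
        exact Submodule.zero_mem _
    · exact Submodule.subset_span ⟨⟨z, hzT.1, hzE⟩, rfl⟩
  · rw [hout z hz hzT]
    exact Submodule.zero_mem _

theorem qN_finrank {I : Ideal (MvPolynomial (Fin (m + 2 + 1)) ℂ)} {N : ℕ} (hq : qq m ∈ I)
    (hN : MvPolynomial.idealOfVars (Fin (m + 2 + 1)) ℂ ^ N ≤ I) :
    Set.ncard {z : Fin (m + 2) → ℤ | toR z ∈ qC m ∧ z ∉ qE D I} =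
      Module.finrank ℂ (MvPolynomial (Fin (m + 2 + 1)) ℂ ⧸ I) := by
  have hsp : ⊤ ≤ Submodule.span ℂ (Set.range
      (fun z : {z : Fin (m + 2) → ℤ | toR z ∈ qC m ∧ z ∉ qE D I} =>
        (Ideal.Quotient.mkₐ ℂ I).toLinearMap (qN m z))) := by
    intro x _
    obtain ⟨P, rfl⟩ := Ideal.Quotient.mk_surjective x
    obtain ⟨a, ha, hPa⟩ := exists_nf P
    have h2 : Ideal.span {qq m} ≤ I := (Ideal.span_singleton_le_iff_mem I).2 hq
    have h3 : Ideal.Quotient.mk I P = (Ideal.Quotient.mkₐ ℂ I).toLinearMap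
        (Finsupp.linearCombination ℂ (qN m) a) := Ideal.Quotient.eq.2 (h2 hPa)
    rw [h3, Finsupp.linearCombination_apply, Finsupp.sum, map_sum]
    refine Submodule.sum_mem _ fun z hz => ?_
    rw [map_smul]
    exact Submodule.smul_mem _ _ (qN_span hinj hlt hq hN z (ha z hz))
  have hb := Module.finrank_eq_nat_card_basis (Module.Basis.mk (qN_indep hinj hlt) hsp)
  rw [hb, Nat.card_coe_set_eq]

end lau

/-- Leading exponents of ideals of the coordinate ring of the quadric cone. -/
theorem exists_exponents {n : ℕ} (hn : 2 ≤ n) :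
    ∃ (C : Set (Fin n → ℝ)) (E : Ideal (MvPolynomial (Fin (n + 1)) ℂ) → Set (Fin n → ℤ)) (c : ℕ),
      IsCone C ∧ (∀ I, ∀ z ∈ E I, toR z ∈ C) ∧ (∀ I J, I ≤ J → E I ⊆ E J) ∧
      (∀ I J, ∀ z ∈ E I, ∀ z' ∈ E J, z + z' ∈ E (I * J)) ∧
      (∀ I, ∀ z ∈ E I, ∀ z' : Fin n → ℤ, toR z' ∈ C → z + z' ∈ E I) ∧
      (∀ (N : ℕ) (z : Fin n → ℤ), toR z ∈ C → z ∉ E (MvPolynomial.idealOfVars (Fin (n + 1)) ℂ ^ N) →
        ∀ i, |z i| ≤ c * N) ∧
      ∀ (I : Ideal (MvPolynomial (Fin (n + 1)) ℂ)) (N : ℕ),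
        ∑ i, MvPolynomial.X i ^ 2 ∈ I → MvPolynomial.idealOfVars (Fin (n + 1)) ℂ ^ N ≤ I →
        Set.ncard {z : Fin n → ℤ | toR z ∈ C ∧ z ∉ E I} =
          Module.finrank ℂ (MvPolynomial (Fin (n + 1)) ℂ ⧸ I) := by
  obtain ⟨m, rfl⟩ : ∃ m, n = m + 2 := ⟨n - 2, by omega⟩
  have hinj := qD_injective m
  have hlt : ∀ k : Fin (m + 1), k ≠ 0 → qD m (qe m 0) < qD m (qe m k) := fun k hk => qD_qe_lt m hk
  refine ⟨qC m, qE (qD m), 2, isCone_qC, ?_, ?_, ?_, ?_, ?_, ?_⟩
  · rintro I z ⟨P, -, hP⟩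
    obtain ⟨a, ha, haz, -, -⟩ := qld_exists hinj hlt hP
    exact ha z (Finsupp.mem_support_iff.2 haz)
  · rintro I J hIJ z ⟨P, hPI, hP⟩
    exact ⟨P, hIJ hPI, hP⟩
  · rintro I J z ⟨P, hPI, hP⟩ z' ⟨Q, hQJ, hQ⟩
    refine ⟨P * Q, Ideal.mul_mem_mul hPI hQJ, ?_⟩
    rw [map_mul, map_add]
    exact hP.mul hQ
  · rintro I z ⟨P, hPI, hP⟩ z' hz'
    refine ⟨P * qN m z', Ideal.mul_mem_right _ _ hPI, ?_⟩
    rw [map_mul, map_add]
    exact hP.mul (qld_qN hinj hlt hz')
  · intro N z hz hN i
    exact_mod_cast abs_le_of_notMem hinj hlt hz hN i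
  · intro I N hq hN
    exact qN_finrank hinj hlt hq hN

end Vale.Agent.P282.CV
end

section

/-!
P282-WR-4a: the exponential of a derivation.
-/

open scoped NNReal Nat

namespace Vale.Agent.P282.WR

/-- The iterated Leibniz rule. -/
theorem expA_leibniz {A : Type} [CommRing A] (D : Derivation ℤ A A) (k : ℕ) (f g : A) :
    (⇑D)^[k] (f * g) = ∑ ij ∈ Finset.HasAntidiagonal.antidiagonal k,
      (k.choose ij.1 : A) * ((⇑D)^[ij.1] f * (⇑D)^[ij.2] g) := by
  induction k with
  | zero => simp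
  | succ k ih =>
    rw [Finset.sum_antidiagonal_choose_succ_mul (fun i j => (⇑D)^[i] f * (⇑D)^[j] g) k,
      Function.iterate_succ_apply', ih, map_sum, ← Finset.sum_add_distrib]
    refine Finset.sum_congr rfl fun ij hij => ?_
    have h1 : k.choose ij.2 = k.choose ij.1 := by
      rw [Finset.HasAntidiagonal.mem_antidiagonal] at hij
      exact Nat.choose_symm_of_eq_add (by omega)
    rw [h1, Function.iterate_succ_apply', Function.iterate_succ_apply', Derivation.leibniz,
      Derivation.leibniz, Derivation.map_natCast, smul_zero, add_zero, smul_eq_mul, smul_eq_mul,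
      smul_eq_mul]
    ring

/-- The exponential of a derivation of a `ℚ`-algebra is a ring homomorphism `A → A⟦s⟧`. -/
theorem exists_exp {A : Type} [CommRing A] [Algebra ℚ A] (D : Derivation ℤ A A) :
    ∃ T : A →+* PowerSeries A, ∀ (k : ℕ) (f : A),
      PowerSeries.coeff k (T f) = ((k ! : ℚ)⁻¹) • (⇑D)^[k] f := by
  refine ⟨{ toFun := fun f => PowerSeries.mk fun k => ((k ! : ℚ)⁻¹) • (⇑D)^[k] f
            map_one' := ?_
            map_mul' := ?_
            map_zero' := ?_
            map_add' := ?_ }, fun k f => ?_⟩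
  · ext k
    rw [PowerSeries.coeff_mk, PowerSeries.coeff_one]
    cases k with
    | zero => simp
    | succ k =>
      rw [Function.iterate_succ_apply, Derivation.map_one_eq_zero, iterate_map_zero, smul_zero,
        if_neg (Nat.succ_ne_zero k)]
  · intro f g
    ext k
    rw [PowerSeries.coeff_mk, PowerSeries.coeff_mul, expA_leibniz, Finset.smul_sum]
    refine Finset.sum_congr rfl fun ij hij => ?_
    rw [PowerSeries.coeff_mk, PowerSeries.coeff_mk, smul_mul_smul_comm, ← nsmul_eq_mul,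
      ← Nat.cast_smul_eq_nsmul ℚ, smul_smul]
    congr 1
    rw [Finset.HasAntidiagonal.mem_antidiagonal] at hij
    have h2 : k.choose ij.1 * ij.1 ! * ij.2 ! = k ! := by
      have := Nat.choose_mul_factorial_mul_factorial (n := k) (k := ij.1) (by omega)
      rwa [show k - ij.1 = ij.2 by omega] at this
    have h3 : ((k.choose ij.1 : ℚ)) * (ij.1 ! : ℚ) * (ij.2 ! : ℚ) = (k ! : ℚ) := by
      exact_mod_cast h2
    have hk : (k ! : ℚ) ≠ 0 := by exact_mod_cast Nat.factorial_ne_zero k
    have hi : (ij.1 ! : ℚ) ≠ 0 := by exact_mod_cast Nat.factorial_ne_zero ij.1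
    have hj : (ij.2 ! : ℚ) ≠ 0 := by exact_mod_cast Nat.factorial_ne_zero ij.2
    rw [inv_mul_eq_iff_eq_mul₀ hk, ← h3]
    field_simp
  · ext k
    rw [PowerSeries.coeff_mk, iterate_map_zero, smul_zero, map_zero]
  · intro f g
    ext k
    rw [PowerSeries.coeff_mk, iterate_map_add, smul_add, map_add, PowerSeries.coeff_mk,
      PowerSeries.coeff_mk]
  · show PowerSeries.coeff k (PowerSeries.mk fun k => ((k ! : ℚ)⁻¹) • (⇑D)^[k] f) = _
    rw [PowerSeries.coeff_mk]

end Vale.Agent.P282.WR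
end
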