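import Mathlib
import Vale.Agent.P282.Full.Germ
import Vale.Agent.P282.Bd3.B1
import Vale.Agent.P282.Bd3.B2

set_option linter.all false

namespace AFast4f9747x7a
theorem a0 {x1 : ℕ} : OpensMeasurableSpace (Fin x1 → ℂ) := inferInstance
theorem a1 : SecondCountableTopology ℂ := inferInstance
theorem a2 : TopologicalSpace.SeparableSpace ℂ := inferInstance
@[reducible] noncomputable def a3 : DistribMulAction ℝ ℂ := inferInstance
theorem a4 : SigmaCompactSpace ℂ := inferInstance
@[reducible] noncomputable def a5 : MeasureTheory.MeasureSpace ℂ := inferInstance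
@[reducible] noncomputable def a6 {x1 : ℕ} : MeasureTheory.MeasureSpace (Fin x1 → ℂ) := inferInstance
theorem a7 : TopologicalSpace.IsCompletelyMetrizableSpace ℂ := inferInstance
theorem a8 : PolishSpace ℂ := inferInstance
@[reducible] noncomputable def a9 : SMulZeroClass ℝ ℂ := inferInstance
@[reducible] noncomputable def a10 {x1 : ℕ} : Module ℝ (Fin x1 → ℂ) := inferInstance
@[reducible] noncomputable def a11 : DistribSMul ℝ ℂ := inferInstance
theorem a12 : CovariantClass ℝ ℝ (Function.swap fun x1 x2 => x1 + x2) fun x1 x2 => x1 ≤ x2 := inferInstance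
theorem a13 : IsTopologicalRing ℂ := inferInstance
@[reducible] noncomputable def a14 {x1 : ℕ} {x2 : Type} [x3 : Field x2] [x4 : Algebra (FractionRing (Vale.Agent.P282.L2.Pol x1)) x2] : Module (FractionRing (Vale.Agent.P282.L2.Pol x1)) x2 := inferInstance
theorem a15 : CharZero ℝ := inferInstance
@[reducible] noncomputable def a16 : MulAction ℝ ℂ := inferInstance
theorem a17 : ContinuousAdd ℂ := inferInstance
theorem a18 {x1 : ℕ} : ContinuousSMul ℂ (Fin x1 → ℂ) := inferInstance
theorem a19 : IsTopologicalAddGroup ℂ := inferInstance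
theorem a20 : WeaklyLocallyCompactSpace ℂ := inferInstance
theorem a21 : LocallyCompactSpace ℂ := inferInstance
theorem a22 : IsTopologicalSemiring ℂ := inferInstance
theorem a23 : IsSemitopologicalSemiring ℂ := inferInstance
theorem a24 : AddLeftMono ℝ := inferInstance
theorem a25 : IsSemitopologicalRing ℂ := inferInstance
theorem a26 : IsModuleTopology ℂ ℂ := inferInstance
theorem a27 {x1 : Type} [x2 : Field x1] : MulHomClass (Valuation x1 NNReal) x1 NNReal := inferInstance
theorem a28 : AddRightStrictMono ℝ := inferInstance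
theorem a29 : ContinuousSMul ℝ ℂ := inferInstance
theorem a30 : @MeasureTheory.SigmaFinite Real (@MeasureTheory.MeasureSpace.toMeasurableSpace Real Real.measureSpace) (@MeasureTheory.volume Real Real.measureSpace) := inferInstance
theorem a31 : AddRightReflectLE ℝ := inferInstance
theorem a32 : ContinuousSMul ℂ ℂ := inferInstance
theorem a33 : SeparatelyContinuousAdd ℂ := inferInstance
theorem a34 {x1 : ℕ} : ContinuousAdd (Fin x1 → ℂ) := inferInstance
theorem a35 : CovariantClass ENNReal ENNReal (Function.swap fun x1 x2 => x1 * x2) fun x1 x2 => x1 ≤ x2 := inferInstance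
theorem a36 : IsRightCancelAdd ℝ := inferInstance
@[reducible] noncomputable def a37 {x1 : ℕ} : SMul (Vale.Agent.P282.L2.Pol x1) (OreLocalization (nonZeroDivisors (Vale.Agent.P282.L2.Pol x1)) (Vale.Agent.P282.L2.Pol x1)) := inferInstance
@[reducible] noncomputable def a38 {x1 : ℕ} : DivisionRing (OreLocalization (nonZeroDivisors (Vale.Agent.P282.L2.Pol x1)) (Vale.Agent.P282.L2.Pol x1)) := inferInstance
theorem a39 : TopologicalSpace.IsCompletelyPseudoMetrizableSpace ℂ := inferInstance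
theorem a40 : PosMulStrictMono ℝ := inferInstance
theorem a41 : @MeasureTheory.Measure.InnerRegularCompactLTTop Complex (@MeasureTheory.MeasureSpace.toMeasurableSpace Complex (@measureSpaceOfInnerProductSpace Complex Complex.instNormedAddCommGroup instInnerProductSpaceRealComplex Complex.instFiniteDimensionalReal Complex.measurableSpace Complex.borelSpace)) (@UniformSpace.toTopologicalSpace Complex (@PseudoMetricSpace.toUniformSpace Complex (@SeminormedRing.toPseudoMetricSpace Complex (@SeminormedCommRing.toSeminormedRing Complex (@NormedCommRing.toSeminormedCommRing Complex (@CommCStarAlgebra.toNormedCommRing Complex instCommCStarAlgebraComplex)))))) (@MeasureTheory.volume Complex (@measureSpaceOfInnerProductSpace Complex Complex.instNormedAddCommGroup instInnerProductSpaceRealComplex Complex.instFiniteDimensionalReal Complex.measurableSpace Complex.borelSpace)) := inferInstance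
theorem a42 {x1 : ℕ} : SecondCountableTopology (Fin x1 → ℂ) := inferInstance
theorem a43 {x1 : ℕ} : SecondCountableTopologyEither (Fin x1 → ℂ) ℂ := inferInstance
theorem a44 : AddLeftReflectLE ℝ := inferInstance
theorem a45 : AddMonoidHomClass (ℂ →+* ℂ) ℂ ℂ := inferInstance
theorem a46 : DistribMulActionSemiHomClass (ℂ →+* ℂ) ⇑(RingHom.id ℚ≥0) ℂ ℂ := inferInstance
theorem a47 : ContravariantClass ℝ ℝ (fun x1 x2 => x1 + x2) fun x1 x2 => x1 < x2 := inferInstance
@[reducible] def a48 : Monoid ℂ := inferInstance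
theorem a49 {x1 : ℕ} : MeasurableAdd (Fin x1 → ℂ) := inferInstance
theorem a50 : PosMulReflectLT ℝ := inferInstance
@[reducible] def a51 {x1 : Type} [x2 : CommRing x1] {x3 : Ideal x1} [x4 : Algebra ℂ x1] : Module ℂ (x1 ⧸ x3) := inferInstance
theorem a52 {x1 : ℕ} : MeasurableNeg (Fin x1 → ℂ) := inferInstance
theorem a53 : IsTopologicalDivisionRing ℂ := inferInstance
theorem a54 : CovariantClass NNReal NNReal (Function.swap fun x1 x2 => x1 * x2) fun x1 x2 => x1 ≤ x2 := inferInstance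
theorem a55 : IsLeftCancelAdd ℝ := inferInstance
theorem a56 : PosMulReflectLE ℝ := inferInstance
@[reducible] noncomputable def a57 : TopologicalSpace (ℂ →L[ℝ] ℂ) := inferInstance
theorem a58 : @MeasureTheory.SFinite Real (@MeasureTheory.MeasureSpace.toMeasurableSpace Real Real.measureSpace) (@MeasureTheory.volume Real Real.measureSpace) := inferInstance
theorem a59 : OrderClosedTopology ℝ := inferInstance
@[reducible] noncomputable def a60 {x1 : ℕ} : NormedAddCommGroup ((Fin x1 → ℂ) →L[ℝ] ℂ) := inferInstance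
theorem a61 : CovariantClass NNReal NNReal (Function.swap fun x1 x2 => x1 + x2) fun x1 x2 => x1 ≤ x2 := inferInstance
@[reducible] noncomputable def a62 {x1 : Type} [x2 : Field x1] [x3 : Algebra ℂ x1] : Module ℂ Ω[x1⁄ℂ] := inferInstance
@[reducible] noncomputable def a63 : NormedSpace ℝ ℝ := inferInstance
theorem a64 {x1 : Type} [x2 : Field x1] : MonoidHomClass (Valuation x1 NNReal) x1 NNReal := inferInstance
theorem a65 : MulLeftMono ENNReal := inferInstance
@[reducible] def a66 {x1 : ℕ} {x2 : Fin x1} : SemigroupAction ℂ ((fun a => ℂ) x2) := inferInstance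
@[reducible] noncomputable def a67 {x1 : ℕ} : NormedSpace ℝ (Fin x1 → ℂ) := inferInstance
theorem a68 : ContinuousNeg ℂ := inferInstance
@[reducible] def a69 : SMulZeroClass ℂ ℂ := inferInstance
@[reducible] noncomputable def a70 {x1 : ℕ} : CommMonoid (Vale.Agent.P282.L2.Pol x1) := inferInstance
end AFast4f9747x7a
attribute [local instance] AFast4f9747x7a.a0 AFast4f9747x7a.a1 AFast4f9747x7a.a2 AFast4f9747x7a.a3
  AFast4f9747x7a.a4 AFast4f9747x7a.a5 AFast4f9747x7a.a6 AFast4f9747x7a.a7 AFast4f9747x7a.a8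
  AFast4f9747x7a.a9 AFast4f9747x7a.a10 AFast4f9747x7a.a11 AFast4f9747x7a.a12 AFast4f9747x7a.a13
  AFast4f9747x7a.a14 AFast4f9747x7a.a15 AFast4f9747x7a.a16 AFast4f9747x7a.a17 AFast4f9747x7a.a18
  AFast4f9747x7a.a19 AFast4f9747x7a.a20 AFast4f9747x7a.a21 AFast4f9747x7a.a22 AFast4f9747x7a.a23
  AFast4f9747x7a.a24 AFast4f9747x7a.a25 AFast4f9747x7a.a26 AFast4f9747x7a.a27 AFast4f9747x7a.a28
  AFast4f9747x7a.a29 AFast4f9747x7a.a30 AFast4f9747x7a.a31 AFast4f9747x7a.a32 AFast4f9747x7a.a33
  AFast4f9747x7a.a34 AFast4f9747x7a.a35 AFast4f9747x7a.a36 AFast4f9747x7a.a37 AFast4f9747x7a.a38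
  AFast4f9747x7a.a39 AFast4f9747x7a.a40 AFast4f9747x7a.a41 AFast4f9747x7a.a42 AFast4f9747x7a.a43
  AFast4f9747x7a.a44 AFast4f9747x7a.a45 AFast4f9747x7a.a46 AFast4f9747x7a.a47 AFast4f9747x7a.a48
  AFast4f9747x7a.a49 AFast4f9747x7a.a50 AFast4f9747x7a.a51 AFast4f9747x7a.a52 AFast4f9747x7a.a53
  AFast4f9747x7a.a54 AFast4f9747x7a.a55 AFast4f9747x7a.a56 AFast4f9747x7a.a57 AFast4f9747x7a.a58
  AFast4f9747x7a.a59 AFast4f9747x7a.a60 AFast4f9747x7a.a61 AFast4f9747x7a.a62 AFast4f9747x7a.a63
  AFast4f9747x7a.a64 AFast4f9747x7a.a65 AFast4f9747x7a.a66 AFast4f9747x7a.a67 AFast4f9747x7a.a68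
  AFast4f9747x7a.a69 AFast4f9747x7a.a70
namespace AFast4f9747x7b
@[reducible] def a0 {x1 : ℕ} {x2 : Type} [x3 : Field x2] [x4 : Algebra (Vale.Agent.P282.L2.Pol x1) x2] : SMul (Vale.Agent.P282.L2.Pol x1) x2 := inferInstance
@[reducible] noncomputable def a1 : Module ℝ ℂ := inferInstance
theorem a2 {x1 : Nat} : @MeasureTheory.IsFiniteMeasureOnCompacts (Fin x1 → Complex) (@MeasureTheory.MeasureSpace.toMeasurableSpace (Fin x1 → Complex) (@MeasureTheory.MeasureSpace.pi (Fin x1) (Fin.fintype x1) (fun a => Complex) fun i => @measureSpaceOfInnerProductSpace Complex Complex.instNormedAddCommGroup instInnerProductSpaceRealComplex Complex.instFiniteDimensionalReal Complex.measurableSpace Complex.borelSpace)) (@Pi.topologicalSpace (Fin x1) (fun a => Complex) fun i => @UniformSpace.toTopologicalSpace ((fun a => Complex) i) ((fun i => @PseudoEMetricSpace.toUniformSpace ((fun a => Complex) i) ((fun b => @PseudoMetricSpace.toPseudoEMetricSpace ((fun a => Complex) b) ((fun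 b => @SeminormedRing.toPseudoMetricSpace Complex (@SeminormedCommRing.toSeminormedRing Complex (@NormedCommRing.toSeminormedCommRing Complex (@CommCStarAlgebra.toNormedCommRing Complex instCommCStarAlgebraComplex)))) b)) i)) i)) (@MeasureTheory.volume (Fin x1 → Complex) (@MeasureTheory.MeasureSpace.pi (Fin x1) (Fin.fintype x1) (fun a => Complex) fun i => @measureSpaceOfInnerProductSpace Complex Complex.instNormedAddCommGroup instInnerProductSpaceRealComplex Complex.instFiniteDimensionalReal Complex.measurableSpace Complex.borelSpace)) := inferInstance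
@[reducible] def a3 {x1 : ℕ} {x2 : Type} [x3 : Field x2] [x4 : Algebra (FractionRing (Vale.Agent.P282.L2.Pol x1)) x2] : SMul (FractionRing (Vale.Agent.P282.L2.Pol x1)) x2 := inferInstance
theorem a4 {x1 : Nat} : @MeasureTheory.Measure.IsNegInvariant (Fin x1 → Complex) (@MeasureTheory.MeasureSpace.toMeasurableSpace (Fin x1 → Complex) (@MeasureTheory.MeasureSpace.pi (Fin x1) (Fin.fintype x1) (fun a => Complex) fun i => @measureSpaceOfInnerProductSpace Complex Complex.instNormedAddCommGroup instInnerProductSpaceRealComplex Complex.instFiniteDimensionalReal Complex.measurableSpace Complex.borelSpace)) (@Pi.instNeg (Fin x1) (fun a => Complex) fun i => @NegZeroClass.toNeg Complex (@SubNegZeroMonoid.toNegZeroClass Complex (@SubtractionMonoid.toSubNegZeroMonoid Complex (@AddGroup.toSubtractionMonoid Complex (@AddGroupWithOne.toAddGroup Complex Complex.addGroupWithOne))))) (@MeasureTheory.volume (Fin x1 → Complex) (@MeasureTheory.MeasureSpace.pi (Fin x1) (Fin.fintype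 x1) (fun a => Complex) fun i => @measureSpaceOfInnerProductSpace Complex Complex.instNormedAddCommGroup instInnerProductSpaceRealComplex Complex.instFiniteDimensionalReal Complex.measurableSpace Complex.borelSpace)) := inferInstance
theorem a5 : SMulCommClass ℝ ℝ ℂ := inferInstance
theorem a6 {x1 : Nat} : @MeasureTheory.SFinite (Fin x1 → Complex) (@MeasureTheory.MeasureSpace.toMeasurableSpace (Fin x1 → Complex) (@MeasureTheory.MeasureSpace.pi (Fin x1) (Fin.fintype x1) (fun a => Complex) fun i => @measureSpaceOfInnerProductSpace Complex Complex.instNormedAddCommGroup instInnerProductSpaceRealComplex Complex.instFiniteDimensionalReal Complex.measurableSpace Complex.borelSpace)) (@MeasureTheory.volume (Fin x1 → Complex) (@MeasureTheory.MeasureSpace.pi (Fin x1) (Fin.fintype x1) (fun a => Complex) fun i => @measureSpaceOfInnerProductSpace Complex Complex.instNormedAddCommGroup instInnerProductSpaceRealComplex Complex.instFiniteDimensionalReal Complex.measurableSpace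 Complex.borelSpace)) := inferInstance
@[reducible] noncomputable def a7 : Module ℝ (ℂ →L[ℝ] ℂ) := inferInstance
@[reducible] noncomputable def a8 {x1 : ℕ} : NormedSpace ℝ ((Fin x1 → ℂ) →L[ℝ] ℂ) := inferInstance
theorem a9 {x1 : Type} [x2 : Field x1] [x3 : Algebra ℂ x1] : AddHomClass (Derivation ℂ x1 x1) x1 x1 := inferInstance
theorem a10 {x1 : ℕ} : BorelSpace (Fin x1 → ℂ) := inferInstance
theorem a11 {x1 : Nat} : @MeasureTheory.SigmaFinite (Fin x1 → Complex) (@MeasureTheory.MeasureSpace.toMeasurableSpace (Fin x1 → Complex) (@MeasureTheory.MeasureSpace.pi (Fin x1) (Fin.fintype x1) (fun a => Complex) fun i => @measureSpaceOfInnerProductSpace Complex Complex.instNormedAddCommGroup instInnerProductSpaceRealComplex Complex.instFiniteDimensionalReal Complex.measurableSpace Complex.borelSpace)) (@MeasureTheory.volume (Fin x1 → Complex) (@MeasureTheory.MeasureSpace.pi (Fin x1) (Fin.fintype x1) (fun a => Complex) fun i => @measureSpaceOfInnerProductSpace Complex Complex.instNormedAddCommGroup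 instInnerProductSpaceRealComplex Complex.instFiniteDimensionalReal Complex.measurableSpace Complex.borelSpace)) := inferInstance
theorem a12 : @MeasureTheory.Measure.IsNegInvariant Complex (@MeasureTheory.MeasureSpace.toMeasurableSpace Complex (@measureSpaceOfInnerProductSpace Complex Complex.instNormedAddCommGroup instInnerProductSpaceRealComplex Complex.instFiniteDimensionalReal Complex.measurableSpace Complex.borelSpace)) (@NegZeroClass.toNeg Complex (@SubNegZeroMonoid.toNegZeroClass Complex (@SubtractionMonoid.toSubNegZeroMonoid Complex (@SubtractionCommMonoid.toSubtractionMonoid Complex (@AddCommGroup.toDivisionAddCommMonoid Complex Complex.addCommGroup))))) (@MeasureTheory.volume Complex (@measureSpaceOfInnerProductSpace Complex Complex.instNormedAddCommGroup instInnerProductSpaceRealComplex Complex.instFiniteDimensionalReal Complex.measurableSpace Complex.borelSpace)) := inferInstance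
theorem a13 : @MeasureTheory.Measure.InnerRegular Complex (@MeasureTheory.MeasureSpace.toMeasurableSpace Complex (@measureSpaceOfInnerProductSpace Complex Complex.instNormedAddCommGroup instInnerProductSpaceRealComplex Complex.instFiniteDimensionalReal Complex.measurableSpace Complex.borelSpace)) (@UniformSpace.toTopologicalSpace Complex (@PseudoMetricSpace.toUniformSpace Complex (@SeminormedRing.toPseudoMetricSpace Complex (@SeminormedCommRing.toSeminormedRing Complex (@NormedCommRing.toSeminormedCommRing Complex (@CommCStarAlgebra.toNormedCommRing Complex instCommCStarAlgebraComplex)))))) (@MeasureTheory.volume Complex (@measureSpaceOfInnerProductSpace Complex Complex.instNormedAddCommGroup instInnerProductSpaceRealComplex Complex.instFiniteDimensionalReal Complex.measurableSpace Complex.borelSpace)) := inferInstance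
theorem a14.{u1} {x1 : Type u1} [x2 : CommRing x1] [x3 : IsDomain x1] [x4 : IsDiscreteValuationRing x1] : AddHomClass (x1 →+* IsLocalRing.ResidueField x1) x1 (IsLocalRing.ResidueField x1) := inferInstance
theorem a15 {x1 : ℕ} {x2 : Type} [x3 : Field x2] [x4 : Algebra (FractionRing (Vale.Agent.P282.L2.Pol x1)) x2] [x5 : FiniteDimensional (FractionRing (Vale.Agent.P282.L2.Pol x1)) x2] : Algebra.IsAlgebraic (FractionRing (Vale.Agent.P282.L2.Pol x1)) x2 := inferInstance
theorem a16 {x1 : Nat} : @MeasureTheory.Measure.IsAddLeftInvariant (Fin x1 → Complex) (@MeasureTheory.MeasureSpace.toMeasurableSpace (Fin x1 → Complex) (@MeasureTheory.MeasureSpace.pi (Fin x1) (Fin.fintype x1) (fun a => Complex) fun i => @measureSpaceOfInnerProductSpace Complex Complex.instNormedAddCommGroup instInnerProductSpaceRealComplex Complex.instFiniteDimensionalReal Complex.measurableSpace Complex.borelSpace)) (@Pi.instAdd (Fin x1) (fun a => Complex) fun i => @AddZero.toAdd Complex (@AddZeroClass.toAddZero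 Complex (@AddMonoid.toAddZeroClass Complex (@SubNegMonoid.toAddMonoid Complex (@AddGroup.toSubNegMonoid Complex (@AddGroupWithOne.toAddGroup Complex Complex.addGroupWithOne)))))) (@MeasureTheory.volume (Fin x1 → Complex) (@MeasureTheory.MeasureSpace.pi (Fin x1) (Fin.fintype x1) (fun a => Complex) fun i => @measureSpaceOfInnerProductSpace Complex Complex.instNormedAddCommGroup instInnerProductSpaceRealComplex Complex.instFiniteDimensionalReal Complex.measurableSpace Complex.borelSpace)) := inferInstance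
theorem a17.{u1, u2, u3} {x1 : Type u1} {x2 : Type u2} {x3 : Type u3} [x4 : CommRing x1] [x5 : CommRing x2] [x6 : CommRing x3] [x7 : Algebra x1 x2] [x8 : Algebra x1 x3] : AddHomClass (x2 →ₐ[x1] x3) x2 x3 := inferInstance
theorem a18 {x1 : Nat} : @MeasureTheory.Measure.IsOpenPosMeasure (Fin x1 → Complex) (@Pi.topologicalSpace (Fin x1) (fun a => Complex) fun i => @UniformSpace.toTopologicalSpace ((fun a => Complex) i) ((fun i => @PseudoEMetricSpace.toUniformSpace ((fun a => Complex) i) ((fun b => @PseudoMetricSpace.toPseudoEMetricSpace ((fun a => Complex) b) ((fun b => @SeminormedRing.toPseudoMetricSpace Complex (@SeminormedCommRing.toSeminormedRing Complex (@NormedCommRing.toSeminormedCommRing Complex (@CommCStarAlgebra.toNormedCommRing Complex instCommCStarAlgebraComplex)))) b)) i)) i)) (@MeasureTheory.MeasureSpace.toMeasurableSpace (Fin x1 → Complex) (@MeasureTheory.MeasureSpace.pi (Fin x1) (Fin.fintype x1) (fun a => Complex) fun i => @measureSpaceOfInnerProductSpace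 Complex Complex.instNormedAddCommGroup instInnerProductSpaceRealComplex Complex.instFiniteDimensionalReal Complex.measurableSpace Complex.borelSpace)) (@MeasureTheory.volume (Fin x1 → Complex) (@MeasureTheory.MeasureSpace.pi (Fin x1) (Fin.fintype x1) (fun a => Complex) fun i => @measureSpaceOfInnerProductSpace Complex Complex.instNormedAddCommGroup instInnerProductSpaceRealComplex Complex.instFiniteDimensionalReal Complex.measurableSpace Complex.borelSpace)) := inferInstance
theorem a19.{u1, u2, u3} {x1 : Type u1} {x2 : Type u2} {x3 : Type u3} [x4 : CommRing x1] [x5 : CommRing x2] [x6 : CommRing x3] [x7 : Algebra x1 x2] [x8 : Algebra x1 x3] : LinearMapClass (x2 →ₐ[x1] x3) x1 x2 x3 := inferInstance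
theorem a20 : Module.Free ℝ ℂ := inferInstance
theorem a21 : Module.Flat ℝ ℂ := inferInstance
theorem a22.{u1} {x1 : Type u1} [x2 : CommRing x1] [x3 : IsDomain x1] [x4 : IsDiscreteValuationRing x1] : AddMonoidHomClass (x1 →+* IsLocalRing.ResidueField x1) x1 (IsLocalRing.ResidueField x1) := inferInstance
theorem a23 : Module.FaithfullyFlat ℝ ℂ := inferInstance
theorem a24 : ContinuousSMul ℚ≥0 ℝ := inferInstance
theorem a25 : IsScalarTower ℚ≥0 ℚ ℝ := inferInstance
@[reducible] noncomputable def a26 : Module ℚ ℝ := inferInstance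
end AFast4f9747x7b
attribute [local instance] AFast4f9747x7b.a0 AFast4f9747x7b.a1 AFast4f9747x7b.a2 AFast4f9747x7b.a3
  AFast4f9747x7b.a4 AFast4f9747x7b.a5 AFast4f9747x7b.a6 AFast4f9747x7b.a7 AFast4f9747x7b.a8
  AFast4f9747x7b.a9 AFast4f9747x7b.a10 AFast4f9747x7b.a11 AFast4f9747x7b.a12 AFast4f9747x7b.a13
  AFast4f9747x7b.a14 AFast4f9747x7b.a15 AFast4f9747x7b.a16 AFast4f9747x7b.a17 AFast4f9747x7b.a18
  AFast4f9747x7b.a19 AFast4f9747x7b.a20 AFast4f9747x7b.a21 AFast4f9747x7b.a22 AFast4f9747x7b.a23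
  AFast4f9747x7b.a24 AFast4f9747x7b.a25 AFast4f9747x7b.a26
section

set_option linter.all false

open scoped NNReal ENNReal Nat WithZero
open IsLocalRing

namespace Vale.Agent.P282.Full

open Vale.Agent.P282.L2

section field

variable {n r : ℕ} {K : Type} [Field K] [Algebra ℂ K]

/-- `L₁, …, Lₙ` are logarithmic derivations for `v`, and `ζ₁, …, ζₙ` are log coordinates. -/
structure LogFrame {Γ : Type} [LinearOrderedCommGroupWithZero Γ] (v : Valuation K Γ)
    (L : Fin n → Derivation ℂ K K) (ζ : Fin n → K) : Prop where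
  le : ∀ i b, v (L i b) ≤ v b
  ne_zero : ∀ i, ζ i ≠ 0
  eq : v (Matrix.det (Matrix.of fun i j => L i (ζ j))) = v (∏ i, ζ i)

variable [Algebra (Pol n) K] [IsScalarTower ℂ (Pol n) K] [FaithfulSMul (Pol n) K]
  [Algebra (FractionRing (Pol n)) K] [IsScalarTower (Pol n) (FractionRing (Pol n)) K]
  [FiniteDimensional (FractionRing (Pol n)) K]

theorem forms_tb (n : ℕ) (K : Type) [Field K] [Algebra ℂ K] [Algebra (Pol n) K]
    [IsScalarTower ℂ (Pol n) K] [FaithfulSMul (Pol n) K]
    [Algebra (FractionRing (Pol n)) K] [IsScalarTower (Pol n) (FractionRing (Pol n)) K]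
    [FiniteDimensional (FractionRing (Pol n)) K] :
    IsTranscendenceBasis ℂ (fun i : Fin n => algebraMap (Pol n) K (MvPolynomial.X i)) := by
  have halg : Algebra.IsAlgebraic (Pol n) K :=
    (IsFractionRing.comap_isAlgebraic_iff (A := Pol n) (K := FractionRing (Pol n)) (C := K)).mpr
      inferInstance
  exact (IsTranscendenceBasis.mvPolynomial (Fin n) ℂ).algebraMap_comp (A := K)

/-- Derivations of `K` in terms of a basis of the differentials. -/
theorem forms_repr {x : Fin n → K} (b : Module.Basis (Fin n) K (Ω[K⁄ℂ]))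
    (hb : ∀ i, b i = KaehlerDifferential.D ℂ K (x i)) (D : Derivation ℂ K K) (z : K) :
    D z = ∑ k, b.repr (KaehlerDifferential.D ℂ K z) k * D (x k) := by
  have h4 : ∀ z, D z = D.liftKaehlerDifferential (KaehlerDifferential.D ℂ K z) := by
    intro z
    rw [Derivation.liftKaehlerDifferential_comp_D]
  rw [h4 z]
  conv_lhs => rw [← b.sum_repr (KaehlerDifferential.D ℂ K z)]
  rw [map_sum]
  refine Finset.sum_congr rfl fun k _ => ?_
  rw [map_smul, hb, ← h4, smul_eq_mul]

theorem exists_partials (n : ℕ) (K : Type) [Field K] [Algebra ℂ K] [Algebra (Pol n) K]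
    [IsScalarTower ℂ (Pol n) K] [FaithfulSMul (Pol n) K]
    [Algebra (FractionRing (Pol n)) K] [IsScalarTower (Pol n) (FractionRing (Pol n)) K]
    [FiniteDimensional (FractionRing (Pol n)) K] :
    ∃ d : Fin n → Derivation ℂ K K, IsPartials d := by
  obtain ⟨b, hb⟩ := exists_kaehler_basis _ (forms_tb n K)
  refine ⟨fun i => KaehlerDifferential.linearMapEquivDerivation ℂ K (M := K) (b.coord i),
    fun i j => ?_⟩
  have h1 : KaehlerDifferential.linearMapEquivDerivation ℂ K (M := K) (b.coord i)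
      (algebraMap (Pol n) K (MvPolynomial.X j)) =
      b.repr (KaehlerDifferential.D ℂ K (algebraMap (Pol n) K (MvPolynomial.X j))) i := rfl
  rw [h1, ← hb, Module.Basis.repr_self, Finsupp.single_apply]
  simp [eq_comm]

/-- Derivations of `K` are combinations of the `∂/∂z_j`. -/
theorem derivation_eq {d : Fin n → Derivation ℂ K K} (hd : IsPartials d) (D : Derivation ℂ K K)
    (b : K) : D b = ∑ j, D (algebraMap (Pol n) K (MvPolynomial.X j)) * d j b := by
  obtain ⟨B, hB⟩ := exists_kaehler_basis _ (forms_tb n K)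
  have h1 : ∀ j, d j b = B.repr (KaehlerDifferential.D ℂ K b) j := by
    intro j
    rw [forms_repr B hB (d j) b]
    simp only [hd j]
    simp
  rw [forms_repr B hB D b]
  refine Finset.sum_congr rfl fun k _ => ?_
  rw [h1 k, mul_comm]

theorem forms_det {d : Fin n → Derivation ℂ K K} (hd : IsPartials d)
    (D : Fin n → Derivation ℂ K K) (b : Fin n → K) :
    Matrix.det (Matrix.of fun i j => D i (b j)) =
      Matrix.det (Matrix.of fun i j => D i (algebraMap (Pol n) K (MvPolynomial.X j))) *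
        jac d b := by
  unfold jac
  rw [← Matrix.det_mul]
  congr 1
  ext i j
  rw [Matrix.mul_apply, Matrix.of_apply, derivation_eq hd]
  rfl

/-- A pluricanonical form is determined by its value on `∂/∂z₁, …, ∂/∂zₙ`. -/
theorem form_eval {d : Fin n → Derivation ℂ K K} (hd : IsPartials d)
    {ω : (Fin n → Derivation ℂ K K) → K} (hω : IsPluriForm n r ω) :
    ω d ≠ 0 ∧ ∀ D, ω D = ω d * Matrix.det (Matrix.of fun i j =>
      D i (algebraMap (Pol n) K (MvPolynomial.X j))) ^ r := by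
  obtain ⟨⟨D0, hD0⟩, g, b, hgb⟩ := hω
  have h1 : ∀ D, ω D = ω d * Matrix.det (Matrix.of fun i j =>
      D i (algebraMap (Pol n) K (MvPolynomial.X j))) ^ r := by
    intro D
    rw [hgb D, forms_det hd D b, hgb d]
    unfold jac
    ring
  refine ⟨fun h0 => hD0 ?_, h1⟩
  rw [h1 D0, h0, zero_mul]

/-- Multiplicativity: `ω D = ω L * det ^ r` for a frame `L`. -/
theorem form_frame {ω : (Fin n → Derivation ℂ K K) → K} (hω : IsPluriForm n r ω)
    (L : Fin n → Derivation ℂ K K) (ζ : Fin n → K)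
    (hζ : Matrix.det (Matrix.of fun i j => L i (ζ j)) ≠ 0) :
    ω L ≠ 0 ∧ ∀ D, ω D * Matrix.det (Matrix.of fun i j => L i (ζ j)) ^ r =
      ω L * Matrix.det (Matrix.of fun i j => D i (ζ j)) ^ r := by
  obtain ⟨d, hd⟩ := exists_partials n K
  obtain ⟨hd0, he⟩ := form_eval hd hω
  have hL := forms_det hd L ζ
  rw [hL] at hζ
  refine ⟨?_, fun D => ?_⟩
  · rw [he L]
    exact mul_ne_zero hd0 (pow_ne_zero _ (left_ne_zero_of_mul hζ))
  · rw [he D, he L, hL, forms_det hd D ζ]
    ring

/-- The set whose supremum is the log discrepancy, in terms of `hfun`. -/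
theorem logset_iff {d : Fin n → Derivation ℂ K K} (hd : IsPartials d)
    {ω : (Fin n → Derivation ℂ K K) → K} (hω : IsPluriForm n r ω) (b : Fin n → K)
    (hb : ∀ i, b i ≠ 0) (h : K) :
    (∀ D : Fin n → Derivation ℂ K K,
      (∏ i, b i) ^ r * ω D = h * Matrix.det (Matrix.of fun i j => D i (b j)) ^ r) ↔
      (∏ i, b i) ^ r * ω d = h * jac d b ^ r := by
  constructor
  · intro H
    exact H d
  · intro H D
    rw [(form_eval hd hω).2 D, ← mul_assoc, H, forms_det hd D b]
    ring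

/-- The log discrepancy in the presence of a logarithmic frame. -/
theorem LogFrame.isLogDiscrepancy {v : Valuation K ℝ≥0} {L : Fin n → Derivation ℂ K K}
    {ζ : Fin n → K} (hL : LogFrame v L ζ) (hr : 0 < r) {ω : (Fin n → Derivation ℂ K K) → K}
    (hω : IsPluriForm n r ω) : IsLogDiscrepancy n r ω v (-Real.log (v (ω L)) / r) := by
  have hZ : (∏ i, ζ i) ≠ 0 := Finset.prod_ne_zero_iff.mpr fun i _ => hL.ne_zero i
  have hδ : Matrix.det (Matrix.of fun i j => L i (ζ j)) ≠ 0 := by
    intro h0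
    have h1 := hL.eq
    rw [h0, map_zero] at h1
    exact hZ ((v.zero_iff).1 h1.symm)
  obtain ⟨hωL, hfr⟩ := form_frame hω L ζ hδ
  set δ := Matrix.det (Matrix.of fun i j => L i (ζ j)) with hδdef
  refine IsGreatest.isLUB ⟨?_, ?_⟩
  · refine ⟨ζ, (∏ i, ζ i) ^ r * ω L / δ ^ r, hL.ne_zero, fun D => ?_, ?_⟩
    · have h1 := hfr D
      have h2 : (δ : K) ^ r ≠ 0 := pow_ne_zero _ hδ
      field_simp
      exact h1
    · have h1 : v ((∏ i, ζ i) ^ r * ω L / δ ^ r) = v (ω L) := by
        rw [map_div₀, map_mul, map_pow, map_pow, ← hL.eq]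
        have h3 : v δ ≠ 0 := (v.ne_zero_iff).2 hδ
        rw [← hδdef]
        field_simp
      rw [h1]
  · rintro t ⟨b, h, hb, hD, rfl⟩
    have h1 := hD L
    have hP : v (∏ i, b i) ≠ 0 :=
      (v.ne_zero_iff).2 (Finset.prod_ne_zero_iff.mpr fun i _ => hb i)
    have hdet : v (Matrix.det (Matrix.of fun i j => L i (b j))) ≤ v (∏ i, b i) := by
      rw [Matrix.det_apply]
      refine v.map_sum_le fun σ _ => ?_
      have h3 : ∀ x : K, v (Equiv.Perm.sign σ • x) = v x := by
        intro x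
        rcases Int.units_eq_one_or (Equiv.Perm.sign σ) with h | h
        · rw [h, one_smul]
        · rw [h]
          rw [Units.neg_smul, one_smul, Valuation.map_neg]
      rw [h3, map_prod, map_prod]
      exact Finset.prod_le_prod' fun j _ => hL.le _ _
    have h2 : v (∏ i, b i) ^ r * v (ω L) ≤ v h * v (∏ i, b i) ^ r := by
      have h4 := congrArg v h1
      rw [map_mul, map_pow, map_mul, map_pow] at h4
      rw [h4]
      gcongr
    have h5 : v (ω L) ≤ v h := by
      rw [mul_comm (v h)] at h2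
      exact le_of_mul_le_mul_left h2 (pow_pos (pos_iff_ne_zero.2 hP) r)
    have h6 : (0 : ℝ) < v (ω L) := by
      have : v (ω L) ≠ 0 := (v.ne_zero_iff).2 hωL
      exact_mod_cast pos_iff_ne_zero.2 this
    have h7 : Real.log (v (ω L)) ≤ Real.log (v h) := Real.log_le_log h6 (by exact_mod_cast h5)
    have h8 : (0 : ℝ) < r := by exact_mod_cast hr
    rw [div_le_div_iff_of_pos_right h8]
    linarith

end field

end Vale.Agent.P282.Full
end

section

open MeasureTheory Filter Topology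
open scoped ENNReal NNReal ComplexConjugate

namespace Vale.Agent.P282.L2

variable {n N : ℕ}

variable {K : Type} [Field K] [Algebra ℂ K] [Algebra (Pol n) K]
  [IsScalarTower ℂ (Pol n) K] [FaithfulSMul (Pol n) K]

theorem am_chain (d : Derivation ℂ K K) (b : Fin n → K) (Q : MvPolynomial (Fin n) ℂ) :
    d (MvPolynomial.aeval b Q) =
      ∑ j, MvPolynomial.aeval b (MvPolynomial.pderiv j Q) * d (b j) := by
  classical
  induction Q using MvPolynomial.induction_on with
  | C a => simp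
  | add p q hp hq => simp only [map_add, hp, hq, add_mul, Finset.sum_add_distrib]
  | mul_X p i hp =>
    rw [map_mul, MvPolynomial.aeval_X, Derivation.leibniz, hp]
    have h : ∀ j, MvPolynomial.aeval b (MvPolynomial.pderiv j (p * MvPolynomial.X i)) * d (b j) =
        b i * (MvPolynomial.aeval b (MvPolynomial.pderiv j p) * d (b j)) +
          (if i = j then MvPolynomial.aeval b p * d (b j) else 0) := by
      intro j
      rw [MvPolynomial.pderiv_mul, map_add, map_mul, map_mul, MvPolynomial.aeval_X,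
        MvPolynomial.pderiv_X]
      by_cases hij : i = j
      · subst hij
        simp
        ring
      · rw [if_neg hij, Pi.single_eq_of_ne (fun h => hij h)]
        simp
        ring
    simp only [h]
    rw [Finset.sum_add_distrib, Finset.sum_ite_eq, if_pos (Finset.mem_univ i), smul_eq_mul,
      smul_eq_mul, Finset.mul_sum]
    ring

theorem am_totalDegree {Q : MvPolynomial (Fin n) ℂ} {j : Fin n}
    (h : MvPolynomial.pderiv j Q ≠ 0) :
    (MvPolynomial.pderiv j Q).totalDegree < Q.totalDegree := by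
  have hne : (MvPolynomial.pderiv j Q).support.Nonempty :=
    Finset.nonempty_iff_ne_empty.2 (fun h0 => h (MvPolynomial.support_eq_empty.1 h0))
  obtain ⟨m, hm, hm'⟩ := Finset.exists_mem_eq_sup _ hne (fun s : Fin n →₀ ℕ => s.sum fun _ e => e)
  have h1 : (MvPolynomial.pderiv j Q).totalDegree = m.sum fun _ e => e := hm'
  have h2 : m + Finsupp.single j 1 ∈ Q.support := by
    rw [MvPolynomial.mem_support_iff] at hm ⊢
    rw [MvPolynomial.coeff_pderiv] at hm
    intro h0
    exact hm (by rw [h0]; simp)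
  have h3 := MvPolynomial.le_totalDegree h2
  rw [Finsupp.sum_add_index' (fun _ => rfl) (fun _ _ _ => rfl), Finsupp.sum_single_index rfl] at h3
  rw [h1]
  omega

theorem am_const {Q : MvPolynomial (Fin n) ℂ} (h : ∀ j, MvPolynomial.pderiv j Q = 0) :
    Q = MvPolynomial.C (MvPolynomial.coeff 0 Q) := by
  classical
  ext m
  rw [MvPolynomial.coeff_C]
  by_cases hm : 0 = m
  · rw [if_pos hm, hm]
  · rw [if_neg hm]
    obtain ⟨j, hj⟩ : ∃ j, m j ≠ 0 := by
      by_contra hcon
      exact hm (Finsupp.ext fun j => (not_not.1 (not_exists.1 hcon j)).symm)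
    have h1 := congrArg (MvPolynomial.coeff (m - Finsupp.single j 1)) (h j)
    rw [MvPolynomial.coeff_pderiv, MvPolynomial.coeff_zero] at h1
    have h2 : m - Finsupp.single j 1 + Finsupp.single j 1 = m := by
      apply tsub_add_cancel_of_le
      rw [Finsupp.single_le_iff]
      omega
    rw [h2] at h1
    rcases mul_eq_zero.1 h1 with h3 | h3
    · exact h3
    · exfalso
      exact Nat.cast_add_one_ne_zero _ h3

/-- The Jacobian criterion. -/
theorem algebraicIndependent_of_jac {d : Fin n → Derivation ℂ K K} {b : Fin n → K}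
    (hj : jac d b ≠ 0) : AlgebraicIndependent ℂ b := by
  have key : ∀ (k : ℕ) (Q : MvPolynomial (Fin n) ℂ), Q.totalDegree < k →
      MvPolynomial.aeval b Q = 0 → Q = 0 := by
    intro k
    induction k with
    | zero => intro Q h; omega
    | succ k ih =>
      intro Q hQ h0
      have hv : (Matrix.of fun i j => d i (b j)).mulVec
          (fun j => MvPolynomial.aeval b (MvPolynomial.pderiv j Q)) = 0 := by
        funext i
        have h1 := am_chain (d i) b Q
        rw [h0, map_zero] at h1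
        rw [Pi.zero_apply, h1]
        simp only [Matrix.mulVec, dotProduct, Matrix.of_apply]
        exact Finset.sum_congr rfl fun j _ => mul_comm _ _
      have hv0 := Matrix.eq_zero_of_mulVec_eq_zero hj hv
      have hp : ∀ j, MvPolynomial.pderiv j Q = 0 := by
        intro j
        by_contra hne
        exact hne (ih _ (lt_of_lt_of_le (am_totalDegree hne) (Nat.lt_succ_iff.1 hQ))
          (congrFun hv0 j))
      have hC := am_const hp
      rw [hC, MvPolynomial.aeval_C] at h0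
      have hc : MvPolynomial.coeff 0 Q = 0 := by
        apply (algebraMap ℂ K).injective
        rw [h0, map_zero]
      rw [hC, hc, map_zero]
  rw [algebraicIndependent_iff_injective_aeval, injective_iff_map_eq_zero]
  intro Q hQ
  exact key _ Q (Nat.lt_succ_self _) hQ

namespace Prim

variable {E : Prim n K} {S : Sheets n N}

theorem am_isAlgebraic (E : Prim n K) : Algebra.IsAlgebraic (Pol n) K := by
  constructor
  intro a
  by_cases ha : a = 0
  · rw [ha]
    exact isAlgebraic_zero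
  · obtain ⟨a', c, ha', hc, h⟩ := exists_mul_eq_alg E ha
    have hc' : algebraMap (Pol n) K c ≠ 0 := by
      rwa [Ne, map_eq_zero_iff _ (FaithfulSMul.algebraMap_injective (Pol n) K)]
    have h2 : a' ≠ 0 := by
      intro h0
      rw [h0, mul_zero] at h
      exact hc' h.symm
    have h3 : a = algebraMap (Pol n) K c * a'⁻¹ := by
      rw [← h, mul_assoc, mul_inv_cancel₀ h2, mul_one]
    rw [h3]
    exact (isAlgebraic_algebraMap c).mul ha'.isAlgebraic.inv

theorem am_poly (E : Prim n K) {b : Fin n → K} (hb : AlgebraicIndependent ℂ b) (u : K) :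
    ∃ Q : Polynomial (MvPolynomial (Fin n) ℂ), Q ≠ 0 ∧
      Q.eval₂ (MvPolynomial.aeval b : MvPolynomial (Fin n) ℂ →ₐ[ℂ] K).toRingHom u = 0 := by
  have h1 := am_isAlgebraic E
  have htr : Algebra.trdeg ℂ K = n := by
    have h2 := trdeg_add_eq ℂ (Pol n) (A := K)
    have h3 : Algebra.trdeg (Pol n) K = 0 := trdeg_eq_zero
    rw [h3, add_zero] at h2
    rw [← h2]
    simp
  have hB : IsTranscendenceBasis ℂ b := by
    refine hb.isTranscendenceBasis_of_trdeg_le_of_finite ?_
    rw [htr]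
    simp
  have h4 := hB.isAlgebraic
  obtain ⟨q, hq, hqu⟩ := h4.isAlgebraic u
  refine ⟨q.map (hb.aevalEquiv.symm : _ →+* MvPolynomial (Fin n) ℂ), ?_, ?_⟩
  · rw [Polynomial.map_ne_zero_iff]
    · exact hq
    · exact hb.aevalEquiv.symm.injective
  · rw [Polynomial.eval₂_map]
    have h5 : ((MvPolynomial.aeval b : MvPolynomial (Fin n) ℂ →ₐ[ℂ] K).toRingHom.comp
        (hb.aevalEquiv.symm : _ →+* MvPolynomial (Fin n) ℂ)) =
        algebraMap (Algebra.adjoin ℂ (Set.range b)) K := by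
      ext p
      have h6 := hb.algebraMap_aevalEquiv (hb.aevalEquiv.symm p)
      rw [AlgEquiv.apply_symm_apply] at h6
      exact h6.symm
    rw [h5]
    exact hqu

/-- The algebra of regular elements. -/
def am_sub (E : Prim n K) : Subalgebra ℂ K where
  carrier := {a | E.IsReg a}
  mul_mem' := fun ha hb => IsReg.mul ha hb
  add_mem' := fun ha hb => IsReg.add ha hb
  algebraMap_mem' := fun c => isReg_const c

/-- Evaluation as a ring homomorphism. -/
noncomputable def am_hom (hS : E.IsSheets S) {q : (Fin n → ℂ) × ℂ} (hq : q ∈ S.M) :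
    am_sub E →+* ℂ where
  toFun := fun a => E.ev (a : K) q
  map_one' := ev_one hS hq
  map_mul' := fun a b => ev_mul hS hq a.2 b.2
  map_zero' := ev_zero hS hq
  map_add' := fun a b => ev_add hS hq a.2 b.2

theorem am_root (hS : E.IsSheets S) {b : Fin n → K} (hb : ∀ i, E.IsReg (b i)) {u : K}
    (hu : E.IsReg u) {Q : Polynomial (MvPolynomial (Fin n) ℂ)}
    (hQ : Q.eval₂ (MvPolynomial.aeval b : MvPolynomial (Fin n) ℂ →ₐ[ℂ] K).toRingHom u = 0)
    {ζ : Fin n → ℂ} {q : (Fin n → ℂ) × ℂ} (hq : q ∈ S.M) (hζ : ∀ i, E.ev (b i) q = ζ i) :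
    (Q.map (MvPolynomial.eval ζ)).eval (E.ev u q) = 0 := by
  have h1 : Q.eval₂ (MvPolynomial.aeval (fun i => (⟨b i, hb i⟩ : am_sub E)) :
      MvPolynomial (Fin n) ℂ →ₐ[ℂ] am_sub E).toRingHom (⟨u, hu⟩ : am_sub E) = 0 := by
    apply Subtype.ext
    have h2 := Polynomial.hom_eval₂ Q (MvPolynomial.aeval (fun i => (⟨b i, hb i⟩ : am_sub E)) :
      MvPolynomial (Fin n) ℂ →ₐ[ℂ] am_sub E).toRingHom ((am_sub E).val : _ →+* K)
      (⟨u, hu⟩ : am_sub E)
    have h3 : (((am_sub E).val : _ →+* K).comp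
        (MvPolynomial.aeval (fun i => (⟨b i, hb i⟩ : am_sub E)) :
          MvPolynomial (Fin n) ℂ →ₐ[ℂ] am_sub E).toRingHom) =
        (MvPolynomial.aeval b : MvPolynomial (Fin n) ℂ →ₐ[ℂ] K).toRingHom := by
      apply MvPolynomial.ringHom_ext
      · intro c
        simp
      · intro i
        simp
    rw [h3] at h2
    exact h2.trans hQ
  have h4 := Polynomial.hom_eval₂ Q (MvPolynomial.aeval (fun i => (⟨b i, hb i⟩ : am_sub E)) :
      MvPolynomial (Fin n) ℂ →ₐ[ℂ] am_sub E).toRingHom (am_hom hS hq) (⟨u, hu⟩ : am_sub E)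
  have h5 : (am_hom hS hq).comp (MvPolynomial.aeval (fun i => (⟨b i, hb i⟩ : am_sub E)) :
      MvPolynomial (Fin n) ℂ →ₐ[ℂ] am_sub E).toRingHom = MvPolynomial.eval ζ := by
    apply MvPolynomial.ringHom_ext
    · intro c
      have h6 : ((algebraMap ℂ (am_sub E) c : am_sub E) : K) = algebraMap ℂ K c := rfl
      simp only [AlgHom.toRingHom_eq_coe, RingHom.coe_comp, RingHom.coe_coe,
        Function.comp_apply, MvPolynomial.algHom_C, MvPolynomial.eval_C]
      exact ev_const hS hq c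
    · intro i
      simp only [AlgHom.toRingHom_eq_coe, RingHom.coe_comp, RingHom.coe_coe,
        Function.comp_apply, MvPolynomial.aeval_X, MvPolynomial.eval_X]
      exact hζ i
  rw [h1, map_zero, h5] at h4
  rw [Polynomial.eval_map]
  exact h4.symm

/-- Multiplicities are bounded outside of the zero set of a polynomial. -/
theorem exists_mult (hS : E.IsSheets S) {d : Fin n → Derivation ℂ K K} (hd : IsPartials d)
    {b : Fin n → K} (hb : ∀ i, E.IsReg (b i)) (hj : jac d b ≠ 0) :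
    ∃ (D : ℕ) (Z : Pol n), Z ≠ 0 ∧ ∀ ζ : Fin n → ℂ, MvPolynomial.eval ζ Z ≠ 0 →
      {q ∈ S.M | ∀ i, E.ev (b i) q = ζ i}.encard ≤ D := by
  classical
  have hind := algebraicIndependent_of_jac hj
  choose Q hQ0 hQ using fun u : K => am_poly E hind u
  refine ⟨(∏ j, (Q (algebraMap (Pol n) K (MvPolynomial.X j))).natDegree) *
    (Q E.y).natDegree, (∏ j, (Q (algebraMap (Pol n) K (MvPolynomial.X j))).leadingCoeff) *
    (Q E.y).leadingCoeff, ?_, ?_⟩
  · exact mul_ne_zero (Finset.prod_ne_zero_iff.2 fun j _ =>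
      Polynomial.leadingCoeff_ne_zero.2 (hQ0 _)) (Polynomial.leadingCoeff_ne_zero.2 (hQ0 _))
  · intro ζ hζ
    rw [map_mul, map_prod] at hζ
    have hne : ∀ u : K, MvPolynomial.eval ζ (Q u).leadingCoeff ≠ 0 →
        (Q u).map (MvPolynomial.eval ζ) ≠ 0 := by
      intro u hu h0
      apply hu
      have := congrArg (fun p => Polynomial.coeff p (Q u).natDegree) h0
      simpa [Polynomial.coeff_map] using this
    have hcard : ∀ u : K, ((Q u).map (MvPolynomial.eval ζ)).roots.toFinset.card ≤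
        (Q u).natDegree := fun u =>
      (Multiset.toFinset_card_le _).trans ((Polynomial.card_roots' _).trans
        Polynomial.natDegree_map_le)
    have hsub : {q ∈ S.M | ∀ i, E.ev (b i) q = ζ i} ⊆
        (((Fintype.piFinset fun j =>
          ((Q (algebraMap (Pol n) K (MvPolynomial.X j))).map
            (MvPolynomial.eval ζ)).roots.toFinset) ×ˢ
          ((Q E.y).map (MvPolynomial.eval ζ)).roots.toFinset : Finset ((Fin n → ℂ) × ℂ)) :
            Set ((Fin n → ℂ) × ℂ)) := by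
      rintro q ⟨hq, hqζ⟩
      rw [Finset.mem_coe, Finset.mem_product, Fintype.mem_piFinset]
      constructor
      · intro j
        rw [Multiset.mem_toFinset, Polynomial.mem_roots']
        refine ⟨hne _ (Finset.prod_ne_zero_iff.1 (left_ne_zero_of_mul hζ) j
          (Finset.mem_univ j)), ?_⟩
        have h := am_root hS hb (isReg_alg (MvPolynomial.X j)) (hQ _) hq hqζ
        rw [ev_alg hS hq, MvPolynomial.eval_X] at h
        exact h
      · rw [Multiset.mem_toFinset, Polynomial.mem_roots']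
        refine ⟨hne _ (right_ne_zero_of_mul hζ), ?_⟩
        have h := am_root hS hb isReg_y (hQ _) hq hqζ
        rw [ev_y hS hq] at h
        exact h
    refine (Set.encard_le_encard hsub).trans ?_
    rw [Set.encard_coe_eq_coe_finsetCard, Finset.card_product, Fintype.card_piFinset]
    exact_mod_cast Nat.mul_le_mul (Finset.prod_le_prod' fun j _ => hcard _) (hcard _)

end Prim

end Vale.Agent.P282.L2
end

section

open MeasureTheory Filter Topology
open scoped ENNReal NNReal ComplexConjugate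

namespace Vale.Agent.P282.L2

variable {n N : ℕ}

variable {K : Type} [Field K] [Algebra ℂ K] [Algebra (Pol n) K]
  [IsScalarTower ℂ (Pol n) K] [FaithfulSMul (Pol n) K]

namespace Prim

variable {E : Prim n K} {S : Sheets n N}

/-- The map `b` along the section `s`. -/
noncomputable def areaMap (E : Prim n K) (b : Fin n → K) (s : (Fin n → ℂ) → ℂ)
    (z : Fin n → ℂ) : Fin n → ℂ := fun i => E.ev (b i) (z, s z)

theorem areaMap_hasFDerivAt (hS : E.IsSheets S) {b : Fin n → K} (hb : ∀ i, E.IsReg (b i))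
    {W : Set (Fin n → ℂ)} {s : (Fin n → ℂ) → ℂ} (h : S.IsSection W s) {z : Fin n → ℂ}
    (hz : z ∈ W) : HasFDerivAt (areaMap E b s) (fderiv ℂ (areaMap E b s) z) z := by
  refine DifferentiableAt.hasFDerivAt ?_
  refine differentiableAt_pi.2 fun i => ?_
  exact (holo_ev hS (hb i) W s h).differentiableAt (h.isOpen.mem_nhds hz)

theorem areaMap_det (hS : E.IsSheets S) {d : Fin n → Derivation ℂ K K} (hd : IsPartials d)
    {b : Fin n → K} (hb : ∀ i, E.IsReg (b i)) {W : Set (Fin n → ℂ)} {s : (Fin n → ℂ) → ℂ}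
    (h : S.IsSection W s) {z : Fin n → ℂ} (hz : z ∈ W) :
    LinearMap.det (fderiv ℂ (areaMap E b s) z : (Fin n → ℂ) →ₗ[ℂ] (Fin n → ℂ)) =
      E.ev (jac d b) (z, s z) := by
  have hq : (z, s z) ∈ S.M := ⟨h.subset hz, h.mem z hz⟩
  rw [ev_jac hS hq hd hb, ← LinearMap.det_toMatrix', ← Matrix.det_transpose]
  congr 1
  ext i j
  rw [Matrix.transpose_apply, LinearMap.toMatrix'_apply, Matrix.of_apply]
  have h1 := (hasFDerivAt_pi'.1 (areaMap_hasFDerivAt hS hb h hz)) j
  rw [← D_ev hS hd (hb j) hq i, Sheets.D_apply h hz,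
    dz_holo ((holo_ev hS (hb j) W s h).differentiableAt (h.isOpen.mem_nhds hz))]
  have h2 : fderiv ℂ (fun z => E.ev (b j) (z, s z)) z = _ := h1.fderiv
  rw [h2]
  simp only [ContinuousLinearMap.comp_apply, ContinuousLinearMap.proj_apply,
    ContinuousLinearMap.coe_coe]

/-- Near a point where the Jacobian does not vanish, the map is injective on a section. -/
theorem area_local (hS : E.IsSheets S) {d : Fin n → Derivation ℂ K K} (hd : IsPartials d)
    {b : Fin n → K} (hb : ∀ i, E.IsReg (b i)) {q : (Fin n → ℂ) × ℂ} (hq : q ∈ S.M)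
    (hJ : E.ev (jac d b) q ≠ 0) :
    ∃ (W : Set (Fin n → ℂ)) (s : (Fin n → ℂ) → ℂ), S.IsSection W s ∧
      Set.InjOn (areaMap E b s) W ∧
      {p : (Fin n → ℂ) × ℂ | p.1 ∈ W ∧ p.2 = s p.1} ∈ 𝓝[S.M] q := by
  obtain ⟨W, s, hW, hzW, hWV, hdiff, hfib⟩ := S.loc q.1 hq.1
  have hq2 : q.2 ∈ S.fib q.1 := hq.2
  rw [(hfib q.1 hzW).2, Finset.mem_image] at hq2
  obtain ⟨i₀, -, hi₀⟩ := hq2
  have hsec : S.IsSection W (s i₀) := ⟨hW, hWV, hdiff i₀, fun z hz => by
    rw [(hfib z hz).2]; exact Finset.mem_image_of_mem _ (Finset.mem_univ _)⟩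
  have hqe : (q.1, s i₀ q.1) = q := by rw [hi₀]
  -- local injectivity
  have hdet := areaMap_det hS hd hb hsec hzW
  rw [hqe] at hdet
  have hne : (fderiv ℂ (areaMap E b (s i₀)) q.1).det ≠ 0 := by
    show LinearMap.det (fderiv ℂ (areaMap E b (s i₀)) q.1 : (Fin n → ℂ) →ₗ[ℂ] (Fin n → ℂ)) ≠ 0
    rw [hdet]; exact hJ
  have hC : ContDiffAt ℝ 1 (areaMap E b (s i₀)) q.1 := by
    refine contDiffAt_pi.2 fun i => ?_
    exact ((holo_ev hS (hb i)).CD 1 W (s i₀) hsec).contDiffAt (hW.mem_nhds hzW)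
  have hR : HasFDerivAt (areaMap E b (s i₀))
      ((fderiv ℂ (areaMap E b (s i₀)) q.1).restrictScalars ℝ) q.1 :=
    (areaMap_hasFDerivAt hS hb hsec hzW).restrictScalars ℝ
  have hstr : HasStrictFDerivAt (areaMap E b (s i₀))
      ((((fderiv ℂ (areaMap E b (s i₀)) q.1).toContinuousLinearEquivOfDetNeZero
        hne).restrictScalars ℝ : (Fin n → ℂ) ≃L[ℝ] (Fin n → ℂ)) :
          (Fin n → ℂ) →L[ℝ] (Fin n → ℂ)) q.1 := by
    have h1 := hC.hasStrictFDerivAt' hR (by simp)
    have h2 : ((((fderiv ℂ (areaMap E b (s i₀)) q.1).toContinuousLinearEquivOfDetNeZero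
        hne).restrictScalars ℝ : (Fin n → ℂ) ≃L[ℝ] (Fin n → ℂ)) :
          (Fin n → ℂ) →L[ℝ] (Fin n → ℂ)) =
        (fderiv ℂ (areaMap E b (s i₀)) q.1).restrictScalars ℝ := by
      ext1 v
      rfl
    rw [h2]
    exact h1
  set e := hstr.toOpenPartialHomeomorph (areaMap E b (s i₀)) with he
  have hes : q.1 ∈ e.source := hstr.mem_toOpenPartialHomeomorph_source
  have hei : Set.InjOn (areaMap E b (s i₀)) e.source := e.injOn
  refine ⟨W ∩ e.source, s i₀, ⟨hW.inter e.open_source, Set.inter_subset_left.trans hWV,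
    (hdiff i₀).mono Set.inter_subset_left, fun z hz => hsec.mem z hz.1⟩,
    hei.mono Set.inter_subset_right, ?_⟩
  -- the graph is a neighbourhood
  have hsep : ∀ j, j ≠ i₀ → ∀ᶠ p in 𝓝 q, p.2 ≠ s j p.1 := by
    intro j hj
    have h1 : ContinuousAt (s j) q.1 := ((hdiff j).continuousOn).continuousAt (hW.mem_nhds hzW)
    have h2 : ContinuousAt (fun p : (Fin n → ℂ) × ℂ => p.2 - s j p.1) q :=
      continuousAt_snd.sub (ContinuousAt.comp (f := Prod.fst) (g := s j) h1 continuousAt_fst)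
    have h3 : q.2 - s j q.1 ≠ 0 := by
      rw [← hi₀, sub_ne_zero]
      intro h4
      exact hj ((hfib q.1 hzW).1 h4).symm
    filter_upwards [h2.eventually_ne h3] with p hp h5
    exact hp (by rw [h5, sub_self])
  have h6 : ∀ᶠ p in 𝓝 q, ∀ j, j ≠ i₀ → p.2 ≠ s j p.1 := by
    rw [eventually_all]
    intro j
    by_cases hj : j = i₀
    · exact Eventually.of_forall fun p h => absurd hj h
    · filter_upwards [hsep j hj] with p hp _
      exact hp
  have h7 : ∀ᶠ p in 𝓝 q, p.1 ∈ W ∩ e.source :=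
    continuousAt_fst.eventually ((hW.inter e.open_source).mem_nhds ⟨hzW, hes⟩)
  rw [mem_nhdsWithin_iff_eventually]
  filter_upwards [h6, h7] with p hp1 hp2 hpM
  refine ⟨hp2, ?_⟩
  have h8 : p.2 ∈ S.fib p.1 := hpM.2
  rw [(hfib p.1 hp2.1).2, Finset.mem_image] at h8
  obtain ⟨j, -, hj⟩ := h8
  by_cases hji : j = i₀
  · rw [← hji]; exact hj.symm
  · exact absurd hj.symm (hp1 j hji)

/-- A countable cover by sections on which the map is injective. -/
theorem area_cover (hS : E.IsSheets S) {d : Fin n → Derivation ℂ K K} (hd : IsPartials d)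
    {b : Fin n → K} (hb : ∀ i, E.IsReg (b i)) :
    ∃ (W : ℕ → Set (Fin n → ℂ)) (s : ℕ → (Fin n → ℂ) → ℂ), (∀ l, S.IsSection (W l) (s l)) ∧
      (∀ l, Set.InjOn (areaMap E b (s l)) (W l)) ∧
      ∀ q ∈ S.M, E.ev (jac d b) q ≠ 0 → ∃ l, q.1 ∈ W l ∧ q.2 = s l q.1 := by
  classical
  set M0 : Set ((Fin n → ℂ) × ℂ) := {q | q ∈ S.M ∧ E.ev (jac d b) q ≠ 0} with hM0
  have hloc : ∀ q : (Fin n → ℂ) × ℂ, ∃ (W : Set (Fin n → ℂ)) (s : (Fin n → ℂ) → ℂ),
      S.IsSection W s ∧ Set.InjOn (areaMap E b s) W ∧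
      (q ∈ M0 → {p : (Fin n → ℂ) × ℂ | p.1 ∈ W ∧ p.2 = s p.1} ∈ 𝓝[M0] q) := by
    intro q
    by_cases hq : q ∈ M0
    · obtain ⟨W, s, h1, h2, h3⟩ := area_local hS hd hb hq.1 hq.2
      exact ⟨W, s, h1, h2, fun _ => nhdsWithin_mono q (fun p hp => hp.1) h3⟩
    · exact ⟨∅, fun _ => 0, ⟨isOpen_empty, Set.empty_subset _, differentiableOn_empty,
        fun z hz => absurd hz (Set.notMem_empty z)⟩, Set.injOn_empty _, fun h => absurd h hq⟩
  choose W s h1 h2 h3 using hloc
  obtain ⟨t, -, htc, htcov⟩ := TopologicalSpace.countable_cover_nhdsWithin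
    (f := fun q => {p : (Fin n → ℂ) × ℂ | p.1 ∈ W q ∧ p.2 = s q p.1}) (s := M0) h3
  rcases t.eq_empty_or_nonempty with rfl | hne
  · refine ⟨fun _ => W 0, fun _ => s 0, fun _ => h1 0, fun _ => h2 0, fun q hq hJ => ?_⟩
    have := htcov (show q ∈ M0 from ⟨hq, hJ⟩)
    simp at this
  · obtain ⟨g, hg⟩ := htc.exists_eq_range hne
    refine ⟨fun l => W (g l), fun l => s (g l), fun l => h1 _, fun l => h2 _, fun q hq hJ => ?_⟩
    have := htcov (show q ∈ M0 from ⟨hq, hJ⟩)
    rw [Set.mem_iUnion₂] at this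
    obtain ⟨p, hp, hq2⟩ := this
    rw [hg] at hp
    obtain ⟨l, rfl⟩ := hp
    exact ⟨l, hq2⟩

/-- The area inequality. -/
theorem lintegral_area (hS : E.IsSheets S) {d : Fin n → Derivation ℂ K K} (hd : IsPartials d)
    {b : Fin n → K} (hb : ∀ i, E.IsReg (b i)) (hj : jac d b ≠ 0) :
    ∃ D : ℝ≥0∞, D ≠ ⊤ ∧ ∀ Ψ : (Fin n → ℂ) → ℝ≥0∞, Measurable Ψ →
      ∫⁻ q, Ψ (fun i => E.ev (b i) q) * ENNReal.ofReal (‖E.ev (jac d b) q‖ ^ 2) ∂S.μ ≤
        D * ∫⁻ ζ, Ψ ζ := by
  classical
  obtain ⟨D, Z, hZ, hmult⟩ := exists_mult hS hd hb hj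
  obtain ⟨W, s, hsec, hinj, hcov⟩ := area_cover hS hd hb
  refine ⟨(D : ℝ≥0∞), ENNReal.natCast_ne_top D, fun Ψ hΨ => ?_⟩
  -- disjoint pieces
  set O : ℕ → ℕ → Set (Fin n → ℂ) := fun k l => {z | z ∈ W k ∧ z ∈ W l ∧ s k z = s l z} with hO
  have hOo : ∀ k l, IsOpen (O k l) := by
    intro k l
    rw [isOpen_iff_mem_nhds]
    intro z hz
    have h1 := (hsec k).germ (hsec l) hz.1 hz.2.1 hz.2.2
    filter_upwards [h1, (hsec k).isOpen.mem_nhds hz.1, (hsec l).isOpen.mem_nhds hz.2.1]
      with y h2 h3 h4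
    exact ⟨h3, h4, h2⟩
  set A : ℕ → Set (Fin n → ℂ) := fun l => W l \ ⋃ k ∈ Finset.range l, O k l with hA
  have hAW : ∀ l, A l ⊆ W l := fun l => Set.sdiff_subset
  have hAm : ∀ l, MeasurableSet (A l) := fun l =>
    (hsec l).isOpen.measurableSet.diff
      (Finset.measurableSet_biUnion _ fun k _ => (hOo k l).measurableSet)
  have hAcov : ∀ q ∈ S.M, E.ev (jac d b) q ≠ 0 → ∃ l, q.1 ∈ A l ∧ q.2 = s l q.1 := by
    intro q hq hJ
    have hex := hcov q hq hJ
    refine ⟨Nat.find hex, ⟨(Nat.find_spec hex).1, ?_⟩, (Nat.find_spec hex).2⟩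
    intro hmem
    rw [Set.mem_iUnion₂] at hmem
    obtain ⟨k, hk, hk2⟩ := hmem
    exact Nat.find_min hex (Finset.mem_range.1 hk)
      ⟨hk2.1, (Nat.find_spec hex).2.trans hk2.2.2.symm⟩
  have hAdis : ∀ k l z, z ∈ A k → z ∈ A l → s k z = s l z → k = l := by
    have key : ∀ k l z, k < l → z ∈ A k → z ∈ A l → s k z = s l z → False := by
      intro k l z hkl hk hl he
      refine hl.2 ?_
      rw [Set.mem_iUnion₂]
      exact ⟨k, Finset.mem_range.2 hkl, hAW k hk, hAW l hl, he⟩
    intro k l z hk hl he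
    rcases lt_trichotomy k l with h | h | h
    · exact absurd (key k l z h hk hl he) id
    · exact h
    · exact absurd (key l k z h hl hk he.symm) id
  -- the integrand
  set F : (Fin n → ℂ) × ℂ → ℝ≥0∞ := fun q =>
    Ψ (fun i => E.ev (b i) q) * ENNReal.ofReal (‖E.ev (jac d b) q‖ ^ 2) with hF
  have hjr : E.IsReg (jac d b) := IsReg.jac hd hb
  have hFm : AEMeasurable F S.μ := by
    have h1 : AEMeasurable (fun q i => E.ev (b i) q) S.μ :=
      aemeasurable_pi_lambda _ fun i =>
        (Sheets.aestronglyMeasurable_of_CD ((holo_ev hS (hb i)).CD 0)).aemeasurable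
    have h2 : AEMeasurable (fun q => E.ev (jac d b) q) S.μ :=
      (Sheets.aestronglyMeasurable_of_CD ((holo_ev hS hjr).CD 0)).aemeasurable
    exact (hΨ.comp_aemeasurable h1).mul ((h2.norm.pow_const 2).ennreal_ofReal)
  have hFl : ∀ l, AEMeasurable (fun z => F (z, s l z)) (volume.restrict (A l)) := by
    intro l
    have h1 : AEMeasurable (fun z i => E.ev (b i) (z, s l z)) (volume.restrict (A l)) :=
      aemeasurable_pi_lambda _ fun i =>
        (((holo_ev hS (hb i) (W l) (s l) (hsec l)).continuousOn).mono (hAW l)).aemeasurable (hAm l)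
    have h2 : AEMeasurable (fun z => E.ev (jac d b) (z, s l z)) (volume.restrict (A l)) :=
      (((holo_ev hS hjr (W l) (s l) (hsec l)).continuousOn).mono (hAW l)).aemeasurable (hAm l)
    exact (hΨ.comp_aemeasurable h1).mul ((h2.norm.pow_const 2).ennreal_ofReal)
  have hcont : ∀ l, ContinuousOn (areaMap E b (s l)) (A l) := fun l z hz =>
    (areaMap_hasFDerivAt hS hb (hsec l) (hAW l hz)).continuousAt.continuousWithinAt
  have hIm : ∀ l, MeasurableSet (areaMap E b (s l) '' A l) := fun l =>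
    (hAm l).image_of_continuousOn_injOn (hcont l) ((hinj l).mono (hAW l))
  calc ∫⁻ q, F q ∂S.μ = ∫⁻ z in S.V, ∑ w ∈ S.fib z, F (z, w) := Sheets.lintegral_μ' hFm
    _ ≤ ∫⁻ z in S.V, ∑' l, (A l).indicator (fun z => F (z, s l z)) z := by
        refine setLIntegral_mono' S.isOpen.measurableSet fun z hz => ?_
        have h1 : ∀ w ∈ S.fib z, F (z, w) ≤
            ∑' l, (A l).indicator (fun z => if s l z = w then F (z, s l z) else 0) z := by
          intro w hw
          by_cases hJ : E.ev (jac d b) (z, w) = 0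
          · have : F (z, w) = 0 := by simp [hF, hJ]
            rw [this]; exact zero_le
          · obtain ⟨l, hl1, hl2⟩ := hAcov (z, w) ⟨hz, hw⟩ hJ
            refine le_trans ?_ (ENNReal.le_tsum l)
            rw [Set.indicator_of_mem (show z ∈ A l from hl1)]
            have h3 : s l z = w := hl2.symm
            rw [if_pos h3, h3]
        refine (Finset.sum_le_sum h1).trans ?_
        rw [← Summable.tsum_finsetSum (fun _ _ => ENNReal.summable)]
        refine ENNReal.tsum_le_tsum fun l => ?_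
        by_cases hz2 : z ∈ A l
        · simp only [Set.indicator_of_mem hz2]
          rw [Finset.sum_ite_eq]
          split_ifs
          · exact le_rfl
          · exact zero_le
        · simp only [Set.indicator_of_notMem hz2, Finset.sum_const_zero]
          exact le_rfl
    _ ≤ ∫⁻ z, ∑' l, (A l).indicator (fun z => F (z, s l z)) z := setLIntegral_le_lintegral _ _
    _ = ∑' l, ∫⁻ z, (A l).indicator (fun z => F (z, s l z)) z :=
        lintegral_tsum fun l => (aemeasurable_indicator_iff (hAm l)).2 (hFl l)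
    _ = ∑' l, ∫⁻ ζ, (areaMap E b (s l) '' A l).indicator Ψ ζ := by
        refine tsum_congr fun l => ?_
        rw [lintegral_indicator (hAm l), lintegral_indicator (hIm l),
          ← lintegral_area_inj (hAm l)
            (fun z hz => areaMap_hasFDerivAt hS hb (hsec l) (hAW l hz))
            ((hinj l).mono (hAW l)) hΨ]
        refine setLIntegral_congr_fun (hAm l) fun z hz => ?_
        simp only [hF]
        rw [areaMap_det hS hd hb (hsec l) (hAW l hz)]
        rfl
    _ = ∫⁻ ζ, ∑' l, (areaMap E b (s l) '' A l).indicator Ψ ζ :=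
        (lintegral_tsum fun l => (hΨ.indicator (hIm l)).aemeasurable).symm
    _ ≤ ∫⁻ ζ, (D : ℝ≥0∞) * Ψ ζ := by
        refine lintegral_mono_ae ?_
        have h1 : ∀ᵐ ζ : Fin n → ℂ, MvPolynomial.eval ζ Z ≠ 0 := by
          rw [ae_iff]
          simpa using volume_zeros hZ
        filter_upwards [h1] with ζ hζ
        set T : Set ℕ := {l | ζ ∈ areaMap E b (s l) '' A l} with hT
        have h2 : T.encard ≤ D := by
          refine le_trans ?_ (hmult ζ hζ)
          have h3 : ∀ l, ∃ z, l ∈ T → z ∈ A l ∧ areaMap E b (s l) z = ζ := by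
            intro l
            by_cases hl : l ∈ T
            · obtain ⟨z, hz⟩ := hl
              exact ⟨z, fun _ => hz⟩
            · exact ⟨0, fun h => absurd h hl⟩
          choose g hg using h3
          refine Set.encard_le_encard_of_injOn (f := fun l => (g l, s l (g l))) ?_ ?_
          · intro l hl
            have h4 := hg l hl
            refine ⟨⟨(hsec l).subset (hAW l h4.1), (hsec l).mem _ (hAW l h4.1)⟩, fun i => ?_⟩
            exact congrFun h4.2 i
          · intro k hk l hl he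
            have h5 := (Prod.ext_iff.1 he).1
            have h6 := (Prod.ext_iff.1 he).2
            simp only at h5 h6
            have h7 := (hg k hk).1
            have h8 := (hg l hl).1
            rw [← h5] at h8 h6
            exact hAdis k l (g k) h7 h8 h6
        have hfin : T.Finite := Set.finite_of_encard_le_coe h2
        have h3 : ∑' l, (areaMap E b (s l) '' A l).indicator Ψ ζ =
            ∑ l ∈ hfin.toFinset, Ψ ζ := by
          rw [tsum_eq_sum (s := hfin.toFinset)]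
          · refine Finset.sum_congr rfl fun l hl => ?_
            rw [Set.Finite.mem_toFinset] at hl
            exact Set.indicator_of_mem (s := areaMap E b (s l) '' A l) hl _
          · intro l hl
            rw [Set.Finite.mem_toFinset] at hl
            exact Set.indicator_of_notMem (s := areaMap E b (s l) '' A l) hl _
        rw [h3, Finset.sum_const, nsmul_eq_mul]
        gcongr
        rw [hfin.encard_eq_coe_toFinset_card] at h2
        exact_mod_cast h2
    _ = (D : ℝ≥0∞) * ∫⁻ ζ, Ψ ζ := lintegral_const_mul _ hΨ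

end Prim

end Vale.Agent.P282.L2
end

section

open MeasureTheory Filter Topology
open scoped ENNReal NNReal ComplexConjugate

namespace Vale.Agent.P282.L2

namespace AI

theorem lintegral_prod_fin : ∀ {n : ℕ} (g : Fin n → ℂ → ℝ≥0∞), (∀ i, Measurable (g i)) →
    ∫⁻ ζ : Fin n → ℂ, ∏ i, g i (ζ i) = ∏ i, ∫⁻ w, g i w
  | 0, g, _ => by
      simp only [Finset.univ_eq_empty, Finset.prod_empty, lintegral_const, one_mul]
      rw [volume_pi, Measure.pi_of_empty]
      simp
  | n + 1, g, hg => by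
      have h := (volume_preserving_piFinSuccAbove (fun _ : Fin (n + 1) => ℂ) 0)
      have e : ∀ ζ : Fin (n + 1) → ℂ, ∏ i, g i (ζ i) =
          (fun p : ℂ × (Fin n → ℂ) => g 0 p.1 * ∏ i, g i.succ (p.2 i))
            (MeasurableEquiv.piFinSuccAbove (fun _ => ℂ) 0 ζ) := by
        intro ζ
        rw [Fin.prod_univ_succ]
        rfl
      have hm : Measurable fun x : Fin n → ℂ => ∏ i, g i.succ (x i) :=
        Finset.measurable_fun_prod _ fun i _ => (hg i.succ).comp (measurable_pi_apply i)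
      simp_rw [e]
      rw [h.lintegral_comp (f := fun p : ℂ × (Fin n → ℂ) => g 0 p.1 * ∏ i, g i.succ (p.2 i))
        (((hg 0).comp measurable_fst).mul (hm.comp measurable_snd)), Measure.volume_eq_prod,
        lintegral_prod_mul (hg 0).aemeasurable hm.aemeasurable,
        lintegral_prod_fin _ (fun i => hg i.succ), Fin.prod_univ_succ]

theorem lintegral_radial {F : ℝ → ℝ≥0∞} (hF : Measurable F) :
    ∫⁻ w : ℂ, F ‖w‖ =
      (∫⁻ r in Set.Ioi (0 : ℝ), ENNReal.ofReal r * F r) * ENNReal.ofReal (2 * Real.pi) := by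
  rw [← Complex.lintegral_comp_polarCoord_symm]
  have e : ∀ p ∈ polarCoord.target, ENNReal.ofReal p.1 • F ‖Complex.polarCoord.symm p‖ =
      (fun r => ENNReal.ofReal r * F r) p.1 * (fun _ : ℝ => 1) p.2 := by
    intro p hp
    have hp1 : 0 < p.1 := hp.1
    rw [Complex.norm_polarCoord_symm, abs_of_pos hp1]
    simp
  have hmeas : MeasurableSet polarCoord.target := polarCoord.open_target.measurableSet
  rw [setLIntegral_congr_fun hmeas e]
  have ht : polarCoord.target = Set.Ioi (0 : ℝ) ×ˢ Set.Ioo (-Real.pi) Real.pi := rfl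
  rw [ht, Measure.volume_eq_prod, ← Measure.prod_restrict,
    lintegral_prod_mul (f := fun r => ENNReal.ofReal r * F r) (g := fun _ => 1)
      ((ENNReal.measurable_ofReal.mul hF).aemeasurable) aemeasurable_const]
  congr 1
  rw [lintegral_const, one_mul, Measure.restrict_apply_univ, Real.volume_Ioo]
  congr 1
  ring

/-- `|w|⁻²` cut off. -/
noncomputable def G (L : ℝ) (w : ℂ) : ℝ≥0∞ :=
  Set.indicator {r : ℝ | 0 < r ∧ |Real.log r| ≤ L} (fun r => ENNReal.ofReal ((r ^ 2)⁻¹)) ‖w‖

theorem measurable_G0 (L : ℝ) : Measurable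
    (Set.indicator {r : ℝ | 0 < r ∧ |Real.log r| ≤ L} (fun r => ENNReal.ofReal ((r ^ 2)⁻¹))) := by
  have h : Measurable fun r : ℝ => ENNReal.ofReal ((r ^ 2)⁻¹) := by fun_prop
  have h2 : Measurable fun r : ℝ => |Real.log r| := Real.measurable_log.abs
  exact h.indicator ((measurableSet_lt measurable_const measurable_id).inter
    (measurableSet_le h2 measurable_const))

theorem measurable_G (L : ℝ) : Measurable (G L) := (measurable_G0 L).comp measurable_norm

theorem lintegral_G (L : ℝ) : ∫⁻ w, G L w ≤ ENNReal.ofReal (4 * Real.pi * L) := by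
  unfold G
  rw [lintegral_radial (measurable_G0 L)]
  rcases lt_or_ge L 0 with hL | hL
  · have : {r : ℝ | 0 < r ∧ |Real.log r| ≤ L} = ∅ := by
      ext r
      simp only [Set.mem_ofPred_eq, Set.mem_empty_iff_false, iff_false, not_and, not_le]
      intro _
      exact hL.trans_le (abs_nonneg _)
    rw [this]
    simp
  · have h1 : ∫⁻ r in Set.Ioi (0 : ℝ), ENNReal.ofReal r *
        Set.indicator {r : ℝ | 0 < r ∧ |Real.log r| ≤ L} (fun r => ENNReal.ofReal ((r ^ 2)⁻¹)) r
        ≤ ∫⁻ r in Set.Icc (Real.exp (-L)) (Real.exp L), ENNReal.ofReal r⁻¹ := by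
      calc ∫⁻ r in Set.Ioi (0 : ℝ), ENNReal.ofReal r *
            Set.indicator {r : ℝ | 0 < r ∧ |Real.log r| ≤ L}
              (fun r => ENNReal.ofReal ((r ^ 2)⁻¹)) r
          ≤ ∫⁻ r, Set.indicator (Set.Icc (Real.exp (-L)) (Real.exp L))
              (fun r => ENNReal.ofReal r⁻¹) r := by
            refine (setLIntegral_le_lintegral _ _).trans (lintegral_mono fun r => ?_)
            by_cases hr : 0 < r ∧ |Real.log r| ≤ L
            · have hr' : r ∈ Set.Icc (Real.exp (-L)) (Real.exp L) := by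
                have := abs_le.1 hr.2
                exact ⟨(Real.le_log_iff_exp_le hr.1).1 this.1, (Real.log_le_iff_le_exp hr.1).1 this.2⟩
              simp only
              rw [Set.indicator_of_mem (show r ∈ {r : ℝ | 0 < r ∧ |Real.log r| ≤ L} from hr),
                Set.indicator_of_mem hr', ← ENNReal.ofReal_mul hr.1.le]
              refine ENNReal.ofReal_le_ofReal (le_of_eq ?_)
              have := hr.1.ne'
              field_simp
            · simp only
              rw [Set.indicator_of_notMem (show r ∉ {r : ℝ | 0 < r ∧ |Real.log r| ≤ L} from hr)]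
              simp
        _ = _ := by rw [lintegral_indicator measurableSet_Icc]
    have hpos : 0 < Real.exp (-L) := Real.exp_pos _
    have hle : Real.exp (-L) ≤ Real.exp L := Real.exp_le_exp.2 (by linarith)
    have h2 : ∫⁻ r in Set.Icc (Real.exp (-L)) (Real.exp L), ENNReal.ofReal r⁻¹ =
        ENNReal.ofReal (2 * L) := by
      rw [← ofReal_integral_eq_lintegral_ofReal]
      · rw [integral_Icc_eq_integral_Ioc, ← intervalIntegral.integral_of_le hle,
          integral_inv_of_pos hpos (Real.exp_pos _), Real.log_div (Real.exp_pos _).ne' hpos.ne',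
          Real.log_exp, Real.log_exp]
        congr 1
        ring
      · refine ContinuousOn.integrableOn_Icc (continuousOn_id.inv₀ fun x hx => ?_)
        exact (hpos.trans_le hx.1).ne'
      · refine (ae_restrict_iff' measurableSet_Icc).2 (ae_of_all _ fun x hx => ?_)
        exact inv_nonneg.2 (hpos.le.trans hx.1)
    rw [h2] at h1
    calc _ ≤ ENNReal.ofReal (2 * L) * ENNReal.ofReal (2 * Real.pi) := by gcongr
      _ = ENNReal.ofReal (4 * Real.pi * L) := by
          rw [← ENNReal.ofReal_mul (by positivity)]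
          congr 1
          ring

/-- `|w|⁻¹` cut off. -/
noncomputable def H (w : ℂ) : ℝ≥0∞ :=
  Set.indicator {r : ℝ | 0 < r ∧ r ≤ 1} (fun r => ENNReal.ofReal r⁻¹) ‖w‖

theorem measurable_H0 : Measurable
    (Set.indicator {r : ℝ | 0 < r ∧ r ≤ 1} (fun r => ENNReal.ofReal r⁻¹)) := by
  have h : Measurable fun r : ℝ => ENNReal.ofReal r⁻¹ := by fun_prop
  exact h.indicator ((measurableSet_lt measurable_const measurable_id).inter
    (measurableSet_le measurable_id measurable_const))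

theorem measurable_H : Measurable H := measurable_H0.comp measurable_norm

theorem lintegral_H : ∫⁻ w, H w < ⊤ := by
  unfold H
  rw [lintegral_radial measurable_H0]
  refine ENNReal.mul_lt_top ?_ ENNReal.ofReal_lt_top
  calc ∫⁻ r in Set.Ioi (0 : ℝ), ENNReal.ofReal r *
        Set.indicator {r : ℝ | 0 < r ∧ r ≤ 1} (fun r => ENNReal.ofReal r⁻¹) r
      ≤ ∫⁻ r, Set.indicator (Set.Icc (0 : ℝ) 1) (fun _ => 1) r := by
        refine (setLIntegral_le_lintegral _ _).trans (lintegral_mono fun r => ?_)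
        by_cases hr : 0 < r ∧ r ≤ 1
        · simp only
          rw [Set.indicator_of_mem (show r ∈ {r : ℝ | 0 < r ∧ r ≤ 1} from hr),
            Set.indicator_of_mem (show r ∈ Set.Icc (0 : ℝ) 1 from ⟨hr.1.le, hr.2⟩),
            ← ENNReal.ofReal_mul hr.1.le, mul_inv_cancel₀ hr.1.ne']
          simp
        · simp only
          rw [Set.indicator_of_notMem (show r ∉ {r : ℝ | 0 < r ∧ r ≤ 1} from hr)]
          simp
    _ < ⊤ := by
        rw [lintegral_indicator measurableSet_Icc]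
        simp

/-- indicator of a disc. -/
noncomputable def B (R : ℝ) (w : ℂ) : ℝ≥0∞ := Set.indicator (Metric.closedBall 0 R) (fun _ => 1) w

theorem measurable_B (R : ℝ) : Measurable (B R) :=
  measurable_const.indicator Metric.isClosed_closedBall.measurableSet

theorem lintegral_B (R : ℝ) : ∫⁻ w, B R w = ENNReal.ofReal R ^ 2 * NNReal.pi := by
  unfold B
  rw [lintegral_indicator Metric.isClosed_closedBall.measurableSet, lintegral_const]
  simp

theorem summable_exp_pow (n : ℕ) (c : ℝ) {δ : ℝ} (hδ : 0 < δ) :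
    Summable fun k : ℕ => Real.exp (-(2 * δ * k)) * (c * ((k : ℝ) + 1)) ^ n := by
  obtain ⟨r, hr0, hr1, hrk⟩ : ∃ r : ℝ, 0 < r ∧ r < 1 ∧
      ∀ k : ℕ, Real.exp (-(2 * δ * k)) = r ^ k := by
    refine ⟨Real.exp (-(2 * δ)), Real.exp_pos _, ?_, fun k => ?_⟩
    · rw [Real.exp_lt_one_iff]
      linarith
    · rw [← Real.exp_nat_mul]
      congr 1
      ring
  have hr : ‖r‖ < 1 := by rwa [Real.norm_of_nonneg hr0.le]
  have h0 : Summable (fun k : ℕ => (k : ℝ) ^ n * r ^ k) :=
    summable_pow_mul_geometric_of_norm_lt_one n hr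
  have h : Summable (fun k : ℕ => ((k + 1 : ℕ) : ℝ) ^ n * r ^ (k + 1)) :=
    (summable_nat_add_iff (f := fun k : ℕ => (k : ℝ) ^ n * r ^ k) 1).2 h0
  have h2 := h.mul_left (c ^ n * r⁻¹)
  have e : (fun k : ℕ => Real.exp (-(2 * δ * k)) * (c * ((k : ℝ) + 1)) ^ n) =
      fun k : ℕ => c ^ n * r⁻¹ * (((k + 1 : ℕ) : ℝ) ^ n * r ^ (k + 1)) := by
    funext k
    rw [hrk, pow_succ r, mul_pow]
    push_cast
    have := hr0.ne'
    field_simp
  rw [e]
  exact h2

end AI

variable {n N : ℕ}

variable {K : Type} [Field K] [Algebra ℂ K] [Algebra (Pol n) K]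
  [IsScalarTower ℂ (Pol n) K] [FaithfulSMul (Pol n) K]

theorem AI.jac_update {d : Fin n → Derivation ℂ K K} (hd : IsPartials d) (g : Pol n)
    (j : Fin n) :
    jac d (fun i => algebraMap (Pol n) K (if i = j then g else MvPolynomial.X i)) =
      algebraMap (Pol n) K (MvPolynomial.pderiv j g) := by
  have e : (Matrix.of fun i k =>
      d i (algebraMap (Pol n) K (if k = j then g else MvPolynomial.X k))) =
      (1 : Matrix (Fin n) (Fin n) K).updateCol j (fun i => d i (algebraMap (Pol n) K g)) := by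
    ext i k
    by_cases hk : k = j
    · subst hk
      simp
    · simp only [Matrix.of_apply, if_neg hk, Matrix.updateCol_apply]
      rw [hd i k, Matrix.one_apply]
  unfold jac
  rw [e, ← Matrix.cramer_apply, Matrix.cramer_one]
  exact d_alg hd g j

namespace Prim

variable {E : Prim n K} {S : Sheets n N}

theorem AI.aemeas_ev (hS : E.IsSheets S) {a : K} (ha : E.IsReg a) :
    AEMeasurable (E.ev a) S.μ :=
  (Sheets.aestronglyMeasurable_of_CD ((holo_ev hS ha).CD 0)).aemeasurable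

/-- Integrability of `ρ ^ (2 δ) |dlog b₁ ∧ ⋯ ∧ dlog bₙ|²`. -/
theorem lintegral_shell (hS : E.IsSheets S) {d : Fin n → Derivation ℂ K K} (hd : IsPartials d)
    {b : Fin n → K} (hb : ∀ i, E.IsReg (b i)) (hj : jac d b ≠ 0)
    {ρ : (Fin n → ℂ) × ℂ → ℝ} (hρ : AEMeasurable ρ S.μ) {C δ : ℝ} (hδ : 0 < δ) :
    ∫⁻ q in {q | 0 < ρ q ∧ ρ q < 1 ∧ ∀ i, E.ev (b i) q ≠ 0 ∧
        |Real.log ‖E.ev (b i) q‖| ≤ C * |Real.log (ρ q)|},
      ENNReal.ofReal (ρ q ^ (2 * δ) * (∏ i, ‖E.ev (b i) q‖ ^ 2)⁻¹ *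
        ‖E.ev (jac d b) q‖ ^ 2) ∂S.μ < ⊤ := by
  obtain ⟨D, hD, harea⟩ := lintegral_area hS hd hb hj
  have hC0 : 0 ≤ max C 0 := le_max_right _ _
  have hCC : C ≤ max C 0 := le_max_left _ _
  generalize max C 0 = C' at hC0 hCC
  let s : ℕ → Set ((Fin n → ℂ) × ℂ) := fun k => {q | (0 < ρ q ∧
    ρ q ^ (2 * δ) ≤ Real.exp (-(2 * δ * k))) ∧ ∀ i, E.ev (b i) q ≠ 0 ∧
        |Real.log ‖E.ev (b i) q‖| ≤ C' * ((k : ℝ) + 1)}
  have hsub : {q | 0 < ρ q ∧ ρ q < 1 ∧ ∀ i, E.ev (b i) q ≠ 0 ∧
        |Real.log ‖E.ev (b i) q‖| ≤ C * |Real.log (ρ q)|} ⊆ ⋃ k, s k := by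
    rintro q ⟨h0, h1, h2⟩
    have hlog : Real.log (ρ q) < 0 := Real.log_neg h0 h1
    have hf1 : ((⌊-Real.log (ρ q)⌋₊ : ℕ) : ℝ) ≤ -Real.log (ρ q) :=
      Nat.floor_le (by linarith)
    have hf2 : -Real.log (ρ q) < ((⌊-Real.log (ρ q)⌋₊ : ℕ) : ℝ) + 1 := Nat.lt_floor_add_one _
    refine Set.mem_iUnion.2 ⟨⌊-Real.log (ρ q)⌋₊, ⟨⟨h0, ?_⟩, fun i => ⟨(h2 i).1, ?_⟩⟩⟩
    · rw [Real.rpow_def_of_pos h0]
      apply Real.exp_le_exp.2
      have := mul_le_mul_of_nonneg_left hf1 (by linarith : (0 : ℝ) ≤ 2 * δ)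
      linarith
    · refine (h2 i).2.trans ?_
      rw [abs_of_neg hlog]
      calc C * -Real.log (ρ q) ≤ C' * -Real.log (ρ q) :=
            mul_le_mul_of_nonneg_right hCC (by linarith)
        _ ≤ _ := mul_le_mul_of_nonneg_left hf2.le hC0
  have hG : ∀ L : ℝ, Measurable fun ζ : Fin n → ℂ => ∏ i, AI.G L (ζ i) := fun L =>
    Finset.measurable_fun_prod _ fun i _ => (AI.measurable_G L).comp (measurable_pi_apply i)
  have hk : ∀ k : ℕ, ∫⁻ q in s k,
      ENNReal.ofReal (ρ q ^ (2 * δ) * (∏ i, ‖E.ev (b i) q‖ ^ 2)⁻¹ *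
        ‖E.ev (jac d b) q‖ ^ 2) ∂S.μ ≤
      D * ENNReal.ofReal (Real.exp (-(2 * δ * k)) * (4 * Real.pi * C' * ((k : ℝ) + 1)) ^ n) := by
    intro k
    have hmeas : AEMeasurable (fun q => ENNReal.ofReal (Real.exp (-(2 * δ * k))) *
        ((∏ i, AI.G (C' * ((k : ℝ) + 1)) (E.ev (b i) q)) *
          ENNReal.ofReal (‖E.ev (jac d b) q‖ ^ 2))) S.μ := by
      have h1 : AEMeasurable (fun q => ∏ i, AI.G (C' * ((k : ℝ) + 1)) (E.ev (b i) q)) S.μ :=
        Finset.aemeasurable_fun_prod _ fun i _ =>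
          (AI.measurable_G _).comp_aemeasurable (AI.aemeas_ev hS (hb i))
      have h2 : AEMeasurable (fun q => ENNReal.ofReal (‖E.ev (jac d b) q‖ ^ 2)) S.μ :=
        ((AI.aemeas_ev hS (IsReg.jac hd hb)).norm.pow_const 2).ennreal_ofReal
      exact (h1.mul h2).const_mul _
    calc ∫⁻ q in s k,
        ENNReal.ofReal (ρ q ^ (2 * δ) * (∏ i, ‖E.ev (b i) q‖ ^ 2)⁻¹ *
          ‖E.ev (jac d b) q‖ ^ 2) ∂S.μ
        ≤ ∫⁻ q in s k, ENNReal.ofReal (Real.exp (-(2 * δ * k))) *
          ((∏ i, AI.G (C' * ((k : ℝ) + 1)) (E.ev (b i) q)) *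
            ENNReal.ofReal (‖E.ev (jac d b) q‖ ^ 2)) ∂S.μ := by
          refine setLIntegral_mono_ae hmeas.restrict (ae_of_all _ fun q hq => ?_)
          have hprod : ∏ i, AI.G (C' * ((k : ℝ) + 1)) (E.ev (b i) q) =
              ENNReal.ofReal ((∏ i, ‖E.ev (b i) q‖ ^ 2)⁻¹) := by
            rw [← Finset.prod_inv_distrib, ENNReal.ofReal_prod_of_nonneg
              (fun i _ => by positivity)]
            refine Finset.prod_congr rfl fun i _ => ?_
            unfold AI.G
            rw [Set.indicator_of_mem]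
            exact ⟨norm_pos_iff.2 (hq.2 i).1, (hq.2 i).2⟩
          rw [hprod, ← ENNReal.ofReal_mul (by positivity), ← ENNReal.ofReal_mul (by positivity),
            mul_assoc]
          refine ENNReal.ofReal_le_ofReal ?_
          exact mul_le_mul_of_nonneg_right hq.1.2 (by positivity)
      _ ≤ ∫⁻ q, ENNReal.ofReal (Real.exp (-(2 * δ * k))) *
          ((∏ i, AI.G (C' * ((k : ℝ) + 1)) (E.ev (b i) q)) *
            ENNReal.ofReal (‖E.ev (jac d b) q‖ ^ 2)) ∂S.μ := setLIntegral_le_lintegral _ _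
      _ = ENNReal.ofReal (Real.exp (-(2 * δ * k))) *
          ∫⁻ q, (∏ i, AI.G (C' * ((k : ℝ) + 1)) (E.ev (b i) q)) *
            ENNReal.ofReal (‖E.ev (jac d b) q‖ ^ 2) ∂S.μ :=
          lintegral_const_mul' _ _ ENNReal.ofReal_ne_top
      _ ≤ ENNReal.ofReal (Real.exp (-(2 * δ * k))) *
          (D * ∫⁻ ζ : Fin n → ℂ, ∏ i, AI.G (C' * ((k : ℝ) + 1)) (ζ i)) := by
          gcongr
          exact harea _ (hG _)
      _ ≤ ENNReal.ofReal (Real.exp (-(2 * δ * k))) *
          (D * ENNReal.ofReal (4 * Real.pi * (C' * ((k : ℝ) + 1))) ^ n) := by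
          gcongr
          rw [AI.lintegral_prod_fin _ fun _ => AI.measurable_G _]
          refine (Finset.prod_le_prod' fun i _ => AI.lintegral_G _).trans ?_
          simp
      _ = D * ENNReal.ofReal (Real.exp (-(2 * δ * k)) *
          (4 * Real.pi * C' * ((k : ℝ) + 1)) ^ n) := by
          rw [← ENNReal.ofReal_pow (by positivity), mul_left_comm,
            ← ENNReal.ofReal_mul (by positivity)]
          congr 3
          ring
  calc _ ≤ ∫⁻ q in ⋃ k, s k,
      ENNReal.ofReal (ρ q ^ (2 * δ) * (∏ i, ‖E.ev (b i) q‖ ^ 2)⁻¹ *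
        ‖E.ev (jac d b) q‖ ^ 2) ∂S.μ := lintegral_mono_set hsub
    _ ≤ ∑' k, ∫⁻ q in s k,
      ENNReal.ofReal (ρ q ^ (2 * δ) * (∏ i, ‖E.ev (b i) q‖ ^ 2)⁻¹ *
        ‖E.ev (jac d b) q‖ ^ 2) ∂S.μ := lintegral_iUnion_le _ _
    _ ≤ ∑' k : ℕ, D * ENNReal.ofReal (Real.exp (-(2 * δ * k)) *
          (4 * Real.pi * C' * ((k : ℝ) + 1)) ^ n) := ENNReal.tsum_le_tsum hk
    _ = D * ∑' k : ℕ, ENNReal.ofReal (Real.exp (-(2 * δ * k)) *
          (4 * Real.pi * C' * ((k : ℝ) + 1)) ^ n) := ENNReal.tsum_mul_left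
    _ < ⊤ := by
        refine ENNReal.mul_lt_top hD.lt_top ?_
        rw [← ENNReal.ofReal_tsum_of_nonneg (fun k => by positivity)
          (AI.summable_exp_pow n (4 * Real.pi * C') hδ)]
        exact ENNReal.ofReal_lt_top

/-- Integrability of `|f|⁻¹ |∂f|²`. -/
theorem lintegral_log_sing (hS : E.IsSheets S) {d : Fin n → Derivation ℂ K K}
    (hd : IsPartials d) (f : Pol n) (j : Fin n) :
    ∫⁻ q in {q | ‖q.1‖ < 1 ∧ MvPolynomial.eval q.1 f ≠ 0 ∧ ‖MvPolynomial.eval q.1 f‖ ≤ 1},
      ENNReal.ofReal (‖MvPolynomial.eval q.1 f‖⁻¹ *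
        ‖MvPolynomial.eval q.1 (MvPolynomial.pderiv j f)‖ ^ 2) ∂S.μ < ⊤ := by
  by_cases h0 : MvPolynomial.pderiv j f = 0
  · simp [h0]
  have hj : jac d (fun i => algebraMap (Pol n) K (if i = j then f else MvPolynomial.X i)) ≠ 0 := by
    rw [AI.jac_update hd]
    exact (map_ne_zero_iff _ (FaithfulSMul.algebraMap_injective (Pol n) K)).2 h0
  have hb : ∀ i, E.IsReg ((fun i => algebraMap (Pol n) K
      (if i = j then f else MvPolynomial.X i)) i) := fun i => isReg_alg _
  obtain ⟨D, hD, harea⟩ := lintegral_area hS hd hb hj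
  let g : Fin n → ℂ → ℝ≥0∞ := fun i => if i = j then AI.H else AI.B 1
  have hg : ∀ i, Measurable (g i) := by
    intro i
    by_cases hi : i = j
    · simp only [g, if_pos hi]
      exact AI.measurable_H
    · simp only [g, if_neg hi]
      exact AI.measurable_B 1
  have hgp : Measurable fun ζ : Fin n → ℂ => ∏ i, g i (ζ i) :=
    Finset.measurable_fun_prod _ fun i _ => (hg i).comp (measurable_pi_apply i)
  have h1 := harea _ hgp
  rw [AI.lintegral_prod_fin g hg] at h1
  have h2 : D * ∏ i, ∫⁻ w, g i w < ⊤ := by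
    refine ENNReal.mul_lt_top hD.lt_top (ENNReal.prod_lt_top fun i _ => ?_)
    by_cases hi : i = j
    · simp only [g, if_pos hi]
      exact AI.lintegral_H
    · simp only [g, if_neg hi]
      rw [AI.lintegral_B]
      exact ENNReal.mul_lt_top (ENNReal.pow_lt_top ENNReal.ofReal_lt_top) ENNReal.coe_lt_top
  refine lt_of_le_of_lt (le_trans ?_ h1) h2
  have hmeas : AEMeasurable (fun q : (Fin n → ℂ) × ℂ => (∏ i, g i (E.ev (algebraMap (Pol n) K
      (if i = j then f else MvPolynomial.X i)) q)) *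
      ENNReal.ofReal (‖E.ev (jac d (fun i => algebraMap (Pol n) K
        (if i = j then f else MvPolynomial.X i))) q‖ ^ 2)) S.μ := by
    have h1 : AEMeasurable (fun q => ∏ i, g i (E.ev (algebraMap (Pol n) K
      (if i = j then f else MvPolynomial.X i)) q)) S.μ :=
      Finset.aemeasurable_fun_prod _ fun i _ =>
        (hg i).comp_aemeasurable (AI.aemeas_ev hS (hb i))
    have h2 : AEMeasurable (fun q => ENNReal.ofReal (‖E.ev (jac d (fun i => algebraMap (Pol n) K
        (if i = j then f else MvPolynomial.X i))) q‖ ^ 2)) S.μ :=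
      ((AI.aemeas_ev hS (IsReg.jac hd hb)).norm.pow_const 2).ennreal_ofReal
    exact h1.mul h2
  refine le_trans (setLIntegral_mono_ae hmeas.restrict ?_) (setLIntegral_le_lintegral _ _)
  filter_upwards [Sheets.ae_mem_M (S := S)] with q hq hqs
  rw [AI.jac_update hd, ev_alg hS hq, ← Finset.mul_prod_erase Finset.univ _ (Finset.mem_univ j)]
  have e1 : g j (E.ev (algebraMap (Pol n) K (if j = j then f else MvPolynomial.X j)) q) =
      ENNReal.ofReal ‖MvPolynomial.eval q.1 f‖⁻¹ := by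
    rw [if_pos rfl, ev_alg hS hq]
    simp only [g, if_true, AI.H]
    rw [Set.indicator_of_mem]
    exact ⟨norm_pos_iff.2 hqs.2.1, hqs.2.2⟩
  have e2 : ∏ i ∈ Finset.univ.erase j, g i (E.ev (algebraMap (Pol n) K
      (if i = j then f else MvPolynomial.X i)) q) = 1 := by
    refine Finset.prod_eq_one fun i hi => ?_
    have hi' : i ≠ j := (Finset.mem_erase.1 hi).1
    rw [if_neg hi', ev_alg hS hq]
    simp only [g, if_neg hi', AI.B, MvPolynomial.eval_X]
    rw [Set.indicator_of_mem]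
    rw [mem_closedBall_zero_iff]
    exact (norm_le_pi_norm q.1 i).trans hqs.1.le
  rw [e1, e2, mul_one, ← ENNReal.ofReal_mul (by positivity)]

/-- The neighbourhood of `{h = 0}`. -/
theorem lintegral_tube (hS : E.IsSheets S) {d : Fin n → Derivation ℂ K K}
    (hd : IsPartials d) (j : Fin n) (R : ℝ) : ∃ C : ℝ, ∀ ε : ℝ, 0 < ε →
    ∫⁻ z in {z | z ∈ S.V ∧ ‖z‖ ≤ R ∧ ‖MvPolynomial.eval z E.h‖ ≤ ε},
      ENNReal.ofReal (‖MvPolynomial.eval z (MvPolynomial.pderiv j E.h)‖ ^ 2) ≤
      ENNReal.ofReal (C * ε ^ 2) := by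
  by_cases h0 : MvPolynomial.pderiv j E.h = 0
  · refine ⟨0, fun ε _ => ?_⟩
    simp [h0]
  have hj : jac d (fun i => algebraMap (Pol n) K
      (if i = j then E.h else MvPolynomial.X i)) ≠ 0 := by
    rw [AI.jac_update hd]
    exact (map_ne_zero_iff _ (FaithfulSMul.algebraMap_injective (Pol n) K)).2 h0
  have hb : ∀ i, E.IsReg ((fun i => algebraMap (Pol n) K
      (if i = j then E.h else MvPolynomial.X i)) i) := fun i => isReg_alg _
  obtain ⟨D, hD, harea⟩ := lintegral_area hS hd hb hj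
  refine ⟨D.toReal * ((∏ i ∈ Finset.univ.erase j, (ENNReal.ofReal R ^ 2 * NNReal.pi)).toReal *
    Real.pi), fun ε hε => ?_⟩
  let g : Fin n → ℂ → ℝ≥0∞ := fun i => if i = j then AI.B ε else AI.B R
  have hg : ∀ i, Measurable (g i) := by
    intro i
    by_cases hi : i = j
    · simp only [g, if_pos hi]
      exact AI.measurable_B _
    · simp only [g, if_neg hi]
      exact AI.measurable_B _
  have hgp : Measurable fun ζ : Fin n → ℂ => ∏ i, g i (ζ i) :=
    Finset.measurable_fun_prod _ fun i _ => (hg i).comp (measurable_pi_apply i)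
  have h1 := harea _ hgp
  rw [AI.lintegral_prod_fin g hg] at h1
  -- the function on V
  let G : (Fin n → ℂ) → ℝ≥0∞ := fun z => (∏ i, g i (MvPolynomial.eval z
    (if i = j then E.h else MvPolynomial.X i))) *
    ENNReal.ofReal (‖MvPolynomial.eval z (MvPolynomial.pderiv j E.h)‖ ^ 2)
  have hcont : ∀ p : Pol n, Measurable fun z : Fin n → ℂ => MvPolynomial.eval z p := fun p =>
    (MvPolynomial.continuous_eval p).measurable
  have hGm : Measurable G := by
    refine Measurable.mul (Finset.measurable_fun_prod _ fun i _ => (hg i).comp (hcont _)) ?_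
    exact ((hcont _).norm.pow_const 2).ennreal_ofReal
  have h2 : ∫⁻ z in S.V, G z ≤ ∫⁻ q, G q.1 ∂S.μ := by
    rw [Sheets.lintegral_μ (S := S) (Ψ := fun q => G q.1) (hGm.comp measurable_fst)]
    refine setLIntegral_mono' S.isOpen.measurableSet fun z hz => ?_
    simp only
    rw [Finset.sum_const, Sheets.card_fib hz]
    have hN : 0 < N := pos_of_isSheets hS
    calc G z = 1 • G z := (one_smul _ _).symm
      _ ≤ N • G z := nsmul_le_nsmul_left (zero_le) hN
  have h3 : ∫⁻ q, G q.1 ∂S.μ = ∫⁻ q, (∏ i, g i (E.ev (algebraMap (Pol n) K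
      (if i = j then E.h else MvPolynomial.X i)) q)) *
      ENNReal.ofReal (‖E.ev (jac d (fun i => algebraMap (Pol n) K
        (if i = j then E.h else MvPolynomial.X i))) q‖ ^ 2) ∂S.μ := by
    refine lintegral_congr_ae ?_
    filter_upwards [Sheets.ae_mem_M (S := S)] with q hq
    rw [AI.jac_update hd, ev_alg hS hq]
    simp only [G]
    congr 1
    refine Finset.prod_congr rfl fun i _ => ?_
    rw [ev_alg hS hq]
  have h4 : ∫⁻ z in {z | z ∈ S.V ∧ ‖z‖ ≤ R ∧ ‖MvPolynomial.eval z E.h‖ ≤ ε},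
      ENNReal.ofReal (‖MvPolynomial.eval z (MvPolynomial.pderiv j E.h)‖ ^ 2) ≤
      ∫⁻ z in S.V, G z := by
    refine le_trans (setLIntegral_mono hGm fun z hz => ?_) (lintegral_mono_set fun z hz => hz.1)
    have e1 : ∏ i, g i (MvPolynomial.eval z (if i = j then E.h else MvPolynomial.X i)) = 1 := by
      refine Finset.prod_eq_one fun i _ => ?_
      by_cases hi : i = j
      · simp only [g, if_pos hi, AI.B]
        rw [Set.indicator_of_mem]
        rw [mem_closedBall_zero_iff]
        exact hz.2.2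
      · simp only [g, if_neg hi, AI.B, MvPolynomial.eval_X]
        rw [Set.indicator_of_mem]
        rw [mem_closedBall_zero_iff]
        exact (norm_le_pi_norm z i).trans hz.2.1
    simp only [G]
    rw [e1, one_mul]
  have h5 : ∏ i, ∫⁻ w, g i w = (∏ i ∈ Finset.univ.erase j, (ENNReal.ofReal R ^ 2 * NNReal.pi)) *
      (ENNReal.ofReal ε ^ 2 * NNReal.pi) := by
    rw [← Finset.prod_erase_mul Finset.univ _ (Finset.mem_univ j)]
    congr 1
    · refine Finset.prod_congr rfl fun i hi => ?_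
      have hi' : i ≠ j := (Finset.mem_erase.1 hi).1
      simp only [g, if_neg hi']
      exact AI.lintegral_B R
    · simp only [g, if_true]
      exact AI.lintegral_B ε
  refine h4.trans (h2.trans (h3.le.trans (h1.trans (le_of_eq ?_))))
  rw [h5]
  have hP : (∏ i ∈ Finset.univ.erase j, (ENNReal.ofReal R ^ 2 * (NNReal.pi : ℝ≥0∞))) ≠ ⊤ :=
    (ENNReal.prod_lt_top fun i _ =>
      ENNReal.mul_lt_top (ENNReal.pow_lt_top ENNReal.ofReal_lt_top) ENNReal.coe_lt_top).ne
  have hpi : ((NNReal.pi : ℝ≥0∞)) = ENNReal.ofReal Real.pi := by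
    rw [← NNReal.coe_real_pi, ENNReal.ofReal_coe_nnreal]
  rw [hpi, ← ENNReal.ofReal_pow hε.le, ← ENNReal.ofReal_mul (by positivity)]
  conv_lhs => rw [← ENNReal.ofReal_toReal hD]
  rw [hpi] at hP
  conv_lhs => rw [← ENNReal.ofReal_toReal hP]
  rw [← ENNReal.ofReal_mul ENNReal.toReal_nonneg, ← ENNReal.ofReal_mul ENNReal.toReal_nonneg]
  congr 1
  ring

end Prim

end Vale.Agent.P282.L2
end

section

open MeasureTheory Filter Topology
open scoped ENNReal NNReal ComplexConjugate

namespace Vale.Agent.P282.L2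

variable {n N : ℕ} {K : Type} [Field K] [Algebra ℂ K] [Algebra (Pol n) K]
  [IsScalarTower ℂ (Pol n) K] [FaithfulSMul (Pol n) K]

namespace WExt

/-- A cutoff function of one real variable. -/
noncomputable def wcut (t : ℝ) : ℝ := Real.smoothTransition ((t - 1) / 3)

theorem wcut_contDiff : ContDiff ℝ 2 wcut := by
  have h1 : ContDiff ℝ ((2 : ℕ∞) : WithTop ℕ∞) Real.smoothTransition :=
    Real.smoothTransition.contDiff
  have h2 : ContDiff ℝ ((2 : ℕ∞) : WithTop ℕ∞) (fun t : ℝ => (t - 1) / 3) :=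
    (contDiff_id.sub contDiff_const).div_const 3
  exact h1.comp h2

theorem wcut_zero {t : ℝ} (ht : t ≤ 1) : wcut t = 0 :=
  Real.smoothTransition.zero_of_nonpos (by linarith)

theorem wcut_one {t : ℝ} (ht : 4 ≤ t) : wcut t = 1 :=
  Real.smoothTransition.one_of_one_le (by linarith)

theorem wcut_abs (t : ℝ) : |wcut t| ≤ 1 := by
  rw [wcut, abs_of_nonneg (Real.smoothTransition.nonneg _)]
  exact Real.smoothTransition.le_one _

theorem wcut_deriv_zero {t : ℝ} (ht : t < 1 ∨ 4 < t) : deriv wcut t = 0 := by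
  rcases ht with ht | ht
  · have : wcut =ᶠ[𝓝 t] fun _ => 0 := by
      filter_upwards [Iio_mem_nhds ht] with s hs using wcut_zero (le_of_lt hs)
    rw [this.deriv_eq]; simp
  · have : wcut =ᶠ[𝓝 t] fun _ => 1 := by
      filter_upwards [Ioi_mem_nhds ht] with s hs using wcut_one (le_of_lt hs)
    rw [this.deriv_eq]; simp

theorem wcut_deriv_bound : ∃ C : ℝ, 0 ≤ C ∧ ∀ t, |deriv wcut t| ≤ C := by
  have hc : Continuous (deriv wcut) := wcut_contDiff.continuous_deriv (by norm_num)
  obtain ⟨C, hC⟩ := (isCompact_Icc (a := (1 : ℝ)) (b := 4)).exists_bound_of_continuousOn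
    hc.continuousOn
  refine ⟨max C 0, le_max_right _ _, fun t => ?_⟩
  by_cases ht : t ∈ Set.Icc (1 : ℝ) 4
  · exact (hC t ht).trans (le_max_left _ _)
  · rw [wcut_deriv_zero]
    · simp
    · rw [Set.mem_Icc, not_and_or, not_le, not_le] at ht
      exact ht

theorem contDiff_eval (f : Pol n) {k : WithTop ℕ∞} :
    ContDiff ℝ k (fun z : Fin n → ℂ => MvPolynomial.eval z f) := by
  have h1 : AnalyticOnNhd ℂ (fun z : Fin n → ℂ => MvPolynomial.eval z f) Set.univ :=
    AnalyticOnNhd.eval_mvPolynomial f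
  have h2 : ContDiff ℂ k (fun z : Fin n → ℂ => MvPolynomial.eval z f) :=
    contDiffOn_univ.mp (h1.contDiffOn uniqueDiffOn_univ)
  exact h2.restrict_scalars ℝ

theorem support_dzb {f : (Fin n → ℂ) → ℂ} (j : Fin n) :
    Function.support (dzb j f) ⊆ tsupport f := by
  intro z hz
  by_contra hn
  apply hz
  have h1 : f =ᶠ[𝓝 z] fun _ => 0 := notMem_tsupport_iff_eventuallyEq.mp hn
  rw [dzb_congr h1, dzb_const]

theorem continuous_dzb {f : (Fin n → ℂ) → ℂ} (hf : ContDiff ℝ 2 f) (j : Fin n) :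
    Continuous (dzb j f) := by
  have h1 : ContDiffOn ℝ (1 : ℕ) (dzb j f) Set.univ :=
    contDiffOn_dzb isOpen_univ (m := 1) (by exact_mod_cast hf.contDiffOn)
  exact continuousOn_univ.mp h1.continuousOn

/-- The cutoff near the zero set of a polynomial. -/
noncomputable def weta (h : Pol n) (ε : ℝ) (z : Fin n → ℂ) : ℂ :=
  ((wcut (‖MvPolynomial.eval z h‖ ^ 2 / ε ^ 2) : ℝ) : ℂ)

theorem contDiff_weta (h : Pol n) (ε : ℝ) : ContDiff ℝ 2 (weta h ε) := by
  have h1 : ContDiff ℝ 2 (fun z : Fin n → ℂ => ‖MvPolynomial.eval z h‖ ^ 2 / ε ^ 2) :=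
    ((contDiff_eval h).norm_sq ℝ).div_const _
  exact Complex.ofRealCLM.contDiff.comp (wcut_contDiff.comp h1)

theorem weta_norm (h : Pol n) (ε : ℝ) (z : Fin n → ℂ) : ‖weta h ε z‖ ≤ 1 := by
  rw [weta, Complex.norm_real]
  exact wcut_abs _

theorem weta_zero (h : Pol n) {ε : ℝ} (hε : 0 < ε) {z : Fin n → ℂ}
    (hz : ‖MvPolynomial.eval z h‖ ≤ ε) : weta h ε z = 0 := by
  rw [weta, wcut_zero, Complex.ofReal_zero]
  rw [div_le_one (by positivity)]
  gcongr

theorem weta_one (h : Pol n) {ε : ℝ} (hε : 0 < ε) {z : Fin n → ℂ}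
    (hz : 2 * ε ≤ ‖MvPolynomial.eval z h‖) : weta h ε z = 1 := by
  rw [weta, wcut_one, Complex.ofReal_one]
  rw [le_div_iff₀ (by positivity)]
  nlinarith

theorem dzb_weta (h : Pol n) (ε : ℝ) (j : Fin n) (z : Fin n → ℂ) :
    dzb j (weta h ε) z = ((deriv wcut (‖MvPolynomial.eval z h‖ ^ 2 / ε ^ 2) : ℝ) : ℂ) *
      (((ε ^ 2)⁻¹ : ℝ) * (MvPolynomial.eval z h *
        conj (MvPolynomial.eval z (MvPolynomial.pderiv j h)))) := by
  have h1 : ContDiff ℝ 2 (fun z : Fin n → ℂ => ‖MvPolynomial.eval z h‖ ^ 2 / ε ^ 2) :=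
    ((contDiff_eval h).norm_sq ℝ).div_const _
  have h2 : dzb j (weta h ε) z = _ := dzb_comp_real (j := j) (z := z)
    (u := fun z : Fin n → ℂ => ‖MvPolynomial.eval z h‖ ^ 2 / ε ^ 2)
    (h1.differentiable (by norm_num) z) (wcut_contDiff.differentiable (by norm_num) _)
  rw [h2]
  congr 1
  have hd : DifferentiableAt ℝ (fun z : Fin n → ℂ => MvPolynomial.eval z h) z :=
    (contDiff_eval (k := 1) h).differentiable (by norm_num) z
  have hd' : DifferentiableAt ℝ (fun z : Fin n → ℂ => conj (MvPolynomial.eval z h)) z := by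
    exact (Complex.conjCLE.differentiable.comp
      ((contDiff_eval (k := 1) h).differentiable (by norm_num))) z
  have h3 : (fun z : Fin n → ℂ => ((‖MvPolynomial.eval z h‖ ^ 2 / ε ^ 2 : ℝ) : ℂ)) =
      fun z => (((ε ^ 2)⁻¹ : ℝ) : ℂ) * (MvPolynomial.eval z h * conj (MvPolynomial.eval z h)) := by
    funext w
    rw [Complex.mul_conj, Complex.normSq_eq_norm_sq, ← Complex.ofReal_mul]
    congr 1
    rw [div_eq_inv_mul]
  have hdd : DifferentiableAt ℝ
      (fun z : Fin n → ℂ => MvPolynomial.eval z h * conj (MvPolynomial.eval z h)) z := hd.mul hd'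
  rw [h3]
  rw [dzb_mul (f := fun _ => (((ε ^ 2)⁻¹ : ℝ) : ℂ)) (differentiableAt_const _) hdd,
    dzb_const, zero_mul, zero_add, dzb_mul hd hd', dzb_eval, zero_mul, zero_add, dzb_conj, dz_eval]

theorem dzb_weta_norm (h : Pol n) {C : ℝ} (hC0 : 0 ≤ C) (hC : ∀ t, |deriv wcut t| ≤ C)
    {ε : ℝ} (hε : 0 < ε) (j : Fin n) (z : Fin n → ℂ) :
    ‖dzb j (weta h ε) z‖ ≤ 2 * C * ε⁻¹ * ‖MvPolynomial.eval z (MvPolynomial.pderiv j h)‖ := by
  rw [dzb_weta, norm_mul, norm_mul, norm_mul, Complex.norm_real, Complex.norm_real,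
    RCLike.norm_conj, Real.norm_eq_abs, Real.norm_eq_abs,
    abs_of_pos (show (0 : ℝ) < (ε ^ 2)⁻¹ by positivity)]
  by_cases hz : ‖MvPolynomial.eval z h‖ ≤ 2 * ε
  · calc _ ≤ C * ((ε ^ 2)⁻¹ * ((2 * ε) * ‖MvPolynomial.eval z (MvPolynomial.pderiv j h)‖)) := by
          gcongr
          exact hC _
      _ = _ := by field_simp
  · rw [wcut_deriv_zero (Or.inr _)]
    · simp
      positivity
    · rw [lt_div_iff₀ (by positivity)]
      push Not at hz
      linarith [mul_pos (sub_pos.2 hz) (sub_pos.2 hz), mul_pos (sub_pos.2 hε) (sub_pos.2 hz)]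

theorem dzb_weta_zero (h : Pol n) {ε : ℝ} (hε : 0 < ε) (j : Fin n) {z : Fin n → ℂ}
    (hz : 2 * ε < ‖MvPolynomial.eval z h‖) : dzb j (weta h ε) z = 0 := by
  rw [dzb_weta, wcut_deriv_zero (Or.inr _)]
  · simp
  · rw [lt_div_iff₀ (by positivity)]
    linarith only [mul_pos (sub_pos.2 hz) (sub_pos.2 hz), mul_pos (sub_pos.2 hε) (sub_pos.2 hz)]

/-- Local square integrability. -/
theorem lint_ball {τ : (Fin n → ℂ) → ℂ} {k : ℕ}
    (hτ2 : ∫⁻ z, ENNReal.ofReal (‖τ z‖ ^ 2 * ((1 + ‖z‖) ^ k)⁻¹) < ⊤) {R : ℝ} (hR : 0 ≤ R) :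
    ∫⁻ z in Metric.closedBall (0 : Fin n → ℂ) R, ‖τ z‖ₑ ^ (2 : ℝ) < ⊤ := by
  have h1 : ∫⁻ z in Metric.closedBall (0 : Fin n → ℂ) R, ‖τ z‖ₑ ^ (2 : ℝ) ≤
      ∫⁻ z in Metric.closedBall (0 : Fin n → ℂ) R, ENNReal.ofReal ((1 + R) ^ k) *
        ENNReal.ofReal (‖τ z‖ ^ 2 * ((1 + ‖z‖) ^ k)⁻¹) := by
    refine setLIntegral_mono' Metric.isClosed_closedBall.measurableSet fun z hz => ?_
    rw [← ENNReal.ofReal_mul (by positivity), ← ofReal_norm,
      ENNReal.ofReal_rpow_of_nonneg (norm_nonneg _) (by norm_num)]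
    apply ENNReal.ofReal_le_ofReal
    rw [mem_closedBall_zero_iff] at hz
    rw [Real.rpow_two]
    have h2 : (1 + ‖z‖) ^ k ≤ (1 + R) ^ k := by gcongr
    have h3 : 0 < (1 + ‖z‖) ^ k := by positivity
    rw [mul_left_comm]
    refine le_mul_of_one_le_right (by positivity) ?_
    rw [← div_eq_mul_inv, one_le_div h3]
    exact h2
  refine lt_of_le_of_lt h1 ?_
  rw [lintegral_const_mul' _ _ ENNReal.ofReal_ne_top]
  exact ENNReal.mul_lt_top ENNReal.ofReal_lt_top
    (lt_of_le_of_lt (setLIntegral_le_lintegral _ _) hτ2)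

theorem integrable_mul {τ : (Fin n → ℂ) → ℂ} {k : ℕ}
    (hτ : AEStronglyMeasurable τ volume)
    (hτ2 : ∫⁻ z, ENNReal.ofReal (‖τ z‖ ^ 2 * ((1 + ‖z‖) ^ k)⁻¹) < ⊤) {R : ℝ} (hR : 0 ≤ R)
    {g : (Fin n → ℂ) → ℂ} (hg : Continuous g)
    (hgs : Function.support g ⊆ Metric.closedBall (0 : Fin n → ℂ) R) :
    Integrable (fun z => τ z * g z) := by
  have h1 : MemLp τ 2 (volume.restrict (Metric.closedBall (0 : Fin n → ℂ) R)) := by
    refine ⟨hτ.restrict, ?_⟩
    rw [eLpNorm_lt_top_iff_lintegral_rpow_enorm_lt_top (by norm_num) (by norm_num)]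
    simpa using lint_ball hτ2 hR
  have : IsFiniteMeasure (volume.restrict (Metric.closedBall (0 : Fin n → ℂ) R)) :=
    ⟨by rw [Measure.restrict_apply_univ]; exact measure_closedBall_lt_top⟩
  have h2 : IntegrableOn τ (Metric.closedBall (0 : Fin n → ℂ) R) volume :=
    h1.integrable (by norm_num)
  obtain ⟨C, hC⟩ := (isCompact_closedBall (0 : Fin n → ℂ) R).exists_bound_of_continuousOn
    hg.continuousOn
  have h3 : IntegrableOn (fun z => τ z * g z) (Metric.closedBall (0 : Fin n → ℂ) R) volume := by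
    refine Integrable.mul_bdd (c := C) h2 hg.aestronglyMeasurable ?_
    filter_upwards [ae_restrict_mem Metric.isClosed_closedBall.measurableSet] with z hz
      using hC z hz
  rwa [integrableOn_iff_integrable_of_support_subset] at h3
  intro z hz
  apply hgs
  intro h4
  apply hz
  simp [h4]

end WExt

open WExt

namespace Prim

variable {E : Prim n K} {S : Sheets n N}

/-- `L²` extension of weakly holomorphic functions over `{h = 0}`. -/
theorem weak_extend (hS : E.IsSheets S) {d : Fin n → Derivation ℂ K K} (hd : IsPartials d)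
    {τ : (Fin n → ℂ) → ℂ} {k : ℕ}
    (hτ : AEStronglyMeasurable τ volume)
    (hτ2 : ∫⁻ z, ENNReal.ofReal (‖τ z‖ ^ 2 * ((1 + ‖z‖) ^ k)⁻¹) < ⊤)
    (hw : ∀ κ : (Fin n → ℂ) → ℂ, ContDiff ℝ 2 κ → HasCompactSupport κ → tsupport κ ⊆ S.V →
      ∀ j, ∫ z, τ z * dzb j κ z = 0)
    (κ : (Fin n → ℂ) → ℂ) (hκ : ContDiff ℝ 2 κ) (hκ' : HasCompactSupport κ) (j : Fin n) :
    ∫ z, τ z * dzb j κ z = 0 := by
  -- the support of κ
  obtain ⟨R, hR0, hR⟩ : ∃ R : ℝ, 0 ≤ R ∧ tsupport κ ⊆ Metric.closedBall (0 : Fin n → ℂ) R := by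
    obtain ⟨R, hR⟩ := hκ'.isBounded.subset_closedBall (0 : Fin n → ℂ)
    exact ⟨max R 0, le_max_right _ _, hR.trans (Metric.closedBall_subset_closedBall
      (le_max_left _ _))⟩
  obtain ⟨Cχ, hCχ0, hCχ⟩ := wcut_deriv_bound
  obtain ⟨Cκ, hCκ⟩ := hκ.continuous.bounded_above_of_compact_support hκ'
  have hCκ0 : 0 ≤ Cκ := (norm_nonneg _).trans (hCκ 0)
  obtain ⟨CT, hCT⟩ := lintegral_tube hS hd j R
  have hVop : IsOpen S.V := S.isOpen
  have hVc : volume (S.V)ᶜ = 0 := by
    have h1 := volume_zeros E.h0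
    convert h1 using 2
    ext z
    simp [hS.1 z]
  have hVae : ∀ᵐ z ∂(volume : Measure (Fin n → ℂ)), z ∈ S.V := by
    rw [ae_iff]; exact hVc
  -- the sequence
  set e : ℕ → ℝ := fun m => ((m : ℝ) + 1)⁻¹ with he
  have he0 : ∀ m, 0 < e m := fun m => by positivity
  have hlim : Tendsto e atTop (𝓝 0) := by
    simpa [he, one_div] using tendsto_one_div_add_atTop_nhds_zero_nat (𝕜 := ℝ)
  have hanti : Antitone e := by
    intro a b hab
    simp only [he]
    gcongr
  have hcη : ∀ m, ContDiff ℝ 2 (weta E.h (e m)) := fun m => contDiff_weta _ _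
  have hdκ : Continuous (dzb j κ) := continuous_dzb hκ j
  have hdη : ∀ m, Continuous (dzb j (weta E.h (e m))) := fun m => continuous_dzb (hcη m) j
  -- first term
  have hT1 : Tendsto (fun m => ∫ z, τ z * (dzb j κ z * weta E.h (e m) z)) atTop
      (𝓝 (∫ z, τ z * dzb j κ z)) := by
    refine tendsto_integral_of_dominated_convergence (fun z => ‖τ z * dzb j κ z‖) ?_ ?_ ?_ ?_
    · intro m
      exact hτ.mul (hdκ.mul (hcη m).continuous).aestronglyMeasurable
    · exact (integrable_mul hτ hτ2 hR0 hdκ ((support_dzb j).trans hR)).norm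
    · intro m
      refine Eventually.of_forall fun z => ?_
      rw [← mul_assoc, norm_mul]
      exact mul_le_of_le_one_right (norm_nonneg _) (weta_norm _ _ _)
    · filter_upwards [hVae] with z hz
      have hz' : 0 < ‖MvPolynomial.eval z E.h‖ := norm_pos_iff.mpr ((hS.1 z).mp hz)
      refine tendsto_const_nhds.congr' ?_
      have h1 : ∀ᶠ m in atTop, e m < ‖MvPolynomial.eval z E.h‖ / 2 :=
        (tendsto_order.1 hlim).2 _ (by positivity)
      filter_upwards [h1] with m hm
      rw [weta_one _ (he0 m) (by linarith), mul_one]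
  -- vanishing
  have hvan : ∀ m, ∫ z, τ z * (dzb j κ z * weta E.h (e m) z) =
      -∫ z, τ z * (κ z * dzb j (weta E.h (e m)) z) := by
    intro m
    have hc : ContDiff ℝ 2 (fun z => κ z * weta E.h (e m) z) := hκ.mul (hcη m)
    have hs : HasCompactSupport (fun z => κ z * weta E.h (e m) z) := hκ'.mul_right
    have hsub : tsupport (fun z => κ z * weta E.h (e m) z) ⊆ S.V := by
      have h1 : tsupport (fun z => κ z * weta E.h (e m) z) ⊆
          {z | e m ≤ ‖MvPolynomial.eval z E.h‖} := by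
        refine closure_minimal ?_ (isClosed_le continuous_const
          (contDiff_eval (k := 0) E.h).continuous.norm)
        intro z hz
        rw [Function.mem_support] at hz
        by_contra hn
        apply hz
        rw [Set.mem_ofPred_eq, not_le] at hn
        rw [weta_zero _ (he0 m) hn.le, mul_zero]
      refine h1.trans fun z hz => ?_
      rw [hS.1 z, ← norm_pos_iff]
      exact lt_of_lt_of_le (he0 m) hz
    have h2 := hw _ hc hs hsub j
    have h3 : ∀ z, τ z * dzb j (fun z => κ z * weta E.h (e m) z) z =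
        τ z * (dzb j κ z * weta E.h (e m) z) + τ z * (κ z * dzb j (weta E.h (e m)) z) := by
      intro z
      rw [dzb_mul (hκ.differentiable (by norm_num) z) ((hcη m).differentiable (by norm_num) z)]
      ring
    simp_rw [h3] at h2
    rw [integral_add] at h2
    · exact eq_neg_of_add_eq_zero_left h2
    · refine integrable_mul hτ hτ2 hR0 (hdκ.mul (hcη m).continuous) ?_
      refine (Function.support_mul_subset_left _ _).trans ((support_dzb j).trans hR)
    · refine integrable_mul hτ hτ2 hR0 (hκ.continuous.mul (hdη m)) ?_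
      exact (Function.support_mul_subset_left _ _).trans ((subset_tsupport κ).trans hR)
  -- the tubes
  set A : ℕ → Set (Fin n → ℂ) := fun m =>
    {z | z ∈ S.V ∧ ‖z‖ ≤ R ∧ ‖MvPolynomial.eval z E.h‖ ≤ 2 * e m} with hA
  have hAm : ∀ m, MeasurableSet (A m) := by
    intro m
    refine hVop.measurableSet.inter ?_
    refine (isClosed_le continuous_norm continuous_const).measurableSet.inter ?_
    exact (isClosed_le (contDiff_eval (k := 0) E.h).continuous.norm
      continuous_const).measurableSet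
  have hAR : ∀ m, A m ⊆ Metric.closedBall (0 : Fin n → ℂ) R := by
    intro m z hz
    rw [mem_closedBall_zero_iff]
    exact hz.2.1
  have hAmeas : Tendsto (fun m => volume (A m)) atTop (𝓝 0) := by
    have h1 : ⋂ m, A m = ∅ := by
      ext z
      simp only [Set.mem_iInter, Set.mem_empty_iff_false, iff_false, not_forall]
      by_cases hz : z ∈ S.V
      · have hz' : 0 < ‖MvPolynomial.eval z E.h‖ := norm_pos_iff.mpr ((hS.1 z).mp hz)
        have h1 : ∀ᶠ m in atTop, e m < ‖MvPolynomial.eval z E.h‖ / 2 :=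
          (tendsto_order.1 hlim).2 _ (by positivity)
        obtain ⟨m, hm⟩ := h1.exists
        refine ⟨m, fun h2 => ?_⟩
        have := h2.2.2
        linarith
      · exact ⟨0, fun h2 => hz h2.1⟩
    have h2 := tendsto_measure_iInter_atTop (μ := (volume : Measure (Fin n → ℂ))) (s := A)
      (fun m => (hAm m).nullMeasurableSet)
      (fun a b hab z hz => ⟨hz.1, hz.2.1, hz.2.2.trans (by have := hanti hab; linarith)⟩)
      ⟨0, ((measure_mono (hAR 0)).trans_lt measure_closedBall_lt_top).ne⟩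
    rwa [h1, measure_empty] at h2
  have hT : Tendsto (fun m => ∫⁻ z in A m, ‖τ z‖ₑ ^ (2 : ℝ)) atTop (𝓝 0) := by
    have h1 : Tendsto (fun m => (volume.restrict (Metric.closedBall (0 : Fin n → ℂ) R)) (A m))
        atTop (𝓝 0) := by
      refine tendsto_of_tendsto_of_tendsto_of_le_of_le tendsto_const_nhds hAmeas
        (fun _ => zero_le) (fun m => Measure.restrict_apply_le _ _)
    have h2 := tendsto_setLIntegral_zero (lint_ball hτ2 hR0).ne h1
    refine h2.congr fun m => ?_
    rw [Measure.restrict_restrict (hAm m), Set.inter_eq_left.mpr (hAR m)]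
  -- the bound
  have hbound : ∀ m, ‖∫ z, τ z * (κ z * dzb j (weta E.h (e m)) z)‖ₑ ≤
      ENNReal.ofReal (Cκ * (2 * Cχ) * 2 * Real.sqrt |CT|) *
        (∫⁻ z in A m, ‖τ z‖ₑ ^ (2 : ℝ)) ^ (1 / 2 : ℝ) := by
    intro m
    refine (enorm_integral_le_lintegral_enorm _).trans ?_
    have h1 : ∫⁻ z, ‖τ z * (κ z * dzb j (weta E.h (e m)) z)‖ₑ ≤
        ∫⁻ z in A m, ENNReal.ofReal (Cκ * (2 * Cχ * (e m)⁻¹)) *
          (‖τ z‖ₑ * ‖MvPolynomial.eval z (MvPolynomial.pderiv j E.h)‖ₑ) := by
      rw [← lintegral_indicator (hAm m)]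
      refine lintegral_mono_ae ?_
      filter_upwards [hVae] with z hz
      by_cases hzA : z ∈ A m
      · rw [Set.indicator_of_mem hzA]
        rw [enorm_mul, mul_left_comm]
        gcongr
        rw [← ofReal_norm, ← ofReal_norm, ← ENNReal.ofReal_mul (by (clear * - hCκ0 hCχ0; positivity))]
        apply ENNReal.ofReal_le_ofReal
        rw [norm_mul, mul_assoc]
        have h4 := dzb_weta_norm E.h hCχ0 hCχ (he0 m) j z
        exact mul_le_mul (hCκ z) h4 (norm_nonneg _) hCκ0
      · rw [Set.indicator_of_notMem hzA]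
        rw [nonpos_iff_eq_zero, enorm_eq_zero]
        by_cases hzR : ‖z‖ ≤ R
        · have h5 : 2 * e m < ‖MvPolynomial.eval z E.h‖ := by
            by_contra hn
            exact hzA ⟨hz, hzR, not_lt.mp hn⟩
          rw [dzb_weta_zero _ (he0 m) j h5, mul_zero, mul_zero]
        · have h5 : κ z = 0 := by
            by_contra hn
            apply hzR
            have := hR (subset_tsupport κ hn)
            rwa [mem_closedBall_zero_iff] at this
          rw [h5, zero_mul, mul_zero]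
    refine h1.trans ?_
    rw [lintegral_const_mul' _ _ ENNReal.ofReal_ne_top]
    have h2 := ENNReal.lintegral_mul_le_Lp_mul_Lq (volume.restrict (A m))
      (Real.HolderConjugate.two_two) (f := fun z => ‖τ z‖ₑ)
      (g := fun z => ‖MvPolynomial.eval z (MvPolynomial.pderiv j E.h)‖ₑ)
      hτ.restrict.enorm
      (contDiff_eval (k := 0) (MvPolynomial.pderiv j E.h)).continuous.enorm.aemeasurable
    have h3 : (∫⁻ z in A m, ‖MvPolynomial.eval z (MvPolynomial.pderiv j E.h)‖ₑ ^ (2 : ℝ)) ^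
        (1 / 2 : ℝ) ≤ ENNReal.ofReal (2 * e m * Real.sqrt |CT|) := by
      have h4 := hCT (2 * e m) (by have := he0 m; positivity)
      have h5 : ∫⁻ z in A m, ‖MvPolynomial.eval z (MvPolynomial.pderiv j E.h)‖ₑ ^ (2 : ℝ) ≤
          ENNReal.ofReal (|CT| * (2 * e m) ^ 2) := by
        refine le_trans (le_of_eq ?_) (h4.trans (ENNReal.ofReal_le_ofReal ?_))
        · refine lintegral_congr fun z => ?_
          rw [← ofReal_norm, ENNReal.ofReal_rpow_of_nonneg (norm_nonneg _) (by norm_num),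
            Real.rpow_two]
        · gcongr
          exact le_abs_self _
      calc _ ≤ (ENNReal.ofReal (|CT| * (2 * e m) ^ 2)) ^ (1 / 2 : ℝ) := by gcongr
        _ = ENNReal.ofReal (2 * e m * Real.sqrt |CT|) := by
          rw [ENNReal.ofReal_rpow_of_nonneg (by (clear * -; positivity)) (by norm_num), ← Real.sqrt_eq_rpow,
            Real.sqrt_mul (abs_nonneg _), Real.sqrt_sq (by have := he0 m; positivity), mul_comm]
    calc _ ≤ ENNReal.ofReal (Cκ * (2 * Cχ * (e m)⁻¹)) *
          ((∫⁻ z in A m, ‖τ z‖ₑ ^ (2 : ℝ)) ^ (1 / 2 : ℝ) *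
            ENNReal.ofReal (2 * e m * Real.sqrt |CT|)) := by
          gcongr
          refine h2.trans ?_
          gcongr
      _ = (ENNReal.ofReal (Cκ * (2 * Cχ * (e m)⁻¹)) * ENNReal.ofReal (2 * e m * Real.sqrt |CT|)) *
          (∫⁻ z in A m, ‖τ z‖ₑ ^ (2 : ℝ)) ^ (1 / 2 : ℝ) := by ring
      _ = _ := by
          congr 1
          rw [← ENNReal.ofReal_mul (by have := he0 m; (clear * - hCκ0 hCχ0; positivity))]
          congr 1
          have := (he0 m).ne'
          field_simp
  -- second term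
  have hT2 : Tendsto (fun m => ∫ z, τ z * (κ z * dzb j (weta E.h (e m)) z)) atTop (𝓝 0) := by
    rw [tendsto_zero_iff_enorm_tendsto_zero]
    refine tendsto_of_tendsto_of_tendsto_of_le_of_le tendsto_const_nhds ?_
      (fun _ => zero_le) hbound
    have h1 : Tendsto (fun m => (∫⁻ z in A m, ‖τ z‖ₑ ^ (2 : ℝ)) ^ (1 / 2 : ℝ)) atTop
        (𝓝 (0 ^ (1 / 2 : ℝ))) := hT.ennrpow_const _
    rw [ENNReal.zero_rpow_of_pos (by norm_num)] at h1
    have h2 := ENNReal.Tendsto.const_mul (a := ENNReal.ofReal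
      (Cκ * (2 * Cχ) * 2 * Real.sqrt |CT|)) h1 (Or.inr ENNReal.ofReal_ne_top)
    rwa [mul_zero] at h2
  simp_rw [hvan] at hT1
  have h3 := tendsto_nhds_unique hT1 hT2.neg
  rw [h3, neg_zero]

end Prim

end Vale.Agent.P282.L2
end

section

open MeasureTheory Filter Topology
open scoped ENNReal NNReal ComplexConjugate

namespace Vale.Agent.P282.L2

variable {n : ℕ}

/-- Multiplication by a unit complex number preserves the volume. -/
theorem measurePreserving_unit_smul {c : ℂ} (hc : ‖c‖ = 1) :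
    MeasurePreserving (fun v : Fin n → ℂ => c • v) volume volume := by
  have h1 : MeasurePreserving (fun z : ℂ => c * z) volume volume := by
    have h2 := (rotation (⟨c, mem_sphere_zero_iff_norm.2 hc⟩ : Circle)).measurePreserving
    exact h2
  exact volume_preserving_pi (fun _ : Fin n => h1)

theorem norm_sq_ofReal (x : ℂ) : ENNReal.ofReal (‖x‖ ^ 2) = ‖x ^ 2‖ₑ := by
  rw [← ofReal_norm, norm_pow]

/-- The mean value property on a circle. -/
theorem mean_circle {r : ℝ} {z₀ : Fin n → ℂ} {G : (Fin n → ℂ) → ℂ}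
    (hG : DifferentiableOn ℂ G (Metric.ball z₀ r)) {v : Fin n → ℂ}
    (hv : v ∈ Metric.ball (0 : Fin n → ℂ) r) :
    ∫ θ in (0 : ℝ)..2 * Real.pi, G (z₀ + circleMap 0 1 θ • v) ^ 2 = (2 * Real.pi) * G z₀ ^ 2 := by
  rw [mem_ball_zero_iff] at hv
  have hd : DifferentiableOn ℂ (fun t : ℂ => G (z₀ + t • v) ^ 2) (Metric.closedBall 0 1) := by
    apply DifferentiableOn.pow
    refine hG.comp (by fun_prop) ?_
    intro t ht
    rw [mem_closedBall_zero_iff] at ht
    rw [Metric.mem_ball, dist_eq_norm, add_sub_cancel_left, norm_smul]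
    calc ‖t‖ * ‖v‖ ≤ 1 * ‖v‖ := mul_le_mul_of_nonneg_right ht (norm_nonneg _)
      _ < r := by rwa [one_mul]
  have h1 : DiffContOnCl ℂ (fun t : ℂ => G (z₀ + t • v) ^ 2) (Metric.ball 0 |1|) := by
    rw [abs_one]
    exact hd.diffContOnCl_ball le_rfl
  have h2 := h1.circleAverage
  rw [Real.circleAverage_def] at h2
  rw [zero_smul, add_zero] at h2
  have h3 : (2 * Real.pi : ℝ) ≠ 0 := by positivity
  rw [← h2, Complex.real_smul, ← mul_assoc]
  have h4 : (2 * (Real.pi : ℂ)) * (((2 * Real.pi)⁻¹ : ℝ) : ℂ) = 1 := by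
    rw [Complex.ofReal_inv]
    push_cast
    have : (2 * (Real.pi : ℂ)) ≠ 0 := by exact_mod_cast h3
    exact mul_inv_cancel₀ this
  rw [h4, one_mul]

/-- Mean value inequality for circled weights. -/
theorem mean_value {w : (Fin n → ℂ) → ℝ≥0∞} (hw : Measurable w)
    (hwc : ∀ (c : ℂ) (v : Fin n → ℂ), ‖c‖ = 1 → w (c • v) = w v) {r : ℝ} (hr : 0 < r)
    {z₀ : Fin n → ℂ} {G : (Fin n → ℂ) → ℂ} (hG : DifferentiableOn ℂ G (Metric.ball z₀ r)) :
    ENNReal.ofReal (‖G z₀‖ ^ 2) * ∫⁻ v in Metric.ball (0 : Fin n → ℂ) r, w v ≤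
      ∫⁻ v in Metric.ball (0 : Fin n → ℂ) r, ENNReal.ofReal (‖G (z₀ + v)‖ ^ 2) * w v := by
  classical
  set H : (Fin n → ℂ) → ℝ≥0∞ := (Metric.ball z₀ r).piecewise
    (fun z => ENNReal.ofReal (‖G z‖ ^ 2)) (fun _ => 0) with hH
  have hHm : Measurable H := by
    apply ContinuousOn.measurable_piecewise _ continuousOn_const Metric.isOpen_ball.measurableSet
    exact ENNReal.continuous_ofReal.comp_continuousOn (hG.continuousOn.norm.pow 2)
  have hHin : ∀ {v : Fin n → ℂ}, v ∈ Metric.ball (0 : Fin n → ℂ) r →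
      H (z₀ + v) = ENNReal.ofReal (‖G (z₀ + v)‖ ^ 2) := by
    intro v hv
    rw [hH, Set.piecewise_eq_of_mem]
    rw [Metric.mem_ball, dist_eq_norm, add_sub_cancel_left]
    exact mem_ball_zero_iff.1 hv
  have hHout : ∀ {v : Fin n → ℂ}, v ∉ Metric.ball (0 : Fin n → ℂ) r → H (z₀ + v) = 0 := by
    intro v hv
    rw [hH, Set.piecewise_eq_of_notMem]
    rw [Metric.mem_ball, dist_eq_norm, add_sub_cancel_left]
    exact fun h => hv (mem_ball_zero_iff.2 h)
  have hball : MeasurableSet (Metric.ball (0 : Fin n → ℂ) r) := Metric.isOpen_ball.measurableSet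
  -- the right hand side as an integral over the whole space
  have hR : ∫⁻ v in Metric.ball (0 : Fin n → ℂ) r, ENNReal.ofReal (‖G (z₀ + v)‖ ^ 2) * w v =
      ∫⁻ v, H (z₀ + v) * w v := by
    rw [← lintegral_indicator hball]
    apply lintegral_congr
    intro v
    by_cases hv : v ∈ Metric.ball (0 : Fin n → ℂ) r
    · rw [Set.indicator_of_mem hv, hHin hv]
    · rw [Set.indicator_of_notMem hv, hHout hv, zero_mul]
  have hrot : ∀ c : ℂ, ‖c‖ = 1 → ∫⁻ v, H (z₀ + c • v) * w v = ∫⁻ v, H (z₀ + v) * w v := by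
    intro c hc
    have hm : Measurable fun v : Fin n → ℂ => H (z₀ + v) * w v :=
      (hHm.comp (measurable_const_add z₀)).mul hw
    have h1 := (measurePreserving_unit_smul (n := n) hc).lintegral_comp hm
    rw [← h1]
    apply lintegral_congr
    intro v
    rw [hwc c v hc]
  set I : Set ℝ := Set.Ioc 0 (2 * Real.pi) with hI
  have hpi : (0 : ℝ) ≤ 2 * Real.pi := by positivity
  have hvol : volume I = ENNReal.ofReal (2 * Real.pi) := by
    rw [hI, Real.volume_Ioc, sub_zero]
  -- the double integral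
  have hdouble : ∫⁻ θ in I, ∫⁻ v, H (z₀ + circleMap 0 1 θ • v) * w v =
      ENNReal.ofReal (2 * Real.pi) * ∫⁻ v, H (z₀ + v) * w v := by
    have h1 : ∀ θ : ℝ, ∫⁻ v, H (z₀ + circleMap 0 1 θ • v) * w v = ∫⁻ v, H (z₀ + v) * w v := by
      intro θ
      apply hrot
      rw [norm_circleMap_zero, abs_one]
    simp only [h1]
    rw [lintegral_const, Measure.restrict_apply_univ, hvol, mul_comm]
  have hmeas : Measurable (Function.uncurry fun (θ : ℝ) (v : Fin n → ℂ) =>
      H (z₀ + circleMap 0 1 θ • v) * w v) := by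
    have h1 : Measurable fun p : ℝ × (Fin n → ℂ) => z₀ + circleMap 0 1 p.1 • p.2 := by
      have h2 : Continuous fun p : ℝ × (Fin n → ℂ) => z₀ + circleMap 0 1 p.1 • p.2 :=
        continuous_const.add (((continuous_circleMap 0 1).comp continuous_fst).smul continuous_snd)
      exact h2.measurable
    exact (hHm.comp h1).mul (hw.comp measurable_snd)
  have hswap : ∫⁻ θ in I, ∫⁻ v, H (z₀ + circleMap 0 1 θ • v) * w v =
      ∫⁻ v, ∫⁻ θ in I, H (z₀ + circleMap 0 1 θ • v) * w v :=
    lintegral_lintegral_swap hmeas.aemeasurable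
  have hpt : ∀ v ∈ Metric.ball (0 : Fin n → ℂ) r,
      ENNReal.ofReal (2 * Real.pi) * (ENNReal.ofReal (‖G z₀‖ ^ 2) * w v) ≤
      ∫⁻ θ in I, H (z₀ + circleMap 0 1 θ • v) * w v := by
    intro v hv
    have hm1 : Measurable fun θ : ℝ => H (z₀ + circleMap 0 1 θ • v) := by
      apply hHm.comp
      exact (continuous_const.add ((continuous_circleMap 0 1).smul continuous_const)).measurable
    rw [lintegral_mul_const _ hm1, ← mul_assoc]
    refine mul_le_mul_left ?_ _
    have h1 := mean_circle hG hv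
    rw [intervalIntegral.integral_of_le hpi] at h1
    have h2 : ENNReal.ofReal (2 * Real.pi) * ENNReal.ofReal (‖G z₀‖ ^ 2) =
        ‖(2 * Real.pi) * G z₀ ^ 2‖ₑ := by
      rw [enorm_mul, ← norm_sq_ofReal]
      congr 1
      rw [← ofReal_norm]
      congr 1
      have : (2 * (Real.pi : ℂ)) = ((2 * Real.pi : ℝ) : ℂ) := by push_cast; ring
      rw [this, Complex.norm_real, Real.norm_of_nonneg hpi]
    rw [h2, ← h1]
    refine (enorm_integral_le_lintegral_enorm _).trans (le_of_eq ?_)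
    apply lintegral_congr
    intro θ
    rw [← norm_sq_ofReal, hHin]
    rw [mem_ball_zero_iff, norm_smul, norm_circleMap_zero, abs_one, one_mul]
    exact mem_ball_zero_iff.1 hv
  have hfin : ENNReal.ofReal (2 * Real.pi) * (ENNReal.ofReal (‖G z₀‖ ^ 2) *
      ∫⁻ v in Metric.ball (0 : Fin n → ℂ) r, w v) ≤
      ENNReal.ofReal (2 * Real.pi) * ∫⁻ v, H (z₀ + v) * w v := by
    rw [← hdouble, hswap, ← lintegral_const_mul _ hw, ← lintegral_const_mul _ (hw.const_mul _)]
    calc ∫⁻ v in Metric.ball (0 : Fin n → ℂ) r,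
          ENNReal.ofReal (2 * Real.pi) * (ENNReal.ofReal (‖G z₀‖ ^ 2) * w v)
        ≤ ∫⁻ v in Metric.ball (0 : Fin n → ℂ) r,
          ∫⁻ θ in I, H (z₀ + circleMap 0 1 θ • v) * w v := setLIntegral_mono' hball hpt
      _ ≤ _ := setLIntegral_le_lintegral _ _
  rw [hR]
  have h2pi : ENNReal.ofReal (2 * Real.pi) ≠ 0 := by
    rw [Ne, ENNReal.ofReal_eq_zero, not_le]
    positivity
  exact (ENNReal.mul_le_mul_iff_right h2pi ENNReal.ofReal_ne_top).1 hfin

/-- The contribution of a shell. -/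
theorem shell_large (hn : 0 < n) {m : ℕ} (hm : 0 < m) {C : ℝ} (hC : 0 < C) {ρ s : ℝ}
    (hρ : 0 < ρ) (hs : 0 < s) (hsρ : s ≤ C * ρ ^ (2 * m)) :
    ENNReal.ofReal ((2 * C) ^ (-((n : ℝ) / m)) * (1 - (1 / 2) ^ (2 * n))) *
        volume (Metric.ball (0 : Fin n → ℂ) 1) ≤
      ∫⁻ v in Metric.ball (0 : Fin n → ℂ) ρ \ Metric.ball (0 : Fin n → ℂ) (ρ / 2),
        ENNReal.ofReal ((s + C * ‖v‖ ^ (2 * m)) ^ (-((n : ℝ) / m))) := by
  have hmR : (0 : ℝ) < m := by exact_mod_cast hm
  have hnR : (0 : ℝ) < n := by exact_mod_cast hn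
  have hfr : Module.finrank ℝ (Fin n → ℂ) = 2 * n := by
    rw [Module.finrank_pi_fintype]
    simp [Complex.finrank_real_complex, mul_comm]
  have hms : MeasurableSet (Metric.ball (0 : Fin n → ℂ) ρ \ Metric.ball (0 : Fin n → ℂ) (ρ / 2)) :=
    Metric.isOpen_ball.measurableSet.diff Metric.isOpen_ball.measurableSet
  have hV : volume (Metric.ball (0 : Fin n → ℂ) 1) ≠ ⊤ := measure_ball_lt_top.ne
  have hvol : volume (Metric.ball (0 : Fin n → ℂ) ρ \ Metric.ball (0 : Fin n → ℂ) (ρ / 2)) =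
      ENNReal.ofReal (ρ ^ (2 * n) * (1 - (1 / 2) ^ (2 * n))) *
        volume (Metric.ball (0 : Fin n → ℂ) 1) := by
    rw [measure_sdiff (Metric.ball_subset_ball (by linarith))
      Metric.isOpen_ball.measurableSet.nullMeasurableSet measure_ball_lt_top.ne,
      Measure.addHaar_ball_of_pos volume _ hρ, Measure.addHaar_ball_of_pos volume _ (half_pos hρ),
      hfr, ← ENNReal.sub_mul (fun _ _ => hV), ← ENNReal.ofReal_sub _ (by positivity)]
    congr 2
    rw [div_pow, one_div, inv_pow]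
    ring
  have hlow : ∀ v ∈ Metric.ball (0 : Fin n → ℂ) ρ \ Metric.ball (0 : Fin n → ℂ) (ρ / 2),
      ENNReal.ofReal ((2 * C) ^ (-((n : ℝ) / m)) * (ρ ^ (2 * n))⁻¹) ≤
        ENNReal.ofReal ((s + C * ‖v‖ ^ (2 * m)) ^ (-((n : ℝ) / m))) := by
    rintro v ⟨hv, -⟩
    rw [mem_ball_zero_iff] at hv
    apply ENNReal.ofReal_le_ofReal
    have h1 : s + C * ‖v‖ ^ (2 * m) ≤ 2 * C * ρ ^ (2 * m) := by
      have h2 : ‖v‖ ^ (2 * m) ≤ ρ ^ (2 * m) := pow_le_pow_left₀ (norm_nonneg _) hv.le _
      linarith only [mul_nonneg (le_of_lt (sub_pos.2 hC)) (sub_nonneg.2 h2), hsρ]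
    have h3 : (2 * C * ρ ^ (2 * m)) ^ (-((n : ℝ) / m)) =
        (2 * C) ^ (-((n : ℝ) / m)) * (ρ ^ (2 * n))⁻¹ := by
      rw [Real.mul_rpow (by positivity) (by positivity)]
      congr 1
      rw [← Real.rpow_natCast, ← Real.rpow_mul hρ.le, ← Real.rpow_natCast, ← Real.rpow_neg hρ.le]
      congr 1
      push_cast
      field_simp
    rw [← h3]
    apply Real.rpow_le_rpow_of_nonpos _ h1
    · rw [neg_nonpos]; positivity
    · positivity
  calc ENNReal.ofReal ((2 * C) ^ (-((n : ℝ) / m)) * (1 - (1 / 2) ^ (2 * n))) *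
        volume (Metric.ball (0 : Fin n → ℂ) 1)
      = ENNReal.ofReal ((2 * C) ^ (-((n : ℝ) / m)) * (ρ ^ (2 * n))⁻¹) *
        volume (Metric.ball (0 : Fin n → ℂ) ρ \ Metric.ball (0 : Fin n → ℂ) (ρ / 2)) := by
        rw [hvol, ← mul_assoc, ← ENNReal.ofReal_mul (by positivity)]
        congr 2
        field_simp
    _ = ∫⁻ _v in Metric.ball (0 : Fin n → ℂ) ρ \ Metric.ball (0 : Fin n → ℂ) (ρ / 2),
        ENNReal.ofReal ((2 * C) ^ (-((n : ℝ) / m)) * (ρ ^ (2 * n))⁻¹) := by
        rw [setLIntegral_const]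
    _ ≤ _ := setLIntegral_mono' hms hlow

/-- The contribution of finitely many shells. -/
theorem shells_large (hn : 0 < n) {m : ℕ} (hm : 0 < m) {C : ℝ} (hC : 0 < C) (K : ℕ) :
    ∀ {ρ s : ℝ}, 0 < ρ → 0 < s → s ≤ C * (ρ / 2 ^ K) ^ (2 * m) →
    K * (ENNReal.ofReal ((2 * C) ^ (-((n : ℝ) / m)) * (1 - (1 / 2) ^ (2 * n))) *
        volume (Metric.ball (0 : Fin n → ℂ) 1)) ≤
      ∫⁻ v in Metric.ball (0 : Fin n → ℂ) ρ,
        ENNReal.ofReal ((s + C * ‖v‖ ^ (2 * m)) ^ (-((n : ℝ) / m))) := by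
  induction K with
  | zero => intro ρ s _ _ _; simp
  | succ K ih =>
    intro ρ s hρ hs hsρ
    have h1 := ih (half_pos hρ) hs (by
      have : ρ / 2 / 2 ^ K = ρ / 2 ^ (K + 1) := by
        rw [div_div, pow_succ, mul_comm]
      rw [this]
      exact hsρ)
    have h2 := shell_large hn hm hC hρ hs (hsρ.trans (by
      apply mul_le_mul_of_nonneg_left _ hC.le
      apply pow_le_pow_left₀ (by positivity)
      exact div_le_self hρ.le (one_le_pow₀ one_le_two)))
    have h3 : Metric.ball (0 : Fin n → ℂ) ρ = Metric.ball (0 : Fin n → ℂ) (ρ / 2) ∪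
        (Metric.ball (0 : Fin n → ℂ) ρ \ Metric.ball (0 : Fin n → ℂ) (ρ / 2)) := by
      rw [Set.union_sdiff_cancel]
      exact Metric.ball_subset_ball (by linarith)
    rw [h3, lintegral_union
      (Metric.isOpen_ball.measurableSet.diff Metric.isOpen_ball.measurableSet)
      Set.disjoint_sdiff_right, Nat.cast_add, Nat.cast_one, add_mul, one_mul]
    exact add_le_add h1 h2

/-- `∫ (s + C |v| ^ (2 m)) ^ (-n/m)` diverges as `s → 0`. -/
theorem exists_s_large (hn : 0 < n) {m : ℕ} (hm : 0 < m) {r C B : ℝ} (hr : 0 < r) (hC : 0 < C) :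
    ∃ s₀ > 0, ∀ s : ℝ, 0 < s → s ≤ s₀ → ENNReal.ofReal B ≤
      ∫⁻ v in Metric.ball (0 : Fin n → ℂ) r,
        ENNReal.ofReal ((s + C * ‖v‖ ^ (2 * m)) ^ (-((n : ℝ) / m))) := by
  set c := ENNReal.ofReal ((2 * C) ^ (-((n : ℝ) / m)) * (1 - (1 / 2) ^ (2 * n))) *
        volume (Metric.ball (0 : Fin n → ℂ) 1) with hc
  have hc0 : c ≠ 0 := by
    rw [hc]
    apply mul_ne_zero
    · rw [Ne, ENNReal.ofReal_eq_zero, not_le]
      apply mul_pos (by positivity)
      have : ((1 : ℝ) / 2) ^ (2 * n) < 1 := pow_lt_one₀ (by norm_num) (by norm_num) (by omega)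
      linarith only [this]
    · exact (Metric.measure_ball_pos volume _ one_pos).ne'
  obtain ⟨K, hK⟩ := ENNReal.exists_nat_mul_gt hc0 (ENNReal.ofReal_ne_top (r := B))
  refine ⟨C * (r / 2 ^ K) ^ (2 * m), by positivity, fun s hs hs0 => ?_⟩
  exact hK.le.trans (shells_large hn hm hC K hr hs hs0)

end Vale.Agent.P282.L2
end

section

open MeasureTheory Filter Topology
open scoped ENNReal NNReal ComplexConjugate Convolution

namespace Vale.Agent.P282.L2

variable {n : ℕ}

/-! ### Local integrability -/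

theorem polyW_locInt {k : ℕ} {τ : (Fin n → ℂ) → ℂ} (hm : AEStronglyMeasurable τ volume)
    (hi : ∫⁻ z, ENNReal.ofReal (‖τ z‖ ^ 2 * ((1 + ‖z‖) ^ k)⁻¹) ≠ ⊤) :
    LocallyIntegrable τ volume := by
  rw [locallyIntegrable_iff]
  intro K hK
  obtain ⟨R, hR⟩ := hK.isBounded.subset_closedBall 0
  refine ⟨hm.restrict, ?_⟩
  rw [HasFiniteIntegral]
  set c : ℝ := (1 + max R 0) ^ k with hc
  have hc0 : 0 ≤ c := by positivity
  have hb : ∀ z ∈ K, ‖τ z‖ₑ ≤ 1 + ENNReal.ofReal c *
      ENNReal.ofReal (‖τ z‖ ^ 2 * ((1 + ‖z‖) ^ k)⁻¹) := by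
    intro z hz
    have h1 : ‖z‖ ≤ max R 0 := by
      have := hR hz
      rw [mem_closedBall_zero_iff] at this
      exact this.trans (le_max_left _ _)
    rw [← ENNReal.ofReal_mul hc0, ← ENNReal.ofReal_one, ← ENNReal.ofReal_add zero_le_one
      (by positivity), ← ofReal_norm]
    apply ENNReal.ofReal_le_ofReal
    have h2 : (1 + ‖z‖) ^ k ≤ c := by
      rw [hc]
      apply pow_le_pow_left₀ (by positivity)
      linarith
    have h3 : 0 < (1 + ‖z‖) ^ k := by positivity
    have h4 : 1 ≤ c * ((1 + ‖z‖) ^ k)⁻¹ := by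
      rw [← div_eq_mul_inv, one_le_div h3]
      exact h2
    have h5 : ‖τ z‖ ^ 2 ≤ c * (‖τ z‖ ^ 2 * ((1 + ‖z‖) ^ k)⁻¹) := by
      have h6 : 0 ≤ ‖τ z‖ ^ 2 := by positivity
      linarith only [mul_nonneg (sub_nonneg.2 h4) (sub_nonneg.2 h6)]
    linarith only [norm_nonneg (τ z), sq_nonneg (‖τ z‖ - 1), h5]
  calc ∫⁻ z in K, ‖τ z‖ₑ ≤ ∫⁻ z in K, (1 + ENNReal.ofReal c *
        ENNReal.ofReal (‖τ z‖ ^ 2 * ((1 + ‖z‖) ^ k)⁻¹)) := setLIntegral_mono' hK.measurableSet hb
    _ = volume K + ENNReal.ofReal c *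
        ∫⁻ z in K, ENNReal.ofReal (‖τ z‖ ^ 2 * ((1 + ‖z‖) ^ k)⁻¹) := by
        rw [lintegral_add_left measurable_const, lintegral_const_mul' _ _ ENNReal.ofReal_ne_top]
        simp
    _ < ⊤ := by
        apply ENNReal.add_lt_top.2
        refine ⟨hK.measure_lt_top, ENNReal.mul_lt_top ENNReal.ofReal_lt_top ?_⟩
        exact lt_of_le_of_lt (setLIntegral_le_lintegral _ _) (lt_top_iff_ne_top.2 hi)

/-! ### The functions `x ↦ ∫ τ z κ (z + x)` -/

/-- `x ↦ ∫ τ z κ (z + x)`. -/
noncomputable def polyWH (τ κ : (Fin n → ℂ) → ℂ) (x : Fin n → ℂ) : ℂ := ∫ z, τ z * κ (z + x)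

theorem polyW_shift_supp {κ : (Fin n → ℂ) → ℂ} (hs : HasCompactSupport κ) (x : Fin n → ℂ) :
    HasCompactSupport (fun z => κ (z + x)) :=
  hs.comp_homeomorph (Homeomorph.addRight x)

theorem polyW_integrable {τ κ : (Fin n → ℂ) → ℂ} (hτ : LocallyIntegrable τ volume)
    (hκ : Continuous κ) (hs : HasCompactSupport κ) : Integrable (fun z => τ z * κ z) volume := by
  have := hτ.integrable_smul_right_of_hasCompactSupport hκ hs
  simpa only [smul_eq_mul] using this

theorem polyW_dzb_shift {κ : (Fin n → ℂ) → ℂ} (j : Fin n) (x z : Fin n → ℂ) :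
    dzb j (fun z => κ (z + x)) z = dzb j κ (z + x) := by
  rw [dzb, dzb, fderiv_comp_add_right]

theorem polyWH_diff {τ κ : (Fin n → ℂ) → ℂ} (hτ : LocallyIntegrable τ volume)
    (hτ' : LocallyIntegrable (fun z => τ (-z)) volume)
    (hw : ∀ κ : (Fin n → ℂ) → ℂ, ContDiff ℝ 2 κ → HasCompactSupport κ → ∀ j,
      ∫ z, τ z * dzb j κ z = 0)
    (hκ : ContDiff ℝ 2 κ) (hs : HasCompactSupport κ) : Differentiable ℂ (polyWH τ κ) := by
  set L : ℂ →L[ℝ] ℂ →L[ℝ] ℂ := ContinuousLinearMap.mul ℝ ℂ with hL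
  have hκ1 : ContDiff ℝ 1 κ := hκ.of_le one_le_two
  have hneg : ∀ φ : (Fin n → ℂ) → ℂ, ∀ x, ((fun z => τ (-z)) ⋆[L, volume] φ) x
      = ∫ z, τ z * φ (z + x) := by
    intro φ x
    rw [convolution_def]
    rw [← integral_neg_eq_self]
    apply integral_congr_ae
    filter_upwards with z
    simp [hL, add_comm]
  have hconv : polyWH τ κ = (fun z => τ (-z)) ⋆[L, volume] κ := by
    funext x
    rw [hneg]
    rfl
  have hfd : ∀ x, HasFDerivAt (polyWH τ κ)
      (((fun z => τ (-z)) ⋆[L.precompR (Fin n → ℂ), volume] fderiv ℝ κ) x) x := by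
    intro x
    rw [hconv]
    exact hs.hasFDerivAt_convolution_right L hτ' hκ1 x
  have hfderiv : ∀ x v, fderiv ℝ (polyWH τ κ) x v = ∫ z, τ z * fderiv ℝ κ (z + x) v := by
    intro x v
    rw [(hfd x).fderiv, convolution_precompR_apply L hτ' (hs.fderiv ℝ)
      (hκ1.continuous_fderiv one_ne_zero), hneg]
  have hint : ∀ x v, Integrable (fun z => τ z * fderiv ℝ κ (z + x) v) volume := by
    intro x v
    apply polyW_integrable hτ
    · have h1 := hκ1.continuous_fderiv one_ne_zero
      exact (h1.comp (continuous_id.add continuous_const)).clm_apply continuous_const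
    · have h2 : HasCompactSupport (fun z => fderiv ℝ κ z v) :=
        (hs.fderiv ℝ).comp_left (g := fun T : (Fin n → ℂ) →L[ℝ] ℂ => T v) (by simp)
      exact polyW_shift_supp h2 x
  have hzero : ∀ x j, dzb j (polyWH τ κ) x = 0 := by
    intro x j
    have h1 := hw (fun z => κ (z + x)) (hκ.comp (contDiff_id.add contDiff_const))
      (polyW_shift_supp hs x) j
    rw [dzb, hfderiv, hfderiv, ← integral_const_mul, ← integral_add (hint _ _)
      ((hint _ _).const_mul _), ← integral_div]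
    rw [← h1]
    apply integral_congr_ae
    filter_upwards with z
    rw [polyW_dzb_shift, dzb]
    ring
  have hd : DifferentiableOn ℂ (polyWH τ κ) Set.univ :=
    holo_of_dzb isOpen_univ (fun x _ => (hfd x).differentiableAt.differentiableWithinAt)
      (fun x _ j => hzero x j)
  exact differentiableOn_univ.1 hd

/-! ### The mean value property -/

theorem polyW_rot (c : ℂ) (hc : ‖c‖ = 1) (F : (Fin n → ℂ) → ℂ) :
    ∫ v, F (c • v) = ∫ v, F v := by
  have h1 : MeasurePreserving (fun v : Fin n → ℂ => c • v) volume volume := by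
    have h2 : MeasurePreserving (fun w : ℂ => c * w) volume volume := by
      have h4 : c ∈ Submonoid.unitSphere ℂ := by
        simp [Submonoid.unitSphere, hc]
      exact (rotation (⟨c, h4⟩ : Circle)).measurePreserving
    exact volume_preserving_pi (fun _ : Fin n => h2)
  have hc0 : c ≠ 0 := by
    intro h
    rw [h, norm_zero] at hc
    exact zero_ne_one hc
  exact h1.integral_comp (Homeomorph.smulOfNeZero c hc0).measurableEmbedding F

theorem polyW_circle {F : (Fin n → ℂ) → ℂ} (hF : Differentiable ℂ F) (v : Fin n → ℂ) :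
    (2 * Real.pi)⁻¹ • ∫ θ in (0 : ℝ)..2 * Real.pi, F (circleMap 0 1 θ • v) = F 0 := by
  have hd : Differentiable ℂ (fun t : ℂ => F (t • v)) :=
    hF.comp (differentiable_id.smul_const v)
  have h1 := (hd.diffContOnCl (s := Metric.ball (0 : ℂ) |1|)).circleAverage
  rw [Real.circleAverage] at h1
  rw [h1, zero_smul]

theorem polyW_mean {F : (Fin n → ℂ) → ℂ} (hF : Differentiable ℂ F) {ρ : (Fin n → ℂ) → ℂ}
    (hρ : Continuous ρ) (hs : HasCompactSupport ρ)
    (hc : ∀ (c : ℂ) (v : Fin n → ℂ), ‖c‖ = 1 → ρ (c • v) = ρ v) :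
    ∫ v, ρ v * F v = (∫ v, ρ v) * F 0 := by
  have hpi : (0 : ℝ) ≤ 2 * Real.pi := by positivity
  have hrot : ∀ θ : ℝ, ∫ v, ρ v * F (circleMap 0 1 θ • v) = ∫ v, ρ v * F v := by
    intro θ
    have hn : ‖circleMap 0 1 θ‖ = 1 := by simp
    rw [← polyW_rot (circleMap 0 1 θ) hn (fun v => ρ v * F v)]
    apply integral_congr_ae
    filter_upwards with v
    rw [hc _ _ hn]
  have hint : Integrable (Function.uncurry fun (v : Fin n → ℂ) (θ : ℝ) =>
      ρ v * F (circleMap 0 1 θ • v)) (volume.prod (volume.restrict (Set.Ioc 0 (2 * Real.pi)))) := by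
    have hcont : Continuous (Function.uncurry fun (v : Fin n → ℂ) (θ : ℝ) =>
        ρ v * F (circleMap 0 1 θ • v)) := by
      apply (hρ.comp continuous_fst).mul
      apply hF.continuous.comp
      exact ((continuous_circleMap 0 1).comp continuous_snd).smul continuous_fst
    have hK : IsCompact (tsupport ρ ×ˢ Set.Icc (0 : ℝ) (2 * Real.pi)) :=
      hs.isCompact.prod isCompact_Icc
    have h1 : IntegrableOn (Function.uncurry fun (v : Fin n → ℂ) (θ : ℝ) =>
        ρ v * F (circleMap 0 1 θ • v)) (tsupport ρ ×ˢ Set.Icc (0 : ℝ) (2 * Real.pi))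
        (volume.prod volume) := hcont.continuousOn.integrableOn_compact hK
    have h2 : IntegrableOn (Function.uncurry fun (v : Fin n → ℂ) (θ : ℝ) =>
        ρ v * F (circleMap 0 1 θ • v)) (Set.univ ×ˢ Set.Icc (0 : ℝ) (2 * Real.pi))
        (volume.prod volume) := by
      apply h1.of_forall_sdiff_eq_zero (MeasurableSet.univ.prod measurableSet_Icc)
      rintro ⟨v, θ⟩ ⟨⟨_, h3⟩, h4⟩
      have h5 : v ∉ tsupport ρ := fun h => h4 ⟨h, h3⟩
      simp only [Function.uncurry_apply_pair]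
      rw [image_eq_zero_of_notMem_tsupport h5, zero_mul]
    have h3 := h2.mono_set (Set.prod_mono subset_rfl Set.Ioc_subset_Icc_self)
    rw [IntegrableOn, ← Measure.prod_restrict, Measure.restrict_univ] at h3
    exact h3
  have h1 : ∫ v, (2 * Real.pi)⁻¹ • ∫ θ in (0 : ℝ)..2 * Real.pi, ρ v * F (circleMap 0 1 θ • v)
      = (∫ v, ρ v) * F 0 := by
    rw [← integral_mul_const]
    apply integral_congr_ae
    filter_upwards with v
    rw [← polyW_circle hF v, intervalIntegral.integral_const_mul, mul_smul_comm]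
  rw [← h1, integral_smul]
  simp only [intervalIntegral.integral_of_le hpi]
  rw [integral_integral_swap hint]
  simp only [hrot]
  rw [setIntegral_const, Measure.real, Real.volume_Ioc, sub_zero, ENNReal.toReal_ofReal hpi,
    smul_smul, inv_mul_cancel₀ (by positivity), one_smul]

/-! ### The circled mollifier -/

/-- A circled function with compact support. -/
noncomputable def polyWρ (n : ℕ) (v : Fin n → ℂ) : ℝ := Real.smoothTransition (1 - ∑ i, ‖v i‖ ^ 2)

theorem polyWρ_contDiff : ContDiff ℝ 2 (polyWρ n) := by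
  have h1 : ContDiff ℝ 2 (fun v : Fin n → ℂ => 1 - ∑ i, ‖v i‖ ^ 2) := by
    apply contDiff_const.sub
    apply ContDiff.sum
    intro i _
    exact (contDiff_norm_sq ℝ).comp (contDiff_apply ℝ ℂ i)
  exact Real.smoothTransition.contDiff.comp h1

theorem polyWρ_supp : HasCompactSupport (polyWρ n) := by
  apply HasCompactSupport.intro (isCompact_closedBall (0 : Fin n → ℂ) 1)
  intro v hv
  rw [mem_closedBall_zero_iff, not_le] at hv
  have h1 : ∃ i, 1 < ‖v i‖ := by
    by_contra h
    push Not at h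
    have := (pi_norm_le_iff_of_nonneg zero_le_one).2 h
    linarith
  obtain ⟨i, hi⟩ := h1
  apply Real.smoothTransition.zero_of_nonpos
  have h2 : ‖v i‖ ^ 2 ≤ ∑ i, ‖v i‖ ^ 2 :=
    Finset.single_le_sum (f := fun i => ‖v i‖ ^ 2) (fun _ _ => by positivity) (Finset.mem_univ i)
  (by_contra nlg; linarith [mul_nonneg (sub_nonneg.2 h2) (sub_nonneg.2 h2), mul_nonneg (le_of_lt (sub_pos.2 hi)) (sub_nonneg.2 h2), mul_pos (sub_pos.2 hi) (sub_pos.2 hi), mul_nonneg (le_of_lt (sub_pos.2 (not_le.1 nlg))) (sub_nonneg.2 h2), mul_pos (sub_pos.2 (not_le.1 nlg)) (sub_pos.2 hi), mul_pos (sub_pos.2 (not_le.1 nlg)) (sub_pos.2 (not_le.1 nlg)), mul_nonneg (sq_nonneg (‖v i‖ : ℝ)) (sub_nonneg.2 h2), mul_nonneg (sq_nonneg (‖v i‖ : ℝ)) (le_of_lt (sub_pos.2 hi)), mul_nonneg (sq_nonneg (‖v i‖ : ℝ)) (le_of_lt (sub_pos.2 (not_le.1 nlg)))])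

theorem polyWρ_circ (c : ℂ) (v : Fin n → ℂ) (hc : ‖c‖ = 1) : polyWρ n (c • v) = polyWρ n v := by
  simp [polyWρ, hc]

theorem polyWρ_pos : 0 < ∫ v, polyWρ n v := by
  apply polyWρ_contDiff.continuous.integral_pos_of_hasCompactSupport_nonneg_nonzero polyWρ_supp
    (x := 0)
  · intro v
    exact Real.smoothTransition.nonneg _
  · simp [polyWρ]

/-! ### Convolution with the mollifier -/

theorem polyW_fubini {τ : (Fin n → ℂ) → ℂ} (hτ : LocallyIntegrable τ volume)
    {g ρ : (Fin n → ℂ) → ℂ} (hg : Continuous g) (hgs : HasCompactSupport g)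
    (hρ : Continuous ρ) (hρs : HasCompactSupport ρ) :
    ∫ x, g x * ∫ v, ρ v * τ (x - v) = ∫ v, ρ v * polyWH τ g v := by
  obtain ⟨R₁, hR₁⟩ := hgs.isCompact.isBounded.subset_closedBall 0
  obtain ⟨R₂, hR₂⟩ := hρs.isCompact.isBounded.subset_closedBall 0
  set B : Set (Fin n → ℂ) := Metric.closedBall 0 (R₁ + R₂) with hB
  set τB : (Fin n → ℂ) → ℂ := B.indicator τ with hτB
  have hint0 : Integrable τB volume := by
    rw [hτB, integrable_indicator_iff Metric.isClosed_closedBall.measurableSet]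
    exact hτ.integrableOn_isCompact (isCompact_closedBall _ _)
  have heq : ∀ x v, g x * (ρ v * τ (x - v)) = g x * (ρ v * τB (x - v)) := by
    intro x v
    by_cases hx : x ∈ tsupport g
    · by_cases hv : v ∈ tsupport ρ
      · have : x - v ∈ B := by
          have h1 := hR₁ hx
          have h2 := hR₂ hv
          rw [mem_closedBall_zero_iff] at h1 h2
          rw [hB, mem_closedBall_zero_iff]
          exact (norm_sub_le _ _).trans (add_le_add h1 h2)
        rw [hτB, Set.indicator_of_mem this]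
      · rw [image_eq_zero_of_notMem_tsupport hv, zero_mul, zero_mul]
    · rw [image_eq_zero_of_notMem_tsupport hx, zero_mul, zero_mul]
  have hint : Integrable (Function.uncurry fun x v => g x * (ρ v * τ (x - v)))
      (volume.prod volume) := by
    have h1 := (hρ.integrable_of_hasCompactSupport (μ := volume) hρs).convolution_integrand
      (ContinuousLinearMap.mul ℝ ℂ) hint0
    obtain ⟨M, hM⟩ := hg.bounded_above_of_compact_support hgs
    have h2 : Integrable (fun p : (Fin n → ℂ) × (Fin n → ℂ) =>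
        g p.1 * ((ContinuousLinearMap.mul ℝ ℂ) (ρ p.2)) (τB (p.1 - p.2)))
        (volume.prod volume) := by
      refine Integrable.mono' (h1.norm.const_mul M)
        ((hg.comp continuous_fst).aestronglyMeasurable.mul h1.aestronglyMeasurable) ?_
      filter_upwards with p
      rw [norm_mul]
      exact mul_le_mul_of_nonneg_right (hM _) (norm_nonneg _)
    refine h2.congr (Eventually.of_forall ?_)
    rintro ⟨x, v⟩
    simp only [Function.uncurry_apply_pair]
    rw [heq]
    rfl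
  calc ∫ x, g x * ∫ v, ρ v * τ (x - v) = ∫ x, ∫ v, g x * (ρ v * τ (x - v)) := by
        apply integral_congr_ae
        filter_upwards with x
        rw [integral_const_mul]
    _ = ∫ v, ∫ x, g x * (ρ v * τ (x - v)) := integral_integral_swap hint
    _ = ∫ v, ρ v * polyWH τ g v := by
        apply integral_congr_ae
        filter_upwards with v
        rw [polyWH, ← integral_const_mul,
          ← integral_add_right_eq_self (fun x => g x * (ρ v * τ (x - v))) v]
        apply integral_congr_ae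
        filter_upwards with z
        rw [add_sub_cancel_right]
        ring


/-! ### Entire functions of polynomial growth -/

/-- One variable. -/
theorem polyW_one {g : ℂ → ℂ} (hg : Differentiable ℂ g) {A B : ℝ} {k : ℕ}
    (h : ∀ t, ‖g t‖ ≤ A * (B + ‖t‖) ^ k) :
    ∃ p : Polynomial ℂ, p.natDegree ≤ k ∧ ∀ t, g t = p.eval t := by
  have hz : ∀ m, k < m → iteratedDeriv m g 0 = 0 := by
    intro m hm
    have hb : ∀ R : ℝ, 0 < R → ‖iteratedDeriv m g 0‖ ≤ m.factorial * (A * (B + R) ^ k) / R ^ m := by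
      intro R hR
      apply Complex.norm_iteratedDeriv_le_of_forall_mem_sphere_norm_le m hR hg.diffContOnCl
      intro z hz
      rw [mem_sphere_zero_iff_norm] at hz
      rw [← hz]
      exact h z
    have hlim : Tendsto (fun R : ℝ => m.factorial * (A * (B + R) ^ k) / R ^ m) atTop (𝓝 0) := by
      have h1 : Tendsto (fun R : ℝ => (m.factorial * (A * (B / R + 1) ^ k)) * (R ^ (m - k))⁻¹)
          atTop (𝓝 ((m.factorial * (A * (0 + 1) ^ k)) * 0)) := by
        apply Tendsto.mul
        · apply Tendsto.const_mul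
          apply Tendsto.const_mul
          apply Tendsto.pow
          exact (tendsto_const_nhds.div_atTop tendsto_id).add_const 1
        · exact (tendsto_pow_atTop (by omega)).inv_tendsto_atTop
      rw [mul_zero] at h1
      refine h1.congr' ?_
      filter_upwards [eventually_gt_atTop 0] with R hR
      have h2 : R ^ m = R ^ k * R ^ (m - k) := by rw [← pow_add]; congr 1; omega
      have h3 : B / R + 1 = (B + R) / R := by field_simp
      rw [h2, h3, div_pow]
      field_simp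
    have h0 : ‖iteratedDeriv m g 0‖ ≤ 0 := by
      apply ge_of_tendsto hlim
      filter_upwards [eventually_gt_atTop 0] with R hR using hb R hR
    exact norm_le_zero_iff.1 h0
  refine ⟨∑ m ∈ Finset.range (k + 1), Polynomial.monomial m
    ((m.factorial : ℂ)⁻¹ * iteratedDeriv m g 0), ?_, ?_⟩
  · refine (Polynomial.natDegree_sum_le _ _).trans ?_
    rw [Finset.fold_max_le]
    refine ⟨Nat.zero_le _, fun m hm => ?_⟩
    refine (Polynomial.natDegree_monomial_le _).trans ?_
    rw [Finset.mem_range] at hm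
    omega
  · intro t
    have h1 := Complex.taylorSeries_eq_of_entire' 0 t hg
    rw [← h1, tsum_eq_sum (s := Finset.range (k + 1))]
    · rw [Polynomial.eval_finsetSum]
      apply Finset.sum_congr rfl
      intro m _
      rw [Polynomial.eval_monomial, sub_zero]
    · intro m hm
      rw [Finset.mem_range, not_lt] at hm
      rw [hz m (by omega)]
      simp

/-- The Lagrange basis polynomial for the nodes `0, …, k`. -/
noncomputable def polyWLag (k : ℕ) (a : Fin (k + 1)) : Polynomial ℂ :=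
  Lagrange.basis Finset.univ (fun b : Fin (k + 1) => ((b : ℕ) : ℂ)) a

theorem polyW_interp {k : ℕ} {p : Polynomial ℂ} (hp : p.natDegree ≤ k) (t : ℂ) :
    p.eval t = ∑ a : Fin (k + 1), p.eval ((a : ℕ) : ℂ) * (polyWLag k a).eval t := by
  have hinj : Set.InjOn (fun b : Fin (k + 1) => ((b : ℕ) : ℂ)) (Finset.univ : Finset (Fin (k+1))) := by
    intro a _ b _ hab
    exact Fin.ext (Nat.cast_injective hab)
  have hdeg : p.degree < (Finset.univ : Finset (Fin (k + 1))).card := by
    rw [Finset.card_univ, Fintype.card_fin]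
    refine lt_of_le_of_lt Polynomial.degree_le_natDegree ?_
    exact_mod_cast Nat.lt_succ_of_le hp
  have h1 := Lagrange.eq_interpolate_of_eval_eq (fun a : Fin (k + 1) => p.eval ((a : ℕ) : ℂ)) hinj hdeg
    (fun i _ => rfl)
  nth_rewrite 1 [h1]
  rw [Lagrange.interpolate_apply, Polynomial.eval_finsetSum]
  apply Finset.sum_congr rfl
  intro a _
  rw [Polynomial.eval_mul, Polynomial.eval_C]
  rfl

/-- Several variables. -/
theorem polyW_several {k : ℕ} : ∀ (n : ℕ) (f : (Fin n → ℂ) → ℂ),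
    (∀ (z : Fin n → ℂ) (i : Fin n), ∃ p : Polynomial ℂ, p.natDegree ≤ k ∧
      ∀ t, f (Function.update z i t) = p.eval t) →
    ∀ z, f z = ∑ a : Fin n → Fin (k + 1), f (fun i => ((a i : ℕ) : ℂ)) *
      ∏ i, (polyWLag k (a i)).eval (z i) := by
  intro n
  induction n with
  | zero =>
    intro f _ z
    rw [Fintype.sum_unique]
    simp only [Finset.univ_eq_empty, Finset.prod_empty, mul_one]
    congr 1
    exact Subsingleton.elim _ _
  | succ n ih =>
    intro f hf z
    have hcons : ∀ (z' : Fin n → ℂ) (s t : ℂ), Function.update (Fin.cons s z' : Fin (n + 1) → ℂ) 0 t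
        = Fin.cons t z' := by
      intro z' s t
      exact Fin.update_cons_zero _ _ _
    have h0 : ∀ (z' : Fin n → ℂ) (t : ℂ), f (Fin.cons t z') =
        ∑ a : Fin (k + 1), f (Fin.cons ((a : ℕ) : ℂ) z') * (polyWLag k a).eval t := by
      intro z' t
      obtain ⟨p, hp, hp'⟩ := hf (Fin.cons 0 z') 0
      have hp'' : ∀ t, f (Fin.cons t z') = p.eval t := by
        intro t
        rw [← hp' t, hcons]
      rw [hp'', polyW_interp hp t]
      apply Finset.sum_congr rfl
      intro a _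
      rw [hp'']
    have h1 : ∀ (a : Fin (k + 1)) (z' : Fin n → ℂ), f (Fin.cons ((a : ℕ) : ℂ) z') =
        ∑ b : Fin n → Fin (k + 1), f (Fin.cons ((a : ℕ) : ℂ) (fun i => ((b i : ℕ) : ℂ))) *
          ∏ i, (polyWLag k (b i)).eval (z' i) := by
      intro a z'
      apply ih (fun z' => f (Fin.cons ((a : ℕ) : ℂ) z'))
      intro z' i
      obtain ⟨p, hp, hp'⟩ := hf (Fin.cons ((a : ℕ) : ℂ) z') i.succ
      refine ⟨p, hp, fun t => ?_⟩
      rw [← hp' t, Fin.cons_update]
    have hz : z = Fin.cons (z 0) (Fin.tail z) := (Fin.cons_self_tail z).symm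
    have h2 : f z = ∑ a : Fin (k + 1), ∑ b : Fin n → Fin (k + 1),
        f (Fin.cons ((a : ℕ) : ℂ) (fun i => ((b i : ℕ) : ℂ))) *
          ((polyWLag k a).eval (z 0) * ∏ i, (polyWLag k (b i)).eval (Fin.tail z i)) := by
      nth_rewrite 1 [hz]
      rw [h0]
      apply Finset.sum_congr rfl
      intro a _
      rw [h1, Finset.sum_mul]
      apply Finset.sum_congr rfl
      intro b _
      ring
    rw [h2, ← Finset.sum_product']
    symm
    apply Fintype.sum_equiv (Fin.consEquiv (fun _ => Fin (k + 1))).symm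
    intro a
    rw [Fin.prod_univ_succ]
    congr 1
    congr 1
    funext i
    refine Fin.cases ?_ (fun j => ?_) i
    · simp [Fin.consEquiv]
    · simp [Fin.consEquiv, Fin.tail]

/-- The interpolation polynomials. -/
noncomputable def polyWQ (n k : ℕ) (a : Fin n → Fin (k + 1)) : Pol n :=
  ∏ i, Polynomial.aeval (MvPolynomial.X i : Pol n) (polyWLag k (a i))

theorem polyW_eval_Q (n k : ℕ) (a : Fin n → Fin (k + 1)) (z : Fin n → ℂ) :
    MvPolynomial.eval z (polyWQ n k a) = ∏ i, (polyWLag k (a i)).eval (z i) := by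
  rw [polyWQ, map_prod]
  apply Finset.prod_congr rfl
  intro i _
  rw [← MvPolynomial.coe_aeval_eq_eval, RingHom.coe_coe, ← Polynomial.aeval_algHom_apply,
    MvPolynomial.aeval_X, Polynomial.coe_aeval_eq_eval]

theorem polyW_poly (n k : ℕ) : ∃ (d : ℕ) (C : ℝ), 0 ≤ C ∧
    ∀ (f : (Fin n → ℂ) → ℂ) (D : ℝ), 0 ≤ D → Differentiable ℂ f →
      (∀ z, ‖f z‖ ≤ D * (2 + ‖z‖) ^ k) →
      ∃ P : Pol n, (∀ m ∈ P.support, ∀ i, m i ≤ d) ∧ (∀ m, ‖MvPolynomial.coeff m P‖ ≤ C * D) ∧
        ∀ z, f z = MvPolynomial.eval z P := by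
  classical
  refine ⟨∑ a, (polyWQ n k a).totalDegree,
    ∑ a, (2 + (k : ℝ)) ^ k * ∑ m ∈ (polyWQ n k a).support, ‖MvPolynomial.coeff m (polyWQ n k a)‖,
    by positivity, ?_⟩
  intro f D hD hf hb
  have hsep : ∀ (z : Fin n → ℂ) (i : Fin n), ∃ p : Polynomial ℂ, p.natDegree ≤ k ∧
      ∀ t, f (Function.update z i t) = p.eval t := by
    intro z i
    have hd : Differentiable ℂ (fun t : ℂ => f (Function.update z i t)) := by
      apply hf.comp
      intro t
      exact (hasFDerivAt_update (𝕜 := ℂ) z t).differentiableAt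
    obtain ⟨p, hp, hp'⟩ := polyW_one (k := k) (A := D) (B := 2 + ‖z‖) hd (by
      intro t
      refine (hb _).trans ?_
      apply mul_le_mul_of_nonneg_left _ hD
      apply pow_le_pow_left₀ (by positivity)
      have : ‖Function.update z i t‖ ≤ ‖z‖ + ‖t‖ := by
        rw [pi_norm_le_iff_of_nonneg (by positivity)]
        intro j
        by_cases hj : j = i
        · subst hj
          rw [Function.update_self]
          have := norm_nonneg z
          linarith
        · rw [Function.update_of_ne hj]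
          have := norm_le_pi_norm z j
          have := norm_nonneg t
          linarith
      linarith)
    exact ⟨p, hp, hp'⟩
  refine ⟨∑ a : Fin n → Fin (k + 1), MvPolynomial.C (f fun i => ((a i : ℕ) : ℂ)) * polyWQ n k a,
    ?_, ?_, ?_⟩
  · intro m hm i
    rw [MvPolynomial.mem_support_iff, MvPolynomial.coeff_sum] at hm
    obtain ⟨a, _, ha⟩ := Finset.exists_ne_zero_of_sum_ne_zero hm
    rw [MvPolynomial.coeff_C_mul] at ha
    have ha' : MvPolynomial.coeff m (polyWQ n k a) ≠ 0 := right_ne_zero_of_mul ha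
    have h1 : m i ≤ (polyWQ n k a).totalDegree := by
      have h2 := MvPolynomial.le_totalDegree (MvPolynomial.mem_support_iff.2 ha')
      refine le_trans ?_ h2
      by_cases hi : i ∈ m.support
      · exact Finset.single_le_sum (f := fun i => m i) (fun _ _ => Nat.zero_le _) hi
      · rw [Finsupp.notMem_support_iff.1 hi]
        exact Nat.zero_le _
    exact h1.trans (Finset.single_le_sum (f := fun a => (polyWQ n k a).totalDegree)
      (fun _ _ => Nat.zero_le _) (Finset.mem_univ a))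
  · intro m
    rw [MvPolynomial.coeff_sum, Finset.sum_mul]
    refine (norm_sum_le _ _).trans ?_
    apply Finset.sum_le_sum
    intro a _
    rw [MvPolynomial.coeff_C_mul, norm_mul]
    have h1 : ‖f fun i => ((a i : ℕ) : ℂ)‖ ≤ D * (2 + (k : ℝ)) ^ k := by
      refine (hb _).trans ?_
      apply mul_le_mul_of_nonneg_left _ hD
      apply pow_le_pow_left₀ (by positivity)
      have : ‖(fun i => ((a i : ℕ) : ℂ) : Fin n → ℂ)‖ ≤ k := by
        rw [pi_norm_le_iff_of_nonneg (by positivity)]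
        intro i
        rw [Complex.norm_natCast]
        exact_mod_cast Nat.lt_succ_iff.1 (a i).2
      linarith
    have h2 : ‖MvPolynomial.coeff m (polyWQ n k a)‖ ≤
        ∑ m ∈ (polyWQ n k a).support, ‖MvPolynomial.coeff m (polyWQ n k a)‖ := by
      by_cases hm : m ∈ (polyWQ n k a).support
      · exact Finset.single_le_sum (f := fun m => ‖MvPolynomial.coeff m (polyWQ n k a)‖)
          (fun _ _ => norm_nonneg _) hm
      · rw [MvPolynomial.notMem_support_iff.1 hm, norm_zero]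
        positivity
    calc ‖f fun i => ((a i : ℕ) : ℂ)‖ * ‖MvPolynomial.coeff m (polyWQ n k a)‖
        ≤ (D * (2 + (k : ℝ)) ^ k) *
          ∑ m ∈ (polyWQ n k a).support, ‖MvPolynomial.coeff m (polyWQ n k a)‖ :=
          mul_le_mul h1 h2 (norm_nonneg _) (by positivity)
      _ = _ := by ring
  · intro z
    rw [map_sum, polyW_several n f hsep z]
    apply Finset.sum_congr rfl
    intro a _
    rw [map_mul, MvPolynomial.eval_C, polyW_eval_Q]

/-- Weyl's lemma for `∂̄`. -/
theorem polyW_weyl {τ : (Fin n → ℂ) → ℂ} (hτ : LocallyIntegrable τ volume)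
    (hτ' : LocallyIntegrable (fun z => τ (-z)) volume)
    (hw : ∀ κ : (Fin n → ℂ) → ℂ, ContDiff ℝ 2 κ → HasCompactSupport κ → ∀ j,
      ∫ z, τ z * dzb j κ z = 0) :
    ∃ f : (Fin n → ℂ) → ℂ, Differentiable ℂ f ∧ τ =ᵐ[volume] f := by
  set ρ : (Fin n → ℂ) → ℂ := fun v => ((polyWρ n v : ℝ) : ℂ) with hρdef
  have hρc : ContDiff ℝ 2 ρ := Complex.ofRealCLM.contDiff.comp polyWρ_contDiff
  have hρs : HasCompactSupport ρ := polyWρ_supp.comp_left (g := fun t : ℝ => (t : ℂ)) (by simp)
  have hρr : ∀ (c : ℂ) (v : Fin n → ℂ), ‖c‖ = 1 → ρ (c • v) = ρ v := by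
    intro c v hc
    simp only [hρdef]
    rw [polyWρ_circ c v hc]
  have hρi : ∫ v, ρ v = ((∫ v, polyWρ n v : ℝ) : ℂ) := integral_ofReal
  have hρ0 : ∫ v, ρ v ≠ 0 := by
    rw [hρi]
    exact_mod_cast (polyWρ_pos (n := n)).ne'
  set I : ℂ := ∫ v, ρ v with hI
  set f : (Fin n → ℂ) → ℂ := fun x => I⁻¹ * polyWH τ ρ (-x) with hf
  have hfd : Differentiable ℂ f :=
    ((polyWH_diff hτ hτ' hw hρc hρs).comp
      (g := polyWH τ ρ) (f := fun x : Fin n → ℂ => -x) differentiable_id.neg).const_mul _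
  have hfe : ∀ x, f x = I⁻¹ * ∫ v, ρ v * τ (x - v) := by
    intro x
    simp only [hf, polyWH]
    congr 1
    rw [← integral_sub_left_eq_self (fun v => ρ v * τ (x - v)) volume x]
    apply integral_congr_ae
    filter_upwards with z
    have h1 : x - z = (-1 : ℂ) • (z + -x) := by
      rw [neg_one_smul]; abel
    rw [sub_sub_cancel, h1, hρr _ _ (by simp), mul_comm]
  refine ⟨f, hfd, ?_⟩
  have hfl : LocallyIntegrable f volume := hfd.continuous.locallyIntegrable
  apply ae_eq_of_integral_contDiff_smul_eq hτ hfl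
  intro g hg hgs
  set G : (Fin n → ℂ) → ℂ := fun x => ((g x : ℝ) : ℂ) with hG
  have hGc : ContDiff ℝ 2 G :=
    contDiff_infty.1 (Complex.ofRealCLM.contDiff.comp hg) 2
  have hGs : HasCompactSupport G := hgs.comp_left (g := fun t : ℝ => (t : ℂ)) (by simp)
  have h1 := polyW_fubini hτ hGc.continuous hGs hρc.continuous hρs
  have h2 := polyW_mean (polyWH_diff hτ hτ' hw hGc hGs) hρc.continuous hρs hρr
  have h3 : ∫ x, g x • f x = I⁻¹ * ∫ x, G x * ∫ v, ρ v * τ (x - v) := by
    rw [← integral_const_mul]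
    apply integral_congr_ae
    filter_upwards with x
    rw [hfe, Complex.real_smul]
    ring
  rw [h3, h1, h2, ← mul_assoc, inv_mul_cancel₀ hρ0, one_mul, polyWH]
  apply integral_congr_ae
  filter_upwards with x
  rw [Complex.real_smul, add_zero, mul_comm]

/-- Weakly holomorphic functions in weighted `L²(ℂⁿ)` are polynomials. -/
theorem exists_poly_of_weak (n k : ℕ) : ∃ (d : ℕ) (C : ℝ), 0 ≤ C ∧
    ∀ (τ : (Fin n → ℂ) → ℂ) (δ : ℝ), 0 ≤ δ → AEStronglyMeasurable τ volume →
      ∫⁻ z, ENNReal.ofReal (‖τ z‖ ^ 2 * ((1 + ‖z‖) ^ k)⁻¹) ≤ ENNReal.ofReal (δ ^ 2) →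
      (∀ κ : (Fin n → ℂ) → ℂ, ContDiff ℝ 2 κ → HasCompactSupport κ → ∀ j,
        ∫ z, τ z * dzb j κ z = 0) →
      ∃ P : Pol n, (∀ m ∈ P.support, ∀ i, m i ≤ d) ∧ (∀ m, ‖MvPolynomial.coeff m P‖ ≤ C * δ) ∧
        τ =ᵐ[volume] fun z => MvPolynomial.eval z P := by
  obtain ⟨d, C, hC, hpoly⟩ := polyW_poly n k
  set b : ℝ≥0∞ := volume (Metric.ball (0 : Fin n → ℂ) 1) with hb
  have hb0 : b ≠ 0 := (Metric.measure_ball_pos volume 0 one_pos).ne'
  have hbt : b ≠ ⊤ := measure_ball_lt_top.ne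
  have hbr : 0 < b.toReal := ENNReal.toReal_pos hb0 hbt
  refine ⟨d, C * (Real.sqrt b.toReal)⁻¹, by positivity, ?_⟩
  intro τ δ hδ hm hi hw
  have hlt : ∫⁻ z, ENNReal.ofReal (‖τ z‖ ^ 2 * ((1 + ‖z‖) ^ k)⁻¹) ≠ ⊤ :=
    ne_top_of_le_ne_top ENNReal.ofReal_ne_top hi
  have hτ := polyW_locInt hm hlt
  have hτ' : LocallyIntegrable (fun z => τ (-z)) volume := by
    apply polyW_locInt (k := k)
      (hm.comp_measurePreserving (Measure.measurePreserving_neg volume))
    rw [← lintegral_neg_eq_self] at hlt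
    simpa only [norm_neg, Function.comp] using hlt
  obtain ⟨f, hf, hτf⟩ := polyW_weyl hτ hτ' hw
  have hgrow : ∀ z, ‖f z‖ ≤ (δ * (Real.sqrt b.toReal)⁻¹) * (2 + ‖z‖) ^ k := by
    intro z
    have h1 := mean_value (w := fun _ => 1) measurable_const (fun _ _ _ => rfl) one_pos
      (z₀ := z) (hf.differentiableOn (s := Metric.ball z 1))
    simp only [lintegral_one, Measure.restrict_apply MeasurableSet.univ, Set.univ_inter,
      mul_one] at h1
    rw [← hb] at h1
    have h2 : ∫⁻ v in Metric.ball (0 : Fin n → ℂ) 1, ENNReal.ofReal (‖f (z + v)‖ ^ 2) ≤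
        ENNReal.ofReal ((2 + ‖z‖) ^ k) * ENNReal.ofReal (δ ^ 2) := by
      have h3 : ∀ᵐ v : Fin n → ℂ, τ (z + v) = f (z + v) :=
        (measurePreserving_add_left volume z).quasiMeasurePreserving.ae hτf
      calc ∫⁻ v in Metric.ball (0 : Fin n → ℂ) 1, ENNReal.ofReal (‖f (z + v)‖ ^ 2)
          ≤ ∫⁻ v in Metric.ball (0 : Fin n → ℂ) 1, ENNReal.ofReal ((2 + ‖z‖) ^ k) *
            ENNReal.ofReal (‖τ (z + v)‖ ^ 2 * ((1 + ‖z + v‖) ^ k)⁻¹) := by
            apply lintegral_mono_ae
            filter_upwards [ae_restrict_of_ae h3, ae_restrict_mem measurableSet_ball] with v hv hv1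
            rw [← hv, ← ENNReal.ofReal_mul (by positivity)]
            apply ENNReal.ofReal_le_ofReal
            rw [mem_ball_zero_iff] at hv1
            have h4 : 1 + ‖z + v‖ ≤ 2 + ‖z‖ := by
              have := norm_add_le z v
              linarith
            have h5 : (1 + ‖z + v‖) ^ k ≤ (2 + ‖z‖) ^ k :=
              pow_le_pow_left₀ (by positivity) h4 k
            have h6 : 0 < (1 + ‖z + v‖) ^ k := by positivity
            have h7 : 1 ≤ (2 + ‖z‖) ^ k * ((1 + ‖z + v‖) ^ k)⁻¹ := by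
              rw [← div_eq_mul_inv, one_le_div h6]
              exact h5
            have h8 : 0 ≤ ‖τ (z + v)‖ ^ 2 := by positivity
            linarith only [mul_nonneg (sub_nonneg.2 h7) (sub_nonneg.2 h8)]
        _ ≤ ∫⁻ v, ENNReal.ofReal ((2 + ‖z‖) ^ k) *
            ENNReal.ofReal (‖τ (z + v)‖ ^ 2 * ((1 + ‖z + v‖) ^ k)⁻¹) :=
            setLIntegral_le_lintegral _ _
        _ = ENNReal.ofReal ((2 + ‖z‖) ^ k) *
            ∫⁻ v, ENNReal.ofReal (‖τ v‖ ^ 2 * ((1 + ‖v‖) ^ k)⁻¹) := by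
            rw [lintegral_const_mul' _ _ ENNReal.ofReal_ne_top,
              lintegral_add_left_eq_self
                (fun v => ENNReal.ofReal (‖τ v‖ ^ 2 * ((1 + ‖v‖) ^ k)⁻¹)) z]
        _ ≤ _ := by gcongr
    have h3 := h1.trans h2
    rw [← ENNReal.ofReal_toReal hbt, ← ENNReal.ofReal_mul (by positivity),
      ← ENNReal.ofReal_mul (by positivity), ENNReal.ofReal_le_ofReal_iff (by (clear * -; positivity))] at h3
    apply le_of_sq_le_sq _ (by (clear * - hδ hbr; positivity))
    rw [mul_pow, mul_pow, inv_pow, Real.sq_sqrt hbr.le]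
    have h4 : (1 : ℝ) ≤ (2 + ‖z‖) ^ k := one_le_pow₀ (by linarith [norm_nonneg z])
    have h5 : ‖f z‖ ^ 2 ≤ (2 + ‖z‖) ^ k * δ ^ 2 * b.toReal⁻¹ := by
      rw [← div_eq_mul_inv, le_div_iff₀ hbr]
      exact h3
    refine h5.trans ?_
    have h6 : (2 + ‖z‖) ^ k ≤ ((2 + ‖z‖) ^ k) ^ 2 := by (by_contra nlg; linarith only [nlg, mul_pos (sub_pos.2 (not_le.1 nlg)) (sub_pos.2 (not_le.1 nlg)), mul_nonneg (sq_nonneg ((2 + ‖z‖) ^ k : ℝ)) (sub_nonneg.2 h4), mul_nonneg (sq_nonneg ((2 + ‖z‖) ^ k : ℝ)) (le_of_lt (sub_pos.2 (not_le.1 nlg)))])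
    have h7 : 0 ≤ δ ^ 2 * b.toReal⁻¹ := by positivity
    linarith only [mul_nonneg (sub_nonneg.2 h6) (sub_nonneg.2 h7)]
  obtain ⟨P, hP1, hP2, hP3⟩ := hpoly f (δ * (Real.sqrt b.toReal)⁻¹) (by positivity) hf hgrow
  refine ⟨P, hP1, fun m => ?_, ?_⟩
  · refine (hP2 m).trans (le_of_eq ?_)
    ring
  · filter_upwards [hτf] with z hz
    rw [hz, hP3]

end Vale.Agent.P282.L2
end

section

open IsLocalRing
open scoped WithZero Nat ENNReal

namespace Vale.Agent.P282

section length

variable {R : Type} [CommRing R] {n : ℕ} (x : Fin n → R)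

/-- Monomials of degree `k`. -/
def symMon (k : ℕ) (s : Sym (Fin n) k) : R := (Multiset.map x s.1).prod

theorem symMon_mem (k : ℕ) (s : Sym (Fin n) k) :
    symMon x k s ∈ Ideal.span (Set.range x) ^ k := by
  induction k with
  | zero => simp
  | succ k ih =>
    obtain ⟨i, s', rfl⟩ := s.exists_eq_cons_of_succ
    have h1 : symMon x (k + 1) (i ::ₛ s') = x i * symMon x k s' := by
      simp [symMon, Sym.coe_cons]
    rw [h1, pow_succ']
    exact Ideal.mul_mem_mul (Ideal.subset_span ⟨i, rfl⟩) (ih s')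

theorem span_pow_le (k : ℕ) :
    Ideal.span (Set.range x) ^ k ≤ Ideal.span (Set.range (symMon x k)) := by
  induction k with
  | zero =>
    have h1 : (1 : R) ∈ Ideal.span (Set.range (symMon x 0)) := by
      apply Ideal.subset_span
      exact ⟨Sym.nil, by simp [symMon]⟩
    rw [(Ideal.eq_top_iff_one _).mpr h1]
    exact le_top
  | succ k ih =>
    rw [pow_succ']
    refine (Ideal.mul_mono_right ih).trans ?_
    rw [Ideal.span_mul_span', Ideal.span_le]
    rintro _ ⟨_, ⟨i, rfl⟩, _, ⟨s, rfl⟩, rfl⟩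
    apply Ideal.subset_span
    exact ⟨i ::ₛ s, by simp [symMon, Sym.coe_cons]⟩

/-- the map `R/I → R/I^(k+1)` given by multiplication with a monomial of degree `k`. -/
noncomputable def monMap (k : ℕ) (s : Sym (Fin n) k) :
    (R ⧸ Ideal.span (Set.range x)) →ₗ[R] (R ⧸ Ideal.span (Set.range x) ^ (k + 1)) :=
  Submodule.mapQ _ _ (LinearMap.mulRight R (symMon x k s)) (by
    intro a ha
    rw [Submodule.mem_comap, LinearMap.mulRight_apply, pow_succ']
    exact Ideal.mul_mem_mul ha (symMon_mem x k s))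

theorem length_quot_succ (k : ℕ) :
    Module.length R (R ⧸ Ideal.span (Set.range x) ^ (k + 1)) ≤
      (n.multichoose k : ℕ∞) * Module.length R (R ⧸ Ideal.span (Set.range x)) +
        Module.length R (R ⧸ Ideal.span (Set.range x) ^ k) := by
  set I := Ideal.span (Set.range x) with hI
  have hle : I ^ (k + 1) ≤ I ^ k := Ideal.pow_le_pow_right (Nat.le_succ k)
  let g : (R ⧸ I ^ (k + 1)) →ₗ[R] (R ⧸ I ^ k) := Submodule.factor hle
  have hg : Function.Surjective g := Submodule.factor_surjective hle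
  let psi : (Sym (Fin n) k → (R ⧸ I)) →ₗ[R] (R ⧸ I ^ (k + 1)) :=
    ∑ s, (monMap x k s).comp (LinearMap.proj s)
  have hker : LinearMap.ker g ≤ LinearMap.range psi := by
    intro q hq
    obtain ⟨a, rfl⟩ := Submodule.Quotient.mk_surjective _ q
    have ha : a ∈ I ^ k := by
      rw [LinearMap.mem_ker] at hq
      have : g (Submodule.Quotient.mk a) = Submodule.Quotient.mk a := rfl
      rw [this] at hq
      exact (Submodule.Quotient.mk_eq_zero _).mp hq
    have ha' := span_pow_le x k ha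
    rw [Ideal.mem_span_range_iff_exists_fun] at ha'
    obtain ⟨c, hc⟩ := ha'
    refine ⟨fun s => Submodule.Quotient.mk (c s), ?_⟩
    have h4 : (Submodule.Quotient.mk (∑ s, c s * symMon x k s) : R ⧸ I ^ (k + 1)) =
        ∑ s, Submodule.Quotient.mk (c s * symMon x k s) :=
      map_sum (I ^ (k + 1)).mkQ _ _
    rw [← hc, h4]
    simp only [psi, LinearMap.sum_apply, LinearMap.comp_apply, LinearMap.proj_apply]
    rfl
  have h1 : Module.length R (R ⧸ I ^ (k + 1)) =
      Module.length R (LinearMap.ker g) + Module.length R (R ⧸ I ^ k) :=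
    Module.length_eq_add_of_exact (LinearMap.ker g).subtype g (Submodule.subtype_injective _) hg
      (LinearMap.exact_subtype_ker_map g)
  have h2 : Module.length R (LinearMap.ker g) ≤ Module.length R (LinearMap.range psi) :=
    Module.length_le_of_injective (Submodule.inclusion hker) (Submodule.inclusion_injective hker)
  have h3 : Module.length R (LinearMap.range psi) ≤ Module.length R (Sym (Fin n) k → (R ⧸ I)) :=
    Module.length_le_of_surjective psi.rangeRestrict psi.surjective_rangeRestrict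
  have h4 : Module.length R (Sym (Fin n) k → (R ⧸ I)) =
      (n.multichoose k : ℕ∞) * Module.length R (R ⧸ I) := by
    rw [Module.length_pi, ENat.card_eq_coe_fintype_card, Sym.card_sym_eq_multichoose,
      Fintype.card_fin]
  rw [h1]
  gcongr
  exact (h2.trans h3).trans h4.le

theorem length_quot_le (e : ℕ)
    (he : Module.length R (R ⧸ Ideal.span (Set.range x)) ≤ (e : ℕ∞)) (k : ℕ) :
    Module.length R (R ⧸ Ideal.span (Set.range x) ^ (k + 1)) ≤ ((e * (k + n).choose n : ℕ) : ℕ∞) := by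
  rw [← Nat.sum_range_multichoose]
  suffices h : ∀ k : ℕ, Module.length R (R ⧸ Ideal.span (Set.range x) ^ k) ≤
      ((e * ∑ i ∈ Finset.range k, n.multichoose i : ℕ) : ℕ∞) from h (k + 1)
  intro k
  induction k with
  | zero =>
    have : Subsingleton (R ⧸ Ideal.span (Set.range x) ^ 0) := by
      rw [pow_zero, Ideal.one_eq_top]
      infer_instance
    rw [Module.length_eq_zero]
    exact zero_le
  | succ k ih =>
    refine (length_quot_succ x k).trans ?_
    rw [Finset.sum_range_succ, mul_add, Nat.cast_add, add_comm]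
    refine add_le_add ih ?_
    rw [Nat.cast_mul, mul_comm]
    exact mul_le_mul_left he _

end length

section main

variable {R : Type} [CommRing R] [IsDomain R] [IsLocalRing R]
    [Algebra ℂ R] (v : Valuation (FractionRing R) ℤᵐ⁰) (hv : IsOver v) (n b : ℕ)
    (x : Fin n → R) (hx : ∀ i, v (algebraMap R (FractionRing R) (x i)) ≤ WithZero.exp (-(b : ℤ)))

omit [IsDomain R] [IsLocalRing R] [Algebra ℂ R] in
include hx in
theorem symMon_val (k : ℕ) (s : Sym (Fin n) k) :
    v (algebraMap R (FractionRing R) (symMon x k s)) ≤ WithZero.exp (-((b * k : ℕ) : ℤ)) := by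
  induction k with
  | zero =>
    have : s = Sym.nil := by
      apply Subsingleton.elim
    rw [this]
    simp [symMon]
  | succ k ih =>
    obtain ⟨i, s', rfl⟩ := s.exists_eq_cons_of_succ
    have h1 : symMon x (k + 1) (i ::ₛ s') = x i * symMon x k s' := by
      simp [symMon, Sym.coe_cons]
    rw [h1, map_mul, map_mul]
    have h2 : WithZero.exp (-((b * (k + 1) : ℕ) : ℤ)) =
        WithZero.exp (-(b : ℤ)) * WithZero.exp (-((b * k : ℕ) : ℤ)) := by
      rw [← WithZero.exp_add]
      congr 1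
      push_cast
      ring
    rw [h2]
    exact mul_le_mul' (hx i) (ih s')

omit [IsDomain R] [IsLocalRing R] [Algebra ℂ R] in
include hx in
theorem pow_le_valIdeal (k t : ℕ) (h : t ≤ b * k) :
    Ideal.span (Set.range x) ^ k ≤ valIdeal v hv t := by
  refine (span_pow_le x k).trans ?_
  rw [Ideal.span_le]
  rintro _ ⟨s, rfl⟩
  refine (symMon_val v n b x hx k s).trans ?_
  rw [WithZero.exp_le_exp]
  have : (t : ℤ) ≤ ((b * k : ℕ) : ℤ) := by exact_mod_cast h
  omega

end main

/-- T7. Upper bound for the volume of a valuation. -/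
theorem vol_le (R : Type) [CommRing R] [IsDomain R] [IsLocalRing R] [IsNoetherianRing R]
    [Algebra ℂ R] (v : Valuation (FractionRing R) ℤᵐ⁰) (hv : IsOver v) (n e b : ℕ) (hb : 1 ≤ b)
    (x : Fin n → R) (hx : ∀ i, v (algebraMap R (FractionRing R) (x i)) ≤ WithZero.exp (-(b : ℤ)))
    (he : Module.length R (R ⧸ Ideal.span (Set.range x)) ≤ (e : ℕ∞)) :
    vol n v hv ≤ (e : ℝ≥0∞) / (b : ℝ≥0∞) ^ n := by
  have hb0 : (0 : ℝ) < b := by exact_mod_cast hb
  have hlen : ∀ t : ℕ, Module.length R (R ⧸ valIdeal v hv t) ≤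
      ((e * (t / b + n).choose n : ℕ) : ℕ∞) := by
    intro t
    have h1 : Ideal.span (Set.range x) ^ (t / b + 1) ≤ valIdeal v hv t := by
      apply pow_le_valIdeal v hv n b x hx
      have := Nat.lt_mul_div_succ t (show 0 < b by omega)
      exact this.le
    have h2 : Module.length R (R ⧸ valIdeal v hv t) ≤
        Module.length R (R ⧸ Ideal.span (Set.range x) ^ (t / b + 1)) :=
      Module.length_le_of_surjective (Submodule.factor h1) (Submodule.factor_surjective h1)
    exact h2.trans (length_quot_le x e he (t / b))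
  have hterm : ∀ t : ℕ, 1 ≤ t → (n ! : ℝ≥0∞) * (Module.length R (R ⧸ valIdeal v hv t) : ℝ≥0∞) /
      (t : ℝ≥0∞) ^ n ≤ ENNReal.ofReal (e * (1 / b + n / t) ^ n) := by
    intro t ht
    have ht0 : (0 : ℝ) < t := by exact_mod_cast ht
    have h1 : (Module.length R (R ⧸ valIdeal v hv t) : ℝ≥0∞) ≤
        ((e * (t / b + n).choose n : ℕ) : ℝ≥0∞) := by
      have := ENat.toENNReal_le.mpr (hlen t)
      simpa using this
    have h2 : (n ! : ℝ≥0∞) * (Module.length R (R ⧸ valIdeal v hv t) : ℝ≥0∞) /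
      (t : ℝ≥0∞) ^ n ≤ (n ! : ℝ≥0∞) * ((e * (t / b + n).choose n : ℕ) : ℝ≥0∞) /
      (t : ℝ≥0∞) ^ n := by
      gcongr
    refine h2.trans ?_
    have h3 : (n ! : ℝ≥0∞) * ((e * (t / b + n).choose n : ℕ) : ℝ≥0∞) / (t : ℝ≥0∞) ^ n =
        ENNReal.ofReal ((n ! : ℝ) * ((e * (t / b + n).choose n : ℕ) : ℝ) / (t : ℝ) ^ n) := by
      rw [ENNReal.ofReal_div_of_pos (pow_pos ht0 n), ENNReal.ofReal_pow ht0.le,
        ENNReal.ofReal_natCast, ENNReal.ofReal_mul (by positivity), ENNReal.ofReal_natCast,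
        ENNReal.ofReal_natCast]
    rw [h3]
    apply ENNReal.ofReal_le_ofReal
    have h4 : ((n ! : ℕ) : ℝ) * (((t / b + n).choose n : ℕ) : ℝ) ≤ ((t / b + n : ℕ) : ℝ) ^ n := by
      have h5 := Nat.choose_le_pow_div (α := ℝ) n (t / b + n)
      rw [le_div_iff₀ (by positivity)] at h5
      linarith only [h5]
    have h6 : ((t / b + n : ℕ) : ℝ) ≤ (t : ℝ) / b + n := by
      push_cast
      have := Nat.cast_div_le (α := ℝ) (m := t) (n := b)
      linarith only [this]
    have h7 : ((t / b + n : ℕ) : ℝ) ^ n ≤ ((t : ℝ) / b + n) ^ n :=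
      pow_le_pow_left₀ (by positivity) h6 n
    have h8 : (t : ℝ) / b + n = (1 / b + n / t) * t := by
      field_simp
    rw [div_le_iff₀ (pow_pos ht0 n)]
    calc (n ! : ℝ) * ((e * (t / b + n).choose n : ℕ) : ℝ)
        = e * (((n ! : ℕ) : ℝ) * (((t / b + n).choose n : ℕ) : ℝ)) := by
          push_cast
          ring
      _ ≤ e * ((t : ℝ) / b + n) ^ n := by
          gcongr
          exact h4.trans h7
      _ = e * (1 / b + n / t) ^ n * t ^ n := by
          rw [h8, mul_pow]
          ring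
  have hlim : Filter.Tendsto (fun t : ℕ => ENNReal.ofReal (e * (1 / (b : ℝ) + n / t) ^ n))
      Filter.atTop (nhds ((e : ℝ≥0∞) / (b : ℝ≥0∞) ^ n)) := by
    have h1 : Filter.Tendsto (fun t : ℕ => (e : ℝ) * (1 / (b : ℝ) + n / t) ^ n)
        Filter.atTop (nhds ((e : ℝ) * (1 / (b : ℝ) + 0) ^ n)) := by
      apply Filter.Tendsto.const_mul
      apply Filter.Tendsto.pow
      apply Filter.Tendsto.const_add
      exact tendsto_const_div_atTop_nhds_zero_nat _
    have h2 := (ENNReal.continuous_ofReal.tendsto _).comp h1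
    have h3 : ENNReal.ofReal ((e : ℝ) * (1 / (b : ℝ) + 0) ^ n) = (e : ℝ≥0∞) / (b : ℝ≥0∞) ^ n := by
      rw [add_zero, one_div, inv_pow, ← div_eq_mul_inv, ENNReal.ofReal_div_of_pos (pow_pos hb0 n),
        ENNReal.ofReal_natCast, ENNReal.ofReal_pow hb0.le, ENNReal.ofReal_natCast]
    rw [← h3]
    exact h2
  rw [← hlim.limsup_eq]
  refine Filter.limsup_le_limsup ?_
  filter_upwards [Filter.eventually_ge_atTop 1] with t ht
  exact hterm t ht

end Vale.Agent.P282
end

section

/-!
P282-EQ-6a: the Levi form estimate for the ratio cutoff.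
-/

open MeasureTheory Filter Topology
open scoped ENNReal NNReal ComplexConjugate

namespace Vale.Agent.P282.L2

namespace Sheets

variable {n N : ℕ} {S : Sheets n N} {r : ℕ}

/-- `|F|²`. -/
noncomputable def sqn (F : Fin r → (Fin n → ℂ) × ℂ → ℂ) (q : (Fin n → ℂ) × ℂ) : ℝ :=
  ∑ j, ‖F j q‖ ^ 2

/-- The Levi form of `log (s + |F|²)`, exactly. -/
theorem slr_levi_log {F : Fin r → (Fin n → ℂ) × ℂ → ℂ} (hF : ∀ j, S.Holo (F j)) {s : ℝ}
    (hs : 0 < s) {q : (Fin n → ℂ) × ℂ} (hq : q ∈ S.M) (β : Fin n → ℂ) :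
    S.levi (fun q => Real.log (s + ∑ j, ‖F j q‖ ^ 2)) β q =
      (s + ∑ j, ‖F j q‖ ^ 2)⁻¹ * ∑ j, ‖∑ k, S.D k (F j) q * β k‖ ^ 2 -
        ((s + ∑ j, ‖F j q‖ ^ 2)⁻¹) ^ 2 *
          ‖∑ j, (∑ k, S.D k (F j) q * β k) * conj (F j q)‖ ^ 2 := by
  set a : Fin r → ℂ := fun j => ∑ k, S.D k (F j) q * β k with ha
  set G : ℝ := s + ∑ j, ‖F j q‖ ^ 2 with hG
  have h1 : ∑ l, ∑ k, S.D l (S.Db k (fun q =>
      ((Real.log (s + ∑ j, ‖F j q‖ ^ 2) : ℝ) : ℂ))) q * β l * conj (β k) =
      ((G⁻¹ * ∑ j, ‖a j‖ ^ 2 - (G⁻¹) ^ 2 * ‖∑ j, a j * conj (F j q)‖ ^ 2 : ℝ) : ℂ) := by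
    have h2 : ∀ l k, S.D l (S.Db k (fun q =>
        ((Real.log (s + ∑ j, ‖F j q‖ ^ 2) : ℝ) : ℂ))) q * β l * conj (β k) =
        ((G⁻¹ : ℝ) : ℂ) * ∑ j, (S.D l (F j) q * β l) * conj (S.D k (F j) q * β k) -
        ((G⁻¹ : ℝ) : ℂ) ^ 2 * ((∑ j, (S.D l (F j) q * β l) * conj (F j q)) *
          ∑ j, F j q * conj (S.D k (F j) q * β k)) := by
      intro l k
      rw [levi_aux_D_Db_log hF hs hq l k]
      have e1 : ∑ j, (S.D l (F j) q * β l) * conj (S.D k (F j) q * β k) =
          (∑ j, S.D l (F j) q * conj (S.D k (F j) q)) * (β l * conj (β k)) := by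
        rw [Finset.sum_mul]
        refine Finset.sum_congr rfl ?_
        intro j _
        rw [map_mul]
        ring
      have e2 : ∑ j, (S.D l (F j) q * β l) * conj (F j q) =
          (∑ j, S.D l (F j) q * conj (F j q)) * β l := by
        rw [Finset.sum_mul]
        refine Finset.sum_congr rfl ?_
        intro j _
        ring
      have e3 : ∑ j, F j q * conj (S.D k (F j) q * β k) =
          (∑ j, F j q * conj (S.D k (F j) q)) * conj (β k) := by
        rw [Finset.sum_mul]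
        refine Finset.sum_congr rfl ?_
        intro j _
        rw [map_mul]
        ring
      rw [e1, e2, e3]
      ring
    simp_rw [h2, Finset.sum_sub_distrib, ← Finset.mul_sum]
    have e4 : ∑ l, ∑ k, ∑ j, (S.D l (F j) q * β l) * conj (S.D k (F j) q * β k) =
        ∑ j, a j * conj (a j) := by
      have e5 : ∀ l, ∑ k, ∑ j, (S.D l (F j) q * β l) * conj (S.D k (F j) q * β k) =
          ∑ j, (S.D l (F j) q * β l) * conj (a j) := by
        intro l
        rw [Finset.sum_comm]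
        refine Finset.sum_congr rfl ?_
        intro j _
        rw [← Finset.mul_sum, ← map_sum]
      simp_rw [e5]
      rw [Finset.sum_comm]
      refine Finset.sum_congr rfl ?_
      intro j _
      rw [← Finset.sum_mul]
    have e6 : ∑ l, ((∑ j, (S.D l (F j) q * β l) * conj (F j q)) *
        ∑ k, ∑ j, F j q * conj (S.D k (F j) q * β k)) =
        (∑ j, a j * conj (F j q)) * conj (∑ j, a j * conj (F j q)) := by
      rw [← Finset.sum_mul]
      congr 1
      · rw [Finset.sum_comm]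
        refine Finset.sum_congr rfl ?_
        intro j _
        rw [← Finset.sum_mul]
      · rw [Finset.sum_comm, map_sum]
        refine Finset.sum_congr rfl ?_
        intro j _
        rw [← Finset.mul_sum, ← map_sum, map_mul, Complex.conj_conj, mul_comm]
    rw [e4, e6, Complex.mul_conj']
    simp_rw [Complex.mul_conj']
    push_cast
    ring
  have h3 : S.levi (fun q => Real.log (s + ∑ j, ‖F j q‖ ^ 2)) β q =
      (∑ l, ∑ k, S.D l (S.Db k (fun q =>
        ((Real.log (s + ∑ j, ‖F j q‖ ^ 2) : ℝ) : ℂ))) q * β l * conj (β k)).re := rfl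
  rw [h3, h1, Complex.ofReal_re]

/-- Cauchy–Schwarz for `A' = ∑ a_j conj F_j`. -/
theorem slr_cs (a f : Fin r → ℂ) :
    ‖∑ j, a j * conj (f j)‖ ^ 2 ≤ (∑ j, ‖f j‖ ^ 2) * ∑ j, ‖a j‖ ^ 2 := by
  have h1 : ‖∑ j, a j * conj (f j)‖ ≤ ∑ j, ‖f j‖ * ‖a j‖ := by
    refine (norm_sum_le _ _).trans (le_of_eq ?_)
    refine Finset.sum_congr rfl ?_
    intro j _
    rw [norm_mul, RCLike.norm_conj, mul_comm]
  calc ‖∑ j, a j * conj (f j)‖ ^ 2 ≤ (∑ j, ‖f j‖ * ‖a j‖) ^ 2 := by
        gcongr
    _ ≤ (∑ j, ‖f j‖ ^ 2) * ∑ j, ‖a j‖ ^ 2 := Finset.sum_mul_sq_le_sq_mul_sq _ _ _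

theorem slr_div {A A2 : ℝ} (hA : 0 ≤ A) (hA2 : 0 ≤ A2) {a : ℂ} (h : ‖a‖ ^ 2 ≤ A * A2) :
    ∃ c : ℂ, a = A * c ∧ A * ‖c‖ ^ 2 ≤ A2 := by
  rcases hA.eq_or_lt with h0 | hpos
  · refine ⟨0, ?_, by simpa [← h0] using hA2⟩
    rw [← h0, zero_mul] at h
    have : ‖a‖ = 0 := by
      have := norm_nonneg a
      nlinarith
    rw [norm_eq_zero] at this
    rw [this, mul_zero]
  · refine ⟨a / A, ?_, ?_⟩
    · have : (A : ℂ) ≠ 0 := by exact_mod_cast hpos.ne'
      field_simp
    · rw [norm_div, Complex.norm_real, Real.norm_of_nonneg hpos.le, div_pow]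
      have : A * (‖a‖ ^ 2 / A ^ 2) = ‖a‖ ^ 2 / A := by
        field_simp
      rw [this, div_le_iff₀ hpos]
      linarith

theorem slr_id1 (A B s : ℝ) (c d : ℂ) :
    (s + A + B) * (A * ‖c‖ ^ 2 + B * ‖d‖ ^ 2) - ‖(A : ℂ) * c + B * d‖ ^ 2 =
      s * A * ‖c‖ ^ 2 + s * B * ‖d‖ ^ 2 + A * B * ‖c - d‖ ^ 2 := by
  simp only [Complex.sq_norm, Complex.normSq_apply, Complex.add_re, Complex.add_im,
    Complex.sub_re, Complex.sub_im, Complex.mul_re, Complex.mul_im, Complex.ofReal_re,
    Complex.ofReal_im]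
  ring

theorem slr_id2 (B s : ℝ) (c e : ℂ) :
    (s + B) * (s * ‖c‖ ^ 2 + B * ‖e‖ ^ 2) - ‖(s : ℂ) * c + B * e‖ ^ 2 =
      s * B * ‖c - e‖ ^ 2 := by
  simp only [Complex.sq_norm, Complex.normSq_apply, Complex.add_re, Complex.add_im,
    Complex.sub_re, Complex.sub_im, Complex.mul_re, Complex.mul_im, Complex.ofReal_re,
    Complex.ofReal_im]
  ring

/-- The pointwise inequality (a variance estimate). -/
theorem slr_key {A B s A2 B2 : ℝ} (hA : 0 ≤ A) (hB : 0 ≤ B) (hs : 0 < s) (hA2 : 0 ≤ A2)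
    (hB2 : 0 ≤ B2) {a b : ℂ} (ha : ‖a‖ ^ 2 ≤ A * A2) (hb : ‖b‖ ^ 2 ≤ B * B2) :
    ‖(((s + A + B)⁻¹ : ℝ) : ℂ) * a - (A : ℂ) * ((((s + A + B)⁻¹ : ℝ) : ℂ) ^ 2 * (a + b))‖ ^ 2 ≤
      (s + A + B)⁻¹ * (A2 + B2) - ((s + A + B)⁻¹) ^ 2 * ‖a + b‖ ^ 2 := by
  obtain ⟨c, rfl, hc⟩ := slr_div hA hA2 ha
  obtain ⟨d, rfl, hd⟩ := slr_div hB hB2 hb
  set T : ℝ := s + A + B with hT
  have hTpos : 0 < T := by positivity
  have hTc : (T : ℂ) ≠ 0 := by exact_mod_cast hTpos.ne'
  have e1 : ((T⁻¹ : ℝ) : ℂ) * ((A : ℂ) * c) -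
      (A : ℂ) * (((T⁻¹ : ℝ) : ℂ) ^ 2 * ((A : ℂ) * c + (B : ℂ) * d)) =
      ((A * (T⁻¹) ^ 2 : ℝ) : ℂ) * ((s : ℂ) * c + B * (c - d)) := by
    have hs' : (s : ℂ) = T - A - B := by
      rw [hT]; push_cast; ring
    rw [hs']
    push_cast
    field_simp
    ring
  rw [e1, norm_mul, Complex.norm_real, mul_pow, Real.norm_eq_abs, sq_abs]
  have i1 := slr_id1 A B s c d
  have i2 := slr_id2 B s c (c - d)
  rw [← hT] at i1
  have p1 : 0 ≤ s * B * ‖c - (c - d)‖ ^ 2 := by positivity
  have p2 : ‖(s : ℂ) * c + B * (c - d)‖ ^ 2 ≤ (s + B) * (s * ‖c‖ ^ 2 + B * ‖c - d‖ ^ 2) := by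
    linarith
  have p3 : A ^ 2 * ‖(s : ℂ) * c + B * (c - d)‖ ^ 2 ≤
      T ^ 2 * (T * (A * ‖c‖ ^ 2 + B * ‖d‖ ^ 2) - ‖(A : ℂ) * c + B * d‖ ^ 2) := by
    rw [i1]
    have q1 : A ^ 2 * ‖(s : ℂ) * c + B * (c - d)‖ ^ 2 ≤
        A ^ 2 * ((s + B) * (s * ‖c‖ ^ 2 + B * ‖c - d‖ ^ 2)) := by gcongr
    have q2 : A ^ 2 * ((s + B) * (s * ‖c‖ ^ 2 + B * ‖c - d‖ ^ 2)) =
        (A * (s + B)) * (s * A * ‖c‖ ^ 2 + A * B * ‖c - d‖ ^ 2) := by ring
    have q3 : A * (s + B) ≤ T ^ 2 := by
      rw [hT]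
      linarith only [sq_nonneg s, sq_nonneg B, sq_nonneg A, mul_nonneg hB hs.le, mul_nonneg hA hs.le, mul_nonneg hA hB]
    have q4 : 0 ≤ s * A * ‖c‖ ^ 2 + A * B * ‖c - d‖ ^ 2 := by (clear * - hs hA hB; positivity)
    have q5 : 0 ≤ s * B * ‖d‖ ^ 2 := by positivity
    calc A ^ 2 * ‖(s : ℂ) * c + B * (c - d)‖ ^ 2
        ≤ (A * (s + B)) * (s * A * ‖c‖ ^ 2 + A * B * ‖c - d‖ ^ 2) := q1.trans_eq q2
      _ ≤ T ^ 2 * (s * A * ‖c‖ ^ 2 + A * B * ‖c - d‖ ^ 2) := by gcongr
      _ ≤ T ^ 2 * (s * A * ‖c‖ ^ 2 + s * B * ‖d‖ ^ 2 + A * B * ‖c - d‖ ^ 2) := by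
          refine mul_le_mul_of_nonneg_left ?_ (by positivity)
          linarith
  have p4 : (A * (T⁻¹) ^ 2) ^ 2 * ‖(s : ℂ) * c + B * (c - d)‖ ^ 2 =
      (T⁻¹) ^ 4 * (A ^ 2 * ‖(s : ℂ) * c + B * (c - d)‖ ^ 2) := by ring
  rw [p4]
  have p5 : (T⁻¹) ^ 4 * (T ^ 2 * (T * (A * ‖c‖ ^ 2 + B * ‖d‖ ^ 2) - ‖(A : ℂ) * c + B * d‖ ^ 2)) =
      T⁻¹ * (A * ‖c‖ ^ 2 + B * ‖d‖ ^ 2) - (T⁻¹) ^ 2 * ‖(A : ℂ) * c + B * d‖ ^ 2 := by
    field_simp
  calc (T⁻¹) ^ 4 * (A ^ 2 * ‖(s : ℂ) * c + B * (c - d)‖ ^ 2)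
      ≤ (T⁻¹) ^ 4 * (T ^ 2 * (T * (A * ‖c‖ ^ 2 + B * ‖d‖ ^ 2) -
          ‖(A : ℂ) * c + B * d‖ ^ 2)) := by gcongr
    _ = T⁻¹ * (A * ‖c‖ ^ 2 + B * ‖d‖ ^ 2) - (T⁻¹) ^ 2 * ‖(A : ℂ) * c + B * d‖ ^ 2 := p5
    _ ≤ _ := by
      have : T⁻¹ * (A * ‖c‖ ^ 2 + B * ‖d‖ ^ 2) ≤ T⁻¹ * (A2 + B2) := by
        gcongr
      linarith only [this]

/-- `Db` of the reciprocal. -/
theorem slr_inv_CD {F : Fin r → (Fin n → ℂ) × ℂ → ℂ} (hF : ∀ j, S.Holo (F j)) {s : ℝ}
    (hs : 0 < s) : S.CD 1 (fun q => (((s + ∑ j, ‖F j q‖ ^ 2)⁻¹ : ℝ) : ℂ)) := by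
  refine CD.congr (X := fun q => ((Real.exp (-Real.log (s + ∑ j, ‖F j q‖ ^ 2)) : ℝ) : ℂ)) ?_ ?_
  · have h1 : ContDiff ℝ 1 (fun x : ℝ => Real.exp (-x)) := by fun_prop
    exact CD.comp_real (m := 1) (φ := fun x : ℝ => Real.exp (-x))
      (u := fun q => Real.log (s + ∑ j, ‖F j q‖ ^ 2)) (by exact_mod_cast h1)
      (CD.log_normSq_sum hF 1 hs)
  · intro q _
    rw [Real.exp_neg, Real.exp_log (levi_aux_pos hs q)]

theorem slr_inv_Db {F : Fin r → (Fin n → ℂ) × ℂ → ℂ} (hF : ∀ j, S.Holo (F j)) {s : ℝ}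
    (hs : 0 < s) {q : (Fin n → ℂ) × ℂ} (hq : q ∈ S.M) (k : Fin n) :
    S.Db k (fun q => (((s + ∑ j, ‖F j q‖ ^ 2)⁻¹ : ℝ) : ℂ)) q =
      -(((s + ∑ j, ‖F j q‖ ^ 2)⁻¹ : ℝ) : ℂ) ^ 2 * ∑ j, F j q * conj (S.D k (F j) q) := by
  rw [Db_comp_real (φ := fun x : ℝ => x⁻¹) (u := fun q => s + ∑ j, ‖F j q‖ ^ 2)
    (CD.normSq_sum hF 1 s) hq (differentiableAt_inv (levi_aux_pos hs q).ne'),
    Db_normSq_sum hF s hq, deriv_inv]
  push_cast
  rw [inv_pow]

/-- `∑_k (∑_j F_j conj (D_k F_j)) conj β_k = conj (∑_j a_j conj F_j)`. -/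
theorem slr_conj_sum (F : Fin r → (Fin n → ℂ) × ℂ → ℂ) (q : (Fin n → ℂ) × ℂ)
    (β : Fin n → ℂ) :
    ∑ k, (∑ j, F j q * conj (S.D k (F j) q)) * conj (β k) =
      conj (∑ j, (∑ k, S.D k (F j) q * β k) * conj (F j q)) := by
  simp_rw [map_sum, map_mul, map_sum, map_mul, Complex.conj_conj, Finset.sum_mul]
  rw [Finset.sum_comm]
  refine Finset.sum_congr rfl fun j _ => Finset.sum_congr rfl fun k _ => ?_
  ring

/-- The Levi form of `log (η² + |F₁|² + |F₂|²)` dominates `|∂ t|²`, `t = |F₁|² / T`. -/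
theorem levi_ratio {F₁ F₂ : Fin r → (Fin n → ℂ) × ℂ → ℂ} (h1 : ∀ j, S.Holo (F₁ j))
    (h2 : ∀ j, S.Holo (F₂ j)) {η : ℝ} (hη : 0 < η) {q : (Fin n → ℂ) × ℂ} (hq : q ∈ S.M)
    (β : Fin n → ℂ) :
    ‖∑ j, S.Db j (fun q => ((sqn F₁ q / (η ^ 2 + sqn F₁ q + sqn F₂ q) : ℝ) : ℂ)) q *
        conj (β j)‖ ^ 2 ≤
      S.levi (fun q => Real.log (η ^ 2 + sqn F₁ q + sqn F₂ q)) β q := by
  have hs : 0 < η ^ 2 := by positivity
  set F : Fin (r + r) → (Fin n → ℂ) × ℂ → ℂ := Fin.append F₁ F₂ with hF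
  have hFl : ∀ j, F (Fin.castAdd r j) = F₁ j := fun j => Fin.append_left _ _ _
  have hFr : ∀ j, F (Fin.natAdd r j) = F₂ j := fun j => Fin.append_right _ _ _
  have hH : ∀ j, S.Holo (F j) := by
    intro j
    refine Fin.addCases (fun i => ?_) (fun i => ?_) j
    · rw [hFl]; exact h1 i
    · rw [hFr]; exact h2 i
  have hsum : ∀ q, η ^ 2 + sqn F₁ q + sqn F₂ q = η ^ 2 + ∑ j, ‖F j q‖ ^ 2 := by
    intro q
    rw [Fin.sum_univ_add]
    simp_rw [hFl, hFr]
    unfold sqn
    ring
  have hL : (fun q => Real.log (η ^ 2 + sqn F₁ q + sqn F₂ q)) =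
      fun q => Real.log (η ^ 2 + ∑ j, ‖F j q‖ ^ 2) := by
    funext q
    rw [hsum]
  rw [hL, slr_levi_log hH hs hq β]
  have hDb : ∀ k, S.Db k (fun q => ((sqn F₁ q / (η ^ 2 + sqn F₁ q + sqn F₂ q) : ℝ) : ℂ)) q =
      (((η ^ 2 + ∑ j, ‖F j q‖ ^ 2)⁻¹ : ℝ) : ℂ) * (∑ j, F₁ j q * conj (S.D k (F₁ j) q)) -
      ((sqn F₁ q : ℝ) : ℂ) * ((((η ^ 2 + ∑ j, ‖F j q‖ ^ 2)⁻¹ : ℝ) : ℂ) ^ 2 *
        ∑ j, F j q * conj (S.D k (F j) q)) := by
    intro k
    rw [Db_congr (X := fun q => ((0 + ∑ j, ‖F₁ j q‖ ^ 2 : ℝ) : ℂ) *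
      (((η ^ 2 + ∑ j, ‖F j q‖ ^ 2)⁻¹ : ℝ) : ℂ)) (fun q _ => by
        rw [hsum, div_eq_mul_inv, zero_add, Complex.ofReal_mul]; rfl) hq,
      Db_mul (CD.normSq_sum h1 1 0) (slr_inv_CD hH hs) hq, Db_normSq_sum h1 0 hq,
      slr_inv_Db hH hs hq, zero_add, sqn]
    ring
  simp_rw [hDb]
  have hsplit : ∑ k, ((((η ^ 2 + ∑ j, ‖F j q‖ ^ 2)⁻¹ : ℝ) : ℂ) *
        (∑ j, F₁ j q * conj (S.D k (F₁ j) q)) -
      ((sqn F₁ q : ℝ) : ℂ) * ((((η ^ 2 + ∑ j, ‖F j q‖ ^ 2)⁻¹ : ℝ) : ℂ) ^ 2 *
        ∑ j, F j q * conj (S.D k (F j) q))) * conj (β k) =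
      (((η ^ 2 + ∑ j, ‖F j q‖ ^ 2)⁻¹ : ℝ) : ℂ) *
        conj (∑ j, (∑ k, S.D k (F₁ j) q * β k) * conj (F₁ j q)) -
      ((sqn F₁ q : ℝ) : ℂ) * ((((η ^ 2 + ∑ j, ‖F j q‖ ^ 2)⁻¹ : ℝ) : ℂ) ^ 2 *
        conj (∑ j, (∑ k, S.D k (F j) q * β k) * conj (F j q))) := by
    rw [← slr_conj_sum F₁ q β, ← slr_conj_sum F q β]
    rw [Finset.mul_sum, Finset.mul_sum, Finset.mul_sum, ← Finset.sum_sub_distrib]
    refine Finset.sum_congr rfl fun k _ => ?_
    ring
  rw [hsplit]
  have ha : ∑ j, (∑ k, S.D k (F j) q * β k) * conj (F j q) =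
      (∑ j, (∑ k, S.D k (F₁ j) q * β k) * conj (F₁ j q)) +
      ∑ j, (∑ k, S.D k (F₂ j) q * β k) * conj (F₂ j q) := by
    rw [Fin.sum_univ_add]
    simp_rw [hFl, hFr]
  have haa : ∑ j, ‖∑ k, S.D k (F j) q * β k‖ ^ 2 =
      (∑ j, ‖∑ k, S.D k (F₁ j) q * β k‖ ^ 2) + ∑ j, ‖∑ k, S.D k (F₂ j) q * β k‖ ^ 2 := by
    rw [Fin.sum_univ_add]
    simp_rw [hFl, hFr]
  rw [ha, haa, ← hsum q]
  have key := slr_key (A := sqn F₁ q) (B := sqn F₂ q) (s := η ^ 2)
    (A2 := ∑ j, ‖∑ k, S.D k (F₁ j) q * β k‖ ^ 2) (B2 := ∑ j, ‖∑ k, S.D k (F₂ j) q * β k‖ ^ 2)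
    (by unfold sqn; positivity) (by unfold sqn; positivity) hs (by positivity) (by positivity)
    (a := ∑ j, (∑ k, S.D k (F₁ j) q * β k) * conj (F₁ j q))
    (b := ∑ j, (∑ k, S.D k (F₂ j) q * β k) * conj (F₂ j q))
    (slr_cs (fun j => ∑ k, S.D k (F₁ j) q * β k) (fun j => F₁ j q))
    (slr_cs (fun j => ∑ k, S.D k (F₂ j) q * β k) (fun j => F₂ j q))
  refine le_trans (le_of_eq ?_) key
  congr 1
  rw [← RCLike.norm_conj]
  congr 1
  simp only [map_sub, map_mul, map_pow, Complex.conj_ofReal, Complex.conj_conj, map_add]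

end Sheets

end Vale.Agent.P282.L2
end

section

/-! Two filtrations: the numerical lemma of Step B of the equality case. -/

open Finset

namespace Vale.Agent.P282.EQ

section numeric

variable (q : ℕ → ℕ → ℝ)

/-- Mixed difference. -/
def mixd (i j : ℕ) : ℝ := q (i + 1) j + q i (j + 1) - q i j - q (i + 1) (j + 1)

/-- Dimension of the quotient by the staircase sum. -/
noncomputable def stair (m : ℕ) : ℝ :=
  ∑ k ∈ range (m + 1), q k (m - k) - ∑ k ∈ range m, q (k + 1) (m - k)

theorem stair_zero : stair q 0 = q 0 0 := by simp [stair]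

theorem stair_succ (m : ℕ) :
    stair q (m + 1) = stair q m + ∑ i ∈ range (m + 1), mixd q i (m - i) := by
  have h1 : ∑ i ∈ range (m + 1), mixd q i (m - i) =
      ∑ i ∈ range (m + 1), q (i + 1) (m - i) + ∑ i ∈ range (m + 1), q i (m + 1 - i) -
        ∑ i ∈ range (m + 1), q i (m - i) - ∑ i ∈ range (m + 1), q (i + 1) (m + 1 - i) := by
    rw [← sum_add_distrib, ← sum_sub_distrib, ← sum_sub_distrib]
    refine sum_congr rfl fun i hi => ?_
    have h2 : m - i + 1 = m + 1 - i := by
      have := mem_range.mp hi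
      omega
    rw [mixd, h2]
  have h3 : ∑ i ∈ range (m + 1), q (i + 1) (m - i) =
      ∑ i ∈ range m, q (i + 1) (m - i) + q (m + 1) 0 := by
    rw [sum_range_succ, Nat.sub_self]
  have h4 : ∑ i ∈ range (m + 1 + 1), q i (m + 1 - i) =
      ∑ i ∈ range (m + 1), q i (m + 1 - i) + q (m + 1) 0 := by
    rw [sum_range_succ, Nat.sub_self]
  unfold stair
  linarith

/-- Summation by parts with squares. -/
theorem abel_sq (f : ℕ → ℝ) (s : ℝ) (t : ℕ) :
    ∑ l ∈ range t, (s - l) ^ 2 * (f (l + 1) - f l) =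
      ∑ l ∈ range t, (2 * (s - l) - 1) * f (l + 1) + (s - t) ^ 2 * f t - s ^ 2 * f 0 := by
  induction t with
  | zero => simp
  | succ t ih =>
    rw [sum_range_succ, sum_range_succ, ih]
    push_cast
    ring

theorem abel_sq' (f : ℕ → ℝ) (h0 : f 0 = 0) (s : ℕ) :
    ∑ l ∈ range s, ((s : ℝ) - l) ^ 2 * (f (l + 1) - f l) =
      ∑ l ∈ range s, (2 * ((s : ℝ) - l) - 1) * f (l + 1) := by
  rw [abel_sq, h0]
  ring

theorem stair_sum (h0 : q 0 0 = 0) (s : ℕ) :
    ∑ l ∈ range (2 * s), (2 * (((2 * s : ℕ) : ℝ) - l) - 1) * stair q (l + 1) =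
      ∑ i ∈ range (2 * s), ∑ j ∈ range (2 * s),
        (((2 * s - (i + j) : ℕ) : ℝ)) ^ 2 * mixd q i j := by
  rw [← abel_sq' (stair q) (by rw [stair_zero, h0])]
  have h1 : ∀ l ∈ range (2 * s), (((2 * s : ℕ) : ℝ) - l) ^ 2 * (stair q (l + 1) - stair q l) =
      ∑ k ∈ range (l + 1), (((2 * s - (k + (l - k)) : ℕ) : ℝ)) ^ 2 * mixd q k (l - k) := by
    intro l hl
    rw [stair_succ, add_sub_cancel_left, mul_sum]
    refine sum_congr rfl fun k hk => ?_
    have h2 : k + (l - k) = l := by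
      have := mem_range.mp hk
      omega
    rw [h2, Nat.cast_sub (mem_range.mp hl).le]
  rw [sum_congr rfl h1, sum_range_diag_flip (2 * s)
    (fun k j => (((2 * s - (k + j) : ℕ) : ℝ)) ^ 2 * mixd q k j)]
  refine sum_congr rfl fun i hi => ?_
  refine sum_subset ?_ ?_
  · intro j hj
    rw [mem_range] at *
    omega
  · intro j hj hj'
    rw [mem_range] at *
    have h3 : 2 * s - (i + j) = 0 := by omega
    rw [h3]
    simp

theorem row_sum (i M : ℕ) :
    ∑ j ∈ range M, mixd q i j = (q (i + 1) 0 - q i 0) - (q (i + 1) M - q i M) := by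
  have h1 : ∀ j ∈ range M, mixd q i j = (fun j => q i j - q (i + 1) j) (j + 1) -
      (fun j => q i j - q (i + 1) j) j := by
    intro j _
    simp only [mixd]
    ring
  rw [sum_congr rfl h1, sum_range_sub (fun j => q i j - q (i + 1) j)]
  ring

theorem col_sum (j M : ℕ) :
    ∑ i ∈ range M, mixd q i j = (q 0 (j + 1) - q 0 j) - (q M (j + 1) - q M j) := by
  have h1 : ∀ i ∈ range M, mixd q i j = (fun i => q i j - q i (j + 1)) (i + 1) -
      (fun i => q i j - q i (j + 1)) i := by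
    intro i _
    simp only [mixd]
    ring
  rw [sum_congr rfl h1, sum_range_sub (fun i => q i j - q i (j + 1))]
  ring

theorem first_sum (h0 : q 0 0 = 0) (s : ℕ) :
    ∑ l ∈ range s, (2 * ((s : ℝ) - l) - 1) * q (l + 1) 0 =
      ∑ i ∈ range (2 * s), (((s - i : ℕ) : ℝ)) ^ 2 *
        (∑ j ∈ range (2 * s), mixd q i j + (q (i + 1) (2 * s) - q i (2 * s))) := by
  have h1 := abel_sq' (fun l => q l 0) h0 s
  rw [← h1]
  symm
  rw [← sum_subset (s₁ := range s) (s₂ := range (2 * s))]
  · refine sum_congr rfl fun i hi => ?_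
    rw [row_sum, Nat.cast_sub (mem_range.mp hi).le]
    ring
  · intro j hj
    rw [mem_range] at *
    omega
  · intro j hj hj'
    rw [mem_range] at *
    have h3 : s - j = 0 := by omega
    rw [h3]
    simp

theorem second_sum (h0 : q 0 0 = 0) (s : ℕ) :
    ∑ l ∈ range s, (2 * ((s : ℝ) - l) - 1) * q 0 (l + 1) =
      ∑ j ∈ range (2 * s), (((s - j : ℕ) : ℝ)) ^ 2 *
        (∑ i ∈ range (2 * s), mixd q i j + (q (2 * s) (j + 1) - q (2 * s) j)) := by
  have h1 := abel_sq' (fun l => q 0 l) h0 s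
  rw [← h1]
  symm
  rw [← sum_subset (s₁ := range s) (s₂ := range (2 * s))]
  · refine sum_congr rfl fun i hi => ?_
    rw [col_sum, Nat.cast_sub (mem_range.mp hi).le]
    ring
  · intro j hj
    rw [mem_range] at *
    omega
  · intro j hj hj'
    rw [mem_range] at *
    have h3 : s - j = 0 := by omega
    rw [h3]
    simp

theorem two_fil_numeric (h0 : q 0 0 = 0) (hN : ∀ i j, 0 ≤ mixd q i j)
    (h1 : ∀ i j, q i j ≤ q (i + 1) j) (h2 : ∀ i j, q i j ≤ q i (j + 1)) {a s : ℕ} (ha : a ≤ s) :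
    ((s : ℝ) - a) ^ 2 / 2 * (q a s - q 0 s) ≤
      ∑ l ∈ range s, (2 * ((s : ℝ) - l) - 1) * (q (l + 1) 0 + q 0 (l + 1)) -
        (∑ l ∈ range (2 * s), (2 * (((2 * s : ℕ) : ℝ) - l) - 1) * stair q (l + 1)) / 2 := by
  have e1 : ∑ l ∈ range s, (2 * ((s : ℝ) - l) - 1) * (q (l + 1) 0 + q 0 (l + 1)) =
      ∑ l ∈ range s, (2 * ((s : ℝ) - l) - 1) * q (l + 1) 0 +
        ∑ l ∈ range s, (2 * ((s : ℝ) - l) - 1) * q 0 (l + 1) := by
    rw [← sum_add_distrib]
    exact sum_congr rfl fun l _ => by ring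
  rw [e1, first_sum q h0, second_sum q h0, stair_sum q h0]
  -- split the double sums
  have e2 : ∑ i ∈ range (2 * s), (((s - i : ℕ) : ℝ)) ^ 2 *
        (∑ j ∈ range (2 * s), mixd q i j + (q (i + 1) (2 * s) - q i (2 * s))) =
      ∑ i ∈ range (2 * s), ∑ j ∈ range (2 * s), (((s - i : ℕ) : ℝ)) ^ 2 * mixd q i j +
        ∑ i ∈ range (2 * s), (((s - i : ℕ) : ℝ)) ^ 2 * (q (i + 1) (2 * s) - q i (2 * s)) := by
    rw [← sum_add_distrib]
    exact sum_congr rfl fun i _ => by rw [mul_add, mul_sum]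
  have e3 : ∑ j ∈ range (2 * s), (((s - j : ℕ) : ℝ)) ^ 2 *
        (∑ i ∈ range (2 * s), mixd q i j + (q (2 * s) (j + 1) - q (2 * s) j)) =
      ∑ i ∈ range (2 * s), ∑ j ∈ range (2 * s), (((s - j : ℕ) : ℝ)) ^ 2 * mixd q i j +
        ∑ j ∈ range (2 * s), (((s - j : ℕ) : ℝ)) ^ 2 * (q (2 * s) (j + 1) - q (2 * s) j) := by
    rw [sum_comm (s := range (2 * s)) (t := range (2 * s))
      (f := fun i j => (((s - j : ℕ) : ℝ)) ^ 2 * mixd q i j), ← sum_add_distrib]
    exact sum_congr rfl fun i _ => by rw [mul_add, mul_sum]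
  have e4 : 0 ≤ ∑ j ∈ range (2 * s), (((s - j : ℕ) : ℝ)) ^ 2 *
      (q (2 * s) (j + 1) - q (2 * s) j) :=
    sum_nonneg fun j _ => mul_nonneg (sq_nonneg _) (by linarith [h2 (2 * s) j])
  -- the boundary column
  have e5 : ((s : ℝ) - a) ^ 2 / 2 * (q a (2 * s) - q 0 (2 * s)) ≤
      ∑ i ∈ range (2 * s), (((s - i : ℕ) : ℝ)) ^ 2 * (q (i + 1) (2 * s) - q i (2 * s)) := by
    rw [← sum_range_sub (fun i => q i (2 * s)), mul_sum]
    refine le_trans ?_ (sum_le_sum_of_subset_of_nonneg
      (range_subset_range.mpr (by omega : a ≤ 2 * s)) (fun i _ _ =>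
        mul_nonneg (sq_nonneg _) (by linarith [h1 i (2 * s)])))
    refine sum_le_sum fun i hi => ?_
    refine mul_le_mul_of_nonneg_right ?_ (by linarith [h1 i (2 * s)])
    have hia := mem_range.mp hi
    rw [Nat.cast_sub (by omega)]
    have h3 : (i : ℝ) ≤ a := by exact_mod_cast hia.le
    have h4 : (a : ℝ) ≤ s := by exact_mod_cast ha
    linarith only [mul_nonneg (sub_nonneg.2 h4) (sub_nonneg.2 h4), mul_nonneg (sub_nonneg.2 h3) (sub_nonneg.2 h4), mul_nonneg (sub_nonneg.2 h3) (sub_nonneg.2 h3)]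
  -- the inner part
  have e6 : ((s : ℝ) - a) ^ 2 / 2 * ((q a s - q 0 s) - (q a (2 * s) - q 0 (2 * s))) ≤
      ∑ i ∈ range (2 * s), ∑ j ∈ range (2 * s), ((((s - i : ℕ) : ℝ)) ^ 2 +
        (((s - j : ℕ) : ℝ)) ^ 2 - (((2 * s - (i + j) : ℕ) : ℝ)) ^ 2 / 2) * mixd q i j := by
    have hpt : ∀ i j : ℕ, 0 ≤ (((s - i : ℕ) : ℝ)) ^ 2 +
        (((s - j : ℕ) : ℝ)) ^ 2 - (((2 * s - (i + j) : ℕ) : ℝ)) ^ 2 / 2 := by
      intro i j
      have h3 : ((2 * s - (i + j) : ℕ) : ℝ) ≤ ((s - i : ℕ) : ℝ) + ((s - j : ℕ) : ℝ) := by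
        rw [← Nat.cast_add]
        exact Nat.cast_le.mpr (by omega)
      have h4 : (0 : ℝ) ≤ ((2 * s - (i + j) : ℕ) : ℝ) := Nat.cast_nonneg _
      linarith only [mul_nonneg (sub_nonneg.2 h3) (sub_nonneg.2 h4), mul_nonneg (sub_nonneg.2 h3) (sub_nonneg.2 h3), sq_nonneg (((s - i : ℕ) : ℝ) - ((s - j : ℕ) : ℝ))]
    have hrect : (q a s - q 0 s) - (q a (2 * s) - q 0 (2 * s)) =
        ∑ i ∈ range a, ∑ j ∈ Ico s (2 * s), mixd q i j := by
      have h5 : ∀ i ∈ range a, ∑ j ∈ Ico s (2 * s), mixd q i j =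
          (fun i => q i s - q i (2 * s)) (i + 1) - (fun i => q i s - q i (2 * s)) i := by
        intro i _
        rw [sum_Ico_eq_sub _ (by omega : s ≤ 2 * s), row_sum, row_sum]
        ring
      rw [sum_congr rfl h5, sum_range_sub (fun i => q i s - q i (2 * s))]
      ring
    rw [hrect, mul_sum]
    refine le_trans ?_ (sum_le_sum_of_subset_of_nonneg
      (range_subset_range.mpr (by omega : a ≤ 2 * s)) (fun i _ _ =>
        sum_nonneg fun j _ => mul_nonneg (hpt i j) (hN i j)))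
    refine sum_le_sum fun i hi => ?_
    rw [mul_sum]
    refine le_trans ?_ (sum_le_sum_of_subset_of_nonneg
      (s := Ico s (2 * s)) (fun j hj => by
        rw [mem_Ico] at hj
        exact mem_range.mpr hj.2) (fun j _ _ => mul_nonneg (hpt i j) (hN i j)))
    refine sum_le_sum fun j hj => ?_
    refine mul_le_mul_of_nonneg_right ?_ (hN i j)
    have hia := mem_range.mp hi
    have hj1 := (mem_Ico.mp hj).1
    have h3 : ((2 * s - (i + j) : ℕ) : ℝ) ≤ ((s - i : ℕ) : ℝ) := Nat.cast_le.mpr (by omega)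
    have h4 : (0 : ℝ) ≤ ((2 * s - (i + j) : ℕ) : ℝ) := Nat.cast_nonneg _
    have h5 : ((s - i : ℕ) : ℝ) = (s : ℝ) - i := Nat.cast_sub (by omega)
    have h6 : ((s - j : ℕ) : ℝ) = 0 := by
      rw [Nat.sub_eq_zero_of_le hj1, Nat.cast_zero]
    have h7 : (i : ℝ) ≤ a := by exact_mod_cast hia.le
    have h8 : (a : ℝ) ≤ s := by exact_mod_cast ha
    rw [h6]
    rw [h5] at h3 ⊢
    linarith only [mul_nonneg (sub_nonneg.2 h7) (sub_nonneg.2 h8), mul_nonneg (sub_nonneg.2 h7) (sub_nonneg.2 h7), mul_nonneg (sub_nonneg.2 h3) (sub_nonneg.2 h8), mul_nonneg (sub_nonneg.2 h3) (sub_nonneg.2 h7), mul_nonneg (sub_nonneg.2 h3) (sub_nonneg.2 h4)]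
  have e7 : ∑ i ∈ range (2 * s), ∑ j ∈ range (2 * s), ((((s - i : ℕ) : ℝ)) ^ 2 +
        (((s - j : ℕ) : ℝ)) ^ 2 - (((2 * s - (i + j) : ℕ) : ℝ)) ^ 2 / 2) * mixd q i j =
      ∑ i ∈ range (2 * s), ∑ j ∈ range (2 * s), (((s - i : ℕ) : ℝ)) ^ 2 * mixd q i j +
        ∑ i ∈ range (2 * s), ∑ j ∈ range (2 * s), (((s - j : ℕ) : ℝ)) ^ 2 * mixd q i j -
        (∑ i ∈ range (2 * s), ∑ j ∈ range (2 * s),
          (((2 * s - (i + j) : ℕ) : ℝ)) ^ 2 * mixd q i j) / 2 := by
    rw [← sum_add_distrib, sum_div, ← sum_sub_distrib]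
    refine sum_congr rfl fun i _ => ?_
    rw [← sum_add_distrib, sum_div, ← sum_sub_distrib]
    exact sum_congr rfl fun j _ => by ring
  rw [e2, e3]
  linarith

end numeric

section asymptotic

open Filter

theorem exists_const {f g : ℕ → ℝ} (h : ∀ᶠ m in atTop, f m ≤ g m) :
    ∃ K : ℝ, 0 ≤ K ∧ ∀ m, f m ≤ g m + K := by
  obtain ⟨m0, hm0⟩ := eventually_atTop.mp h
  refine ⟨∑ m ∈ range m0, |f m - g m|, sum_nonneg fun _ _ => abs_nonneg _, fun m => ?_⟩
  rcases Nat.lt_or_ge m m0 with h1 | h1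
  · have h2 : |f m - g m| ≤ ∑ m ∈ range m0, |f m - g m| :=
      single_le_sum (f := fun m => |f m - g m|) (fun _ _ => abs_nonneg _) (mem_range.mpr h1)
    have h3 := le_abs_self (f m - g m)
    linarith
  · have h2 := hm0 m h1
    have h3 : 0 ≤ ∑ m ∈ range m0, |f m - g m| := sum_nonneg fun _ _ => abs_nonneg _
    linarith

theorem weight_sum (s : ℕ) : ∑ l ∈ range s, (2 * ((s : ℝ) - l) - 1) = (s : ℝ) ^ 2 := by
  have h := abel_sq (fun l => (l : ℝ) ) s s
  have h2 : ∀ t : ℕ, ∀ u : ℝ, ∑ l ∈ range t, (2 * (u - l) - 1) = 2 * u * t - (t : ℝ) ^ 2 := by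
    intro t u
    induction t with
    | zero => simp
    | succ t ih =>
      rw [sum_range_succ, ih]
      push_cast
      ring
  rw [h2]
  ring

theorem weight_nonneg {s l : ℕ} (h : l ∈ range s) : (0 : ℝ) ≤ 2 * ((s : ℝ) - l) - 1 := by
  have h1 : (l : ℝ) + 1 ≤ s := by exact_mod_cast mem_range.mp h
  linarith

theorem sum_pairs (f : ℕ → ℝ) (s : ℕ) :
    ∑ l ∈ range (2 * s), f l = ∑ l ∈ range s, (f (2 * l) + f (2 * l + 1)) := by
  induction s with
  | zero => simp
  | succ s ih =>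
    rw [show 2 * (s + 1) = 2 * s + 1 + 1 by ring, sum_range_succ, sum_range_succ, ih,
      sum_range_succ]
    ring

theorem weight_double (n s : ℕ) :
    4 * ∑ l ∈ range s, (2 * ((s : ℝ) - l) - 1) * ((l : ℝ) + 1) ^ n ≤
      ∑ l ∈ range (2 * s), (2 * (((2 * s : ℕ) : ℝ) - l) - 1) * (((l : ℝ) + 1) / 2) ^ n +
        4 * (s : ℝ) ^ (n + 1) := by
  rw [sum_pairs]
  have h1 : ∀ l ∈ range s,
      (4 * ((s : ℝ) - l) - 1) * (l : ℝ) ^ n + (4 * ((s : ℝ) - l) - 3) * ((l : ℝ) + 1) ^ n ≤
      (2 * (((2 * s : ℕ) : ℝ) - ((2 * l : ℕ) : ℝ)) - 1) * ((((2 * l : ℕ) : ℝ) + 1) / 2) ^ n +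
      (2 * (((2 * s : ℕ) : ℝ) - ((2 * l + 1 : ℕ) : ℝ)) - 1) *
        ((((2 * l + 1 : ℕ) : ℝ) + 1) / 2) ^ n := by
    intro l hl
    have h2 : (l : ℝ) + 1 ≤ s := by exact_mod_cast mem_range.mp hl
    have h3 : ((((2 * l + 1 : ℕ) : ℝ) + 1) / 2) = (l : ℝ) + 1 := by
      push_cast
      ring
    have h4 : (l : ℝ) ^ n ≤ ((((2 * l : ℕ) : ℝ) + 1) / 2) ^ n := by
      apply pow_le_pow_left₀ (Nat.cast_nonneg l)
      push_cast
      linarith
    rw [h3]
    push_cast
    push_cast at h4
    nlinarith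
  have h5 := sum_le_sum h1
  rw [sum_add_distrib] at h5
  -- shift the first sum
  have h6 : ∀ t : ℕ, ∀ u : ℝ, ∑ l ∈ range (t + 1), (4 * (u - l) - 1) * (l : ℝ) ^ n ≥
      ∑ l ∈ range t, (4 * (u - (l + 1)) - 1) * ((l : ℝ) + 1) ^ n + min 0 (4 * u - 1) := by
    intro t u
    rw [sum_range_succ']
    have h7 : min 0 (4 * u - 1) ≤ (4 * (u - ((0 : ℕ) : ℝ)) - 1) * (((0 : ℕ) : ℝ)) ^ n := by
      rcases Nat.eq_zero_or_pos n with rfl | hn
      · simp
      · rw [Nat.cast_zero, zero_pow hn.ne', mul_zero]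
        exact min_le_left _ _
    have h8 : ∑ l ∈ range t, (4 * (u - ((l + 1 : ℕ) : ℝ)) - 1) * (((l + 1 : ℕ) : ℝ)) ^ n =
        ∑ l ∈ range t, (4 * (u - (l + 1)) - 1) * ((l : ℝ) + 1) ^ n := by
      refine sum_congr rfl fun l _ => ?_
      push_cast
      rfl
    rw [h8]
    linarith only [h7]
  rcases s with _ | t
  · simp
  have h9 := h6 t ((t + 1 : ℕ) : ℝ)
  have h10 : min (0 : ℝ) (4 * ((t + 1 : ℕ) : ℝ) - 1) = 0 := by
    apply min_eq_left
    push_cast
    have : (0 : ℝ) ≤ t := Nat.cast_nonneg t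
    linarith only [this]
  rw [h10, add_zero] at h9
  have h11 : ∑ l ∈ range (t + 1), (4 * (((t + 1 : ℕ) : ℝ) - (l + 1)) - 1) * ((l : ℝ) + 1) ^ n ≤
      ∑ l ∈ range t, (4 * (((t + 1 : ℕ) : ℝ) - (l + 1)) - 1) * ((l : ℝ) + 1) ^ n := by
    rw [sum_range_succ]
    have h12 : (4 * (((t + 1 : ℕ) : ℝ) - ((t : ℝ) + 1)) - 1) * ((t : ℝ) + 1) ^ n ≤ 0 := by
      push_cast
      have : 0 ≤ ((t : ℝ) + 1) ^ n := by positivity
      linarith only [this]
    linarith
  have h13 : ∑ l ∈ range (t + 1), ((l : ℝ) + 1) ^ n ≤ (((t + 1 : ℕ) : ℝ)) ^ (n + 1) := by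
    have h14 : ∀ l ∈ range (t + 1), ((l : ℝ) + 1) ^ n ≤ (((t + 1 : ℕ) : ℝ)) ^ n := by
      intro l hl
      apply pow_le_pow_left₀ (by positivity)
      have : l + 1 ≤ t + 1 := mem_range.mp hl
      exact_mod_cast this
    refine (sum_le_sum h14).trans ?_
    rw [sum_const, card_range, nsmul_eq_mul, pow_succ']
  have h15 : 4 * ∑ l ∈ range (t + 1), (2 * (((t + 1 : ℕ) : ℝ) - l) - 1) * ((l : ℝ) + 1) ^ n =
      ∑ l ∈ range (t + 1), (4 * (((t + 1 : ℕ) : ℝ) - (l + 1)) - 1) * ((l : ℝ) + 1) ^ n +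
      ∑ l ∈ range (t + 1), (4 * (((t + 1 : ℕ) : ℝ) - l) - 3) * ((l : ℝ) + 1) ^ n +
      4 * ∑ l ∈ range (t + 1), ((l : ℝ) + 1) ^ n := by
    rw [mul_sum, mul_sum, ← sum_add_distrib, ← sum_add_distrib]
    exact sum_congr rfl fun l _ => by ring
  rw [h15]
  linarith only [h13, h11, h9, h5]

/-- Upper bound of a weighted sum. -/
theorem upper_sum {f : ℕ → ℝ} {A ε K : ℝ} {n : ℕ} (hε : 0 ≤ ε)
    (H : ∀ m : ℕ, f m ≤ (A + ε) * (m : ℝ) ^ n + K) (s : ℕ) :
    ∑ l ∈ range s, (2 * ((s : ℝ) - l) - 1) * f (l + 1) ≤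
      A * ∑ l ∈ range s, (2 * ((s : ℝ) - l) - 1) * ((l : ℝ) + 1) ^ n +
        (ε * (s : ℝ) ^ n + K) * (s : ℝ) ^ 2 := by
  rw [← weight_sum s, mul_sum, mul_sum, ← sum_add_distrib]
  refine sum_le_sum fun l hl => ?_
  have w := weight_nonneg hl
  have e1 := H (l + 1)
  have e3 : ((l + 1 : ℕ) : ℝ) ^ n ≤ (s : ℝ) ^ n := by
    apply pow_le_pow_left₀ (Nat.cast_nonneg _)
    exact_mod_cast mem_range.mp hl
  have e5 := mul_le_mul_of_nonneg_left e3 hε
  push_cast at e1 e5
  have e4 : f (l + 1) ≤ A * ((l : ℝ) + 1) ^ n + (ε * (s : ℝ) ^ n + K) := by linarith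
  calc (2 * ((s : ℝ) - l) - 1) * f (l + 1) ≤
      (2 * ((s : ℝ) - l) - 1) * (A * ((l : ℝ) + 1) ^ n + (ε * (s : ℝ) ^ n + K)) :=
        mul_le_mul_of_nonneg_left e4 w
    _ = _ := by ring

/-- Lower bound of a weighted sum. -/
theorem lower_sum {f : ℕ → ℝ} {A ε K : ℝ} {n : ℕ} (hε : 0 ≤ ε)
    (H : ∀ m : ℕ, (A / 2 ^ n - ε) * (m : ℝ) ^ n ≤ f m + K) (s : ℕ) :
    A * ∑ l ∈ range s, (2 * ((s : ℝ) - l) - 1) * (((l : ℝ) + 1) / 2) ^ n -
        (ε * (s : ℝ) ^ n + K) * (s : ℝ) ^ 2 ≤
      ∑ l ∈ range s, (2 * ((s : ℝ) - l) - 1) * f (l + 1) := by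
  rw [← weight_sum s, mul_sum, mul_sum, ← sum_sub_distrib]
  refine sum_le_sum fun l hl => ?_
  have w := weight_nonneg hl
  have e1 := H (l + 1)
  have e3 : ((l + 1 : ℕ) : ℝ) ^ n ≤ (s : ℝ) ^ n := by
    apply pow_le_pow_left₀ (Nat.cast_nonneg _)
    exact_mod_cast mem_range.mp hl
  have e5 := mul_le_mul_of_nonneg_left e3 hε
  push_cast at e1 e5
  have e6 : A * (((l : ℝ) + 1) / 2) ^ n = A / 2 ^ n * ((l : ℝ) + 1) ^ n := by
    rw [div_pow]
    ring
  have e4 : A * (((l : ℝ) + 1) / 2) ^ n - (ε * (s : ℝ) ^ n + K) ≤ f (l + 1) := by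
    rw [e6]
    linarith only [e5, e1]
  calc A * ((2 * ((s : ℝ) - l) - 1) * (((l : ℝ) + 1) / 2) ^ n) -
      (ε * (s : ℝ) ^ n + K) * (2 * ((s : ℝ) - l) - 1) =
      (2 * ((s : ℝ) - l) - 1) * (A * (((l : ℝ) + 1) / 2) ^ n - (ε * (s : ℝ) ^ n + K)) := by ring
    _ ≤ _ := mul_le_mul_of_nonneg_left e4 w

theorem two_fil_asymp {q : ℕ → ℕ → ℝ} (h0 : q 0 0 = 0) (hN : ∀ i j, 0 ≤ mixd q i j)
    (h1 : ∀ i j, q i j ≤ q (i + 1) j) (h2 : ∀ i j, q i j ≤ q i (j + 1))
    {n : ℕ} (hn : 1 ≤ n) {A : ℝ} (hA : 0 ≤ A)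
    (ha : ∀ ε > 0, ∀ᶠ m : ℕ in atTop, q m 0 ≤ (A + ε) * (m : ℝ) ^ n)
    (hb : ∀ ε > 0, ∀ᶠ m : ℕ in atTop, q 0 m ≤ (A + ε) * (m : ℝ) ^ n)
    (hc : ∀ ε > 0, ∀ᶠ m : ℕ in atTop, (A / 2 ^ n - ε) * (m : ℝ) ^ n ≤ stair q m)
    {θ ε : ℝ} (hθ : θ < 1) (hε : 0 < ε) :
    ∀ᶠ s : ℕ in atTop, ∀ a : ℕ, (a : ℝ) ≤ θ * s → q a s - q 0 s ≤ ε * (s : ℝ) ^ n := by
  obtain ⟨c, hcdef⟩ : ∃ c, c = (1 - θ) ^ 2 := ⟨_, rfl⟩
  have hc0 : 0 < c := by
    have : 0 < 1 - θ := by linarith
    rw [hcdef]
    positivity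
  have hp : (0 : ℝ) < 1 + 2 ^ n := by positivity
  obtain ⟨ε', hε'0, hε'⟩ : ∃ ε' : ℝ, 0 < ε' ∧ 2 * ε' * (1 + 2 ^ n) = c * ε / 4 := by
    refine ⟨c * ε / (8 * (1 + 2 ^ n)), by positivity, ?_⟩
    field_simp
    ring
  obtain ⟨K1, hK1, H1⟩ := exists_const (ha ε' hε'0)
  obtain ⟨K2, hK2, H2⟩ := exists_const (hb ε' hε'0)
  obtain ⟨K3, hK3, H3⟩ := exists_const (hc ε' hε'0)
  have hlarge : ∀ᶠ s : ℕ in atTop, (2 * A + (K1 + K2 + 2 * K3)) / (c * ε / 4) ≤ (s : ℝ) :=
    tendsto_natCast_atTop_atTop.eventually_ge_atTop _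
  filter_upwards [hlarge, eventually_ge_atTop 1] with s hs hs1 a has
  have hs1' : (1 : ℝ) ≤ s := by exact_mod_cast hs1
  have hsθ : θ * s ≤ s := by
    have := mul_le_mul_of_nonneg_right hθ.le (le_trans zero_le_one hs1')
    linarith only [this]
  have has' : a ≤ s := by
    have : (a : ℝ) ≤ s := has.trans hsθ
    exact_mod_cast this
  have key := two_fil_numeric q h0 hN h1 h2 has'
  have b1 := upper_sum hε'0.le H1 s
  have b1' := upper_sum (f := fun l => q 0 l) hε'0.le H2 s
  have b2 := lower_sum hε'0.le H3 (2 * s)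
  have b4 := mul_le_mul_of_nonneg_left (weight_double n s) hA
  have e1 : ∑ l ∈ range s, (2 * ((s : ℝ) - l) - 1) * (q (l + 1) 0 + q 0 (l + 1)) =
      ∑ l ∈ range s, (2 * ((s : ℝ) - l) - 1) * q (l + 1) 0 +
        ∑ l ∈ range s, (2 * ((s : ℝ) - l) - 1) * q 0 (l + 1) := by
    rw [← sum_add_distrib]
    exact sum_congr rfl fun l _ => by ring
  have e7 : (((2 * s : ℕ) : ℝ)) ^ n = 2 ^ n * (s : ℝ) ^ n := by
    push_cast
    rw [mul_pow]
  have e8 : (((2 * s : ℕ) : ℝ)) ^ 2 = 4 * (s : ℝ) ^ 2 := by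
    push_cast
    ring
  rw [e7, e8] at b2
  rw [e1] at key
  generalize ∑ l ∈ range s, (2 * ((s : ℝ) - l) - 1) * ((l : ℝ) + 1) ^ n = W1 at *
  generalize ∑ l ∈ range (2 * s), (2 * (((2 * s : ℕ) : ℝ) - l) - 1) *
        (((l : ℝ) + 1) / 2) ^ n = W2 at *
  generalize ∑ l ∈ range s, (2 * ((s : ℝ) - l) - 1) * q (l + 1) 0 = S1 at *
  generalize ∑ l ∈ range s, (2 * ((s : ℝ) - l) - 1) * q 0 (l + 1) = S2 at *
  generalize ∑ l ∈ range (2 * s), (2 * (((2 * s : ℕ) : ℝ) - l) - 1) * stair q (l + 1) = S3 at *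
  have b5 : ((s : ℝ) - a) ^ 2 / 2 * (q a s - q 0 s) ≤
      2 * A * (s : ℝ) ^ (n + 1) +
        (s : ℝ) ^ 2 * (2 * ε' * (1 + 2 ^ n) * (s : ℝ) ^ n + (K1 + K2 + 2 * K3)) := by
    linarith only [key, b2, b1', b1, b4]
  rw [hε'] at b5
  by_contra hcon
  push Not at hcon
  have b6 : c * (s : ℝ) ^ 2 / 2 ≤ ((s : ℝ) - a) ^ 2 / 2 := by
    have h3 : (1 - θ) * s ≤ (s : ℝ) - a := by linarith only [has]
    have h4 : 0 ≤ (1 - θ) * s := by
      have : 0 < 1 - θ := by linarith only [hθ]
      positivity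
    have h5 : ((1 - θ) * s) ^ 2 ≤ ((s : ℝ) - a) ^ 2 := pow_le_pow_left₀ h4 h3 2
    rw [mul_pow, ← hcdef] at h5
    linarith only [h5]
  have b7 : c * (s : ℝ) ^ 2 / 2 * (ε * (s : ℝ) ^ n) <
      ((s : ℝ) - a) ^ 2 / 2 * (q a s - q 0 s) := by
    have h3 : 0 < c * (s : ℝ) ^ 2 / 2 := by positivity
    calc c * (s : ℝ) ^ 2 / 2 * (ε * (s : ℝ) ^ n) < c * (s : ℝ) ^ 2 / 2 * (q a s - q 0 s) :=
        mul_lt_mul_of_pos_left hcon h3
      _ ≤ _ := by
        refine mul_le_mul_of_nonneg_right b6 ?_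
        have : 0 ≤ ε * (s : ℝ) ^ n := by positivity
        linarith only [this, hcon]
  have b8 : (s : ℝ) ^ 2 ≤ (s : ℝ) ^ (n + 1) := pow_le_pow_right₀ hs1' (by omega)
  have b9 : 2 * A + (K1 + K2 + 2 * K3) ≤ c * ε / 4 * s := by
    rw [div_le_iff₀ (by positivity)] at hs
    linarith only [hs]
  have h3 : (K1 + K2 + 2 * K3) * (s : ℝ) ^ 2 ≤ (K1 + K2 + 2 * K3) * (s : ℝ) ^ (n + 1) :=
    mul_le_mul_of_nonneg_left b8 (by (clear * - hK1 hK2 hK3; positivity))
  have h4 : (2 * A + (K1 + K2 + 2 * K3)) * (s : ℝ) ^ (n + 1) ≤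
      c * ε / 4 * s * (s : ℝ) ^ (n + 1) :=
    mul_le_mul_of_nonneg_right b9 (by positivity)
  have e10 : c * ε / 4 * s * (s : ℝ) ^ (n + 1) = c * ε / 4 * ((s : ℝ) ^ 2 * (s : ℝ) ^ n) := by
    rw [pow_succ]
    ring
  rw [e10] at h4
  linarith only [h4, h3, b7, b5]

end asymptotic

section linear

open Filter

variable {k B : Type*} [Field k] [AddCommGroup B] [Module k B]

/-- Codimension is modular. -/
theorem codim_sup_add_codim_inf (X Y : Submodule k B) [FiniteDimensional k (B ⧸ (X ⊓ Y))] :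
    Module.finrank k (B ⧸ (X ⊔ Y)) + Module.finrank k (B ⧸ (X ⊓ Y)) =
      Module.finrank k (B ⧸ X) + Module.finrank k (B ⧸ Y) := by
  set W := X ⊓ Y with hW
  have key : ∀ S : Submodule k B, W ≤ S →
      Module.finrank k (B ⧸ S) + Module.finrank k (S.map W.mkQ) = Module.finrank k (B ⧸ W) := by
    intro S hS
    have h1 := Submodule.finrank_quotient_add_finrank (S.map W.mkQ)
    have h2 : Module.finrank k ((B ⧸ W) ⧸ S.map W.mkQ) = Module.finrank k (B ⧸ S) :=
      LinearEquiv.finrank_eq (Submodule.quotientQuotientEquivQuotient W S hS)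
    rw [h2] at h1
    exact h1
  have h1 := key X inf_le_left
  have h2 := key Y inf_le_right
  have h3 := key (X ⊔ Y) (inf_le_left.trans le_sup_left)
  have h4 := Submodule.finrank_sup_add_finrank_inf_eq (X.map W.mkQ) (Y.map W.mkQ)
  rw [← Submodule.map_sup] at h4
  have h5 : X.map W.mkQ ⊓ Y.map W.mkQ = ⊥ := by
    rw [eq_bot_iff]
    rintro z ⟨⟨x, hx, rfl⟩, ⟨y, hy, hxy⟩⟩
    rw [Submodule.mem_bot, Submodule.mkQ_apply, Submodule.Quotient.mk_eq_zero]
    refine ⟨hx, ?_⟩
    rw [Submodule.mkQ_apply, Submodule.mkQ_apply, Submodule.Quotient.eq] at hxy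
    have h6 : x = y - (y - x) := by abel
    rw [h6]
    exact Y.sub_mem hy hxy.2
  rw [h5, finrank_bot, add_zero] at h4
  omega

/-- Larger submodules have smaller codimension. -/
theorem codim_anti {X Y : Submodule k B} [FiniteDimensional k (B ⧸ X)] (h : X ≤ Y) :
    Module.finrank k (B ⧸ Y) ≤ Module.finrank k (B ⧸ X) :=
  LinearMap.finrank_le_finrank_of_surjective (f := Submodule.factor h)
    (Submodule.factor_surjective h)

theorem finite_of_le {X Y : Submodule k B} [FiniteDimensional k (B ⧸ X)] (h : X ≤ Y) :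
    FiniteDimensional k (B ⧸ Y) :=
  Module.Finite.of_surjective (Submodule.factor h) (Submodule.factor_surjective h)

theorem finite_inf (X Y : Submodule k B) [FiniteDimensional k (B ⧸ X)]
    [FiniteDimensional k (B ⧸ Y)] : FiniteDimensional k (B ⧸ (X ⊓ Y)) := by
  refine Module.Finite.of_injective
    (Submodule.liftQ (X ⊓ Y) (X.mkQ.prod Y.mkQ) ?_) ?_
  · intro z hz
    rw [LinearMap.mem_ker]
    ext
    · simpa using hz.1
    · simpa using hz.2
  · rw [← LinearMap.ker_eq_bot, Submodule.ker_liftQ_eq_bot]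
    intro z hz
    rw [LinearMap.mem_ker] at hz
    have h1 : X.mkQ z = 0 := congrArg Prod.fst hz
    have h2 : Y.mkQ z = 0 := congrArg Prod.snd hz
    rw [Submodule.mkQ_apply, Submodule.Quotient.mk_eq_zero] at h1 h2
    exact ⟨h1, h2⟩

variable {F G : ℕ → Submodule k B}

/-- Codimensions of the intersections. -/
noncomputable def qd (F G : ℕ → Submodule k B) (i j : ℕ) : ℝ :=
  (Module.finrank k (B ⧸ (F i ⊓ G j)) : ℝ)

theorem qd_left (hfF : ∀ i, FiniteDimensional k (B ⧸ F i))
    (hfG : ∀ i, FiniteDimensional k (B ⧸ G i)) (hF : Antitone F) (i j : ℕ) :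
    qd F G i j ≤ qd F G (i + 1) j := by
  have := hfF (i + 1)
  have := hfG j
  have := finite_inf (F (i + 1)) (G j)
  exact Nat.cast_le.mpr (codim_anti (inf_le_inf_right _ (hF (Nat.le_succ i))))

theorem qd_right (hfF : ∀ i, FiniteDimensional k (B ⧸ F i))
    (hfG : ∀ i, FiniteDimensional k (B ⧸ G i)) (hG : Antitone G) (i j : ℕ) :
    qd F G i j ≤ qd F G i (j + 1) := by
  have := hfF i
  have := hfG (j + 1)
  have := finite_inf (F i) (G (j + 1))
  exact Nat.cast_le.mpr (codim_anti (inf_le_inf_left _ (hG (Nat.le_succ j))))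

theorem qd_mixd (hfF : ∀ i, FiniteDimensional k (B ⧸ F i))
    (hfG : ∀ i, FiniteDimensional k (B ⧸ G i)) (hF : Antitone F) (hG : Antitone G) (i j : ℕ) :
    0 ≤ mixd (qd F G) i j := by
  have := hfF (i + 1)
  have := hfG (j + 1)
  have := hfF i
  have := hfG j
  have h1 : (F (i + 1) ⊓ G j) ⊓ (F i ⊓ G (j + 1)) = F (i + 1) ⊓ G (j + 1) := by
    apply le_antisymm
    · exact le_inf (inf_le_left.trans inf_le_left) (inf_le_right.trans inf_le_right)
    · exact le_inf (inf_le_inf_left _ (hG (Nat.le_succ j)))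
        (inf_le_inf_right _ (hF (Nat.le_succ i)))
  have := finite_inf (F (i + 1)) (G (j + 1))
  have hfin : FiniteDimensional k (B ⧸ ((F (i + 1) ⊓ G j) ⊓ (F i ⊓ G (j + 1)))) := by
    rw [h1]
    infer_instance
  have h2 := codim_sup_add_codim_inf (F (i + 1) ⊓ G j) (F i ⊓ G (j + 1))
  have h3 : (F (i + 1) ⊓ G j) ⊔ (F i ⊓ G (j + 1)) ≤ F i ⊓ G j :=
    sup_le (inf_le_inf_right _ (hF (Nat.le_succ i))) (inf_le_inf_left _ (hG (Nat.le_succ j)))
  have hfin2 : FiniteDimensional k (B ⧸ ((F (i + 1) ⊓ G j) ⊔ (F i ⊓ G (j + 1)))) :=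
    finite_of_le (X := (F (i + 1) ⊓ G j) ⊓ (F i ⊓ G (j + 1))) (inf_le_left.trans le_sup_left)
  have h4 := codim_anti h3
  rw [h1] at h2
  have h5 : Module.finrank k (B ⧸ (F i ⊓ G j)) + Module.finrank k (B ⧸ (F (i + 1) ⊓ G (j + 1))) ≤
      Module.finrank k (B ⧸ (F (i + 1) ⊓ G j)) + Module.finrank k (B ⧸ (F i ⊓ G (j + 1))) := by
    omega
  have h6 : ((Module.finrank k (B ⧸ (F i ⊓ G j)) : ℝ)) +
      Module.finrank k (B ⧸ (F (i + 1) ⊓ G (j + 1))) ≤
      Module.finrank k (B ⧸ (F (i + 1) ⊓ G j)) + Module.finrank k (B ⧸ (F i ⊓ G (j + 1))) := by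
    exact_mod_cast h5
  simp only [mixd, qd]
  linarith only [h6]

/-- The staircase sum `∑_{i+j=m} F i ⊓ G j`. -/
def stairSum (F G : ℕ → Submodule k B) (m : ℕ) : Submodule k B :=
  ⨆ i ∈ Finset.range (m + 1), F i ⊓ G (m - i)

/-- Partial staircase sum. -/
def stairPart (F G : ℕ → Submodule k B) (m t : ℕ) : Submodule k B :=
  ⨆ i ∈ Finset.range (t + 1), F i ⊓ G (m - i)

theorem stairPart_succ (m t : ℕ) :
    stairPart F G m (t + 1) = (F (t + 1) ⊓ G (m - (t + 1))) ⊔ stairPart F G m t := by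
  unfold stairPart
  rw [Finset.range_add_one (n := t + 1), Finset.iSup_insert]

theorem le_stairPart {m t i : ℕ} (h : i ≤ t) : F i ⊓ G (m - i) ≤ stairPart F G m t :=
  le_iSup₂ (f := fun i (_ : i ∈ Finset.range (t + 1)) => F i ⊓ G (m - i)) i
    (mem_range.mpr (by omega))

theorem stairPart_codim (hfF : ∀ i, FiniteDimensional k (B ⧸ F i))
    (hfG : ∀ i, FiniteDimensional k (B ⧸ G i)) (hF : Antitone F) (hG : Antitone G) (m t : ℕ)
    (ht : t ≤ m) : (Module.finrank k (B ⧸ stairPart F G m t) : ℝ) =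
      ∑ i ∈ range (t + 1), qd F G i (m - i) - ∑ i ∈ range t, qd F G (i + 1) (m - i) := by
  induction t with
  | zero =>
    have h1 : stairPart F G m 0 = F 0 ⊓ G (m - 0) := by simp [stairPart]
    rw [h1]
    simp [qd]
  | succ t ih =>
    have ih' := ih (by omega)
    have h1 : (F (t + 1) ⊓ G (m - (t + 1))) ⊓ stairPart F G m t = F (t + 1) ⊓ G (m - t) := by
      apply le_antisymm
      · refine le_inf (inf_le_left.trans inf_le_left) (inf_le_right.trans ?_)
        refine iSup₂_le fun i hi => inf_le_right.trans (hG ?_)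
        have := mem_range.mp hi
        omega
      · refine le_inf (inf_le_inf_left _ (hG (by omega))) ?_
        exact (inf_le_inf_right _ (hF (Nat.le_succ t))).trans (le_stairPart le_rfl)
    have := hfF (t + 1)
    have := hfG (m - t)
    have := finite_inf (F (t + 1)) (G (m - t))
    have hfin : FiniteDimensional k
        (B ⧸ ((F (t + 1) ⊓ G (m - (t + 1))) ⊓ stairPart F G m t)) := by
      rw [h1]
      infer_instance
    have h2 := codim_sup_add_codim_inf (F (t + 1) ⊓ G (m - (t + 1))) (stairPart F G m t)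
    rw [h1, ← stairPart_succ] at h2
    have h3 : (Module.finrank k (B ⧸ stairPart F G m (t + 1)) : ℝ) + qd F G (t + 1) (m - t) =
        qd F G (t + 1) (m - (t + 1)) + Module.finrank k (B ⧸ stairPart F G m t) := by
      unfold qd
      exact_mod_cast h2
    have e1 := sum_range_succ (fun i => qd F G i (m - i)) (t + 1)
    have e2 := sum_range_succ (fun i => qd F G (i + 1) (m - i)) t
    rw [e1, e2]
    linarith

theorem stairSum_codim (hfF : ∀ i, FiniteDimensional k (B ⧸ F i))
    (hfG : ∀ i, FiniteDimensional k (B ⧸ G i)) (hF : Antitone F) (hG : Antitone G) (m : ℕ) :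
    (Module.finrank k (B ⧸ stairSum F G m) : ℝ) = stair (qd F G) m :=
  stairPart_codim hfF hfG hF hG m m le_rfl

/-- **Two filtrations.** If both filtrations have codimension at most `A m ^ n` and the staircase
sums have codimension at least `A (m/2) ^ n` asymptotically, then the filtrations nearly agree:
a linear map into `G s` for which `F a`, `a ≤ θ s`, pulls back into `I` has
`dim (B ⧸ I) = o(s ^ n)`. -/
theorem two_fil (hfF : ∀ i, FiniteDimensional k (B ⧸ F i))
    (hfG : ∀ i, FiniteDimensional k (B ⧸ G i)) (hF : Antitone F) (hG : Antitone G)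
    (hF0 : F 0 = ⊤) (hG0 : G 0 = ⊤) {n : ℕ} (hn : 1 ≤ n) {A : ℝ} (hA : 0 ≤ A)
    (ha : ∀ ε > 0, ∀ᶠ m : ℕ in atTop, (Module.finrank k (B ⧸ F m) : ℝ) ≤ (A + ε) * (m : ℝ) ^ n)
    (hb : ∀ ε > 0, ∀ᶠ m : ℕ in atTop, (Module.finrank k (B ⧸ G m) : ℝ) ≤ (A + ε) * (m : ℝ) ^ n)
    (hc : ∀ ε > 0, ∀ᶠ m : ℕ in atTop,
      (A / 2 ^ n - ε) * (m : ℝ) ^ n ≤ Module.finrank k (B ⧸ stairSum F G m))
    {θ ε : ℝ} (hθ : θ < 1) (hε : 0 < ε) :
    ∀ᶠ s : ℕ in atTop, ∀ a : ℕ, (a : ℝ) ≤ θ * s → ∀ (L : B →ₗ[k] B) (I : Submodule k B),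
      (∀ x, L x ∈ G s) → (∀ x, L x ∈ F a → x ∈ I) →
        (Module.finrank k (B ⧸ I) : ℝ) ≤ ε * (s : ℝ) ^ n := by
  have e1 : ∀ m, qd F G m 0 = Module.finrank k (B ⧸ F m) := fun m => by
    unfold qd
    rw [hG0, inf_top_eq]
  have e2 : ∀ m, qd F G 0 m = Module.finrank k (B ⧸ G m) := fun m => by
    unfold qd
    rw [hF0, top_inf_eq]
  have e0 : qd F G 0 0 = 0 := by
    rw [e1, hF0]
    exact_mod_cast Module.finrank_zero_of_subsingleton
  have key := two_fil_asymp e0 (qd_mixd hfF hfG hF hG) (qd_left hfF hfG hF)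
    (qd_right hfF hfG hG) hn hA (by simpa only [e1] using ha) (by simpa only [e2] using hb)
    (by simpa only [stairSum_codim hfF hfG hF hG] using hc) hθ hε
  filter_upwards [key] with s hs a has L I hL hI
  refine le_trans ?_ (hs a has)
  have := hfF a
  have := hfG s
  have := finite_inf (F a) (G s)
  -- `B ⧸ L⁻¹ (F a)` embeds into `G s / (F a ⊓ G s)`
  set W := F a ⊓ G s with hW
  have h1 := Submodule.finrank_quotient_add_finrank ((G s).map W.mkQ)
  have h2 : Module.finrank k ((B ⧸ W) ⧸ (G s).map W.mkQ) = Module.finrank k (B ⧸ G s) :=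
    LinearEquiv.finrank_eq (Submodule.quotientQuotientEquivQuotient W (G s) inf_le_right)
  rw [h2] at h1
  have h3 : Module.finrank k (B ⧸ I) ≤ Module.finrank k ((G s).map W.mkQ) := by
    let φ : B →ₗ[k] (G s).map W.mkQ := (W.mkQ.comp L).codRestrict _ fun x =>
      ⟨L x, hL x, rfl⟩
    have hker : LinearMap.ker φ ≤ I := by
      intro x hx
      rw [LinearMap.mem_ker] at hx
      have h4 : W.mkQ (L x) = 0 := congrArg Subtype.val hx
      rw [Submodule.mkQ_apply, Submodule.Quotient.mk_eq_zero] at h4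
      exact hI x h4.1
    have h5 : FiniteDimensional k (B ⧸ LinearMap.ker φ) :=
      Module.Finite.of_injective (LinearMap.quotKerEquivRange φ).toLinearMap
        (LinearMap.quotKerEquivRange φ).injective
    refine (codim_anti hker).trans ?_
    rw [LinearEquiv.finrank_eq (LinearMap.quotKerEquivRange φ)]
    exact Submodule.finrank_le _
  have h6 : (Module.finrank k (B ⧸ I) : ℝ) + Module.finrank k (B ⧸ G s) ≤
      Module.finrank k (B ⧸ W) := by
    exact_mod_cast (by omega : Module.finrank k (B ⧸ I) + Module.finrank k (B ⧸ G s) ≤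
      Module.finrank k (B ⧸ W))
  rw [e2]
  unfold qd
  linarith only [h6]

end linear

end Vale.Agent.P282.EQ
end

section

open IsLocalRing

namespace Vale.Agent.P266.FirstIntegral


theorem height_eq_one_of_isAssociatedPrime {R : Type*} [CommRing R] [IsDomain R]
    [IsNoetherianRing R] [IsIntegrallyClosed R] {h : R} (hh : h ≠ 0) (P : Ideal R)
    [P.IsPrime] {y : R} (hy : ¬ h ∣ y) (hP : ∀ r, r ∈ P ↔ h ∣ r * y) : P.height = 1 := by
  have hhP : h ∈ P := (hP h).mpr (dvd_mul_right _ _)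
  -- there is p₀ ∈ P with p₀ y = h u, u ∉ P
  obtain ⟨p₀, hp₀, u, hu, hpu⟩ : ∃ p₀ ∈ P, ∃ u, p₀ * y = h * u ∧ u ∉ P := by
    by_contra hcon
    push Not at hcon
    let K := FractionRing R
    have hinj : Function.Injective (algebraMap R K) := IsFractionRing.injective R K
    have hhK : algebraMap R K h ≠ 0 := by
      rw [Ne, map_eq_zero_iff _ hinj]; exact hh
    let θ : K := algebraMap R K y / algebraMap R K h
    let N : Submodule R K := Submodule.map (Algebra.linearMap R K) P
    have hint : IsIntegral R θ := by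
      refine isIntegral_of_smul_mem_submodule (M := K) N ?_ ?_ θ ?_
      · intro hN
        apply hhK
        have : algebraMap R K h ∈ N := ⟨h, hhP, rfl⟩
        rw [hN] at this
        exact this
      · exact (IsNoetherian.noetherian P).map _
      · rintro _ ⟨p, hp, rfl⟩
        obtain ⟨v, hv⟩ := (hP p).mp hp
        refine ⟨v, hcon p hp v hv, ?_⟩
        simp only [Algebra.linearMap_apply, smul_eq_mul, θ]
        rw [div_mul_eq_mul_div, eq_div_iff hhK, ← map_mul, ← map_mul]
        congr 1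
        rw [mul_comm y p, hv, mul_comm]
    obtain ⟨z, hz⟩ := IsIntegrallyClosed.isIntegral_iff.mp hint
    apply hy
    refine ⟨z, hinj ?_⟩
    rw [map_mul, hz]
    exact (mul_div_cancel₀ _ hhK).symm
  have hmin : P ∈ (Ideal.span {p₀}).minimalPrimes := by
    refine ⟨⟨inferInstance, (Ideal.span_singleton_le_iff_mem _).mpr hp₀⟩, ?_⟩
    rintro P' ⟨hP'prime, hP'⟩ hle p hp
    obtain ⟨v, hv⟩ := (hP p).mp hp
    have h1 : p * u = p₀ * v := by
      have h2 : h * (p * u) = h * (p₀ * v) := by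
        calc h * (p * u) = p * (h * u) := by ring
          _ = p * (p₀ * y) := by rw [hu]
          _ = p₀ * (p * y) := by ring
          _ = p₀ * (h * v) := by rw [hv]
          _ = h * (p₀ * v) := by ring
      exact mul_left_cancel₀ hh h2
    have h3 : p * u ∈ P' := by
      rw [h1]
      exact Ideal.mul_mem_right _ _ ((Ideal.span_singleton_le_iff_mem _).mp hP')
    rcases hP'prime.mem_or_mem h3 with h4 | h4
    · exact h4
    · exact absurd (hle h4) hpu
  have hle := Ideal.height_le_one_of_isPrincipal_of_mem_minimalPrimes _ _ hmin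
  refine le_antisymm hle ?_
  rw [Order.one_le_iff_ne_zero]
  intro h0
  rw [Ideal.height_eq_zero_iff_eq_bot] at h0
  rw [h0] at hhP
  exact hh hhP

theorem dvd_of_forall_height_one {R : Type*} [CommRing R] [IsDomain R] [IsNoetherianRing R]
    [IsIntegrallyClosed R] {h f : R} (hh : h ≠ 0)
    (H : ∀ (Q : Ideal R) [Q.IsPrime], Q.height = 1 → ∃ s, s ∉ Q ∧ h ∣ s * f) : h ∣ f := by
  by_contra hcon
  have hx : Ideal.Quotient.mk (Ideal.span {h}) f ≠ 0 := by
    rw [Ne, Ideal.Quotient.eq_zero_iff_dvd]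
    exact hcon
  obtain ⟨P, hPass, hle⟩ := exists_le_isAssociatedPrime_of_isNoetherianRing R
    (Ideal.Quotient.mk (Ideal.span {h}) f) hx
  obtain ⟨hPp, y, hy⟩ := isAssociatedPrime_iff.mp hPass
  obtain ⟨y, rfl⟩ := Ideal.Quotient.mk_surjective y
  have hcol : ∀ (z r : R), r ∈ (⊥ : Submodule R (R ⧸ Ideal.span {h})).colon
      {Ideal.Quotient.mk (Ideal.span {h}) z} ↔ h ∣ r * z := by
    intro z r
    rw [Submodule.mem_colon_singleton, Submodule.mem_bot, Algebra.smul_def,
      Ideal.Quotient.algebraMap_eq, ← map_mul, Ideal.Quotient.eq_zero_iff_dvd]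
  have hP : ∀ r, r ∈ P ↔ h ∣ r * y := fun r ↦ by rw [hy, hcol]
  have hyn : ¬ h ∣ y := by
    intro hd
    apply hPp.ne_top
    rw [Ideal.eq_top_iff_one, hP, one_mul]
    exact hd
  have hht := height_eq_one_of_isAssociatedPrime hh P hyn hP
  obtain ⟨s, hs, hsf⟩ := H P hht
  exact hs (hle ((hcol f s).mpr hsf))

theorem isDVR_of_height_eq_one {R : Type*} [CommRing R] [IsDomain R]
    [IsNoetherianRing R] [IsIntegrallyClosed R] (Q : Ideal R) [Q.IsPrime] (hQ : Q.height = 1)
    (V : Type*) [CommRing V] [IsDomain V] [Algebra R V] [IsLocalization.AtPrime V Q] :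
    IsDiscreteValuationRing V := by
  have _ : IsLocalRing V := IsLocalization.AtPrime.isLocalRing V Q
  have _ : IsNoetherianRing V := IsLocalization.isNoetherianRing Q.primeCompl V inferInstance
  have _ : IsIntegrallyClosed V := isIntegrallyClosed_of_isLocalization V Q.primeCompl
    Q.primeCompl_le_nonZeroDivisors
  have h1 : ringKrullDim V = 1 := by
    rw [IsLocalization.AtPrime.ringKrullDim_eq_height Q V, hQ]; rfl
  have h2 := ringKrullDim_eq_one_iff_of_isLocalRing_isDomain.mp h1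
  have h3 : IsIntegrallyClosed V ∧ ∃! P : Ideal V, P ≠ ⊥ ∧ P.IsPrime := by
    refine ⟨inferInstance, maximalIdeal V, ⟨?_, inferInstance⟩, ?_⟩
    · intro h
      exact h2.1 (IsLocalRing.isField_iff_maximalIdeal_eq.mpr h)
    · rintro P ⟨hP, hPp⟩
      refine le_antisymm (IsLocalRing.le_maximalIdeal hPp.ne_top) ?_
      obtain ⟨x, hxP, hx0⟩ := Submodule.exists_mem_ne_zero_of_ne_bot hP
      exact (h2.2 x hx0).trans ((Ideal.IsRadical.radical_le_iff hPp.isRadical).mpr
        ((Ideal.span_singleton_le_iff_mem P).mpr hxP))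
  exact ((IsDiscreteValuationRing.TFAE V h2.1).out 0 3).mpr h3

end Vale.Agent.P266.FirstIntegral
end

section

/-!
# P282 EQ, module F2: second divided differences are integral

Section 7 (F2) of the paper proof of the equality case (note 5493).
-/

open IsLocalRing Polynomial

namespace Vale.Agent.P282.EQ

/-- `d : B → k` is a derivation along `ρ : B → k` that kills `P`. -/
structure IsDer (P : Type*) {B k : Type*} [CommRing P] [CommRing B] [Algebra P B] [Field k]
    (ρ : B →+* k) (d : B → k) : Prop where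
  add : ∀ a b, d (a + b) = d a + d b
  mul : ∀ a b, d (a * b) = ρ a * d b + ρ b * d a
  base : ∀ p : P, d (algebraMap P B p) = 0

section der

variable {P B k : Type*} [CommRing P] [CommRing B] [Algebra P B] [Field k]
  {ρ : B →+* k} {d δ : B → k}

theorem IsDer.pow (hd : IsDer P ρ d) (b : B) (n : ℕ) :
    d (b ^ (n + 1)) = (n + 1) * ρ b ^ n * d b := by
  induction n with
  | zero => simp
  | succ n ih =>
    rw [pow_succ, hd.mul, ih, map_pow]
    push_cast
    ring

theorem IsDer.aeval (hd : IsDer P ρ d) (b : B) (f : P[X]) :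
    d (Polynomial.aeval b f) = ρ (Polynomial.aeval b (derivative f)) * d b := by
  induction f using Polynomial.induction_on' with
  | add p q hp hq => rw [map_add, hd.add, hp, hq, derivative_add, map_add, map_add, add_mul]
  | monomial n a =>
    rcases n with _ | n
    · simp [hd.base]
    · rw [aeval_monomial, hd.mul, hd.pow, hd.base, derivative_monomial, aeval_monomial]
      push_cast
      simp only [map_mul, map_pow, map_add, map_natCast, map_one, add_tsub_cancel_right]
      ring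

theorem exists_separable [CharZero k] (ρ : B →+* k) (b : B) (hb : IsIntegral P b) :
    ∃ f : P[X], ρ (Polynomial.aeval b f) = 0 ∧ ρ (Polynomial.aeval b (derivative f)) ≠ 0 := by
  classical
  set φ : P →+* k := ρ.comp (algebraMap P B) with hφ
  have hev : ∀ f : P[X], ρ (Polynomial.aeval b f) = (f.map φ).eval (ρ b) := by
    intro f
    rw [eval_map, aeval_def, hom_eval₂]
  have hex : ∃ n, ∃ f : P[X], f.map φ ≠ 0 ∧ (f.map φ).eval (ρ b) = 0 ∧
      (f.map φ).natDegree = n := by
    obtain ⟨f, hfm, hf⟩ := hb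
    refine ⟨_, f, (hfm.map φ).ne_zero, ?_, rfl⟩
    rw [← hev, aeval_def, hf, map_zero]
  obtain ⟨f, hf0, hfe, hfn⟩ := Nat.find_spec hex
  have hmin := fun m => Nat.find_min hex (m := m)
  refine ⟨f, by rw [hev, hfe], ?_⟩
  rw [hev, ← derivative_map]
  intro h0
  have hdeg : (f.map φ).natDegree ≠ 0 := by
    intro h
    rw [natDegree_eq_zero] at h
    obtain ⟨c, hc⟩ := h
    rw [← hc, eval_C] at hfe
    rw [← hc, hfe, C_0] at hf0
    exact hf0 rfl
  have hd0 : derivative (f.map φ) ≠ 0 := by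
    intro h
    exact hdeg (natDegree_eq_zero_of_derivative_eq_zero h)
  refine hmin (derivative (f.map φ)).natDegree ?_ ⟨derivative f, ?_, ?_, ?_⟩
  · rw [← hfn]
    exact natDegree_derivative_lt hdeg
  · rwa [← derivative_map]
  · rwa [← derivative_map]
  · rw [← derivative_map]

/-- Two `P`-derivations along `ρ` are proportional when the kernel of `ρ` is locally principal. -/
theorem IsDer.comm [CharZero k] [Algebra.IsIntegral P B] (hd : IsDer P ρ d) (hδ : IsDer P ρ δ)
    (t : B) (ht : ρ t = 0)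
    (hloc : ∀ b, ρ b = 0 → ∃ s c, ρ s ≠ 0 ∧ s * b = t * c) (a b : B) :
    d a * δ b = δ a * d b := by
  have key : ∀ b : B, ∃ x : k, ∀ e : B → k, IsDer P ρ e → e b = x * e t := by
    intro b
    obtain ⟨f, hf1, hf2⟩ := exists_separable (P := P) ρ b (Algebra.IsIntegral.isIntegral b)
    obtain ⟨s, c, hs, hsc⟩ := hloc _ hf1
    refine ⟨ρ c / (ρ s * ρ (Polynomial.aeval b (derivative f))), fun e he => ?_⟩
    have h1 := congrArg e hsc
    rw [he.mul, he.mul, he.aeval, hf1, ht, zero_mul, add_zero, zero_mul, zero_add] at h1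
    rw [div_mul_eq_mul_div, eq_div_iff (mul_ne_zero hs hf2), ← h1]
    ring
  obtain ⟨x, hx⟩ := key a
  obtain ⟨y, hy⟩ := key b
  rw [hx d hd, hx δ hδ, hy d hd, hy δ hδ]
  ring

end der

section dvr

variable {P B O : Type*} [CommRing P] [CommRing B] [Algebra P B] [Algebra.IsIntegral P B]
  [CommRing O] [IsDomain O] [IsDiscreteValuationRing O] [Algebra P O]

/-- F2 at a discrete valuation ring: the second divided difference of `b` with respect to `y`
is in the ring. -/
theorem divDiff_dvr [CharZero (ResidueField O)] (σ₀ σ₁ σ₂ : B →ₐ[P] O) (y : B)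
    (h01 : σ₀ y ≠ σ₁ y) (h12 : σ₁ y ≠ σ₂ y) (h02 : σ₀ y ≠ σ₂ y)
    (F01 : ∀ b, σ₀ y - σ₁ y ∣ σ₀ b - σ₁ b) (F12 : ∀ b, σ₁ y - σ₂ y ∣ σ₁ b - σ₂ b)
    (F02 : ∀ b, σ₀ y - σ₂ y ∣ σ₀ b - σ₂ b)
    (hpr : (∀ b, residue O (σ₀ b) = residue O (σ₁ b)) →
      ∃ t : B, residue O (σ₀ t) = 0 ∧ ∀ b, residue O (σ₀ b) = 0 →
        ∃ s c, residue O (σ₀ s) ≠ 0 ∧ s * b = t * c) (b : B) :
    (σ₀ y - σ₁ y) * (σ₁ y - σ₂ y) * (σ₀ y - σ₂ y) ∣
      σ₀ b * (σ₁ y - σ₂ y) - σ₁ b * (σ₀ y - σ₂ y) + σ₂ b * (σ₀ y - σ₁ y) := by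
  classical
  have n01 : σ₀ y - σ₁ y ≠ 0 := sub_ne_zero.2 h01
  have n12 : σ₁ y - σ₂ y ≠ 0 := sub_ne_zero.2 h12
  have n02 : σ₀ y - σ₂ y ≠ 0 := sub_ne_zero.2 h02
  choose D01 hD01 using F01
  choose D12 hD12 using F12
  choose D02 hD02 using F02
  -- unit cases
  by_cases u01 : IsUnit (σ₀ y - σ₁ y)
  · have h : σ₀ b * (σ₁ y - σ₂ y) - σ₁ b * (σ₀ y - σ₂ y) + σ₂ b * (σ₀ y - σ₁ y) =
        (σ₁ y - σ₂ y) * (σ₀ y - σ₂ y) * (D02 b - D12 b) := by
      linear_combination (σ₁ y - σ₂ y) * hD02 b - (σ₀ y - σ₂ y) * hD12 b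
    rw [h, mul_assoc, u01.mul_left_dvd]
    exact dvd_mul_right _ _
  by_cases u12 : IsUnit (σ₁ y - σ₂ y)
  · have h : σ₀ b * (σ₁ y - σ₂ y) - σ₁ b * (σ₀ y - σ₂ y) + σ₂ b * (σ₀ y - σ₁ y) =
        (σ₀ y - σ₁ y) * (σ₀ y - σ₂ y) * (D01 b - D02 b) := by
      linear_combination (σ₀ y - σ₂ y) * hD01 b - (σ₀ y - σ₁ y) * hD02 b
    rw [h, mul_comm (σ₀ y - σ₁ y), mul_assoc, u12.mul_left_dvd]
    exact dvd_mul_right _ _
  -- non-unit case
  have r01 : residue O (σ₀ y - σ₁ y) = 0 := by
    rw [residue_eq_zero_iff, mem_maximalIdeal]; exact u01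
  have r12 : residue O (σ₁ y - σ₂ y) = 0 := by
    rw [residue_eq_zero_iff, mem_maximalIdeal]; exact u12
  have e01 : ∀ b, residue O (σ₀ b) = residue O (σ₁ b) := by
    intro b
    have := congrArg (residue O) (hD01 b)
    rw [map_mul, r01, zero_mul, map_sub, sub_eq_zero] at this
    exact this
  have e12 : ∀ b, residue O (σ₁ b) = residue O (σ₂ b) := by
    intro b
    have := congrArg (residue O) (hD12 b)
    rw [map_mul, r12, zero_mul, map_sub, sub_eq_zero] at this
    exact this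
  obtain ⟨t, ht, hloc⟩ := hpr e01
  obtain ⟨ϖ, hϖ⟩ := IsDiscreteValuationRing.exists_irreducible O
  set V : O := (σ₀ y - σ₁ y) * (σ₁ y - σ₂ y) * (σ₀ y - σ₂ y) with hV
  have hV0 : V ≠ 0 := mul_ne_zero (mul_ne_zero n01 n12) n02
  set T : B → O := fun b =>
    σ₀ b * (σ₁ y - σ₂ y) - σ₁ b * (σ₀ y - σ₂ y) + σ₂ b * (σ₀ y - σ₁ y) with hT
  have hex : ∃ n : ℕ, ∀ b, V ∣ ϖ ^ n * T b := by
    obtain ⟨m, u, hu⟩ := IsDiscreteValuationRing.eq_unit_mul_pow_irreducible hV0 hϖ
    refine ⟨m, fun b => ?_⟩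
    rw [hu, Units.mul_left_dvd]
    exact dvd_mul_right _ _
  have hn := Nat.find_spec hex
  rcases hcase : Nat.find hex with _ | N
  · rw [hcase] at hn
    simpa using hn b
  exfalso
  rw [hcase] at hn
  have hmin : ¬ ∀ b, V ∣ ϖ ^ N * T b := Nat.find_min hex (by omega)
  choose θ hθ using hn
  -- θ b * V = ϖ^(N+1) * T b
  have hϖ0 : residue O ϖ = 0 := by
    rw [residue_eq_zero_iff, mem_maximalIdeal]; exact hϖ.not_isUnit
  have hd : IsDer P ((residue O).comp (σ₀ : B →+* O)) (fun b => residue O (θ b)) := by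
    constructor
    · intro a b
      rw [← map_add]
      congr 1
      apply mul_left_cancel₀ hV0
      have e1 := hθ a
      have e2 := hθ b
      have e3 := hθ (a + b)
      simp only [hT, map_add] at e1 e2 e3
      linear_combination e1 + e2 - e3
    · intro a b
      have h1 : θ (a * b) = σ₀ a * θ b + ϖ ^ (N + 1) * D01 a * D12 b + θ a * σ₂ b := by
        apply mul_left_cancel₀ hV0
        have e1 := hθ a
        have e2 := hθ b
        have e3 := hθ (a * b)
        have f1 := hD01 a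
        have f2 := hD12 b
        rw [← e3]
        have e4 : V * (σ₀ a * θ b + ϖ ^ (N + 1) * D01 a * D12 b + θ a * σ₂ b) =
            σ₀ a * (ϖ ^ (N + 1) * T b) + ϖ ^ (N + 1) * (V * D01 a * D12 b) +
              (ϖ ^ (N + 1) * T a) * σ₂ b := by
          rw [e1, e2]; ring
        rw [e4]
        have e5 : V * D01 a * D12 b = (σ₀ y - σ₂ y) * (σ₀ a - σ₁ a) * (σ₁ b - σ₂ b) := by
          rw [f1, f2, hV]; ring
        rw [e5]
        simp only [hT, map_mul]
        ring
      show residue O (θ (a * b)) = residue O (σ₀ a) * residue O (θ b) +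
        residue O (σ₀ b) * residue O (θ a)
      rw [h1, map_add, map_add, map_mul, map_mul, map_mul, map_mul, map_pow, hϖ0,
        e01 b, e12 b]
      ring
    · intro p
      have h1 : θ (algebraMap P B p) = 0 := by
        apply mul_left_cancel₀ hV0
        rw [← hθ]
        simp only [hT, AlgHom.commutes]
        ring
      simp [h1]
  have hδ : IsDer P ((residue O).comp (σ₀ : B →+* O)) (fun b => residue O (D01 b)) := by
    constructor
    · intro a b
      rw [← map_add]
      congr 1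
      apply mul_left_cancel₀ n01
      rw [← hD01, mul_add, ← hD01, ← hD01, map_add, map_add]
      ring
    · intro a b
      have h1 : D01 (a * b) = σ₀ a * D01 b + D01 a * σ₁ b := by
        apply mul_left_cancel₀ n01
        have f1 := hD01 a
        have f2 := hD01 b
        rw [← hD01, map_mul, map_mul]
        linear_combination σ₀ a * f2 + σ₁ b * f1
      show residue O (D01 (a * b)) = residue O (σ₀ a) * residue O (D01 b) +
        residue O (σ₀ b) * residue O (D01 a)
      rw [h1, map_add, map_mul, map_mul, e01 b]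
      ring
    · intro p
      have h1 : D01 (algebraMap P B p) = 0 := by
        apply mul_left_cancel₀ n01
        rw [← hD01]
        simp only [AlgHom.commutes]
        ring
      simp [h1]
  have hθy : θ y = 0 := by
    apply mul_left_cancel₀ hV0
    rw [← hθ]
    simp only [hT]
    ring
  have hDy : D01 y = 1 := by
    apply mul_left_cancel₀ n01
    rw [← hD01, mul_one]
  apply hmin
  intro b
  have h1 := IsDer.comm hd hδ t ht hloc b y
  simp only [hθy, hDy, map_one, map_zero, mul_one, mul_zero] at h1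
  rw [residue_eq_zero_iff, hϖ.maximalIdeal_eq, Ideal.mem_span_singleton] at h1
  obtain ⟨w, hw⟩ := h1
  refine ⟨w, ?_⟩
  apply mul_left_cancel₀ hϖ.ne_zero
  have := hθ b
  rw [hw] at this
  linear_combination this

end dvr

/-- A height one prime of a normal noetherian domain is locally principal. -/
theorem exists_locally_principal {B : Type*} [CommRing B] [IsDomain B] [IsNoetherianRing B]
    [IsIntegrallyClosed B] (Q : Ideal B) [Q.IsPrime] (hQ : Q.height = 1) :
    ∃ t ∈ Q, ∀ b ∈ Q, ∃ s c, s ∉ Q ∧ s * b = t * c := by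
  let D := Localization.AtPrime Q
  have hD : IsDiscreteValuationRing D :=
    P266.FirstIntegral.isDVR_of_height_eq_one Q hQ D
  have hinj : Function.Injective (algebraMap B D) :=
    IsLocalization.injective D Q.primeCompl_le_nonZeroDivisors
  obtain ⟨ϖ, hϖ⟩ := IsDiscreteValuationRing.exists_irreducible D
  obtain ⟨⟨t, s0⟩, hts⟩ := IsLocalization.surj Q.primeCompl ϖ
  simp only at hts
  have hu : IsUnit (algebraMap B D s0) := IsLocalization.map_units D s0
  have hmem : ∀ b : B, b ∈ Q ↔ algebraMap B D b ∈ maximalIdeal D := fun b =>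
    (IsLocalization.AtPrime.to_map_mem_maximal_iff D Q b).symm
  have htQ : t ∈ Q := by
    rw [hmem, ← hts]
    exact Ideal.mul_mem_right _ _ hϖ.not_isUnit
  refine ⟨t, htQ, fun b hb => ?_⟩
  rw [hmem, hϖ.maximalIdeal_eq, Ideal.mem_span_singleton] at hb
  obtain ⟨x, hx⟩ := hb
  obtain ⟨⟨c, s⟩, hcs⟩ := IsLocalization.surj Q.primeCompl x
  simp only at hcs
  refine ⟨s * s0, t * 0 + c, ?_, ?_⟩
  · exact (s * s0).2
  · apply hinj
    rw [mul_zero, zero_add, map_mul, map_mul, map_mul, hx, ← hts, ← hcs]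
    ring

section loc

variable {P B L : Type*} [CommRing P] [CommRing B] [IsDomain B] [IsNoetherianRing B]
  [IsIntegrallyClosed B] [Algebra P B] [Algebra.IsIntegral P B]
  [CommRing L] [IsDomain L] [IsNoetherianRing L] [IsIntegrallyClosed L] [Algebra P L]
  [Algebra ℚ L]

/-- F2 over a normal noetherian domain. -/
theorem divDiff_normal (σ₀ σ₁ σ₂ : B →ₐ[P] L) (y : B)
    (h01 : σ₀ y ≠ σ₁ y) (h12 : σ₁ y ≠ σ₂ y) (h02 : σ₀ y ≠ σ₂ y)
    (F01 : ∀ b, σ₀ y - σ₁ y ∣ σ₀ b - σ₁ b) (F12 : ∀ b, σ₁ y - σ₂ y ∣ σ₁ b - σ₂ b)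
    (F02 : ∀ b, σ₀ y - σ₂ y ∣ σ₀ b - σ₂ b)
    (hht : ∀ (Q : Ideal L) [Q.IsPrime], Q.height = 1 →
      (Q.comap (σ₀ : B →+* L)).height = 1) (b : B) :
    (σ₀ y - σ₁ y) * (σ₁ y - σ₂ y) * (σ₀ y - σ₂ y) ∣
      σ₀ b * (σ₁ y - σ₂ y) - σ₁ b * (σ₀ y - σ₂ y) + σ₂ b * (σ₀ y - σ₁ y) := by
  have n01 : σ₀ y - σ₁ y ≠ 0 := sub_ne_zero.2 h01
  have n12 : σ₁ y - σ₂ y ≠ 0 := sub_ne_zero.2 h12
  have n02 : σ₀ y - σ₂ y ≠ 0 := sub_ne_zero.2 h02
  apply P266.FirstIntegral.dvd_of_forall_height_one (mul_ne_zero (mul_ne_zero n01 n12) n02)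
  intro Q hQp hQ
  let O := Localization.AtPrime Q
  have hO : IsDiscreteValuationRing O :=
    P266.FirstIntegral.isDVR_of_height_eq_one Q hQ O
  have hinj : Function.Injective (algebraMap L O) :=
    IsLocalization.injective O Q.primeCompl_le_nonZeroDivisors
  have hmem : ∀ x : L, residue O (algebraMap L O x) = 0 ↔ x ∈ Q := fun x => by
    rw [residue_eq_zero_iff]
    exact IsLocalization.AtPrime.to_map_mem_maximal_iff O Q x
  let ι : L →ₐ[P] O := IsScalarTower.toAlgHom P L O
  have hι : ∀ x, ι x = algebraMap L O x := fun _ => rfl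
  letI : Algebra ℚ O := ((algebraMap L O).comp (algebraMap ℚ L)).toAlgebra
  have hchar : CharZero (ResidueField O) :=
    charZero_of_injective_algebraMap (R := ℚ) (algebraMap ℚ (ResidueField O)).injective
  have key := divDiff_dvr (ι.comp σ₀) (ι.comp σ₁) (ι.comp σ₂) y
    (fun h => h01 (hinj h)) (fun h => h12 (hinj h)) (fun h => h02 (hinj h))
    (fun b => by
      simpa only [AlgHom.comp_apply, hι, map_sub] using map_dvd (algebraMap L O) (F01 b))
    (fun b => by
      simpa only [AlgHom.comp_apply, hι, map_sub] using map_dvd (algebraMap L O) (F12 b))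
    (fun b => by
      simpa only [AlgHom.comp_apply, hι, map_sub] using map_dvd (algebraMap L O) (F02 b))
    (fun _ => by
      obtain ⟨t, ht, hloc⟩ := exists_locally_principal (Q.comap (σ₀ : B →+* L)) (hht Q hQ)
      refine ⟨t, (hmem _).2 ht, fun b hb => ?_⟩
      obtain ⟨s, c, hs, hsc⟩ := hloc b ((hmem _).1 hb)
      exact ⟨s, c, fun h => hs ((hmem _).1 h), hsc⟩) b
  obtain ⟨w, hw⟩ := key
  obtain ⟨⟨c, s⟩, hcs⟩ := IsLocalization.surj Q.primeCompl w
  simp only at hcs
  refine ⟨s, s.2, c, hinj ?_⟩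
  simp only [AlgHom.comp_apply, hι] at hw
  simp only [map_mul, map_sub, map_add]
  rw [hw, ← hcs]
  ring

end loc

section height

variable {B C : Type*} [CommRing B] [IsDomain B] [IsIntegrallyClosed B] [CommRing C] [IsDomain C]

theorem height_comap_of_integral (σ : B →+* C) (hσ : Function.Injective σ) (hint : σ.IsIntegral)
    (Q : Ideal C) [Q.IsPrime] (hQ : Q.height = 1) : (Q.comap σ).height = 1 := by
  let _ : Algebra B C := σ.toAlgebra
  have hmap : algebraMap B C = σ := rfl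
  have hft : FaithfulSMul B C := by
    rw [faithfulSMul_iff_algebraMap_injective]; exact hσ
  have hi : Algebra.IsIntegral B C := ⟨hint⟩
  have hgd : Algebra.HasGoingDown B C := inferInstance
  have hlo : Q.LiesOver (Q.comap (algebraMap B C)) := ⟨rfl⟩
  have hQb : Q ≠ ⊥ := Ideal.ne_bot_of_height_eq_one hQ
  have h2 : Q.comap (algebraMap B C) ≠ ⊥ := by
    obtain ⟨b, hbQ, hb0⟩ := Submodule.exists_mem_ne_zero_of_ne_bot hQb
    exact Ideal.comap_ne_bot_of_integral_mem hb0 hbQ (hi.isIntegral b)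
  show (Q.comap (algebraMap B C)).height = 1
  apply le_antisymm
  · have h3 : (Q.comap (algebraMap B C)).height ≤ (1 : ℕ) := by
      rw [Ideal.height_le_iff]
      intro q hq hlt
      obtain ⟨Q', hQP, hQp, hQo⟩ := Ideal.exists_ideal_lt_liesOver_of_lt Q hlt
      have hP' : Q.height ≤ (1 : ℕ) := by rw [hQ]; rfl
      rw [Ideal.height_le_iff] at hP'
      have h4 := hP' Q' hQp hQP
      have h5 : Q'.height = 0 := by
        rwa [Nat.cast_one, ENat.lt_one_iff_eq_zero] at h4
      rw [Ideal.height_eq_zero_iff_eq_bot] at h5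
      have h6 : q = ⊥ := by
        rw [hQo.over, h5]
        exact Ideal.comap_bot_of_injective _ hσ
      rw [h6, Ideal.height_bot]
      exact_mod_cast one_pos
    exact_mod_cast h3
  · rw [Order.one_le_iff_ne_zero]
    intro h3
    exact h2 (Ideal.height_eq_zero_iff_eq_bot.1 h3)

end height

section glob

variable {P B C : Type*} [CommRing P] [CommRing B] [IsDomain B] [IsNoetherianRing B]
  [IsIntegrallyClosed B] [Algebra P B] [Algebra.IsIntegral P B]
  [CommRing C] [IsDomain C] [IsNoetherianRing C] [IsIntegrallyClosed C] [Algebra P C]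
  [Algebra.IsIntegral P C] [Algebra ℚ C]

/-- F2 for `C` normal, integral over `P`, at a prime `M` of `C`. -/
theorem divDiff_prime (M : Ideal C) [M.IsPrime] (σ₀ σ₁ σ₂ : B →ₐ[P] C)
    (hσ : Function.Injective σ₀) (y : B)
    (h01 : σ₀ y ≠ σ₁ y) (h12 : σ₁ y ≠ σ₂ y) (h02 : σ₀ y ≠ σ₂ y)
    (F01 : ∀ b, ∃ s, s ∉ M ∧ σ₀ y - σ₁ y ∣ s * (σ₀ b - σ₁ b))
    (F12 : ∀ b, ∃ s, s ∉ M ∧ σ₁ y - σ₂ y ∣ s * (σ₁ b - σ₂ b))
    (F02 : ∀ b, ∃ s, s ∉ M ∧ σ₀ y - σ₂ y ∣ s * (σ₀ b - σ₂ b)) (b : B) :
    ∃ s, s ∉ M ∧ (σ₀ y - σ₁ y) * (σ₁ y - σ₂ y) * (σ₀ y - σ₂ y) ∣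
      s * (σ₀ b * (σ₁ y - σ₂ y) - σ₁ b * (σ₀ y - σ₂ y) + σ₂ b * (σ₀ y - σ₁ y)) := by
  let L := Localization.AtPrime M
  have hN : IsNoetherianRing L := IsLocalization.isNoetherianRing M.primeCompl L inferInstance
  have hI : IsIntegrallyClosed L := isIntegrallyClosed_of_isLocalization L M.primeCompl
    M.primeCompl_le_nonZeroDivisors
  have hinj : Function.Injective (algebraMap C L) :=
    IsLocalization.injective L M.primeCompl_le_nonZeroDivisors
  let ι : C →ₐ[P] L := IsScalarTower.toAlgHom P C L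
  have hι : ∀ x, ι x = algebraMap C L x := fun _ => rfl
  letI : Algebra ℚ L := ((algebraMap C L).comp (algebraMap ℚ C)).toAlgebra
  have conv : ∀ (τ τ' : B →ₐ[P] C), (∀ b, ∃ s, s ∉ M ∧ τ y - τ' y ∣ s * (τ b - τ' b)) →
      ∀ b, (ι.comp τ) y - (ι.comp τ') y ∣ (ι.comp τ) b - (ι.comp τ') b := by
    intro τ τ' h b
    obtain ⟨s, hs, hd⟩ := h b
    have hu : IsUnit (algebraMap C L s) := IsLocalization.map_units L (⟨s, hs⟩ : M.primeCompl)
    have h1 := map_dvd (algebraMap C L) hd
    rw [map_mul, hu.dvd_mul_left] at h1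
    simpa only [AlgHom.comp_apply, hι, map_sub] using h1
  have key := divDiff_normal (ι.comp σ₀) (ι.comp σ₁) (ι.comp σ₂) y
    (fun h => h01 (hinj h)) (fun h => h12 (hinj h)) (fun h => h02 (hinj h))
    (conv _ _ F01) (conv _ _ F12) (conv _ _ F02)
    (fun Q hQp hQ => by
      have h1 : (Q.comap (algebraMap C L)).height = 1 := by
        rw [← hQ]
        exact IsLocalization.height_under M.primeCompl Q
      have hint : (σ₀ : B →+* C).IsIntegral := by
        have h2 : ((σ₀ : B →+* C).comp (algebraMap P B)).IsIntegral := by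
          have : (σ₀ : B →+* C).comp (algebraMap P B) = algebraMap P C := σ₀.comp_algebraMap
          rw [this]
          exact Algebra.IsIntegral.isIntegral
        exact RingHom.IsIntegral.tower_top _ _ h2
      exact height_comap_of_integral (σ₀ : B →+* C) hσ hint (Q.comap (algebraMap C L)) h1) b
  obtain ⟨w, hw⟩ := key
  obtain ⟨⟨c, s⟩, hcs⟩ := IsLocalization.surj M.primeCompl w
  simp only at hcs
  refine ⟨s, s.2, c, hinj ?_⟩
  simp only [AlgHom.comp_apply, hι] at hw
  simp only [map_mul, map_sub, map_add]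
  rw [hw, ← hcs]
  ring

end glob

end Vale.Agent.P282.EQ
end

section

/-!
# P282 EQ, module ALG, part 1: interpolation polynomials over discrete valuation rings

All divided differences of `b` with respect to `y` are integral.
-/

open IsLocalRing Polynomial

namespace Vale.Agent.P282.EQ

theorem degree_C_mul_le' {R : Type*} [Semiring R] (a : R) (p : R[X]) :
    (C a * p).degree ≤ p.degree := by
  rw [← smul_eq_C_mul]
  exact degree_smul_le a p

theorem prod_dvd_of_roots {O ι : Type*} [CommRing O] [IsDomain O] (T : Finset ι) (v : ι → O)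
    (hv : ∀ i ∈ T, ∀ j ∈ T, i ≠ j → v i ≠ v j) (p : O[X]) (hp : ∀ i ∈ T, p.eval (v i) = 0) :
    ∏ i ∈ T, (X - C (v i)) ∣ p := by
  classical
  rcases eq_or_ne p 0 with rfl | h0
  · exact dvd_zero _
  have h1 : ∏ i ∈ T, (X - C (v i)) = ((T.val.map v).map fun a => X - C a).prod := by
    rw [Multiset.map_map]; rfl
  rw [h1, Multiset.prod_X_sub_C_dvd_iff_le_roots h0]
  have hnd : (T.val.map v).Nodup := by
    refine Multiset.Nodup.map_on ?_ T.nodup
    intro i hi j hj hij
    by_contra hne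
    exact hv i hi j hj hne hij
  rw [Multiset.le_iff_subset hnd]
  intro a ha
  obtain ⟨i, hi, rfl⟩ := Multiset.mem_map.1 ha
  rw [mem_roots h0]
  exact hp i hi

section dvr

variable {P B O : Type*} [CommRing P] [CommRing B] [Algebra P B] [Algebra.IsIntegral P B]
  [CommRing O] [IsDomain O] [IsDiscreteValuationRing O] [Algebra P O]

/-- The induction step of `interp_dvr` when all the values of `y` have the same residue. -/
theorem interp_step [CharZero (ResidueField O)] {ι : Type*} [DecidableEq ι]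
    (σ : ι → (B →ₐ[P] O)) (y : B) (T : Finset ι) (m i₀ : ι) (hm : m ∉ T) (hi₀ : i₀ ∈ T)
    (hinj : ∀ i ∈ insert m T, ∀ j ∈ insert m T, i ≠ j → σ i y ≠ σ j y)
    (hF : ∀ b, σ i₀ y - σ m y ∣ σ i₀ b - σ m b)
    (hpr : ∃ t : B, residue O (σ i₀ t) = 0 ∧ ∀ b, residue O (σ i₀ b) = 0 →
      ∃ s c, residue O (σ i₀ s) ≠ 0 ∧ s * b = t * c)
    (hnu : ¬ IsUnit (σ i₀ y - σ m y))
    (hT : ∀ b, ∃ p : O[X], ∀ i ∈ T, p.eval (σ i y) = σ i b) (b : B) :
    ∃ p : O[X], ∀ i ∈ insert m T, p.eval (σ i y) = σ i b := by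
  classical
  have hne : σ i₀ y ≠ σ m y := hinj i₀ (Finset.mem_insert_of_mem hi₀) m
    (Finset.mem_insert_self _ _) (fun h => hm (h ▸ hi₀))
  have hn0 : σ i₀ y - σ m y ≠ 0 := sub_ne_zero.2 hne
  choose q hq using hT
  let ω : O[X] := ∏ i ∈ T, (X - C (σ i y))
  have hωT : ∀ i ∈ T, ω.eval (σ i y) = 0 := by
    intro i hi
    rw [eval_prod]
    exact Finset.prod_eq_zero hi (by simp)
  let W : O := ω.eval (σ m y)
  have hW : W = ∏ i ∈ T, (σ m y - σ i y) := by
    show ω.eval _ = _
    rw [eval_prod]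
    simp
  have hW0 : W ≠ 0 := by
    rw [hW, Finset.prod_ne_zero_iff]
    intro i hi
    exact sub_ne_zero.2 (hinj m (Finset.mem_insert_self _ _) i (Finset.mem_insert_of_mem hi)
      (fun h => hm (h ▸ hi)))
  have hdvd : ∀ p : O[X], (∀ i ∈ T, p.eval (σ i y) = 0) → W ∣ p.eval (σ m y) := by
    intro p hp
    obtain ⟨r, hr⟩ := prod_dvd_of_roots T (fun i => σ i y)
      (fun i hi j hj hij => hinj i (Finset.mem_insert_of_mem hi) j (Finset.mem_insert_of_mem hj) hij)
      p hp
    rw [hr, eval_mul]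
    exact dvd_mul_right _ _
  let E : B → O := fun b => σ m b - (q b).eval (σ m y)
  -- reduction
  suffices hE : ∀ b, W ∣ E b by
    obtain ⟨c, hc⟩ := hE b
    refine ⟨q b + C c * ω, fun i hi => ?_⟩
    rcases Finset.mem_insert.1 hi with rfl | hi
    · rw [eval_add, eval_mul, eval_C]
      have h1 : σ i b - (q b).eval (σ i y) = W * c := hc
      linear_combination (-1 : O) * h1
    · rw [eval_add, eval_mul, hωT i hi, mul_zero, add_zero, hq b i hi]
  have Eadd : ∀ a b, W ∣ E (a + b) - (E a + E b) := by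
    intro a b
    have h1 := hdvd (q a + q b - q (a + b)) (fun i hi => by
      rw [eval_sub, eval_add, hq a i hi, hq b i hi, hq _ i hi, map_add, sub_self])
    have h2 : E (a + b) - (E a + E b) = (q a + q b - q (a + b)).eval (σ m y) := by
      simp only [E, map_add, eval_sub, eval_add]
      ring
    rwa [h2]
  have Emul : ∀ a b, W ∣ E (a * b) - (σ m a * E b + (q b).eval (σ m y) * E a) := by
    intro a b
    have h1 := hdvd (q a * q b - q (a * b)) (fun i hi => by
      rw [eval_sub, eval_mul, hq a i hi, hq b i hi, hq _ i hi, map_mul, sub_self])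
    have h2 : E (a * b) - (σ m a * E b + (q b).eval (σ m y) * E a) =
        (q a * q b - q (a * b)).eval (σ m y) := by
      simp only [E, map_mul, eval_sub, eval_mul]
      ring
    rwa [h2]
  have Ebase : ∀ p : P, W ∣ E (algebraMap P B p) := by
    intro p
    have h1 := hdvd (C (algebraMap P O p) - q (algebraMap P B p)) (fun i hi => by
      rw [eval_sub, eval_C, hq _ i hi, AlgHom.commutes, sub_self])
    have h2 : E (algebraMap P B p) =
        (C (algebraMap P O p) - q (algebraMap P B p)).eval (σ m y) := by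
      simp only [E, eval_sub, eval_C, AlgHom.commutes]
    rwa [h2]
  have Ey : W ∣ E y := by
    have h1 := hdvd (X - q y) (fun i hi => by
      rw [eval_sub, eval_X, hq _ i hi, sub_self])
    have h2 : E y = (X - q y).eval (σ m y) := by
      simp only [E, eval_sub, eval_X]
    rwa [h2]
  -- residues
  have hr0 : residue O (σ i₀ y - σ m y) = 0 := by
    rw [residue_eq_zero_iff, mem_maximalIdeal]; exact hnu
  have hres : ∀ b, residue O (σ i₀ b) = residue O (σ m b) := by
    intro b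
    obtain ⟨c, hc⟩ := hF b
    have := congrArg (residue O) hc
    rw [map_mul, hr0, zero_mul, map_sub, sub_eq_zero] at this
    exact this
  have hresq : ∀ b, residue O ((q b).eval (σ m y)) = residue O (σ i₀ b) := by
    intro b
    have h1 : σ i₀ y - σ m y ∣ (q b).eval (σ i₀ y) - (q b).eval (σ m y) :=
      sub_dvd_eval_sub _ _ _
    obtain ⟨c, hc⟩ := h1
    have := congrArg (residue O) hc
    rw [map_mul, hr0, zero_mul, map_sub, sub_eq_zero, hq b i₀ hi₀] at this
    exact this.symm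
  obtain ⟨t, ht, hloc⟩ := hpr
  obtain ⟨ϖ, hϖ⟩ := IsDiscreteValuationRing.exists_irreducible O
  have hex : ∃ n : ℕ, ∀ b, W ∣ ϖ ^ n * E b := by
    obtain ⟨k, u, hu⟩ := IsDiscreteValuationRing.eq_unit_mul_pow_irreducible hW0 hϖ
    refine ⟨k, fun b => ?_⟩
    rw [hu, Units.mul_left_dvd]
    exact dvd_mul_right _ _
  have hn := Nat.find_spec hex
  rcases hcase : Nat.find hex with _ | N
  · rw [hcase] at hn
    simpa using hn
  exfalso
  rw [hcase] at hn
  have hmin : ¬ ∀ b, W ∣ ϖ ^ N * E b := Nat.find_min hex (by omega)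
  choose θ hθ using hn
  have hϖ0 : residue O ϖ = 0 := by
    rw [residue_eq_zero_iff, mem_maximalIdeal]; exact hϖ.not_isUnit
  have hd : IsDer P ((residue O).comp (σ i₀ : B →+* O)) (fun b => residue O (θ b)) := by
    constructor
    · intro a b
      obtain ⟨c, hc⟩ := Eadd a b
      have h1 : θ (a + b) = θ a + θ b + ϖ ^ (N + 1) * c := by
        apply mul_left_cancel₀ hW0
        have e1 := hθ a
        have e2 := hθ b
        have e3 := hθ (a + b)
        linear_combination e1 + e2 - e3 + ϖ ^ (N + 1) * hc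
      show residue O (θ (a + b)) = residue O (θ a) + residue O (θ b)
      rw [h1, map_add, map_add, map_mul, map_pow, hϖ0]
      ring
    · intro a b
      obtain ⟨c, hc⟩ := Emul a b
      have h1 : θ (a * b) = σ m a * θ b + (q b).eval (σ m y) * θ a + ϖ ^ (N + 1) * c := by
        apply mul_left_cancel₀ hW0
        have e1 := hθ a
        have e2 := hθ b
        have e3 := hθ (a * b)
        linear_combination (q b).eval (σ m y) * e1 + σ m a * e2 - e3 + ϖ ^ (N + 1) * hc
      show residue O (θ (a * b)) = residue O (σ i₀ a) * residue O (θ b) +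
        residue O (σ i₀ b) * residue O (θ a)
      rw [h1, map_add, map_add, map_mul, map_mul, map_mul, map_pow, hϖ0, hresq, hres a]
      ring
    · intro p
      obtain ⟨c, hc⟩ := Ebase p
      have h1 : θ (algebraMap P B p) = ϖ ^ (N + 1) * c := by
        apply mul_left_cancel₀ hW0
        rw [← hθ, hc]
        ring
      show residue O (θ (algebraMap P B p)) = 0
      rw [h1, map_mul, map_pow, hϖ0]
      ring
  choose D hD using hF
  have hδ : IsDer P ((residue O).comp (σ i₀ : B →+* O)) (fun b => residue O (D b)) := by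
    constructor
    · intro a b
      rw [← map_add]
      congr 1
      apply mul_left_cancel₀ hn0
      rw [← hD, mul_add, ← hD, ← hD, map_add, map_add]
      ring
    · intro a b
      have h1 : D (a * b) = σ i₀ a * D b + D a * σ m b := by
        apply mul_left_cancel₀ hn0
        have f1 := hD a
        have f2 := hD b
        rw [← hD, map_mul, map_mul]
        linear_combination σ i₀ a * f2 + σ m b * f1
      show residue O (D (a * b)) = residue O (σ i₀ a) * residue O (D b) +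
        residue O (σ i₀ b) * residue O (D a)
      rw [h1, map_add, map_mul, map_mul, hres b]
      ring
    · intro p
      have h1 : D (algebraMap P B p) = 0 := by
        apply mul_left_cancel₀ hn0
        rw [← hD]
        simp only [AlgHom.commutes]
        ring
      simp [h1]
  have hθy : residue O (θ y) = 0 := by
    obtain ⟨c, hc⟩ := Ey
    have h1 : θ y = ϖ ^ (N + 1) * c := by
      apply mul_left_cancel₀ hW0
      rw [← hθ, hc]
      ring
    rw [h1, map_mul, map_pow, hϖ0]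
    ring
  have hDy : D y = 1 := by
    apply mul_left_cancel₀ hn0
    rw [← hD, mul_one]
  apply hmin
  intro b
  have h1 := IsDer.comm hd hδ t ht hloc b y
  simp only [hθy, hDy, map_one, mul_one, mul_zero] at h1
  rw [residue_eq_zero_iff, hϖ.maximalIdeal_eq, Ideal.mem_span_singleton] at h1
  obtain ⟨w, hw⟩ := h1
  refine ⟨w, ?_⟩
  apply mul_left_cancel₀ hϖ.ne_zero
  have := hθ b
  rw [hw] at this
  linear_combination this

/-- Interpolation over a discrete valuation ring: if all first divided differences are integral,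
there is an interpolation polynomial with integral coefficients. -/
theorem interp_dvr [CharZero (ResidueField O)] {ι : Type*} (σ : ι → (B →ₐ[P] O)) (y : B)
    (T : Finset ι)
    (hinj : ∀ i ∈ T, ∀ j ∈ T, i ≠ j → σ i y ≠ σ j y)
    (hF : ∀ i ∈ T, ∀ j ∈ T, ∀ b, σ i y - σ j y ∣ σ i b - σ j b)
    (hpr : ∀ i ∈ T, ∃ t : B, residue O (σ i t) = 0 ∧ ∀ b, residue O (σ i b) = 0 →
      ∃ s c, residue O (σ i s) ≠ 0 ∧ s * b = t * c) (b : B) :
    ∃ p : O[X], ∀ i ∈ T, p.eval (σ i y) = σ i b := by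
  classical
  induction T using Finset.strongInduction generalizing b with
  | H T ih =>
  by_cases hu : ∃ i ∈ T, ∃ j ∈ T, i ≠ j ∧ IsUnit (σ j y - σ i y)
  · obtain ⟨i, hi, j, hj, hij, u, hu⟩ := hu
    have sub : ∀ k ∈ T, ∀ b, ∃ p : O[X], ∀ i ∈ T.erase k, p.eval (σ i y) = σ i b := by
      intro k hk b
      refine ih (T.erase k) (Finset.erase_ssubset hk) ?_ ?_ ?_ b
      · exact fun i hi j hj => hinj i (Finset.mem_of_mem_erase hi) j (Finset.mem_of_mem_erase hj)
      · exact fun i hi j hj => hF i (Finset.mem_of_mem_erase hi) j (Finset.mem_of_mem_erase hj)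
      · exact fun i hi => hpr i (Finset.mem_of_mem_erase hi)
    obtain ⟨p, hp⟩ := sub i hi b
    obtain ⟨r, hr⟩ := sub j hj b
    refine ⟨C ((u⁻¹ : Oˣ) : O) * ((X - C (σ i y)) * p - (X - C (σ j y)) * r), fun k hk => ?_⟩
    rw [eval_mul, eval_C, eval_sub, eval_mul, eval_mul, eval_sub, eval_sub, eval_X, eval_C, eval_C,
      Units.inv_mul_eq_iff_eq_mul, hu]
    by_cases hki : k = i
    · subst hki
      rw [hr k (Finset.mem_erase.2 ⟨hij, hk⟩)]
      ring
    by_cases hkj : k = j
    · subst hkj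
      rw [hp k (Finset.mem_erase.2 ⟨hki, hk⟩)]
      ring
    rw [hp k (Finset.mem_erase.2 ⟨hki, hk⟩), hr k (Finset.mem_erase.2 ⟨hkj, hk⟩)]
    ring
  · push Not at hu
    rcases T.eq_empty_or_nonempty with rfl | ⟨m, hm⟩
    · exact ⟨0, by simp⟩
    rcases (T.erase m).eq_empty_or_nonempty with h0 | ⟨i₀, hi₀⟩
    · refine ⟨C (σ m b), fun i hi => ?_⟩
      have : i = m := by
        by_contra hne
        have h1 : i ∈ T.erase m := Finset.mem_erase.2 ⟨hne, hi⟩
        rw [h0] at h1
        exact absurd h1 (Finset.notMem_empty i)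
      rw [this, eval_C]
    have hins : insert m (T.erase m) = T := Finset.insert_erase hm
    have hi₀T := Finset.mem_of_mem_erase hi₀
    have hne : i₀ ≠ m := (Finset.mem_erase.1 hi₀).1
    have key := interp_step σ y (T.erase m) m i₀ (Finset.notMem_erase m T) hi₀
      (by rw [hins]; exact hinj) (hF i₀ hi₀T m hm) (hpr i₀ hi₀T)
      (hu m hm i₀ hi₀T hne.symm)
      (fun b => ih (T.erase m) (Finset.erase_ssubset hm)
        (fun i hi j hj => hinj i (Finset.mem_of_mem_erase hi) j (Finset.mem_of_mem_erase hj))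
        (fun i hi j hj => hF i (Finset.mem_of_mem_erase hi) j (Finset.mem_of_mem_erase hj))
        (fun i hi => hpr i (Finset.mem_of_mem_erase hi)) b) b
    rwa [hins] at key

end dvr

/-- Reduction of the degree of an interpolation polynomial. -/
theorem exists_degree_lt {O ι : Type*} [CommRing O] [IsDomain O] (T : Finset ι) (v f : ι → O)
    (p : O[X]) (hp : ∀ i ∈ T, p.eval (v i) = f i) :
    ∃ p' : O[X], p'.degree < T.card ∧ ∀ i ∈ T, p'.eval (v i) = f i := by
  classical
  let ω : O[X] := ∏ i ∈ T, (X - C (v i))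
  have hω : ω.Monic := monic_prod_of_monic _ _ fun i _ => monic_X_sub_C _
  have hdeg : ω.degree = T.card := by
    show (∏ i ∈ T, (X - C (v i))).degree = _
    rw [degree_prod]
    simp
  refine ⟨p %ₘ ω, ?_, fun i hi => ?_⟩
  · rw [← hdeg]
    exact degree_modByMonic_lt _ hω
  · have h1 := modByMonic_add_div p ω
    have h2 : ω.eval (v i) = 0 := by
      show (∏ i ∈ T, (X - C (v i))).eval (v i) = 0
      rw [eval_prod]
      exact Finset.prod_eq_zero hi (by simp)
    have h3 := congrArg (Polynomial.eval (v i)) h1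
    rw [eval_add, eval_mul, h2, zero_mul, add_zero, hp i hi] at h3
    exact h3

section loc

variable {P B L : Type*} [CommRing P] [CommRing B] [IsDomain B] [IsNoetherianRing B]
  [IsIntegrallyClosed B] [Algebra P B] [Algebra.IsIntegral P B]
  [CommRing L] [IsDomain L] [IsNoetherianRing L] [IsIntegrallyClosed L] [Algebra P L]
  [Algebra ℚ L]

/-- Interpolation over a normal noetherian domain. -/
theorem interp_normal {ι : Type*} (σ : ι → (B →ₐ[P] L)) (y : B) (T : Finset ι)
    (hinj : ∀ i ∈ T, ∀ j ∈ T, i ≠ j → σ i y ≠ σ j y)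
    (hF : ∀ i ∈ T, ∀ j ∈ T, ∀ b, σ i y - σ j y ∣ σ i b - σ j b)
    (hht : ∀ i ∈ T, ∀ (Q : Ideal L) [Q.IsPrime], Q.height = 1 →
      (Q.comap (σ i : B →+* L)).height = 1) (b : B) :
    ∃ p : L[X], p.degree < T.card ∧ ∀ i ∈ T, p.eval (σ i y) = σ i b := by
  classical
  let D : ι → L := fun i => ∏ j ∈ T.erase i, (σ i y - σ j y)
  let V : L := ∏ i ∈ T, D i
  have hD0 : ∀ i ∈ T, D i ≠ 0 := by
    intro i hi
    refine Finset.prod_ne_zero_iff.2 fun j hj => sub_ne_zero.2 ?_
    exact hinj i hi j (Finset.mem_of_mem_erase hj) (Finset.mem_erase.1 hj).1.symm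
  have hV0 : V ≠ 0 := Finset.prod_ne_zero_iff.2 hD0
  let q : L[X] := ∑ i ∈ T, C (σ i b * ∏ k ∈ T.erase i, D k) * ∏ j ∈ T.erase i, (X - C (σ j y))
  have hqe : ∀ k ∈ T, q.eval (σ k y) = V * σ k b := by
    intro k hk
    show (∑ i ∈ T, C (σ i b * ∏ k ∈ T.erase i, D k) *
      ∏ j ∈ T.erase i, (X - C (σ j y))).eval (σ k y) = _
    rw [eval_finset_sum, Finset.sum_eq_single k]
    · rw [eval_mul, eval_C, eval_prod]
      simp only [eval_sub, eval_X, eval_C]
      have h1 : V = D k * ∏ k ∈ T.erase k, D k := (Finset.mul_prod_erase T D hk).symm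
      rw [h1]
      show σ k b * _ * D k = _
      ring
    · intro i hi hik
      have h1 : k ∈ T.erase i := Finset.mem_erase.2 ⟨hik.symm, hk⟩
      have h2 : (∏ j ∈ T.erase i, (X - C (σ j y))).eval (σ k y) = 0 := by
        rw [eval_prod]
        exact Finset.prod_eq_zero h1 (by simp)
      rw [eval_mul, h2, mul_zero]
    · intro h
      exact absurd hk h
  have hqd : q.degree < T.card := by
    rcases T.eq_empty_or_nonempty with h0 | hne
    · have : q = 0 := by
        show ∑ i ∈ T, _ = _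
        rw [h0, Finset.sum_empty]
      rw [this, degree_zero]
      exact WithBot.bot_lt_coe _
    refine (degree_sum_le _ _).trans_lt ?_
    rw [Finset.sup_lt_iff (WithBot.bot_lt_coe _)]
    intro i hi
    refine (degree_C_mul_le' _ _).trans_lt ?_
    rw [degree_prod]
    simp only [degree_X_sub_C, Finset.sum_const, nsmul_eq_mul, mul_one]
    rw [Finset.card_erase_of_mem hi]
    have h1 : 0 < T.card := Finset.card_pos.2 hne
    exact_mod_cast Nat.sub_lt h1 one_pos
  have hdvd : ∀ n, V ∣ q.coeff n := by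
    intro n
    apply P266.FirstIntegral.dvd_of_forall_height_one hV0
    intro Q hQp hQ
    let O := Localization.AtPrime Q
    have hO : IsDiscreteValuationRing O :=
      P266.FirstIntegral.isDVR_of_height_eq_one Q hQ O
    have hi : Function.Injective (algebraMap L O) :=
      IsLocalization.injective O Q.primeCompl_le_nonZeroDivisors
    have hmem : ∀ x : L, residue O (algebraMap L O x) = 0 ↔ x ∈ Q := fun x => by
      rw [residue_eq_zero_iff]
      exact IsLocalization.AtPrime.to_map_mem_maximal_iff O Q x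
    let κ : L →ₐ[P] O := IsScalarTower.toAlgHom P L O
    have hκ : ∀ x, κ x = algebraMap L O x := fun _ => rfl
    let _ : Algebra ℚ O := ((algebraMap L O).comp (algebraMap ℚ L)).toAlgebra
    have hchar : CharZero (ResidueField O) :=
      charZero_of_injective_algebraMap (R := ℚ) (algebraMap ℚ (ResidueField O)).injective
    obtain ⟨p, hp⟩ := interp_dvr (fun i => κ.comp (σ i)) y T
      (fun i hi' j hj hij h => hinj i hi' j hj hij (hi h))
      (fun i hi' j hj b => by
        simpa only [AlgHom.comp_apply, hκ, map_sub] using map_dvd (algebraMap L O) (hF i hi' j hj b))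
      (fun i hi' => by
        obtain ⟨t, ht, hloc⟩ :=
          exists_locally_principal (Q.comap (σ i : B →+* L)) (hht i hi' Q hQ)
        refine ⟨t, (hmem _).2 ht, fun b hb => ?_⟩
        obtain ⟨s, c, hs, hsc⟩ := hloc b ((hmem _).1 hb)
        exact ⟨s, c, fun h => hs ((hmem _).1 h), hsc⟩) b
    obtain ⟨p', hp'd, hp'⟩ := exists_degree_lt T (fun i => κ.comp (σ i) y)
      (fun i => κ.comp (σ i) b) p hp
    have heq : q.map (algebraMap L O) - C (algebraMap L O V) * p' = 0 := by
      refine eq_zero_of_degree_lt_of_eval_index_eq_zero (s := T)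
        (v := fun i => κ.comp (σ i) y) ?_ ?_ ?_
      · intro i hi' j hj hij
        by_contra hne
        exact hinj i hi' j hj hne (hi hij)
      · refine (degree_sub_le _ _).trans_lt (max_lt ?_ ?_)
        · exact (degree_map_le).trans_lt hqd
        · exact (degree_C_mul_le' _ _).trans_lt hp'd
      · intro i hi'
        have h1 := congrArg (algebraMap L O) (hqe i hi')
        rw [map_mul] at h1
        rw [eval_sub, eval_mul, eval_C, hp' i hi', sub_eq_zero]
        show eval (algebraMap L O (σ i y)) (q.map (algebraMap L O)) =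
          algebraMap L O V * algebraMap L O (σ i b)
        rw [← h1, eval_map, eval₂_hom]
    have hc := congrArg (fun f => coeff f n) heq
    simp only [coeff_sub, coeff_map, coeff_C_mul, coeff_zero, sub_eq_zero] at hc
    obtain ⟨⟨c, s⟩, hcs⟩ := IsLocalization.surj Q.primeCompl (p'.coeff n)
    simp only at hcs
    refine ⟨s, s.2, c, hi ?_⟩
    rw [map_mul, map_mul, hc, ← hcs]
    ring
  obtain ⟨p, hp⟩ := (C_dvd_iff_dvd_coeff V q).2 hdvd
  refine ⟨p, ?_, fun i hi => ?_⟩
  · have h1 : q.degree = p.degree := by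
      rw [hp, degree_mul, degree_C hV0, zero_add]
    rw [← h1]
    exact hqd
  · apply mul_left_cancel₀ hV0
    rw [← hqe i hi, hp, eval_mul, eval_C]

end loc

section glob

variable {P B C : Type*} [CommRing P] [CommRing B] [IsDomain B] [IsNoetherianRing B]
  [IsIntegrallyClosed B] [Algebra P B] [Algebra.IsIntegral P B]
  [CommRing C] [IsDomain C] [IsNoetherianRing C] [IsIntegrallyClosed C] [Algebra P C]
  [Algebra.IsIntegral P C] [Algebra ℚ C]

/-- Interpolation at a prime `M` of a normal domain `C`, integral over `P`. -/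
theorem interp_prime {ι : Type*} (M : Ideal C) [M.IsPrime] (σ : ι → (B →ₐ[P] C)) (y : B)
    (T : Finset ι) (hσ : ∀ i ∈ T, Function.Injective (σ i))
    (hinj : ∀ i ∈ T, ∀ j ∈ T, i ≠ j → σ i y ≠ σ j y)
    (hF : ∀ i ∈ T, ∀ j ∈ T, ∀ b, ∃ s, s ∉ M ∧ σ i y - σ j y ∣ s * (σ i b - σ j b)) (b : B) :
    ∃ s, s ∉ M ∧ ∃ q : C[X], q.degree < T.card ∧ ∀ i ∈ T, q.eval (σ i y) = s * σ i b := by
  classical
  let L := Localization.AtPrime M
  have hN : IsNoetherianRing L := IsLocalization.isNoetherianRing M.primeCompl L inferInstance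
  have hI : IsIntegrallyClosed L := isIntegrallyClosed_of_isLocalization L M.primeCompl
    M.primeCompl_le_nonZeroDivisors
  have hi : Function.Injective (algebraMap C L) :=
    IsLocalization.injective L M.primeCompl_le_nonZeroDivisors
  let κ : C →ₐ[P] L := IsScalarTower.toAlgHom P C L
  have hκ : ∀ x, κ x = algebraMap C L x := fun _ => rfl
  let _ : Algebra ℚ L := ((algebraMap C L).comp (algebraMap ℚ C)).toAlgebra
  obtain ⟨p, hpd, hp⟩ := interp_normal (fun i => κ.comp (σ i)) y T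
    (fun i hi' j hj hij h => hinj i hi' j hj hij (hi h))
    (fun i hi' j hj b => by
      obtain ⟨s, hs, hd⟩ := hF i hi' j hj b
      have hu : IsUnit (algebraMap C L s) := IsLocalization.map_units L (⟨s, hs⟩ : M.primeCompl)
      have h1 := map_dvd (algebraMap C L) hd
      rw [map_mul, hu.dvd_mul_left] at h1
      simpa only [AlgHom.comp_apply, hκ, map_sub] using h1)
    (fun i hi' Q hQp hQ => by
      have h1 : (Q.comap (algebraMap C L)).height = 1 := by
        rw [← hQ]
        exact IsLocalization.height_under M.primeCompl Q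
      have hint : (σ i : B →+* C).IsIntegral := by
        have h2 : ((σ i : B →+* C).comp (algebraMap P B)).IsIntegral := by
          have : (σ i : B →+* C).comp (algebraMap P B) = algebraMap P C := (σ i).comp_algebraMap
          rw [this]
          exact Algebra.IsIntegral.isIntegral
        exact RingHom.IsIntegral.tower_top _ _ h2
      exact height_comap_of_integral (σ i : B →+* C) (hσ i hi') hint
        (Q.comap (algebraMap C L)) h1) b
  obtain ⟨s, hs⟩ := IsLocalization.exist_integer_multiples M.primeCompl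
    (Finset.range T.card) (fun n => p.coeff n)
  have hlift : Polynomial.C (algebraMap C L s) * p ∈ lifts (algebraMap C L) := by
    rw [lifts_iff_coeff_lifts]
    intro n
    rw [coeff_C_mul]
    rcases lt_or_ge n T.card with h | h
    · obtain ⟨x, hx⟩ := hs n (Finset.mem_range.2 h)
      exact ⟨x, by rw [hx, Algebra.smul_def]⟩
    · refine ⟨0, ?_⟩
      rw [coeff_eq_zero_of_degree_lt (hpd.trans_le (by exact_mod_cast h)), mul_zero, map_zero]
  obtain ⟨q, hq, hqd⟩ := exists_degree_eq_of_mem_lifts hlift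
  refine ⟨s, s.2, q, ?_, fun i hi' => hi ?_⟩
  · rw [hqd]
    exact (degree_C_mul_le' _ _).trans_lt hpd
  · rw [map_mul, ← hκ (σ i b)]
    have h1 := hp i hi'
    have h2 : algebraMap C L (eval (σ i y) q) =
        eval (algebraMap C L (σ i y)) (q.map (algebraMap C L)) := by
      rw [eval_map, eval₂_hom]
    rw [h2, hq, eval_mul, eval_C]
    congr 1

end glob

end Vale.Agent.P282.EQ
end

section

/-!
P282, converse: completions of valued fields with bounded derivations.
-/

open scoped NNReal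

namespace Vale.Agent.P282.CV

variable {K F : Type} [Field K] [Algebra ℂ K] [Field F] [Algebra ℂ F]

/-- `(F, w)` is a completion of the valued field `(K, v)`. -/
structure IsComp (v : Valuation K ℝ≥0) (w : Valuation F ℝ≥0) (ι : K →ₐ[ℂ] F) : Prop where
  val : ∀ f, w (ι f) = v f
  dense : ∀ (y : F) (δ : ℝ≥0), 0 < δ → ∃ f : K, w (y - ι f) < δ
  complete : ∀ u : ℕ → F,
    (∀ δ : ℝ≥0, 0 < δ → ∃ N : ℕ, ∀ i j, N ≤ i → N ≤ j → w (u i - u j) < δ) →
    ∃ y : F, ∀ δ : ℝ≥0, 0 < δ → ∃ N : ℕ, ∀ i, N ≤ i → w (y - u i) < δ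

/-- The real absolute value of a valuation in the nonnegative reals. -/
noncomputable def compAbs {K : Type} [Field K] (v : Valuation K ℝ≥0) : AbsoluteValue K ℝ where
  toFun x := (v x : ℝ)
  map_mul' x y := by simp
  nonneg' x := (v x).2
  eq_zero' x := by simp
  add_le' x y := by
    have h := v.map_add x y
    have h2 : max (v x) (v y) ≤ v x + v y := max_le (le_add_of_nonneg_right zero_le)
      (le_add_of_nonneg_left zero_le)
    exact_mod_cast h.trans h2

theorem compAbs_apply {K : Type} [Field K] (v : Valuation K ℝ≥0) (x : K) :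
    compAbs v x = (v x : ℝ) := rfl

/-- Completions exist. -/
theorem exists_comp (v : Valuation K ℝ≥0) :
    ∃ (F : Type) (_ : Field F) (_ : Algebra ℂ F) (w : Valuation F ℝ≥0) (ι : K →ₐ[ℂ] F),
      IsComp v w ι := by
  have hnorm : ∀ x : K, ‖WithAbs.toAbs (compAbs v) x‖ = (v x : ℝ) := fun x => rfl
  have hult : ∀ x y : WithAbs (compAbs v), ‖x + y‖ ≤ max ‖x‖ ‖y‖ := by
    intro x y
    have h := v.map_add x.ofAbs y.ofAbs
    have h' : ((v (x.ofAbs + y.ofAbs) : ℝ≥0) : ℝ) ≤
        max ((v x.ofAbs : ℝ≥0) : ℝ) ((v y.ofAbs : ℝ≥0) : ℝ) := by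
      exact_mod_cast h
    exact h'
  have hult2 : ∀ x y : UniformSpace.Completion (WithAbs (compAbs v)),
      ‖x + y‖ ≤ max ‖x‖ ‖y‖ := by
    intro x y
    induction x, y using UniformSpace.Completion.induction_on₂ with
    | hp =>
      apply isClosed_le
      · exact (continuous_fst.add continuous_snd).norm
      · exact continuous_fst.norm.max continuous_snd.norm
    | ih x y =>
      rw [← UniformSpace.Completion.coe_add, UniformSpace.Completion.norm_coe,
        UniformSpace.Completion.norm_coe, UniformSpace.Completion.norm_coe]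
      exact hult x y
  let φ : K →+* UniformSpace.Completion (WithAbs (compAbs v)) :=
    (UniformSpace.Completion.coeRingHom (α := WithAbs (compAbs v))).comp
      (WithAbs.equiv (compAbs v)).symm.toRingHom
  let alg : Algebra ℂ (UniformSpace.Completion (WithAbs (compAbs v))) :=
    (φ.comp (algebraMap ℂ K)).toAlgebra
  let w : Valuation (UniformSpace.Completion (WithAbs (compAbs v))) ℝ≥0 :=
    { toFun := fun y => ‖y‖₊
      map_zero' := nnnorm_zero
      map_one' := nnnorm_one
      map_mul' := nnnorm_mul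
      map_add_le_max' := fun x y => by
        have := hult2 x y
        exact_mod_cast this }
  let ι : K →ₐ[ℂ] UniformSpace.Completion (WithAbs (compAbs v)) :=
    { φ with commutes' := fun c => rfl }
  have hw : ∀ y, (w y : ℝ) = ‖y‖ := fun y => rfl
  have hι : ∀ x : K, ι x = ((WithAbs.toAbs (compAbs v) x : WithAbs (compAbs v)) :
    UniformSpace.Completion (WithAbs (compAbs v))) := fun x => rfl
  refine ⟨UniformSpace.Completion (WithAbs (compAbs v)), inferInstance, alg, w, ι, ?_, ?_, ?_⟩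
  · intro f
    apply NNReal.coe_injective
    rw [hw, hι, UniformSpace.Completion.norm_coe, hnorm]
  · intro y δ hδ
    obtain ⟨x, hx⟩ := (UniformSpace.Completion.denseRange_coe
      (α := WithAbs (compAbs v))).exists_dist_lt y (ε := (δ : ℝ)) (by exact_mod_cast hδ)
    refine ⟨x.ofAbs, ?_⟩
    have : (w (y - ι x.ofAbs) : ℝ) < δ := by
      rw [hw, hι, ← dist_eq_norm]
      exact hx
    exact_mod_cast this
  · intro u hu
    have hc : CauchySeq u := by
      rw [Metric.cauchySeq_iff]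
      intro ε hε
      obtain ⟨N, hN⟩ := hu ⟨ε, hε.le⟩ (by exact_mod_cast hε)
      refine ⟨N, fun i hi j hj => ?_⟩
      have := hN i j hi hj
      have h2 : (w (u i - u j) : ℝ) < ε := by exact_mod_cast this
      rw [dist_eq_norm, ← hw]
      exact h2
    obtain ⟨y, hy⟩ := cauchySeq_tendsto_of_complete hc
    refine ⟨y, fun δ hδ => ?_⟩
    rw [Metric.tendsto_atTop] at hy
    obtain ⟨N, hN⟩ := hy δ (by exact_mod_cast hδ)
    refine ⟨N, fun i hi => ?_⟩
    have h1 := hN i hi
    have h2 : (w (y - u i) : ℝ) < δ := by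
      rw [hw, ← dist_eq_norm, dist_comm]
      exact h1
    exact_mod_cast h2

/-- `y` is the limit of the sequence `u` for the valuation `w`. -/
def VLim {F : Type} [Field F] (w : Valuation F ℝ≥0) (u : ℕ → F) (y : F) : Prop :=
  ∀ δ : ℝ≥0, 0 < δ → ∃ N : ℕ, ∀ i, N ≤ i → w (y - u i) < δ

omit [Algebra ℂ F] in
theorem VLim.unique {w : Valuation F ℝ≥0} {u : ℕ → F} {y z : F} (hy : VLim w u y)
    (hz : VLim w u z) : y = z := by
  by_contra hne
  have hpos : 0 < w (y - z) := by
    rw [pos_iff_ne_zero]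
    exact (Valuation.ne_zero_iff w).2 (sub_ne_zero.2 hne)
  obtain ⟨N, hN⟩ := hy _ hpos
  obtain ⟨M, hM⟩ := hz _ hpos
  have h1 := hN (max N M) (le_max_left _ _)
  have h2 := hM (max N M) (le_max_right _ _)
  have h3 : w (y - z) ≤ max (w (y - u (max N M))) (w (z - u (max N M))) := by
    have := w.map_sub (y - u (max N M)) (z - u (max N M))
    rwa [sub_sub_sub_cancel_right] at this
  exact absurd h3 (not_le.2 (max_lt h1 h2))

omit [Algebra ℂ F] in
theorem VLim.add {w : Valuation F ℝ≥0} {u u' : ℕ → F} {y y' : F} (hy : VLim w u y)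
    (hy' : VLim w u' y') : VLim w (fun i => u i + u' i) (y + y') := by
  intro δ hδ
  obtain ⟨N, hN⟩ := hy δ hδ
  obtain ⟨M, hM⟩ := hy' δ hδ
  refine ⟨max N M, fun i hi => ?_⟩
  have h1 := hN i (le_of_max_le_left hi)
  have h2 := hM i (le_of_max_le_right hi)
  have h3 := w.map_add (y - u i) (y' - u' i)
  have h4 : y + y' - (u i + u' i) = (y - u i) + (y' - u' i) := by ring
  rw [h4]
  exact h3.trans_lt (max_lt h1 h2)

omit [Algebra ℂ F] in
theorem VLim.const_mul {w : Valuation F ℝ≥0} {u : ℕ → F} {y : F} (c : F) (hy : VLim w u y) :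
    VLim w (fun i => c * u i) (c * y) := by
  intro δ hδ
  have hc : 0 < w c + 1 := by positivity
  obtain ⟨N, hN⟩ := hy (δ / (w c + 1)) (by positivity)
  refine ⟨N, fun i hi => ?_⟩
  have h1 := hN i hi
  rw [← mul_sub, map_mul]
  calc w c * w (y - u i) ≤ (w c + 1) * w (y - u i) := by
        gcongr
        exact le_add_of_nonneg_right zero_le
    _ < (w c + 1) * (δ / (w c + 1)) := by gcongr
    _ = δ := by field_simp

omit [Algebra ℂ F] in
theorem VLim.bdd {w : Valuation F ℝ≥0} {u : ℕ → F} {y : F} (hy : VLim w u y) :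
    ∃ N : ℕ, ∀ i, N ≤ i → w (u i) ≤ w y + 1 := by
  obtain ⟨N, hN⟩ := hy 1 one_pos
  refine ⟨N, fun i hi => ?_⟩
  have h1 := hN i hi
  have h2 := w.map_sub y (y - u i)
  rw [sub_sub_cancel] at h2
  refine h2.trans (max_le (le_add_of_nonneg_right zero_le) (h1.le.trans ?_))
  exact le_add_of_nonneg_left zero_le

omit [Algebra ℂ F] in
theorem VLim.mul {w : Valuation F ℝ≥0} {u u' : ℕ → F} {y y' : F} (hy : VLim w u y)
    (hy' : VLim w u' y') : VLim w (fun i => u i * u' i) (y * y') := by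
  intro δ hδ
  obtain ⟨N₀, hN₀⟩ := hy.bdd
  obtain ⟨N, hN⟩ := hy (δ / (w y' + 1)) (by positivity)
  obtain ⟨M, hM⟩ := hy' (δ / (w y + 1)) (by positivity)
  refine ⟨max N₀ (max N M), fun i hi => ?_⟩
  have h0 := hN₀ i (le_of_max_le_left hi)
  have h1 := hN i (le_of_max_le_left (le_of_max_le_right hi))
  have h2 := hM i (le_of_max_le_right (le_of_max_le_right hi))
  have h4 : y * y' - u i * u' i = (y - u i) * y' + u i * (y' - u' i) := by ring
  rw [h4]
  refine (w.map_add _ _).trans_lt (max_lt ?_ ?_)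
  · rw [map_mul]
    calc w (y - u i) * w y' ≤ w (y - u i) * (w y' + 1) := by
          gcongr
          exact le_add_of_nonneg_right zero_le
      _ < (δ / (w y' + 1)) * (w y' + 1) := by gcongr
      _ = δ := by field_simp
  · rw [map_mul]
    calc w (u i) * w (y' - u' i) ≤ (w y + 1) * w (y' - u' i) := by gcongr
      _ < (w y + 1) * (δ / (w y + 1)) := by gcongr
      _ = δ := by field_simp

/-- Bounded derivations extend to the completion. -/
theorem IsComp.extend {v : Valuation K ℝ≥0} {w : Valuation F ℝ≥0} {ι : K →ₐ[ℂ] F}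
    (h : IsComp v w ι) (D : Derivation ℂ K K) {B : ℝ} (hB : ∀ f, (v (D f) : ℝ) ≤ B * v f) :
    ∃ D' : Derivation ℂ F F, (∀ f, D' (ι f) = ι (D f)) ∧ ∀ f, (w (D' f) : ℝ) ≤ B * w f := by
  have hB0 : 0 ≤ B := by
    have := hB 1
    simpa using this
  -- the constant as a nonnegative real
  obtain ⟨b, rfl⟩ : ∃ b : ℝ≥0, (b : ℝ) = B := ⟨⟨B, hB0⟩, rfl⟩
  have hb : ∀ f, v (D f) ≤ b * v f := fun f => by exact_mod_cast hB f
  -- approximating sequences
  have happ : ∀ y : F, ∃ f : ℕ → K, VLim w (fun i => ι (f i)) y := by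
    intro y
    choose f hf using fun k : ℕ => h.dense y (1 / (k + 1)) (by positivity)
    refine ⟨f, fun δ hδ => ?_⟩
    obtain ⟨N, hN⟩ := exists_nat_one_div_lt (K := ℝ) (ε := (δ : ℝ)) (by exact_mod_cast hδ)
    refine ⟨N, fun i hi => (hf i).trans_le ?_⟩
    have h1 : (1 : ℝ) / (i + 1) ≤ 1 / (N + 1) := by gcongr
    have h2 : ((1 / (i + 1) : ℝ≥0) : ℝ) ≤ (δ : ℝ) := by
      push_cast
      exact h1.trans hN.le
    exact_mod_cast h2
  -- derivatives of two sequences with the same limit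
  have hsub : ∀ (f g : ℕ → K) (y z : F), VLim w (fun i => ι (f i)) y →
      VLim w (fun i => ι (g i)) y → VLim w (fun i => ι (D (f i))) z →
      VLim w (fun i => ι (D (g i))) z := by
    intro f g y z hf hg hz δ hδ
    obtain ⟨N, hN⟩ := hf (δ / (b + 1)) (by positivity)
    obtain ⟨M, hM⟩ := hg (δ / (b + 1)) (by positivity)
    obtain ⟨L, hL⟩ := hz δ hδ
    refine ⟨max L (max N M), fun i hi => ?_⟩
    have h0 := hL i (le_of_max_le_left hi)
    have h1 := hN i (le_of_max_le_left (le_of_max_le_right hi))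
    have h2 := hM i (le_of_max_le_right (le_of_max_le_right hi))
    have h4 : z - ι (D (g i)) = (z - ι (D (f i))) + ι (D (f i - g i)) := by
      rw [map_sub, map_sub]; ring
    rw [h4]
    refine (w.map_add _ _).trans_lt (max_lt h0 ?_)
    rw [h.val]
    have h5 : v (f i - g i) < δ / (b + 1) := by
      rw [← h.val, map_sub]
      have : ι (f i) - ι (g i) = (y - ι (g i)) - (y - ι (f i)) := by ring
      rw [this]
      exact (w.map_sub _ _).trans_lt (max_lt h2 h1)
    calc v (D (f i - g i)) ≤ b * v (f i - g i) := hb _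
      _ ≤ (b + 1) * v (f i - g i) := by
          gcongr
          exact le_add_of_nonneg_right zero_le
      _ < (b + 1) * (δ / (b + 1)) := by gcongr
      _ = δ := by field_simp
  -- derivatives of a convergent sequence converge
  have hder : ∀ y : F, ∃ z : F, ∀ f : ℕ → K, VLim w (fun i => ι (f i)) y →
      VLim w (fun i => ι (D (f i))) z := by
    intro y
    obtain ⟨f, hf⟩ := happ y
    obtain ⟨z, hz⟩ := h.complete (fun i => ι (D (f i))) (by
      intro δ hδ
      obtain ⟨N, hN⟩ := hf (δ / (b + 1)) (by positivity)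
      refine ⟨N, fun i j hi hj => ?_⟩
      have h1 := hN i hi
      have h2 := hN j hj
      have h4 : ι (D (f i)) - ι (D (f j)) = ι (D (f i - f j)) := by
        rw [map_sub, map_sub]
      rw [h4, h.val]
      have h5 : v (f i - f j) < δ / (b + 1) := by
        rw [← h.val, map_sub]
        have : ι (f i) - ι (f j) = (y - ι (f j)) - (y - ι (f i)) := by ring
        rw [this]
        exact (w.map_sub _ _).trans_lt (max_lt h2 h1)
      calc v (D (f i - f j)) ≤ b * v (f i - f j) := hb _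
        _ ≤ (b + 1) * v (f i - f j) := by
            gcongr
            exact le_add_of_nonneg_right zero_le
        _ < (b + 1) * (δ / (b + 1)) := by gcongr
        _ = δ := by field_simp)
    exact ⟨z, fun g hg => hsub f g y z hf hg hz⟩
  choose E hE using hder
  have hconst : ∀ f : K, VLim w (fun _ : ℕ => ι f) (ι f) := by
    intro f δ hδ
    exact ⟨0, fun i _ => by simpa using hδ⟩
  have hEι : ∀ f, E (ι f) = ι (D f) := by
    intro f
    exact (hE (ι f) (fun _ => f) (hconst f)).unique (hconst (D f))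
  have hEadd : ∀ y z, E (y + z) = E y + E z := by
    intro y z
    obtain ⟨f, hf⟩ := happ y
    obtain ⟨g, hg⟩ := happ z
    have h1 : VLim w (fun i => ι (f i + g i)) (y + z) := by
      simpa only [map_add] using hf.add hg
    have h2 := hE _ _ h1
    have h3 : VLim w (fun i => ι (D (f i + g i))) (E y + E z) := by
      simpa only [map_add] using (hE y f hf).add (hE z g hg)
    exact h2.unique h3
  have hEmul : ∀ y z, E (y * z) = y * E z + z * E y := by
    intro y z
    obtain ⟨f, hf⟩ := happ y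
    obtain ⟨g, hg⟩ := happ z
    have h1 : VLim w (fun i => ι (f i * g i)) (y * z) := by
      simpa only [map_mul] using hf.mul hg
    have h2 := hE _ _ h1
    have h3 : VLim w (fun i => ι (D (f i * g i))) (y * E z + z * E y) := by
      have h4 := (hf.mul (hE z g hg)).add (hg.mul (hE y f hf))
      simpa only [Derivation.leibniz, smul_eq_mul, map_add, map_mul] using h4
    exact h2.unique h3
  have hEalg : ∀ c : ℂ, E (algebraMap ℂ F c) = 0 := by
    intro c
    have h1 : algebraMap ℂ F c = ι (algebraMap ℂ K c) := (ι.commutes c).symm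
    rw [h1, hEι, Derivation.map_algebraMap, map_zero]
  have hEsmul : ∀ (c : ℂ) (y : F), E (c • y) = c • E y := by
    intro c y
    rw [Algebra.smul_def, hEmul, hEalg, mul_zero, add_zero, Algebra.smul_def]
  let L : F →ₗ[ℂ] F :=
    { toFun := E
      map_add' := hEadd
      map_smul' := hEsmul }
  let D' : Derivation ℂ F F := Derivation.mk' L (fun y z => by
    show E (y * z) = y • E z + z • E y
    rw [hEmul, smul_eq_mul, smul_eq_mul])
  have hD' : ∀ y, D' y = E y := fun y => rfl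
  refine ⟨D', fun f => by rw [hD', hEι], fun y => ?_⟩
  rw [hD']
  have key : w (E y) ≤ b * w y := by
    by_cases hy0 : y = 0
    · have : E 0 = 0 := by
        have := hEadd 0 0
        rw [add_zero] at this
        exact left_eq_add.1 this
      rw [hy0, this]; simp
    · have hwy : 0 < w y := by
        rw [pos_iff_ne_zero]
        exact (Valuation.ne_zero_iff w).2 hy0
      obtain ⟨f, hf⟩ := happ y
      have hz := hE y f hf
      obtain ⟨N, hN⟩ := hf (w y) hwy
      refine le_of_forall_pos_le_add fun δ hδ => ?_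
      obtain ⟨M, hM⟩ := hz δ hδ
      have h1 := hN (max N M) (le_max_left _ _)
      have h2 := hM (max N M) (le_max_right _ _)
      have h3 : w (ι (f (max N M))) ≤ w y := by
        have h4 := w.map_sub y (y - ι (f (max N M)))
        rw [sub_sub_cancel] at h4
        exact h4.trans (max_le le_rfl h1.le)
      have h5 : w (ι (D (f (max N M)))) ≤ b * w y := by
        rw [h.val]
        refine (hb _).trans ?_
        rw [← h.val (f (max N M))]
        gcongr
      have h6 := w.map_add (E y - ι (D (f (max N M)))) (ι (D (f (max N M))))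
      rw [sub_add_cancel] at h6
      refine h6.trans (max_le ?_ ?_)
      · exact h2.le.trans (le_add_of_nonneg_left zero_le)
      · exact h5.trans (le_add_of_nonneg_right zero_le)
  exact_mod_cast key

end Vale.Agent.P282.CV
end
namespace AFast4f9747x5399b
@[reducible] noncomputable def a0 {x1 : Type} [x2 : Field x1] {x3 : Valuation x1 NNReal} : Ring (UniformSpace.Completion (WithAbs (Vale.Agent.P282.CV.compAbs x3))) := inferInstance
end AFast4f9747x5399b
attribute [local instance] AFast4f9747x5399b.a0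

section

/-!
P282, converse: rotations.
-/

namespace Vale.Agent.P282.CV

/-- A derivation that preserves an ideal descends to the quotient. -/
private theorem sder_desc {P : Type} [CommRing P] [Algebra ℂ P] (I : Ideal P)
    (D : Derivation ℂ P P) (h : ∀ a ∈ I, D a ∈ I) :
    ∃ D' : Derivation ℂ (P ⧸ I) (P ⧸ I), ∀ a,
      D' (Ideal.Quotient.mk I a) = Ideal.Quotient.mk I (D a) := by
  have hs := Ideal.Quotient.mk_surjective (I := I)
  have hw : ∀ a b, Ideal.Quotient.mk I a = Ideal.Quotient.mk I b →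
      Ideal.Quotient.mk I (D a) = Ideal.Quotient.mk I (D b) := by
    intro a b hab
    rw [Ideal.Quotient.eq] at hab ⊢
    rw [← map_sub]
    exact h _ hab
  obtain ⟨L, hL⟩ := hs.hasRightInverse
  have key : ∀ a, Ideal.Quotient.mk I (D (L (Ideal.Quotient.mk I a))) =
      Ideal.Quotient.mk I (D a) := fun a => hw _ _ (hL _)
  refine ⟨Derivation.mk' ({ toFun := fun x => Ideal.Quotient.mk I (D (L x))
                            map_add' := ?_
                            map_smul' := ?_ } : (P ⧸ I) →ₗ[ℂ] (P ⧸ I)) ?_, fun a => key a⟩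
  · intro x y
    obtain ⟨a, rfl⟩ := hs x
    obtain ⟨b, rfl⟩ := hs y
    rw [← map_add, key, key, key, map_add, map_add]
  · intro c x
    obtain ⟨a, rfl⟩ := hs x
    have h1 : c • Ideal.Quotient.mk I a = Ideal.Quotient.mk I (c • a) := rfl
    have h2 : c • Ideal.Quotient.mk I (D a) = Ideal.Quotient.mk I (c • D a) := rfl
    rw [h1, key, RingHom.id_apply, key, h2, D.map_smul]
  · intro x y
    obtain ⟨a, rfl⟩ := hs x
    obtain ⟨b, rfl⟩ := hs y
    change Ideal.Quotient.mk I (D (L (Ideal.Quotient.mk I a * Ideal.Quotient.mk I b))) =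
      Ideal.Quotient.mk I a * Ideal.Quotient.mk I (D (L (Ideal.Quotient.mk I b))) +
      Ideal.Quotient.mk I b * Ideal.Quotient.mk I (D (L (Ideal.Quotient.mk I a)))
    rw [← map_mul, key, key, key, D.leibniz, map_add, smul_eq_mul, smul_eq_mul, map_mul, map_mul]

/-- The determinant of the bordered matrix. -/
private theorem sder_det {P : Type} [CommRing P] {n : ℕ} (X : Fin (n + 1) → P)
    (Y : Fin (n + 1) → Fin n → P) (k : Fin (n + 1)) :
    X k * Matrix.det (Matrix.of fun i j : Fin n =>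
      X k * Y (k.succAbove i) j - X (k.succAbove i) * Y k j) =
    (-1) ^ (k : ℕ) * X k ^ n * Matrix.det (Matrix.of fun i : Fin (n + 1) =>
      (Fin.cons (X i) (Y i) : Fin (n + 1) → P)) := by
  set M : Matrix (Fin (n + 1)) (Fin (n + 1)) P := Matrix.of fun i : Fin (n + 1) =>
    (Fin.cons (X i) (Y i) : Fin (n + 1) → P) with hM
  set d : Fin (n + 1) → P := fun i => if i = k then 1 else X k with hd
  set B : Matrix (Fin (n + 1)) (Fin (n + 1)) P := Matrix.of fun i j => d i * M i j with hB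
  set A : Matrix (Fin (n + 1)) (Fin (n + 1)) P :=
    Matrix.of fun i j => d i * M i j + (if i = k then 0 else - X i) * M k j with hA
  have h1 : A.det = B.det := by
    refine Matrix.det_eq_of_forall_row_eq_smul_add_const
      (fun i => if i = k then 0 else - X i) k (if_pos rfl) fun i j => ?_
    simp [hA, hB, hd]
  have h2 : B.det = X k ^ n * M.det := by
    rw [hB, Matrix.det_mul_column, Fin.prod_univ_succAbove _ k]
    simp [hd]
  have h3 : A.det = (-1) ^ (k : ℕ) * X k * Matrix.det (Matrix.of fun i j : Fin n =>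
      X k * Y (k.succAbove i) j - X (k.succAbove i) * Y k j) := by
    rw [Matrix.det_succ_column_zero, Finset.sum_eq_single k]
    · have h4 : A k 0 = X k := by simp [hA, hd, hM]
      have h5 : A.submatrix k.succAbove Fin.succ = Matrix.of fun i j : Fin n =>
          X k * Y (k.succAbove i) j - X (k.succAbove i) * Y k j := by
        ext i j
        simp [hA, hd, hM, sub_eq_add_neg]
      rw [h4, h5]
    · intro i _ hi
      have h4 : A i 0 = 0 := by
        simp [hA, hd, hM, hi]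
        ring
      rw [h4, mul_zero, zero_mul]
    · intro h
      exact absurd (Finset.mem_univ k) h
  have h6 : ((-1 : P) ^ (k : ℕ)) * (-1) ^ (k : ℕ) = 1 := by
    rw [← mul_pow]
    simp
  calc X k * Matrix.det (Matrix.of fun i j : Fin n =>
      X k * Y (k.succAbove i) j - X (k.succAbove i) * Y k j)
      = ((-1 : P) ^ (k : ℕ)) * ((-1) ^ (k : ℕ) * X k * Matrix.det (Matrix.of fun i j : Fin n =>
      X k * Y (k.succAbove i) j - X (k.succAbove i) * Y k j)) := by
        rw [mul_assoc ((-1 : P) ^ (k : ℕ)) (X k), ← mul_assoc ((-1 : P) ^ (k : ℕ)), h6, one_mul]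
    _ = (-1) ^ (k : ℕ) * X k ^ n * M.det := by
        rw [← h3, h1, h2, mul_assoc]

/-- The vector fields `X_k ∂_i - X_i ∂_k` on the quadric cone, and their determinants. -/
theorem exists_qder (n : ℕ) : ∃ D : Fin (n + 1) → Fin (n + 1) → Derivation ℂ (Q n) (Q n),
    (∀ k i j, D k i (qx n j) = (if i = j then qx n k else 0) - (if k = j then qx n i else 0)) ∧
    ∀ (s : Q n) (p : Fin n → Q n), ∃ Δ : Q n, ∀ k : Fin (n + 1),
      Matrix.det (Matrix.of fun i j : Fin n =>
        s * D k (k.succAbove i) (p j) - p j * D k (k.succAbove i) s) =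
      (-1) ^ (k : ℕ) * qx n k ^ (n - 1) * Δ := by
  classical
  set I : Ideal (MvPowerSeries (Fin (n + 1)) ℂ) := Ideal.span
    {∑ i : Fin (n + 1), (MvPowerSeries.X i : MvPowerSeries (Fin (n + 1)) ℂ) ^ 2} with hI
  let D0 : Fin (n + 1) → Fin (n + 1) →
      Derivation ℂ (MvPowerSeries (Fin (n + 1)) ℂ) (MvPowerSeries (Fin (n + 1)) ℂ) := fun k i =>
    (MvPowerSeries.X k : MvPowerSeries (Fin (n + 1)) ℂ) • MvPowerSeries.pderiv ℂ i -
    (MvPowerSeries.X i : MvPowerSeries (Fin (n + 1)) ℂ) • MvPowerSeries.pderiv ℂ k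
  have hD0 : ∀ k i f, D0 k i f = MvPowerSeries.X k * MvPowerSeries.pderiv ℂ i f -
      MvPowerSeries.X i * MvPowerSeries.pderiv ℂ k f := fun k i f => rfl
  have hpX : ∀ i j : Fin (n + 1), MvPowerSeries.pderiv ℂ i (MvPowerSeries.X j) =
      if i = j then (1 : MvPowerSeries (Fin (n + 1)) ℂ) else 0 := by
    intro i j
    split_ifs with h
    · rw [h, MvPowerSeries.pderiv_X_self]
    · exact MvPowerSeries.pderiv_X_of_ne (Ne.symm h)
  have hpq : ∀ i : Fin (n + 1), MvPowerSeries.pderiv ℂ i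
      (∑ j : Fin (n + 1), (MvPowerSeries.X j : MvPowerSeries (Fin (n + 1)) ℂ) ^ 2) =
      2 * MvPowerSeries.X i := by
    intro i
    rw [map_sum, Finset.sum_eq_single i]
    · rw [MvPowerSeries.pderiv_pow, MvPowerSeries.pderiv_X_self]
      simp
    · intro j _ hj
      rw [MvPowerSeries.pderiv_pow, MvPowerSeries.pderiv_X_of_ne hj, mul_zero]
    · intro h
      exact absurd (Finset.mem_univ i) h
  have hmem : ∀ k i, ∀ a ∈ I, D0 k i a ∈ I := by
    intro k i a ha
    rw [hI, Ideal.mem_span_singleton'] at ha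
    obtain ⟨c, rfl⟩ := ha
    have h1 : D0 k i (∑ j : Fin (n + 1),
        (MvPowerSeries.X j : MvPowerSeries (Fin (n + 1)) ℂ) ^ 2) = 0 := by
      rw [hD0, hpq, hpq]
      ring
    rw [Derivation.leibniz, h1, smul_zero, zero_add, smul_eq_mul]
    exact I.mul_mem_right _ (Ideal.subset_span rfl)
  choose D hD using fun k i => sder_desc I (D0 k i) (hmem k i)
  have hqx : ∀ j, qx n j = Ideal.Quotient.mk I (MvPowerSeries.X j) := fun j => rfl
  refine ⟨D, ?_, ?_⟩
  · intro k i j
    rw [hqx, hqx, hqx, hD, hD0, hpX, hpX, map_sub, map_mul, map_mul]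
    congr 1
    · split_ifs <;> simp
    · split_ifs <;> simp
  · intro s p
    obtain ⟨s', rfl⟩ := Ideal.Quotient.mk_surjective s
    obtain ⟨p', hp'⟩ : ∃ p' : Fin n → MvPowerSeries (Fin (n + 1)) ℂ,
        ∀ j, Ideal.Quotient.mk I (p' j) = p j := by
      choose p' hp' using fun j => Ideal.Quotient.mk_surjective (p j)
      exact ⟨p', hp'⟩
    set Y : Fin (n + 1) → Fin n → MvPowerSeries (Fin (n + 1)) ℂ := fun i j =>
      s' * MvPowerSeries.pderiv ℂ i (p' j) - p' j * MvPowerSeries.pderiv ℂ i s' with hY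
    have hent : ∀ k : Fin (n + 1), (Matrix.of fun i j : Fin n =>
        Ideal.Quotient.mk I s' * D k (k.succAbove i) (p j) -
          p j * D k (k.succAbove i) (Ideal.Quotient.mk I s')) =
        (Ideal.Quotient.mk I).mapMatrix (Matrix.of fun i j : Fin n =>
          (MvPowerSeries.X k : MvPowerSeries (Fin (n + 1)) ℂ) * Y (k.succAbove i) j -
            MvPowerSeries.X (k.succAbove i) * Y k j) := by
      intro k
      ext i j
      simp only [Matrix.of_apply, RingHom.mapMatrix_apply, Matrix.map_apply]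
      rw [← hp' j, hD, hD, ← map_mul, ← map_mul, ← map_sub, hD0, hD0, hY]
      congr 1
      ring
    rcases Nat.eq_zero_or_pos n with hn | hn
    · subst hn
      refine ⟨1, fun k => ?_⟩
      have hk : k = 0 := by omega
      subst hk
      simp
    · refine ⟨Ideal.Quotient.mk I (Matrix.det (Matrix.of fun i : Fin (n + 1) =>
        (Fin.cons (MvPowerSeries.X i) (Y i) : Fin (n + 1) → MvPowerSeries (Fin (n + 1)) ℂ))),
        fun k => ?_⟩
      have hX : (MvPowerSeries.X k : MvPowerSeries (Fin (n + 1)) ℂ) ≠ 0 :=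
        by
          intro h
          have h' := congrArg (MvPowerSeries.coeff (Finsupp.single k 1)) h
          rw [MvPowerSeries.coeff_index_single_self_X, map_zero] at h'
          exact one_ne_zero h'
      have h1 := sder_det (fun i => (MvPowerSeries.X i : MvPowerSeries (Fin (n + 1)) ℂ)) Y k
      have h2 : (MvPowerSeries.X k : MvPowerSeries (Fin (n + 1)) ℂ) ^ n =
          MvPowerSeries.X k * MvPowerSeries.X k ^ (n - 1) := by
        rw [← pow_succ']
        congr 1
        omega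
      have h3 := mul_left_cancel₀ hX (h1.trans (show _ =
        (MvPowerSeries.X k : MvPowerSeries (Fin (n + 1)) ℂ) *
        ((-1) ^ (k : ℕ) * MvPowerSeries.X k ^ (n - 1) * Matrix.det (Matrix.of
          fun i : Fin (n + 1) => (Fin.cons (MvPowerSeries.X i) (Y i) :
            Fin (n + 1) → MvPowerSeries (Fin (n + 1)) ℂ))) by
        simp only [h2]
        ring))
      rw [hent k, ← RingHom.map_det, h3, map_mul, map_mul, map_pow, map_pow, map_neg, map_one,
        hqx]

end Vale.Agent.P282.CV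
end

section

/-!
P282, converse (an ordinary double point has normalized volume at least `2 (n - 1) ^ n`):
definitions for the algebraic part.
-/

open scoped NNReal Nat
open MvPolynomial

namespace Vale.Agent.P282.WR

/-- The exponents in `n` variables of degree `< d`. -/
def mon (n d : ℕ) : Finset (Fin n →₀ ℕ) :=
  (Finset.range d).biUnion fun k => Finset.finsuppAntidiag Finset.univ k

theorem mem_mon {n d : ℕ} {α : Fin n →₀ ℕ} : α ∈ mon n d ↔ α.degree < d := by
  unfold mon
  rw [Finset.mem_biUnion]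
  constructor
  · rintro ⟨k, hk, h⟩
    rw [Finset.mem_finsuppAntidiag] at h
    rw [Finset.mem_range] at hk
    have : α.degree = k := by
      rw [Finsupp.degree_eq_sum]; exact h.1
    omega
  · intro h
    refine ⟨α.degree, Finset.mem_range.2 h, ?_⟩
    rw [Finset.mem_finsuppAntidiag]
    exact ⟨(Finsupp.degree_eq_sum α).symm, Finset.subset_univ _⟩

/-- The index set of the standard basis of `F[X₀, …, Xₙ]_{≤ d} / (∑ Xⱼ²)`. -/
abbrev Idx (n d : ℕ) : Type := ↥(mon n (d + 1)) ⊕ ↥(mon n d)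

/-- The standard basis: `X' ^ α` with `|α| ≤ d` and `X₀ X' ^ γ` with `|γ| < d`, where
`X' = (X₁, …, Xₙ)`. -/
noncomputable def stdMon (n d : ℕ) (k : Type) [CommSemiring k] :
    Idx n d → MvPolynomial (Fin (n + 1)) k :=
  Sum.elim (fun α => rename Fin.succ (monomial α.1 1))
    fun γ => X 0 * rename Fin.succ (monomial γ.1 1)

/-- The quadratic form `∑ Xⱼ²`. -/
noncomputable def quad (n : ℕ) (k : Type) [CommSemiring k] : MvPolynomial (Fin (n + 1)) k :=
  ∑ j, X j ^ 2

section field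

variable {n : ℕ} {F : Type} [Field F]

/-- The coordinates `Wᵢ = ∑ⱼ Aᵢⱼ (Xⱼ₊₁ - xⱼ₊₁)`. -/
noncomputable def wco (A : Matrix (Fin n) (Fin n) F) (x : Fin (n + 1) → F) (i : Fin n) :
    MvPolynomial (Fin (n + 1)) F :=
  ∑ j, C (A i j) * (X j.succ - C (x j.succ))

/-- The coordinate `G = ∑ⱼ xⱼ Xⱼ`. -/
noncomputable def gco (x : Fin (n + 1) → F) : MvPolynomial (Fin (n + 1)) F :=
  ∑ j, C (x j) * X j

/-- The adapted basis: `W ^ α` with `|α| ≤ d` and `G ^ (d - |γ|) W ^ γ` with `|γ| < d`. -/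
noncomputable def adp (A : Matrix (Fin n) (Fin n) F) (x : Fin (n + 1) → F) (d : ℕ) :
    Idx n d → MvPolynomial (Fin (n + 1)) F :=
  Sum.elim (fun α => ∏ i, wco A x i ^ (α.1 i))
    fun γ => gco x ^ (d - γ.1.degree) * ∏ i, wco A x i ^ (γ.1 i)

/-- The order of the functional `jet Φ d a`. -/
noncomputable def ord (n d : ℕ) : Idx n d → ℕ :=
  Sum.elim (fun α => α.1.degree) fun γ => 2 * d - γ.1.degree

/-- The exponent of the functional `jet Φ d a`. -/
noncomputable def expo [NeZero n] (d : ℕ) : Idx n d → (Fin n →₀ ℕ) :=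
  Sum.elim (fun α => α.1) fun γ => Finsupp.single 0 (2 * (d - γ.1.degree)) + γ.1

/-- The coefficient of `t ^ expo a` in the coefficient of `s ^ ord a`. -/
noncomputable def jet [NeZero n]
    (Φ : MvPolynomial (Fin (n + 1)) F →ₐ[F] PowerSeries (MvPolynomial (Fin n) F)) (d : ℕ)
    (a : Idx n d) (P : MvPolynomial (Fin (n + 1)) F) : F :=
  coeff (expo d a) (PowerSeries.coeff (ord n d a) (Φ P))

end field

/-- The total order of the functionals. -/
noncomputable def tot (n d : ℕ) : ℕ := ∑ a, ord n d a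

/-- The value of the standard basis at a point. -/
noncomputable def stdVal {n : ℕ} {F : Type} [CommRing F] (d : ℕ) (x : Fin (n + 1) → F) :
    Idx n d → F :=
  Sum.elim (fun α => ∏ j, x j.succ ^ (α.1 j)) fun γ => x 0 * ∏ j, x j.succ ^ (γ.1 j)

theorem aeval_stdMon {n : ℕ} {F : Type} [CommRing F] [Algebra ℂ F] (d : ℕ)
    (x : Fin (n + 1) → F) (a : Idx n d) : aeval x (stdMon n d ℂ a) = stdVal d x a := by
  cases a with
  | inl α => simp [stdMon, stdVal, aeval_rename, aeval_monomial, Finsupp.prod_fintype]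
  | inr γ => simp [stdMon, stdVal, aeval_rename, aeval_monomial, Finsupp.prod_fintype]

theorem map_stdMon {n d : ℕ} {k F : Type} [CommSemiring k] [CommSemiring F] (f : k →+* F)
    (a : Idx n d) : MvPolynomial.map f (stdMon n d k a) = stdMon n d F a := by
  cases a with
  | inl α => simp [stdMon, map_rename, map_monomial]
  | inr γ => simp [stdMon, map_rename, map_monomial]

theorem map_quad {n : ℕ} {k F : Type} [CommSemiring k] [CommSemiring F] (f : k →+* F) :
    MvPolynomial.map f (quad n k) = quad n F := by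
  simp [quad]

/-- `E₁ = binom (n + d) (n + 1) + binom (n + d - 1) (n + 1)`. -/
def E₁ (n d : ℕ) : ℕ := (n + d).choose (n + 1) + (n + d - 1).choose (n + 1)

/-- `E₂ = binom (n + d) (n + 1)`. -/
def E₂ (n d : ℕ) : ℕ := (n + d).choose (n + 1)

/-- The constant of the main inequality. -/
noncomputable def Kd (n d : ℕ) : ℝ := E₁ n d + 2 / ((n : ℝ) - 1) * E₂ n d

/-- The constant of the error term. -/
noncomputable def Cd (n d : ℕ) : ℝ := tot n d + 2 / ((n : ℝ) - 1) * E₂ n d

end Vale.Agent.P282.WR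
end

section

/-!
P282-WR-5: the jets of the adapted basis.
-/

open scoped NNReal Nat
open MvPolynomial

namespace Vale.Agent.P282.WR

variable {n : ℕ} {F : Type} [Field F]

/-- A triangular determinant. -/
private theorem jet_det_keys {m R : Type*} [Fintype m] [DecidableEq m] [CommRing R]
    (M : Matrix m m R) (f g : m → ℕ)
    (h : ∀ a b, M a b ≠ 0 → f b ≤ f a ∧ (f b = f a → g a ≤ g b ∧ (g a = g b → a = b))) :
    M.det = ∏ a, M a a := by
  rw [Matrix.det_apply, Finset.sum_eq_single 1]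
  · simp
  · intro σ _ hσ
    by_contra hne
    have h1 : ∀ i, M (σ i) i ≠ 0 := by
      intro i hi
      have h0 : ∏ i, M (σ i) i = 0 := Finset.prod_eq_zero (Finset.mem_univ i) hi
      exact hne (by rw [h0, smul_zero])
    have h2 : ∀ i, f i = f (σ i) := by
      have h3 : ∑ i, f i = ∑ i, f (σ i) := (Equiv.sum_comp σ f).symm
      have h4 := (Finset.sum_eq_sum_iff_of_le (fun i _ => (h _ _ (h1 i)).1)).1 h3
      exact fun i => h4 i (Finset.mem_univ i)
    have h5 : ∀ i, g (σ i) = g i := by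
      have h3 : ∑ i, g (σ i) = ∑ i, g i := Equiv.sum_comp σ g
      have h4 := (Finset.sum_eq_sum_iff_of_le (fun i _ => ((h _ _ (h1 i)).2 (h2 i)).1)).1 h3
      exact fun i => h4 i (Finset.mem_univ i)
    exact hσ (Equiv.ext fun i => ((h _ _ (h1 i)).2 (h2 i)).2 (h5 i))
  · intro h
    exact absurd (Finset.mem_univ _) h

/-- `U = p s ^ k + ` terms of higher order in `s`. -/
private def Leads (k : ℕ) (p : MvPolynomial (Fin n) F)
    (U : PowerSeries (MvPolynomial (Fin n) F)) : Prop :=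
  ∃ V, U = PowerSeries.X ^ k * V ∧ PowerSeries.constantCoeff V = p

private theorem Leads.coeff_self {k : ℕ} {p : MvPolynomial (Fin n) F}
    {U : PowerSeries (MvPolynomial (Fin n) F)} (h : Leads k p U) :
    PowerSeries.coeff k U = p := by
  obtain ⟨V, rfl, rfl⟩ := h
  simp [PowerSeries.coeff_X_pow_mul']

private theorem Leads.coeff_lt {k : ℕ} {p : MvPolynomial (Fin n) F}
    {U : PowerSeries (MvPolynomial (Fin n) F)} (h : Leads k p U) {i : ℕ} (hi : i < k) :
    PowerSeries.coeff i U = 0 := by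
  obtain ⟨V, rfl, rfl⟩ := h
  rw [PowerSeries.coeff_X_pow_mul', if_neg (not_le.2 hi)]

private theorem leads_of {k : ℕ} {U : PowerSeries (MvPolynomial (Fin n) F)}
    (h : ∀ i < k, PowerSeries.coeff i U = 0) : Leads k (PowerSeries.coeff k U) U := by
  obtain ⟨V, rfl⟩ := PowerSeries.X_pow_dvd_iff.2 h
  exact ⟨V, rfl, by simp [PowerSeries.coeff_X_pow_mul']⟩

private theorem Leads.mul {k l : ℕ} {p q : MvPolynomial (Fin n) F}
    {U V : PowerSeries (MvPolynomial (Fin n) F)} (h : Leads k p U) (h' : Leads l q V) :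
    Leads (k + l) (p * q) (U * V) := by
  obtain ⟨U', rfl, rfl⟩ := h
  obtain ⟨V', rfl, rfl⟩ := h'
  exact ⟨U' * V', by ring, map_mul _ _ _⟩

private theorem Leads.pow {k : ℕ} {p : MvPolynomial (Fin n) F}
    {U : PowerSeries (MvPolynomial (Fin n) F)} (h : Leads k p U) (e : ℕ) :
    Leads (e * k) (p ^ e) (U ^ e) := by
  obtain ⟨V, rfl, rfl⟩ := h
  exact ⟨V ^ e, by rw [mul_pow, ← pow_mul, mul_comm k e], map_pow _ _ _⟩

private theorem leads_prod (k : Fin n → ℕ) (p : Fin n → MvPolynomial (Fin n) F)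
    (U : Fin n → PowerSeries (MvPolynomial (Fin n) F)) (h : ∀ i, Leads (k i) (p i) (U i)) :
    Leads (∑ i, k i) (∏ i, p i) (∏ i, U i) := by
  choose V hV hp using h
  refine ⟨∏ i, V i, ?_, ?_⟩
  · rw [← Finset.prod_pow_eq_pow_sum, ← Finset.prod_mul_distrib]
    exact Finset.prod_congr rfl fun i _ => hV i
  · rw [map_prod]
    exact Finset.prod_congr rfl fun i _ => hp i

private theorem jet_monomial (α : Fin n →₀ ℕ) :
    ∏ i, (X i : MvPolynomial (Fin n) F) ^ α i = monomial α 1 := by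
  rw [monomial_eq, Finsupp.prod_fintype _ _ fun i => pow_zero _, C_1, one_mul]

private theorem jet_degree {p : MvPolynomial (Fin n) F} {N : ℕ} (hp : p.IsHomogeneous N)
    {m : Fin n →₀ ℕ} (hm : coeff m p ≠ 0) : m.degree = N := by
  rw [Finsupp.degree_eq_weight_one (R := ℕ)]
  exact hp hm

/-- The coefficient of `t₀ ^ N` of a form of degree `N`. -/
private theorem jet_coeff_single [NeZero n] {p : MvPolynomial (Fin n) F} {N : ℕ}
    (hp : p.IsHomogeneous N) :
    coeff (Finsupp.single 0 N) p = eval (Pi.single 0 1 : Fin n → F) p := by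
  classical
  rw [eval_eq']
  have h : ∀ m ∈ p.support, coeff m p * ∏ i, (Pi.single 0 1 : Fin n → F) i ^ m i =
      if m = Finsupp.single 0 N then coeff m p else 0 := by
    intro m hm
    have hdeg : m.degree = N := jet_degree hp (mem_support_iff.1 hm)
    split_ifs with h
    · subst h
      rw [Finset.prod_eq_one, mul_one]
      intro i _
      by_cases hi : i = 0
      · subst hi
        simp
      · rw [Finsupp.single_eq_of_ne (by exact hi), pow_zero]
    · have hex : ∃ i, i ≠ 0 ∧ m i ≠ 0 := by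
        by_contra hcon
        push Not at hcon
        apply h
        have h0 : m 0 = N := by
          rw [← hdeg, Finsupp.degree_eq_sum, Finset.sum_eq_single 0]
          · intro b _ hb
            exact hcon b hb
          · intro h
            exact absurd (Finset.mem_univ _) h
        ext i
        by_cases hi : i = 0
        · subst hi
          simp [h0]
        · rw [hcon i hi, Finsupp.single_eq_of_ne (by exact hi)]
      obtain ⟨i, hi, hmi⟩ := hex
      rw [Finset.prod_eq_zero (Finset.mem_univ i), mul_zero]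
      rw [Pi.single_eq_of_ne hi, zero_pow hmi]
  rw [Finset.sum_congr rfl h, Finset.sum_ite_eq']
  split_ifs with hs
  · rfl
  · rwa [notMem_support_iff] at hs

/-- The matrix of the jets of the adapted basis is triangular. -/
theorem det_jet [NeZero n] [CharZero F]
    (Φ : MvPolynomial (Fin (n + 1)) F →ₐ[F] PowerSeries (MvPolynomial (Fin n) F))
    (x : Fin (n + 1) → F) (Λ : Matrix (Fin n) (Fin (n + 1)) F)
    (h0 : ∀ j, PowerSeries.coeff 0 (Φ (X j)) = C (x j))
    (h1 : ∀ j, PowerSeries.coeff 1 (Φ (X j)) = ∑ i, C (Λ i j) * X i)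
    (hq : Φ (quad n F) = 0) (A : Matrix (Fin n) (Fin n) F)
    (hA : ∀ i k, ∑ j, A i j * Λ k j.succ = if i = k then 1 else 0) (d : ℕ) :
    (Matrix.of fun a b => jet Φ d a (adp A x d b)).det =
      ∏ γ ∈ mon n d, (-(∑ j, Λ 0 j ^ 2) / 2) ^ (d - γ.degree) := by
  classical
  have hC : ∀ a, Φ (C a) = PowerSeries.C (C a) := by
    intro a
    rw [← algebraMap_eq, Φ.commutes, PowerSeries.algebraMap_apply, algebraMap_eq]
  have h0' : ∀ j, PowerSeries.constantCoeff (Φ (X j)) = C (x j) := fun j => by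
    rw [← PowerSeries.coeff_zero_eq_constantCoeff_apply, h0]
  -- the coordinates `W`
  have hW : ∀ i, Leads 1 (X i) (Φ (wco A x i)) := by
    intro i
    have e : Φ (wco A x i) =
        ∑ j, PowerSeries.C (C (A i j)) * (Φ (X j.succ) - PowerSeries.C (C (x j.succ))) := by
      rw [wco, map_sum]
      refine Finset.sum_congr rfl fun j _ => ?_
      rw [map_mul, map_sub, hC, hC]
    have e0 : ∀ k < 1, PowerSeries.coeff k (Φ (wco A x i)) = 0 := by
      intro k hk
      obtain rfl : k = 0 := by omega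
      rw [e, map_sum]
      refine Finset.sum_eq_zero fun j _ => ?_
      rw [PowerSeries.coeff_C_mul, map_sub, h0]
      simp
    have e1 : PowerSeries.coeff 1 (Φ (wco A x i)) = X i := by
      rw [e, map_sum]
      have : ∀ j, PowerSeries.coeff 1 (PowerSeries.C (C (A i j)) *
          (Φ (X j.succ) - PowerSeries.C (C (x j.succ)))) =
          ∑ k, C (A i j * Λ k j.succ) * (X k : MvPolynomial (Fin n) F) := by
        intro j
        rw [PowerSeries.coeff_C_mul, map_sub, h1, PowerSeries.coeff_C, if_neg one_ne_zero,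
          sub_zero, Finset.mul_sum]
        refine Finset.sum_congr rfl fun k _ => ?_
        rw [C_mul, mul_assoc]
      rw [Finset.sum_congr rfl fun j _ => this j, Finset.sum_comm]
      have h2 : ∀ k, ∑ j, C (A i j * Λ k j.succ) * (X k : MvPolynomial (Fin n) F) =
          if i = k then X k else 0 := by
        intro k
        rw [← Finset.sum_mul, ← map_sum, hA]
        split_ifs <;> simp
      rw [Finset.sum_congr rfl fun k _ => h2 k]
      simp
    have := leads_of e0
    rwa [e1] at this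
  -- the coordinate `G`
  set g : MvPolynomial (Fin n) F :=
    C (-1 / 2) * ∑ j, (∑ i, C (Λ i j) * X i) ^ 2 with hg
  have hG : Leads 2 g (Φ (gco x)) := by
    have hq' : ∑ j, Φ (X j) * Φ (X j) = 0 := by
      rw [← hq, quad, map_sum]
      exact Finset.sum_congr rfl fun j _ => by rw [map_pow, sq]
    have e : Φ (gco x) = ∑ j, PowerSeries.C (C (x j)) * Φ (X j) := by
      rw [gco, map_sum]
      refine Finset.sum_congr rfl fun j _ => ?_
      rw [map_mul, hC]
    have ek : ∀ k, PowerSeries.coeff k (Φ (gco x)) =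
        ∑ j, C (x j) * PowerSeries.coeff k (Φ (X j)) := by
      intro k
      rw [e, map_sum]
      exact Finset.sum_congr rfl fun j _ => PowerSeries.coeff_C_mul _ _ _
    have hm : ∀ k (U V : PowerSeries (MvPolynomial (Fin n) F)), PowerSeries.coeff k (U * V) =
        ∑ i ∈ Finset.range (k + 1), PowerSeries.coeff i U * PowerSeries.coeff (k - i) V := by
      intro k U V
      rw [PowerSeries.coeff_mul, Finset.Nat.sum_antidiagonal_eq_sum_range_succ_mk]
    have q0 := congrArg (PowerSeries.coeff 0) hq'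
    have q1 := congrArg (PowerSeries.coeff 1) hq'
    have q2 := congrArg (PowerSeries.coeff 2) hq'
    simp only [map_sum, hm, Finset.sum_range_succ, Finset.range_zero, Finset.sum_empty, zero_add,
      Nat.sub_self, Nat.sub_zero, Nat.reduceSub, h0, h1, map_zero] at q0 q1 q2
    have g0 : ∀ k < 2, PowerSeries.coeff k (Φ (gco x)) = 0 := by
      intro k hk
      rw [ek]
      have hk' : k = 0 ∨ k = 1 := by omega
      rcases hk' with rfl | rfl
      · simp only [h0]
        exact q0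
      · simp only [h1]
        have h2 : (2 : MvPolynomial (Fin n) F) * ∑ j, C (x j) * ∑ i, C (Λ i j) * X i = 0 := by
          rw [← q1, Finset.mul_sum]
          exact Finset.sum_congr rfl fun j _ => by ring
        exact (mul_eq_zero.1 h2).resolve_left two_ne_zero
    have g2 : PowerSeries.coeff 2 (Φ (gco x)) = g := by
      rw [ek, hg]
      have h2 : (2 : MvPolynomial (Fin n) F) * C (-1 / 2) = -1 := by
        have h3 : (2 : MvPolynomial (Fin n) F) = C 2 := (map_ofNat C 2).symm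
        rw [h3, ← C_mul]
        have h4 : (2 : F) * (-1 / 2) = -1 := by field_simp
        rw [h4]
        simp
      refine mul_left_cancel₀ (two_ne_zero (α := MvPolynomial (Fin n) F)) ?_
      rw [← mul_assoc, h2, neg_one_mul, eq_neg_iff_add_eq_zero, ← q2, Finset.mul_sum,
        ← Finset.sum_add_distrib]
      exact Finset.sum_congr rfl fun j _ => by ring
    have := leads_of g0
    rwa [g2] at this
  have hghom : g.IsHomogeneous 2 := by
    have h2 : (∑ j, (∑ i, C (Λ i j) * (X i : MvPolynomial (Fin n) F)) ^ 2).IsHomogeneous 2 := by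
      refine IsHomogeneous.sum _ _ _ fun j _ => ?_
      have h3 : (∑ i, C (Λ i j) * (X i : MvPolynomial (Fin n) F)).IsHomogeneous 1 :=
        IsHomogeneous.sum _ _ _ fun i _ => isHomogeneous_C_mul_X _ _
      exact h3.pow 2
    have h4 := (isHomogeneous_C (Fin n) (-1 / 2 : F)).mul h2
    rwa [zero_add] at h4
  have hgb : ∀ b : ℕ, (g ^ b).IsHomogeneous (2 * b) := fun b => hghom.pow b
  have hgc : ∀ b : ℕ, coeff (Finsupp.single 0 (2 * b)) (g ^ b) =
      (-(∑ j, Λ 0 j ^ 2) / 2) ^ b := by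
    intro b
    rw [jet_coeff_single (hgb b), map_pow]
    congr 1
    rw [hg]
    simp only [map_mul, map_sum, map_pow, eval_C, eval_X]
    have h2 : ∀ j, ∑ i, Λ i j * (Pi.single 0 1 : Fin n → F) i = Λ 0 j := by
      intro j
      rw [Finset.sum_eq_single 0]
      · simp
      · intro i _ hi
        rw [Pi.single_eq_of_ne hi, mul_zero]
      · intro h
        exact absurd (Finset.mem_univ _) h
    simp only [h2]
    ring
  -- the leading terms of the adapted basis
  have hWp : ∀ α : Fin n →₀ ℕ, Leads α.degree (monomial α 1) (∏ i, Φ (wco A x i) ^ α i) := by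
    intro α
    have h2 := leads_prod (fun i => α i * 1) (fun i => X i ^ α i)
      (fun i => Φ (wco A x i) ^ α i) (fun i => (hW i).pow _)
    rw [jet_monomial] at h2
    have e1 : ∑ i, α i * 1 = α.degree := by simp [Finsupp.degree_eq_sum]
    rwa [e1] at h2
  have hl : ∀ α, Leads (ord n d (.inl α)) (monomial α.1 1) (Φ (adp A x d (.inl α))) := by
    intro α
    simpa only [adp, ord, Sum.elim_inl, map_prod, map_pow] using hWp α.1
  have hr : ∀ γ, Leads (ord n d (.inr γ)) (g ^ (d - γ.1.degree) * monomial γ.1 1)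
      (Φ (adp A x d (.inr γ))) := by
    intro γ
    have h2 := (hG.pow (d - γ.1.degree)).mul (hWp γ.1)
    have hγ := mem_mon.1 γ.2
    have e1 : (d - γ.1.degree) * 2 + γ.1.degree = ord n d (.inr γ) := by
      simp only [ord, Sum.elim_inl, Sum.elim_inr]
      omega
    rw [e1] at h2
    simpa only [adp, Sum.elim_inr, map_mul, map_prod, map_pow] using h2
  have hex : ∀ b, ∃ p, Leads (ord n d b) p (Φ (adp A x d b)) := by
    rintro (α | γ)
    · exact ⟨_, hl α⟩
    · exact ⟨_, hr γ⟩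
  have hlt : ∀ a b, ord n d a < ord n d b → jet Φ d a (adp A x d b) = 0 := by
    intro a b hab
    obtain ⟨p, hp⟩ := hex b
    rw [jet, hp.coeff_lt hab, coeff_zero]
  have hll : ∀ α α' : ↥(mon n (d + 1)), ord n d (.inl α) = ord n d (.inl α') →
      jet Φ d (.inl α) (adp A x d (.inl α')) = if α'.1 = α.1 then 1 else 0 := by
    intro α α' h
    rw [jet, h, (hl α').coeff_self, expo, Sum.elim_inl, coeff_monomial]
  have hrr : ∀ γ γ' : ↥(mon n d), ord n d (.inr γ) = ord n d (.inr γ') →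
      jet Φ d (.inr γ) (adp A x d (.inr γ')) =
        if γ'.1 ≤ Finsupp.single 0 (2 * (d - γ.1.degree)) + γ.1 then
          coeff (Finsupp.single 0 (2 * (d - γ.1.degree)) + γ.1 - γ'.1)
            (g ^ (d - γ'.1.degree)) else 0 := by
    intro γ γ' h
    rw [jet, h, (hr γ').coeff_self, expo, Sum.elim_inr, coeff_mul_monomial', mul_one]
  rw [jet_det_keys _ (ord n d) (Sum.elim (fun _ => 0) fun γ => γ.1 0)]
  · simp only [Matrix.of_apply]
    rw [Fintype.prod_sum_type]
    have e1 : ∀ α : ↥(mon n (d + 1)), jet Φ d (.inl α) (adp A x d (.inl α)) = 1 := fun α => by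
      rw [hll α α rfl, if_pos rfl]
    have e2 : ∀ γ : ↥(mon n d), jet Φ d (.inr γ) (adp A x d (.inr γ)) =
        (-(∑ j, Λ 0 j ^ 2) / 2) ^ (d - γ.1.degree) := fun γ => by
      rw [hrr γ γ rfl, if_pos (self_le_add_left _ _), add_tsub_cancel_right, hgc]
    rw [Finset.prod_congr rfl fun α _ => e1 α, Finset.prod_const_one, one_mul,
      Finset.prod_congr rfl fun γ _ => e2 γ,
      Finset.prod_coe_sort (mon n d) fun γ => (-(∑ j, Λ 0 j ^ 2) / 2) ^ (d - γ.degree)]
  · intro a b hab
    rw [Matrix.of_apply] at hab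
    refine ⟨not_lt.1 fun h => hab (hlt a b h), fun hord => ?_⟩
    rcases a with α | γ <;> rcases b with α' | γ'
    · rw [hll α α' hord.symm] at hab
      refine ⟨le_rfl, fun _ => ?_⟩
      by_contra hne
      refine hab (if_neg fun h => hne ?_)
      rw [Subtype.ext h]
    · exfalso
      have h2 := mem_mon.1 α.2
      have h3 := mem_mon.1 γ'.2
      simp only [ord, Sum.elim_inl, Sum.elim_inr] at hord
      omega
    · exfalso
      have h2 := mem_mon.1 α'.2
      have h3 := mem_mon.1 γ.2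
      simp only [ord, Sum.elim_inl, Sum.elim_inr] at hord
      omega
    · rw [hrr γ γ' hord.symm] at hab
      have h2 := mem_mon.1 γ.2
      have h3 := mem_mon.1 γ'.2
      simp only [ord, Sum.elim_inl, Sum.elim_inr] at hord
      have hdeg : γ.1.degree = γ'.1.degree := by omega
      by_cases hle : γ'.1 ≤ Finsupp.single 0 (2 * (d - γ.1.degree)) + γ.1
      swap
      · exact absurd (if_neg hle) hab
      rw [if_pos hle] at hab
      set m := Finsupp.single 0 (2 * (d - γ.1.degree)) + γ.1 - γ'.1 with hm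
      have hmd : m.degree = 2 * (d - γ'.1.degree) := jet_degree (hgb _) hab
      have hmi : ∀ i, m i + γ'.1 i = Finsupp.single 0 (2 * (d - γ.1.degree)) i + γ.1 i := by
        intro i
        have h4 := hle i
        rw [hm, Finsupp.tsub_apply, Finsupp.add_apply]
        rw [Finsupp.add_apply] at h4
        omega
      have hm0 := hmi 0
      rw [Finsupp.single_eq_same] at hm0
      have hsum : m 0 + ∑ i ∈ Finset.univ.erase 0, m i = 2 * (d - γ'.1.degree) := by
        rw [Finset.add_sum_erase _ _ (Finset.mem_univ 0), ← Finsupp.degree_eq_sum, hmd]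
      simp only [Sum.elim_inr]
      refine ⟨by omega, fun h00 => ?_⟩
      have hzero : ∑ i ∈ Finset.univ.erase 0, m i = 0 := by omega
      have : γ = γ' := by
        refine Subtype.ext (Finsupp.ext fun i => ?_)
        by_cases hi : i = 0
        · subst hi
          exact h00
        · have h4 := (Finset.sum_eq_zero_iff.1 hzero) i
            (Finset.mem_erase.2 ⟨hi, Finset.mem_univ i⟩)
          have h5 := hmi i
          rw [Finsupp.single_eq_of_ne (by exact hi), h4] at h5
          omega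
      rw [this]

end Vale.Agent.P282.WR
end

section

/-!
P282-WR-8: the Gram matrix of a frame.
-/

open scoped NNReal Nat

namespace Vale.Agent.P282.WR

/-- A bordered matrix with entry `0` in the corner, border `≤ B` and other entries `≤ γ`. -/
theorem gr_bordered {n : ℕ} {F : Type} [Field F] (w : Valuation F ℝ≥0) {B γ : ℝ≥0}
    (M : Matrix (Fin (n + 1)) (Fin (n + 1)) F) (h00 : M 0 0 = 0)
    (h0 : ∀ i : Fin n, w (M 0 i.succ) ≤ B) (h1 : ∀ i : Fin n, w (M i.succ 0) ≤ B)
    (h2 : ∀ i k : Fin n, w (M i.succ k.succ) ≤ γ) :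
    w M.det ≤ B ^ 2 * γ ^ (n - 1) := by
  classical
  rw [Matrix.det_apply]
  refine Valuation.map_sum_le w fun σ _ => ?_
  have hs : w (Equiv.Perm.sign σ • ∏ i, M (σ i) i) = ∏ i, w (M (σ i) i) := by
    rw [← map_prod]
    rcases Int.units_eq_one_or (Equiv.Perm.sign σ) with h | h <;> rw [h]
    · rw [one_smul]
    · rw [Units.neg_smul, one_smul, Valuation.map_neg]
  rw [hs]
  by_cases hσ : σ 0 = 0
  · have : ∏ i, w (M (σ i) i) = 0 :=
      Finset.prod_eq_zero (Finset.mem_univ 0) (by rw [hσ, h00, map_zero])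
    rw [this]
    exact zero_le
  · set i0 := σ.symm 0 with hi0
    have hσ0 : σ i0 = 0 := by rw [hi0, Equiv.apply_symm_apply]
    have hne : (0 : Fin (n + 1)) ≠ i0 := by
      intro h
      apply hσ
      conv_lhs => rw [h]
      exact hσ0
    have hb : ∀ i ∈ Finset.univ, w (M (σ i) i) ≤ if i = 0 ∨ i = i0 then B else γ := by
      intro i _
      by_cases hi : i = 0
      · rw [if_pos (Or.inl hi), hi]
        obtain ⟨k, hk⟩ := Fin.exists_succ_eq.mpr hσ
        rw [← hk]
        exact h1 k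
      · obtain ⟨k, hk⟩ := Fin.exists_succ_eq.mpr hi
        by_cases hi' : i = i0
        · rw [if_pos (Or.inr hi')]
          have : σ i = 0 := by rw [hi']; exact hσ0
          rw [this, ← hk]
          exact h0 k
        · rw [if_neg (by tauto)]
          have : σ i ≠ 0 := fun h => hi' (by rw [hi0, ← h, Equiv.symm_apply_apply])
          obtain ⟨l, hl⟩ := Fin.exists_succ_eq.mpr this
          rw [← hl, ← hk]
          exact h2 l k
    refine (Finset.prod_le_prod (fun _ _ => zero_le) hb).trans ?_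
    rw [Finset.prod_ite, Finset.prod_const, Finset.prod_const]
    have hf : (Finset.univ.filter fun i : Fin (n + 1) => i = 0 ∨ i = i0) = {0, i0} := by
      ext i; simp
    have hc : (Finset.univ.filter fun i : Fin (n + 1) => i = 0 ∨ i = i0).card = 2 := by
      rw [hf, Finset.card_pair hne]
    have hc' : (Finset.univ.filter fun i : Fin (n + 1) => ¬ (i = 0 ∨ i = i0)).card = n - 1 := by
      have h := Finset.card_filter_add_card_filter_not (s := (Finset.univ : Finset (Fin (n + 1))))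
        (fun i => i = 0 ∨ i = i0)
      rw [hc, Finset.card_univ, Fintype.card_fin] at h
      omega
    rw [hc, hc']

theorem gram_bound {n : ℕ} [NeZero n] {F : Type} [Field F] [Algebra ℂ F] (w : Valuation F ℝ≥0)
    (hw : ∀ c : ℂ, c ≠ 0 → w (algebraMap ℂ F c) = 1) (L : Fin n → Derivation ℂ F F) {B : ℝ≥0}
    (hL : ∀ i f, w (L i f) ≤ B * w f) (x : Fin (n + 1) → F)
    (hq : ∑ j, x j ^ 2 = 0) (hx0 : x 0 ≠ 0) {h0 : F} (hh : h0 ≠ 0)
    (hdet : Matrix.det (Matrix.of fun i j : Fin n => L i (x j.succ)) = 2 * x 0 * h0) {γ : ℝ≥0}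
    (hγ : ∀ i k, w (∑ j, L i (x j) * L k (x j)) ≤ γ) :
    w h0 ^ 2 ≤ B ^ 2 * γ ^ (n - 1) := by
  classical
  -- the bordered matrix
  let Z : Matrix (Fin (n + 1)) (Fin (n + 1)) F :=
    Matrix.of (Fin.cons (Pi.single 0 (x 0)⁻¹) (fun i j => L i (x j)))
  have hZ0 : ∀ j, Z 0 j = Pi.single (M := fun _ => F) 0 (x 0)⁻¹ j := fun j => rfl
  have hZs : ∀ (i : Fin n) j, Z i.succ j = L i (x j) := fun i j => rfl
  have h2a : algebraMap ℂ F 2 = 2 := map_ofNat (algebraMap ℂ F) 2
  have h20 : (2 : F) ≠ 0 := by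
    rw [← h2a, Ne, FaithfulSMul.algebraMap_eq_zero_iff]
    exact two_ne_zero
  have hZdet : Z.det = 2 * h0 := by
    rw [Matrix.det_succ_row_zero, Fin.sum_univ_succ, Finset.sum_eq_zero, add_zero, hZ0,
      Pi.single_eq_same]
    · have : (Z.submatrix Fin.succ (Fin.succAbove 0)) =
          Matrix.of fun i j : Fin n => L i (x j.succ) := by
        ext i j
        simp [Matrix.submatrix_apply, hZs]
      rw [this, hdet]
      simp only [Fin.val_zero, pow_zero, one_mul]
      field_simp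
    · intro i _
      rw [hZ0, Pi.single_eq_of_ne (Fin.succ_ne_zero i)]
      simp
  -- `Z x = e_0`
  have hZx : Z.mulVec x = Pi.single 0 1 := by
    ext i
    refine Fin.cases ?_ (fun i => ?_) i
    · rw [Matrix.mulVec, dotProduct, Finset.sum_eq_single 0]
      · rw [hZ0, Pi.single_eq_same, Pi.single_eq_same, inv_mul_cancel₀ hx0]
      · intro j _ hj
        rw [hZ0, Pi.single_eq_of_ne hj, zero_mul]
      · intro h; exact absurd (Finset.mem_univ _) h
    · rw [Matrix.mulVec, dotProduct, Pi.single_eq_of_ne (Fin.succ_ne_zero i)]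
      simp only [hZs]
      have h1 : L i (∑ j, x j ^ 2) = 0 := by rw [hq, map_zero]
      rw [map_sum] at h1
      have h2 : ∀ j, L i (x j ^ 2) = 2 * (L i (x j) * x j) := by
        intro j
        rw [sq, Derivation.leibniz, smul_eq_mul]; ring
      simp only [h2] at h1
      rw [← Finset.mul_sum] at h1
      exact (mul_eq_zero.mp h1).resolve_left h20
  have hadj : ∀ j, Z.adjugate j 0 = Z.det * x j := by
    intro j
    have h1 : Z.adjugate.mulVec (Z.mulVec x) = Z.det • x := by
      rw [Matrix.mulVec_mulVec, Matrix.adjugate_mul, Matrix.smul_mulVec, Matrix.one_mulVec]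
    rw [hZx] at h1
    have h2 := congrFun h1 j
    rw [Pi.smul_apply, smul_eq_mul] at h2
    rw [← h2, Matrix.mulVec, dotProduct, Finset.sum_eq_single 0]
    · rw [Pi.single_eq_same, mul_one]
    · intro k _ hk
      rw [Pi.single_eq_of_ne hk, mul_zero]
    · intro h; exact absurd (Finset.mem_univ _) h
  -- the Gram matrix
  let M : Matrix (Fin (n + 1)) (Fin (n + 1)) F := Z * Z.transpose
  have hM : ∀ i k, M i k = ∑ j, Z i j * Z k j := fun i k => rfl
  have hMdet : M.det = (2 * h0) ^ 2 := by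
    rw [Matrix.det_mul, Matrix.det_transpose, hZdet, sq]
  have hMadj : M.adjugate 0 0 = 0 := by
    have h1 : M.adjugate = Z.adjugate.transpose * Z.adjugate := by
      rw [Matrix.adjugate_mul_distrib, Matrix.adjugate_transpose]
    rw [h1, Matrix.mul_apply]
    simp only [Matrix.transpose_apply, hadj]
    have h2 : ∀ j, Z.det * x j * (Z.det * x j) = Z.det ^ 2 * x j ^ 2 := fun j => by ring
    simp only [h2]
    rw [← Finset.mul_sum, hq, mul_zero]
  let v : Fin (n + 1) → F := Fin.cons 0 (fun i => M 0 i.succ)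
  have hM0 : M 0 = M 0 0 • Pi.single 0 1 + v := by
    ext j
    refine Fin.cases ?_ (fun j => ?_) j
    · simp [v]
    · simp [v, Fin.succ_ne_zero]
  have hM' : M.det = (M.updateRow 0 v).det := by
    conv_lhs => rw [← Matrix.updateRow_eq_self M 0, hM0]
    rw [Matrix.det_updateRow_add, Matrix.det_updateRow_smul, ← Matrix.adjugate_apply, hMadj,
      mul_zero, zero_add]
  -- entries
  have hp : ∀ i : Fin n, w (M 0 i.succ) ≤ B := by
    intro i
    have h1 : M 0 i.succ = (x 0)⁻¹ * L i (x 0) := by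
      rw [hM, Finset.sum_eq_single 0]
      · rw [hZ0, Pi.single_eq_same, hZs]
      · intro j _ hj
        rw [hZ0, Pi.single_eq_of_ne hj, zero_mul]
      · intro h; exact absurd (Finset.mem_univ _) h
    rw [h1, map_mul, map_inv₀]
    have h2 : w (x 0) ≠ 0 := (Valuation.ne_zero_iff w).mpr hx0
    calc (w (x 0))⁻¹ * w (L i (x 0)) ≤ (w (x 0))⁻¹ * (B * w (x 0)) := by
          gcongr; exact hL i _
      _ = B := by field_simp
  have hsym : ∀ i k, M i k = M k i := by
    intro i k
    rw [hM, hM]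
    exact Finset.sum_congr rfl fun j _ => mul_comm _ _
  have key : w (M.updateRow 0 v).det ≤ B ^ 2 * γ ^ (n - 1) := by
    refine gr_bordered w _ ?_ ?_ ?_ ?_
    · rw [Matrix.updateRow_self]; rfl
    · intro i
      rw [Matrix.updateRow_self]
      exact hp i
    · intro i
      rw [Matrix.updateRow_ne (Fin.succ_ne_zero i), hsym]
      exact hp i
    · intro i k
      rw [Matrix.updateRow_ne (Fin.succ_ne_zero i)]
      exact hγ i k
  rw [← hM', hMdet, map_pow, map_mul] at key
  have h2w : w (2 : F) = 1 := by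
    have := hw 2 two_ne_zero
    rwa [h2a] at this
  rwa [h2w, one_mul] at key

end Vale.Agent.P282.WR
end
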