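import Mathlib
import Vale.Agent.P282.Bd3.B2
import Vale.Agent.P282.Bd3.B1

set_option linter.all false

namespace AFast9067b7x6a
@[reducible] noncomputable def a0 {x1 : ℕ} {x2 : Type} [x3 : Field x2] [x4 : Algebra (FractionRing (Vale.Agent.P282.L2.Pol x1)) x2] : Module (FractionRing (Vale.Agent.P282.L2.Pol x1)) x2 := inferInstance
@[reducible] noncomputable def a1 {x1 : ℕ} : SMul (Vale.Agent.P282.L2.Pol x1) (OreLocalization (nonZeroDivisors (Vale.Agent.P282.L2.Pol x1)) (Vale.Agent.P282.L2.Pol x1)) := inferInstance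
@[reducible] noncomputable def a2 {x1 : ℕ} : DivisionRing (OreLocalization (nonZeroDivisors (Vale.Agent.P282.L2.Pol x1)) (Vale.Agent.P282.L2.Pol x1)) := inferInstance
@[reducible] noncomputable def a3 {x1 : ℕ} {x2 : Type} [x3 : Field x2] [x4 : Algebra (Vale.Agent.P282.L2.Pol x1) x2] : NPow (Ideal (Vale.Agent.P282.L2.IB x1 x2)) := inferInstance
@[reducible] noncomputable def a4 {x1 : ℕ} {x2 : Type} [x3 : Field x2] [x4 : Algebra (Vale.Agent.P282.L2.Pol x1) x2] : Monoid (Ideal (Vale.Agent.P282.L2.IB x1 x2)) := inferInstance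
@[reducible] noncomputable def a5 {x1 : ℕ} {x2 : Type} [x3 : Field x2] [x4 : Algebra (Vale.Agent.P282.L2.Pol x1) x2] : Semiring (Ideal (Vale.Agent.P282.L2.IB x1 x2)) := inferInstance
@[reducible] noncomputable def a6 {x1 : ℕ} : Algebra (Vale.Agent.P282.L2.Pol x1) (OreLocalization (nonZeroDivisors (Vale.Agent.P282.L2.Pol x1)) (Vale.Agent.P282.L2.Pol x1)) := inferInstance
@[reducible] noncomputable def a7 {x1 : ℕ} {x2 : Type} [x3 : Field x2] [x4 : Algebra (Vale.Agent.P282.L2.Pol x1) x2] : Pow (Ideal (Vale.Agent.P282.L2.IB x1 x2)) ℕ := inferInstance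
@[reducible] noncomputable def a8 {x1 : ℕ} : CommSemiring (OreLocalization (nonZeroDivisors (Vale.Agent.P282.L2.Pol x1)) (Vale.Agent.P282.L2.Pol x1)) := inferInstance
@[reducible] noncomputable def a9 {x1 : ℕ} : OreLocalization.OreSet (nonZeroDivisors (Vale.Agent.P282.L2.Pol x1)) := inferInstance
@[reducible] noncomputable def a10 {x1 : ℕ} {x2 : Type} [x3 : Field x2] [x4 : Algebra (Vale.Agent.P282.L2.Pol x1) x2] : Pow (Submodule (Vale.Agent.P282.L2.IB x1 x2) (Vale.Agent.P282.L2.IB x1 x2)) ℕ := inferInstance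
theorem a11 : CovariantClass ℝ ℝ (Function.swap fun x1 x2 => x1 + x2) fun x1 x2 => x1 ≤ x2 := inferInstance
@[reducible] noncomputable def a12 {x1 : ℕ} {x2 : Type} [x3 : Field x2] [x4 : Algebra (Vale.Agent.P282.L2.Pol x1) x2] {x5 : Ideal (Vale.Agent.P282.L2.IB x1 x2)} : Semiring (Vale.Agent.P282.L2.IB x1 x2 ⧸ x5) := inferInstance
@[reducible] noncomputable def a13 {x1 : ℕ} {x2 : Type} [x3 : Field x2] [x4 : Algebra (Vale.Agent.P282.L2.Pol x1) x2] {x5 : Ideal (Vale.Agent.P282.L2.IB x1 x2)} : Ring (Vale.Agent.P282.L2.IB x1 x2 ⧸ x5) := inferInstance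
@[reducible] noncomputable def a14 {x1 : ℕ} : CommMonoid (Vale.Agent.P282.L2.Pol x1) := inferInstance
@[reducible] noncomputable def a15 {x1 : ℕ} : Algebra (Vale.Agent.P282.L2.Pol x1) (Polynomial (Vale.Agent.P282.L2.Pol x1)) := inferInstance
theorem a16 : IsTopologicalRing ℂ := inferInstance
theorem a17 : CharZero ℝ := inferInstance
theorem a18 : ContinuousAdd ℂ := inferInstance
@[reducible] noncomputable def a19 {x1 : ℕ} : Monoid (Vale.Agent.P282.L2.Pol x1) := inferInstance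
theorem a20 : AddLeftMono ℝ := inferInstance
theorem a21 {x1 : ℕ} : NoZeroDivisors (MvPolynomial (Fin x1) ℂ) := inferInstance
@[reducible] noncomputable def a22 {x1 : Type} {x2 : ℕ} [x3 : Field x1] [x4 : Algebra (Vale.Agent.P282.L2.Pol x2) x1] : Zero ↥(integralClosure (Vale.Agent.P282.L2.Pol x2) x1) := inferInstance
theorem a23 : IsSemitopologicalSemiring ℂ := inferInstance
theorem a24 {x1 : ℕ} : IsScalarTower (Vale.Agent.P282.L2.Pol x1) (Vale.Agent.P282.L2.Pol x1) (Vale.Agent.P282.L2.Pol x1) := inferInstance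
@[reducible] noncomputable def a25 {x1 : ℕ} {x2 : Type} [x3 : Field x2] [x4 : Algebra (Vale.Agent.P282.L2.Pol x1) x2] : Mul (Submodule (Vale.Agent.P282.L2.IB x1 x2) (Vale.Agent.P282.L2.IB x1 x2)) := inferInstance
theorem a26 : IsSemitopologicalRing ℂ := inferInstance
theorem a27 {x1 : ℕ} {x2 : Type} [x3 : Field x2] [x4 : Algebra (Vale.Agent.P282.L2.Pol x1) x2] : IsScalarTower (Vale.Agent.P282.L2.IB x1 x2) (Vale.Agent.P282.L2.IB x1 x2) (Vale.Agent.P282.L2.IB x1 x2) := inferInstance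
theorem a28 : AddMonoidHomClass (ℂ →+* ℂ) ℂ ℂ := inferInstance
theorem a29 : DistribMulActionSemiHomClass (ℂ →+* ℂ) ⇑(RingHom.id ℚ≥0) ℂ ℂ := inferInstance
theorem a30 : IsTopologicalSemiring ℂ := inferInstance
@[reducible] noncomputable def a31 {x1 : ℕ} {x2 : Type} [x3 : Field x2] [x4 : Algebra (Vale.Agent.P282.L2.Pol x1) x2] {x5 : Ideal (Vale.Agent.P282.L2.IB x1 x2)} : NonAssocSemiring (Vale.Agent.P282.L2.IB x1 x2 ⧸ x5) := inferInstance
@[reducible] noncomputable def a32 {x1 : Type} {x2 : ℕ} [x3 : Field x1] [x4 : Algebra (Vale.Agent.P282.L2.Pol x2) x1] : Pow ↥(integralClosure (Vale.Agent.P282.L2.Pol x2) x1) ℕ := inferInstance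
@[reducible] noncomputable def a33 {x1 : ℕ} {x2 : Type} [x3 : Field x2] [x4 : Algebra (Vale.Agent.P282.L2.Pol x1) x2] : Pow (Vale.Agent.P282.L2.IB x1 x2) ℕ := inferInstance
@[reducible] def a34 : Monoid ℂ := inferInstance
theorem a35 : ContinuousMul ℂ := inferInstance
@[reducible] noncomputable def a36 {x1 : ℕ} {x2 : Type} [x3 : Field x2] [x4 : Algebra (Vale.Agent.P282.L2.Pol x1) x2] : Monoid (Vale.Agent.P282.L2.IB x1 x2) := inferInstance
@[reducible] noncomputable def a37 {x1 : ℕ} {x2 : Type} [x3 : Field x2] [x4 : Algebra (Vale.Agent.P282.L2.Pol x1) x2] : Zero (Vale.Agent.P282.L2.IB x1 x2) := inferInstance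
@[reducible] def a38 : Pow ℂ ℕ := inferInstance
theorem a39 : IsTopologicalAddGroup ℂ := inferInstance
theorem a40 {x1 : ℕ} {x2 : Type} [x3 : Field x2] [x4 : Algebra (Vale.Agent.P282.L2.Pol x1) x2] : AddSubmonoidClass (Subalgebra (Vale.Agent.P282.L2.Pol x1) x2) x2 := inferInstance
theorem a41 {x1 : ℕ} {x2 : Type} [x3 : Field x2] [x4 : Algebra (Vale.Agent.P282.L2.Pol x1) x2] : MulHomClass (Vale.Agent.P282.L2.IB x1 x2 →+* ℂ) (Vale.Agent.P282.L2.IB x1 x2) ℂ := inferInstance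
@[reducible] def a42 : NPow ℂ := inferInstance
@[reducible] noncomputable def a43 : NormedSpace ℝ ℂ := inferInstance
@[reducible] noncomputable def a44 {x1 : ℕ} {x2 : Type} [x3 : Field x2] [x4 : Algebra (Vale.Agent.P282.L2.Pol x1) x2] : IdemSemiring (Submodule (Vale.Agent.P282.L2.IB x1 x2) (Vale.Agent.P282.L2.IB x1 x2)) := inferInstance
@[reducible] noncomputable def a45 {x1 : ℕ} {x2 : Type} [x3 : Field x2] [x4 : Algebra (Vale.Agent.P282.L2.Pol x1) x2] : MulOne (Ideal (Vale.Agent.P282.L2.IB x1 x2)) := inferInstance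
@[reducible] noncomputable def a46 {x1 : Type} {x2 : ℕ} [x3 : Field x1] [x4 : Algebra (Vale.Agent.P282.L2.Pol x2) x1] : Sub ↥(integralClosure (Vale.Agent.P282.L2.Pol x2) x1) := inferInstance
@[reducible] noncomputable def a47 {x1 : ℕ} {x2 : Type} [x3 : Field x2] [x4 : Algebra (Vale.Agent.P282.L2.Pol x1) x2] : MulOneClass (Ideal (Vale.Agent.P282.L2.IB x1 x2)) := inferInstance
theorem a48 : IsTopologicalDivisionRing ℂ := inferInstance
@[reducible] noncomputable def a49 {x1 : ℕ} {x2 : Type} [x3 : Field x2] [x4 : Algebra (Vale.Agent.P282.L2.Pol x1) x2] : HasQuotient (Vale.Agent.P282.L2.IB x1 x2) (Ideal (Vale.Agent.P282.L2.IB x1 x2)) := inferInstance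
theorem a50 {x1 : ℕ} {x2 : Type} [x3 : Field x2] [x4 : Algebra (Vale.Agent.P282.L2.Pol x1) x2] : MonoidHomClass (Vale.Agent.P282.L2.IB x1 x2 →+* ℂ) (Vale.Agent.P282.L2.IB x1 x2) ℂ := inferInstance
theorem a51 {x1 : Type} [x2 : Field x1] : MulHomClass (Valuation x1 NNReal) x1 NNReal := inferInstance
theorem a52 {x1 : ℕ} {x2 : Type} [x3 : Field x2] [x4 : Algebra (Vale.Agent.P282.L2.Pol x1) x2] : OneHomClass (Vale.Agent.P282.L2.IB x1 x2 →+* ℂ) (Vale.Agent.P282.L2.IB x1 x2) ℂ := inferInstance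
@[reducible] noncomputable def a53 {x1 : ℕ} {x2 : Type} [x3 : Field x2] [x4 : Algebra (Vale.Agent.P282.L2.Pol x1) x2] {x5 : Ideal (Vale.Agent.P282.L2.IB x1 x2)} [x6 : Algebra ℂ x2] [x7 : IsScalarTower ℂ (Vale.Agent.P282.L2.Pol x1) x2] : Top (Submodule ℂ (Vale.Agent.P282.L2.IB x1 x2 ⧸ x5)) := inferInstance
@[reducible] noncomputable def a54 {x1 : ℕ} {x2 : Type} [x3 : Field x2] [x4 : Algebra (Vale.Agent.P282.L2.Pol x1) x2] : Sub (Vale.Agent.P282.L2.IB x1 x2) := inferInstance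
@[reducible] def a55 : AddMonoidWithOne ENNReal := inferInstance
theorem a56 {x1 : ℕ} {x2 : Type} [x3 : Field x2] [x4 : Algebra (Vale.Agent.P282.L2.Pol x1) x2] : ZeroMemClass (Subalgebra (Vale.Agent.P282.L2.Pol x1) x2) x2 := inferInstance
@[reducible] noncomputable def a57 {x1 : ℕ} {x2 : Type} [x3 : Field x2] [x4 : Algebra (Vale.Agent.P282.L2.Pol x1) x2] : NPow (Vale.Agent.P282.L2.IB x1 x2) := inferInstance
@[reducible] noncomputable def a58 {x1 : Type} {x2 : ℕ} [x3 : Field x1] [x4 : Algebra (Vale.Agent.P282.L2.Pol x2) x1] : One ↥(integralClosure (Vale.Agent.P282.L2.Pol x2) x1) := inferInstance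
@[reducible] noncomputable def a59 {x1 : ℕ} : Module ℝ (Fin x1 → ℂ) := inferInstance
end AFast9067b7x6a
attribute [local instance] AFast9067b7x6a.a0 AFast9067b7x6a.a1 AFast9067b7x6a.a2 AFast9067b7x6a.a3
  AFast9067b7x6a.a4 AFast9067b7x6a.a5 AFast9067b7x6a.a6 AFast9067b7x6a.a7 AFast9067b7x6a.a8
  AFast9067b7x6a.a9 AFast9067b7x6a.a10 AFast9067b7x6a.a11 AFast9067b7x6a.a12 AFast9067b7x6a.a13
  AFast9067b7x6a.a14 AFast9067b7x6a.a15 AFast9067b7x6a.a16 AFast9067b7x6a.a17 AFast9067b7x6a.a18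
  AFast9067b7x6a.a19 AFast9067b7x6a.a20 AFast9067b7x6a.a21 AFast9067b7x6a.a22 AFast9067b7x6a.a23
  AFast9067b7x6a.a24 AFast9067b7x6a.a25 AFast9067b7x6a.a26 AFast9067b7x6a.a27 AFast9067b7x6a.a28
  AFast9067b7x6a.a29 AFast9067b7x6a.a30 AFast9067b7x6a.a31 AFast9067b7x6a.a32 AFast9067b7x6a.a33
  AFast9067b7x6a.a34 AFast9067b7x6a.a35 AFast9067b7x6a.a36 AFast9067b7x6a.a37 AFast9067b7x6a.a38
  AFast9067b7x6a.a39 AFast9067b7x6a.a40 AFast9067b7x6a.a41 AFast9067b7x6a.a42 AFast9067b7x6a.a43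
  AFast9067b7x6a.a44 AFast9067b7x6a.a45 AFast9067b7x6a.a46 AFast9067b7x6a.a47 AFast9067b7x6a.a48
  AFast9067b7x6a.a49 AFast9067b7x6a.a50 AFast9067b7x6a.a51 AFast9067b7x6a.a52 AFast9067b7x6a.a53
  AFast9067b7x6a.a54 AFast9067b7x6a.a55 AFast9067b7x6a.a56 AFast9067b7x6a.a57 AFast9067b7x6a.a58
  AFast9067b7x6a.a59
namespace AFast9067b7x6b
@[reducible] noncomputable def a0 {x1 : ℕ} {x2 : Type} [x3 : Field x2] [x4 : Algebra (Vale.Agent.P282.L2.Pol x1) x2] : Algebra (Vale.Agent.P282.L2.Pol x1) ↥(integralClosure (Vale.Agent.P282.L2.Pol x1) x2) := inferInstance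
@[reducible] def a1 {x1 : ℕ} {x2 : Type} [x3 : Field x2] [x4 : Algebra (Vale.Agent.P282.L2.Pol x1) x2] : SMul (Vale.Agent.P282.L2.Pol x1) x2 := inferInstance
@[reducible] noncomputable def a2 {x1 : ℕ} {x2 : Type} [x3 : Field x2] [x4 : Algebra (Vale.Agent.P282.L2.Pol x1) x2] {x5 : Ideal (Vale.Agent.P282.L2.IB x1 x2)} [x6 : Algebra ℂ x2] [x7 : IsScalarTower ℂ (Vale.Agent.P282.L2.Pol x1) x2] : Module ℂ (Vale.Agent.P282.L2.IB x1 x2 ⧸ x5) := inferInstance
@[reducible] def a3 {x1 : ℕ} {x2 : Type} [x3 : Field x2] [x4 : Algebra (FractionRing (Vale.Agent.P282.L2.Pol x1)) x2] : SMul (FractionRing (Vale.Agent.P282.L2.Pol x1)) x2 := inferInstance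
theorem a4 {x1 : ℕ} {x2 : Type} [x3 : Field x2] [x4 : Algebra (Vale.Agent.P282.L2.Pol x1) x2] : AddMonoidHomClass (Vale.Agent.P282.L2.IB x1 x2 →+* ℂ) (Vale.Agent.P282.L2.IB x1 x2) ℂ := inferInstance
@[reducible] noncomputable def a5 {x1 : ℕ} {x2 : Type} [x3 : Field x2] [x4 : Algebra (Vale.Agent.P282.L2.Pol x1) x2] [x5 : Algebra ℂ x2] [x6 : IsScalarTower ℂ (Vale.Agent.P282.L2.Pol x1) x2] : Module ℂ (Vale.Agent.P282.L2.IB x1 x2) := inferInstance
@[reducible] noncomputable def a6 {x1 : ℕ} {x2 : Type} [x3 : Field x2] [x4 : Algebra (Vale.Agent.P282.L2.Pol x1) x2] : DistribMulAction (Vale.Agent.P282.L2.IB x1 x2) (Vale.Agent.P282.L2.IB x1 x2) := inferInstance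
theorem a7 {x1 : ℕ} {x2 : Type} [x3 : Field x2] [x4 : Algebra (FractionRing (Vale.Agent.P282.L2.Pol x1)) x2] : Module.FaithfullyFlat (FractionRing (Vale.Agent.P282.L2.Pol x1)) x2 := inferInstance
theorem a8 {x1 : ℕ} {x2 : Type} [x3 : Field x2] [x4 : Algebra (FractionRing (Vale.Agent.P282.L2.Pol x1)) x2] : Module.Flat (FractionRing (Vale.Agent.P282.L2.Pol x1)) x2 := inferInstance
@[reducible] noncomputable def a9 {x1 : ℕ} {x2 : Type} [x3 : Field x2] [x4 : Algebra (Vale.Agent.P282.L2.Pol x1) x2] {x5 : Ideal (Vale.Agent.P282.L2.IB x1 x2)} [x6 : Algebra ℂ x2] [x7 : IsScalarTower ℂ (Vale.Agent.P282.L2.Pol x1) x2] : SMul ℂ (Vale.Agent.P282.L2.IB x1 x2 ⧸ x5) := inferInstance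
@[reducible] noncomputable def a10 {x1 : ℕ} {x2 : Type} [x3 : Field x2] [x4 : Algebra (Vale.Agent.P282.L2.Pol x1) x2] {x5 : Ideal (Vale.Agent.P282.L2.IB x1 x2)} : AddCommMonoid (Vale.Agent.P282.L2.IB x1 x2 ⧸ x5) := inferInstance
@[reducible] noncomputable def a11 {x1 : ℕ} {x2 : Type} [x3 : Field x2] [x4 : Algebra (Vale.Agent.P282.L2.Pol x1) x2] {x5 : Ideal (Vale.Agent.P282.L2.IB x1 x2)} [x6 : Algebra ℂ x2] [x7 : IsScalarTower ℂ (Vale.Agent.P282.L2.Pol x1) x2] : DistribSMul ℂ (Vale.Agent.P282.L2.IB x1 x2 ⧸ x5) := inferInstance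
@[reducible] noncomputable def a12 {x1 : ℕ} {x2 : Type} [x3 : Field x2] [x4 : Algebra (Vale.Agent.P282.L2.Pol x1) x2] {x5 : Ideal (Vale.Agent.P282.L2.IB x1 x2)} [x6 : Algebra ℂ x2] [x7 : IsScalarTower ℂ (Vale.Agent.P282.L2.Pol x1) x2] : SMulZeroClass ℂ (Vale.Agent.P282.L2.IB x1 x2 ⧸ x5) := inferInstance
theorem a13 {x1 : ℕ} {x2 : Type} [x3 : Field x2] [x4 : Algebra (Vale.Agent.P282.L2.Pol x1) x2] [x5 : Algebra ℂ x2] [x6 : IsScalarTower ℂ (Vale.Agent.P282.L2.Pol x1) x2] : IsScalarTower ℂ (Vale.Agent.P282.L2.IB x1 x2) (Vale.Agent.P282.L2.IB x1 x2) := inferInstance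
theorem a14 {x1 : ℕ} : IsIntegrallyClosed (Vale.Agent.P282.L2.Pol x1) := inferInstance
theorem a15 {x1 : ℕ} : IsIntegralClosure (Vale.Agent.P282.L2.Pol x1) (Vale.Agent.P282.L2.Pol x1) (FractionRing (Vale.Agent.P282.L2.Pol x1)) := inferInstance
@[reducible] noncomputable def a16 {x1 : ℕ} {x2 : Type} [x3 : Field x2] [x4 : Algebra (Vale.Agent.P282.L2.Pol x1) x2] [x5 : Algebra ℂ x2] [x6 : IsScalarTower ℂ (Vale.Agent.P282.L2.Pol x1) x2] : SMul ℂ (Vale.Agent.P282.L2.IB x1 x2) := inferInstance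
@[reducible] noncomputable def a17 {x1 : ℕ} {x2 : Type} [x3 : Field x2] [x4 : Algebra (Vale.Agent.P282.L2.Pol x1) x2] {x5 : Ideal (Vale.Agent.P282.L2.IB x1 x2)} [x6 : Algebra ℂ x2] [x7 : IsScalarTower ℂ (Vale.Agent.P282.L2.Pol x1) x2] : DistribMulAction ℂ (Vale.Agent.P282.L2.IB x1 x2 ⧸ x5) := inferInstance
@[reducible] noncomputable def a18 {x1 : Type} {x2 : ℕ} [x3 : Field x1] [x4 : Algebra (Vale.Agent.P282.L2.Pol x2) x1] [x5 : Algebra ℂ x1] [x6 : IsScalarTower ℂ (Vale.Agent.P282.L2.Pol x2) x1] : Algebra ℂ ↥(integralClosure (Vale.Agent.P282.L2.Pol x2) x1) := inferInstance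
@[reducible] noncomputable def a19 {x1 : ℕ} {x2 : Type} [x3 : Field x2] [x4 : Algebra (Vale.Agent.P282.L2.Pol x1) x2] {x5 : Ideal (Vale.Agent.P282.L2.IB x1 x2)} [x6 : Algebra ℂ x2] [x7 : IsScalarTower ℂ (Vale.Agent.P282.L2.Pol x1) x2] : Algebra ℂ (Vale.Agent.P282.L2.IB x1 x2 ⧸ x5) := inferInstance
@[reducible] noncomputable def a20 {x1 : ℕ} {x2 : Type} [x3 : Field x2] [x4 : Algebra (Vale.Agent.P282.L2.Pol x1) x2] {x5 : Ideal (Vale.Agent.P282.L2.IB x1 x2)} : Zero (Vale.Agent.P282.L2.IB x1 x2 ⧸ x5) := inferInstance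
@[reducible] noncomputable def a21 : Module ℝ ℂ := inferInstance
@[reducible] noncomputable def a22 {x1 : ℕ} {x2 : Type} [x3 : Field x2] [x4 : Algebra (Vale.Agent.P282.L2.Pol x1) x2] {x5 : Ideal (Vale.Agent.P282.L2.IB x1 x2)} : AddZero (Vale.Agent.P282.L2.IB x1 x2 ⧸ x5) := inferInstance
@[reducible] noncomputable def a23 {x1 : ℕ} {x2 : Type} [x3 : Field x2] [x4 : Algebra (Vale.Agent.P282.L2.Pol x1) x2] {x5 : Ideal (Vale.Agent.P282.L2.IB x1 x2)} : AddZeroClass (Vale.Agent.P282.L2.IB x1 x2 ⧸ x5) := inferInstance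
@[reducible] noncomputable def a24 {x1 : ℕ} {x2 : Type} [x3 : Field x2] [x4 : Algebra (Vale.Agent.P282.L2.Pol x1) x2] {x5 : Ideal (Vale.Agent.P282.L2.IB x1 x2)} : AddMonoid (Vale.Agent.P282.L2.IB x1 x2 ⧸ x5) := inferInstance
@[reducible] noncomputable def a25 {x1 : ℕ} : DistribMulAction (Vale.Agent.P282.L2.Pol x1) (Vale.Agent.P282.L2.Pol x1) := inferInstance
theorem a26 {x1 : ℕ} {x2 : Type} [x3 : Field x2] [x4 : Algebra (FractionRing (Vale.Agent.P282.L2.Pol x1)) x2] [x5 : FiniteDimensional (FractionRing (Vale.Agent.P282.L2.Pol x1)) x2] : Algebra.IsAlgebraic (FractionRing (Vale.Agent.P282.L2.Pol x1)) x2 := inferInstance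
@[reducible] noncomputable def a27 {x1 : ℕ} {x2 : Type} [x3 : Field x2] [x4 : Algebra (Vale.Agent.P282.L2.Pol x1) x2] : SMul (Vale.Agent.P282.L2.Pol x1) (Vale.Agent.P282.L2.IB x1 x2) := inferInstance
@[reducible] noncomputable def a28 {x1 : ℕ} {x2 : Type} [x3 : Field x2] [x4 : Algebra (Vale.Agent.P282.L2.Pol x1) x2] {x5 : Ideal (Vale.Agent.P282.L2.IB x1 x2)} : AddCommGroup (Vale.Agent.P282.L2.IB x1 x2 ⧸ x5) := inferInstance
theorem a29 {x1 : ℕ} {x2 : Type} [x3 : Field x2] [x4 : Algebra (FractionRing (Vale.Agent.P282.L2.Pol x1)) x2] [x5 : FiniteDimensional (FractionRing (Vale.Agent.P282.L2.Pol x1)) x2] : Algebra.IsSeparable (FractionRing (Vale.Agent.P282.L2.Pol x1)) x2 := inferInstance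
@[reducible] noncomputable def a30 {x1 : ℕ} : AddCommMonoid (FractionRing (Vale.Agent.P282.L2.Pol x1)) := inferInstance
theorem a31 {x1 : ℕ} : AddMonoidHomClass (MvPolynomial (Fin x1) ℂ →+* ℂ) (MvPolynomial (Fin x1) ℂ) ℂ := inferInstance
@[reducible] noncomputable def a32 {x1 : ℕ} {x2 : Type} [x3 : Field x2] [x4 : Algebra (Vale.Agent.P282.L2.Pol x1) x2] {x5 : Ideal (Vale.Agent.P282.L2.IB x1 x2)} : NegZeroClass (Vale.Agent.P282.L2.IB x1 x2 ⧸ x5) := inferInstance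
@[reducible] noncomputable def a33 {x1 : ℕ} {x2 : Type} [x3 : Field x2] [x4 : Algebra (Vale.Agent.P282.L2.Pol x1) x2] {x5 : Ideal (Vale.Agent.P282.L2.IB x1 x2)} : SubNegZeroMonoid (Vale.Agent.P282.L2.IB x1 x2 ⧸ x5) := inferInstance
@[reducible] noncomputable def a34 {x1 : ℕ} {x2 : Type} [x3 : Field x2] [x4 : Algebra (Vale.Agent.P282.L2.Pol x1) x2] {x5 : Ideal (Vale.Agent.P282.L2.IB x1 x2)} : SubtractionCommMonoid (Vale.Agent.P282.L2.IB x1 x2 ⧸ x5) := inferInstance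
@[reducible] noncomputable def a35 {x1 : ℕ} {x2 : Type} [x3 : Field x2] [x4 : Algebra (Vale.Agent.P282.L2.Pol x1) x2] {x5 : Ideal (Vale.Agent.P282.L2.IB x1 x2)} : SubtractionMonoid (Vale.Agent.P282.L2.IB x1 x2 ⧸ x5) := inferInstance
end AFast9067b7x6b
attribute [local instance] AFast9067b7x6b.a0 AFast9067b7x6b.a1 AFast9067b7x6b.a2 AFast9067b7x6b.a3
  AFast9067b7x6b.a4 AFast9067b7x6b.a5 AFast9067b7x6b.a6 AFast9067b7x6b.a7 AFast9067b7x6b.a8
  AFast9067b7x6b.a9 AFast9067b7x6b.a10 AFast9067b7x6b.a11 AFast9067b7x6b.a12 AFast9067b7x6b.a13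
  AFast9067b7x6b.a14 AFast9067b7x6b.a15 AFast9067b7x6b.a16 AFast9067b7x6b.a17 AFast9067b7x6b.a18
  AFast9067b7x6b.a19 AFast9067b7x6b.a20 AFast9067b7x6b.a21 AFast9067b7x6b.a22 AFast9067b7x6b.a23
  AFast9067b7x6b.a24 AFast9067b7x6b.a25 AFast9067b7x6b.a26 AFast9067b7x6b.a27 AFast9067b7x6b.a28
  AFast9067b7x6b.a29 AFast9067b7x6b.a30 AFast9067b7x6b.a31 AFast9067b7x6b.a32 AFast9067b7x6b.a33
  AFast9067b7x6b.a34 AFast9067b7x6b.a35
section

open scoped NNReal ENNReal Nat WithZero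
open IsLocalRing

namespace Vale.Agent.P282.Full

variable {n r : ℕ} {R K R' K' : Type} [CommRing R] [IsDomain R] [IsLocalRing R] [Algebra ℂ R]
  [Field K] [Algebra ℂ K] [Algebra R K] [IsScalarTower ℂ R K] [IsFractionRing R K]
  [CommRing R'] [IsDomain R'] [IsLocalRing R'] [Algebra ℂ R']
  [Field K'] [Algebra ℂ K'] [Algebra R' K'] [IsScalarTower ℂ R' K'] [IsFractionRing R' K']
  [Algebra K K'] [IsScalarTower ℂ K K'] [Algebra R R'] [Algebra R K'] [IsScalarTower R R' K']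
  [IsScalarTower R K K'] [IsScalarTower ℂ R R']

/-- Restriction of centers. -/
theorem HasCenter.comap {g : K} {ε : K'} (hc : IsCover (R := R) (R' := R') n r g ε)
    {v : Valuation K' ℝ≥0} {P : Ideal R'} (hv : HasCenter R' v P) :
    HasCenter R (v.comap (algebraMap K K')) (P.comap (algebraMap R R')) := by
  intro f
  have h1 : v.comap (algebraMap K K') (algebraMap R K f) =
      v (algebraMap R' K' (algebraMap R R' f)) := by
    rw [Valuation.comap_apply, ← IsScalarTower.algebraMap_apply R K K',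
      ← IsScalarTower.algebraMap_apply R R' K']
  rw [h1, Ideal.mem_comap]
  exact hv _

theorem comap_maximalIdeal {g : K} {ε : K'} (hc : IsCover (R := R) (R' := R') n r g ε) :
    (maximalIdeal R').comap (algebraMap R R') = maximalIdeal R := by
  ext a
  rw [Ideal.mem_comap]
  exact hc.mem_iff a

theorem comap_ne_bot {g : K} {ε : K'} (hc : IsCover (R := R) (R' := R') n r g ε) {P : Ideal R'}
    (hP : P ≠ ⊥) : P.comap (algebraMap R R') ≠ ⊥ := by
  obtain ⟨b, hbP, hb0⟩ := Submodule.exists_mem_ne_zero_of_ne_bot hP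
  obtain ⟨s, hs, -, hsb⟩ := hc.integral b
  exact Ideal.comap_ne_bot_of_integral_mem (mul_ne_zero hs.ne_zero hb0) (P.mul_mem_left s hbP) hsb

theorem gz_hasGoingDown {g : K} {ε : K'} (hc : IsCover (R := R) (R' := R') n r g ε)
    (hnorm : IsIntegrallyClosed R) (hinj : Function.Injective (algebraMap R R')) :
    Algebra.HasGoingDown R R' := by
  have hft : FaithfulSMul R (integralClosure R R') := by
    rw [faithfulSMul_iff_algebraMap_injective]
    intro a b hab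
    apply hinj
    exact congrArg (algebraMap (integralClosure R R') R') hab
  have h1 : Algebra.HasGoingDown R (integralClosure R R') := inferInstance
  let M : Submonoid (integralClosure R R') :=
    (IsUnit.submonoid R').comap (algebraMap (integralClosure R R') R')
  have hloc : IsLocalization M R' := by
    refine ⟨fun y => y.2, ?_, ?_⟩
    · intro b
      obtain ⟨s, hs, hsi, hsb⟩ := hc.integral b
      refine ⟨(⟨s * b, hsb⟩, ⟨⟨s, hsi⟩, hs⟩), ?_⟩
      exact mul_comm _ _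
    · intro a b hab
      refine ⟨1, ?_⟩
      have : a = b := Subtype.ext hab
      rw [this]
  have h2 : Module.Flat (integralClosure R R') R' := IsLocalization.flat R' M
  exact Algebra.HasGoingDown.trans R (integralClosure R R') R'

theorem comap_height {g : K} {ε : K'} (hc : IsCover (R := R) (R' := R') n r g ε)
    (hnorm : IsIntegrallyClosed R) {P : Ideal R'} [P.IsPrime]
    (hP : P.height = 1) : (P.comap (algebraMap R R')).height = 1 := by
  have hinj : Function.Injective (algebraMap R R') := by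
    have h1 : Function.Injective (algebraMap R K') := by
      rw [IsScalarTower.algebraMap_eq R K K']
      exact (algebraMap K K').injective.comp (IsFractionRing.injective R K)
    rw [IsScalarTower.algebraMap_eq R R' K'] at h1
    exact Function.Injective.of_comp h1
  have hgd := gz_hasGoingDown hc hnorm hinj
  have hlo : P.LiesOver (P.comap (algebraMap R R')) := ⟨rfl⟩
  have hPb : P ≠ ⊥ := Ideal.ne_bot_of_height_eq_one hP
  have h2 := comap_ne_bot hc hPb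
  apply le_antisymm
  · have h3 : (P.comap (algebraMap R R')).height ≤ (1 : ℕ) := by
      rw [Ideal.height_le_iff]
      intro q hq hlt
      obtain ⟨Q, hQP, hQp, hQo⟩ := Ideal.exists_ideal_lt_liesOver_of_lt P hlt
      have hP' : P.height ≤ (1 : ℕ) := by rw [hP]; rfl
      rw [Ideal.height_le_iff] at hP'
      have h4 := hP' Q hQp hQP
      have h5 : Q.height = 0 := by
        rwa [Nat.cast_one, ENat.lt_one_iff_eq_zero] at h4
      rw [Ideal.height_eq_zero_iff_eq_bot] at h5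
      have h6 : q = ⊥ := by
        rw [hQo.over, h5]
        exact Ideal.comap_bot_of_injective _ hinj
      rw [h6, Ideal.height_bot]
      exact_mod_cast one_pos
    exact_mod_cast h3
  · rw [Order.one_le_iff_ne_zero]
    intro h3
    exact h2 (Ideal.height_eq_zero_iff_eq_bot.1 h3)

theorem gz_mem_valIdeal {A F : Type} [CommRing A] [IsDomain A] [IsLocalRing A] [Algebra ℂ A]
    [Field F] [Algebra ℂ F] [Algebra A F] (v : Valuation F ℝ≥0)
    (hv : ∀ f : A, v (algebraMap A F f) ≤ 1) (t : ℝ) (f : A) :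
    f ∈ valIdeal A v t ↔ (v (algebraMap A F f) : ℝ) ≤ Real.exp (-t) := by
  constructor
  · intro hf
    unfold valIdeal at hf
    induction hf using Submodule.span_induction with
    | mem x hx => exact hx
    | zero => simp [Real.exp_nonneg]
    | add x y _ _ hx hy =>
      rw [map_add]
      have h1 := v.map_add (algebraMap A F x) (algebraMap A F y)
      rcases le_total (v (algebraMap A F x)) (v (algebraMap A F y)) with h | h
      · rw [max_eq_right h] at h1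
        exact (NNReal.coe_le_coe.2 h1).trans hy
      · rw [max_eq_left h] at h1
        exact (NNReal.coe_le_coe.2 h1).trans hx
    | smul a x _ hx =>
      rw [smul_eq_mul, map_mul, map_mul, NNReal.coe_mul]
      have h1 : (v (algebraMap A F a) : ℝ) ≤ 1 := by exact_mod_cast hv a
      calc (v (algebraMap A F a) : ℝ) * v (algebraMap A F x) ≤ 1 * v (algebraMap A F x) := by
            gcongr
        _ ≤ _ := by rw [one_mul]; exact hx
  · intro hf
    exact Ideal.subset_span hf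

/-- Comparison of the volumes. -/
theorem vol_comap_le [IsNoetherianRing R] [IsNoetherianRing R']
    (hres : Function.Surjective (algebraMap ℂ (ResidueField R))) {g : K} {ε : K'}
    (hc : IsCover (R := R) (R' := R') n r g ε) {v : Valuation K' ℝ≥0}
    (hv : HasCenter R' v (maximalIdeal R')) :
    vol R n (v.comap (algebraMap K K')) ≤ vol R' n v := by
  have hlh : IsLocalHom (algebraMap R R') := by
    refine ⟨fun a ha => ?_⟩
    by_contra h
    have h1 : a ∈ maximalIdeal R := (mem_maximalIdeal a).2 h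
    have h2 := (hc.mem_iff a).2 h1
    exact ((mem_maximalIdeal _).1 h2) ha
  have hlen1 : Module.length (ResidueField R) (ResidueField R') ≤ 1 := by
    have h1 : Function.Surjective (Algebra.linearMap (ResidueField R) (ResidueField R')) := by
      intro y
      obtain ⟨z, rfl⟩ := hc.residue y
      refine ⟨residue R (algebraMap ℂ R z), ?_⟩
      change algebraMap (ResidueField R) (ResidueField R') (residue R (algebraMap ℂ R z)) = _
      rw [IsLocalRing.ResidueField.algebraMap_residue, ← IsScalarTower.algebraMap_apply ℂ R R']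
      rfl
    refine (Module.length_le_of_surjective _ h1).trans ?_
    rw [Module.length_eq_one]
  have hlen : ∀ t : ℝ, Module.length R (R ⧸ valIdeal R (v.comap (algebraMap K K')) t) ≤
      Module.length R' (R' ⧸ valIdeal R' v t) := by
    intro t
    have hcm : valIdeal R (v.comap (algebraMap K K')) t =
        (valIdeal R' v t).comap (algebraMap R R') := by
      ext f
      rw [Ideal.mem_comap, gz_mem_valIdeal _ (fun f => (hv f).1),
        gz_mem_valIdeal _ (fun f => ((HasCenter.comap hc hv) f).1), Valuation.comap_apply,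
        ← IsScalarTower.algebraMap_apply R K K', ← IsScalarTower.algebraMap_apply R R' K']
    let psi : (R ⧸ valIdeal R (v.comap (algebraMap K K')) t) →ₗ[R] (R' ⧸ valIdeal R' v t) :=
      Submodule.liftQ _ (((valIdeal R' v t).mkQ.restrictScalars R).comp (Algebra.linearMap R R'))
        (by
          intro f hf
          rw [hcm] at hf
          rw [LinearMap.mem_ker]
          change (valIdeal R' v t).mkQ (algebraMap R R' f) = 0
          rw [Submodule.mkQ_apply, Submodule.Quotient.mk_eq_zero]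
          exact hf)
    have hpsi : Function.Injective psi := by
      rw [← LinearMap.ker_eq_bot, Submodule.ker_liftQ_eq_bot]
      intro f hf
      rw [LinearMap.mem_ker] at hf
      change (valIdeal R' v t).mkQ (algebraMap R R' f) = 0 at hf
      rw [Submodule.mkQ_apply, Submodule.Quotient.mk_eq_zero] at hf
      rw [hcm]
      exact hf
    refine (Module.length_le_of_injective psi hpsi).trans ?_
    rw [IsLocalRing.length_restrictScalars R R' (R' ⧸ valIdeal R' v t)]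
    calc _ ≤ Module.length R' (R' ⧸ valIdeal R' v t) * 1 := by gcongr
      _ = _ := mul_one _
  unfold vol
  apply Filter.limsup_le_limsup
  · filter_upwards with t
    gcongr
    exact hlen t
  · isBoundedDefault
  · isBoundedDefault

end Vale.Agent.P282.Full
end

section

open MeasureTheory Filter Topology
open scoped ENNReal NNReal ComplexConjugate

namespace Vale.Agent.P282.L2

/-- The ideal generated by `z₁, …, zₙ` in the integral closure. -/
noncomputable abbrev zI (n : ℕ) (K : Type) [Field K] [Algebra (Pol n) K] : Ideal (IB n K) :=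
  Ideal.span (Set.range fun i : Fin n => algebraMap (Pol n) (IB n K) (MvPolynomial.X i))

variable {n N : ℕ} {K : Type} [Field K] [Algebra ℂ K] [Algebra (Pol n) K]
  [IsScalarTower ℂ (Pol n) K] [FaithfulSMul (Pol n) K]

namespace Prim

variable {E : Prim n K} {S : Sheets n N} {a b : K} {q : (Fin n → ℂ) × ℂ} {x : Pt n K}

set_option linter.unusedSectionVars false

theorem tendsto_ev_nhd (E : Prim n K) (S : Sheets n N) (x : Pt n K) (b : IB n K) :
    Tendsto (E.ev (b : K)) (E.nhd S x) (𝓝 (x.toFun b)) := by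
  rw [tendsto_iff_comap]
  exact inf_le_right.trans (iInf_le _ b)

theorem M_mem_nhd (E : Prim n K) (S : Sheets n N) (x : Pt n K) : S.M ∈ E.nhd S x :=
  mem_inf_of_left (mem_principal_self _)

theorem nbh_coe_alg (f : Pol n) :
    ((algebraMap (Pol n) (IB n K) f : IB n K) : K) = algebraMap (Pol n) K f := rfl

theorem tendsto_fst_nhd (hS : E.IsSheets S) (x : Pt n K) :
    Tendsto (fun q : (Fin n → ℂ) × ℂ => q.1) (E.nhd S x) (𝓝 0) := by
  rw [tendsto_pi_nhds]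
  intro i
  have h1 := tendsto_ev_nhd E S x (algebraMap (Pol n) (IB n K) (MvPolynomial.X i))
  rw [x.map_alg, MvPolynomial.eval_X] at h1
  refine h1.congr' ?_
  filter_upwards [M_mem_nhd E S x] with q hq
  rw [nbh_coe_alg, ev_alg hS hq, MvPolynomial.eval_X]

/-- the growth condition -/
def NbhP (E : Prim n K) (S : Sheets n N) (M : ℕ) (b : IB n K) : Prop :=
  ∃ C : ℝ, 0 ≤ C ∧ ∀ q ∈ S.M, ‖q.1‖ ≤ 1 → ‖E.ev (b : K) q‖ ≤ C * ‖q.1‖ ^ M

theorem nbhP_zero_exp (hS : E.IsSheets S) (b : IB n K) : NbhP E S 0 b := by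
  obtain ⟨C, k, hC, h⟩ := ev_growth hS b
  refine ⟨C * 2 ^ k, by positivity, fun q hq hq1 => (h q hq).trans ?_⟩
  rw [pow_zero, mul_one]
  have : (1 + ‖q.1‖) ^ k ≤ 2 ^ k := pow_le_pow_left₀ (by positivity) (by linarith) k
  exact mul_le_mul_of_nonneg_left this hC

theorem nbhP_add (hS : E.IsSheets S) {M : ℕ} {b c : IB n K} (hb : NbhP E S M b)
    (hc : NbhP E S M c) : NbhP E S M (b + c) := by
  obtain ⟨C, hC, h⟩ := hb
  obtain ⟨C', hC', h'⟩ := hc
  refine ⟨C + C', by positivity, fun q hq hq1 => ?_⟩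
  have e : E.ev ((b + c : IB n K) : K) q = E.ev (b : K) q + E.ev (c : K) q := by
    rw [← ev_add hS hq (isReg_ib b) (isReg_ib c)]; rfl
  rw [e, add_mul]
  exact (norm_add_le _ _).trans (add_le_add (h q hq hq1) (h' q hq hq1))

theorem nbhP_mul (hS : E.IsSheets S) {M M' : ℕ} {b c : IB n K} (hb : NbhP E S M b)
    (hc : NbhP E S M' c) : NbhP E S (M + M') (b * c) := by
  obtain ⟨C, hC, h⟩ := hb
  obtain ⟨C', hC', h'⟩ := hc
  refine ⟨C * C', by positivity, fun q hq hq1 => ?_⟩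
  have e : E.ev ((b * c : IB n K) : K) q = E.ev (b : K) q * E.ev (c : K) q := by
    rw [← ev_mul hS hq (isReg_ib b) (isReg_ib c)]; rfl
  rw [e, norm_mul]
  calc ‖E.ev (b : K) q‖ * ‖E.ev (c : K) q‖ ≤ (C * ‖q.1‖ ^ M) * (C' * ‖q.1‖ ^ M') :=
        mul_le_mul (h q hq hq1) (h' q hq hq1) (norm_nonneg _) (by positivity)
    _ = C * C' * ‖q.1‖ ^ (M + M') := by rw [pow_add]; ring

theorem nbhP_zero (hS : E.IsSheets S) (M : ℕ) : NbhP E S M 0 := by
  refine ⟨0, le_rfl, fun q hq _ => ?_⟩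
  have : E.ev ((0 : IB n K) : K) q = 0 := by rw [← ev_zero hS hq (E := E)]; rfl
  rw [this]; simp

theorem nbhP_zI (hS : E.IsSheets S) {b : IB n K} (hb : b ∈ zI n K) : NbhP E S 1 b := by
  refine Submodule.span_induction (p := fun b _ => NbhP E S 1 b) ?_ (nbhP_zero hS 1)
    (fun x y _ _ hx hy => nbhP_add hS hx hy) (fun a x _ hx => ?_) hb
  · rintro _ ⟨i, rfl⟩
    refine ⟨1, zero_le_one, fun q hq _ => ?_⟩
    rw [nbh_coe_alg, ev_alg hS hq, MvPolynomial.eval_X, one_mul, pow_one]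
    exact norm_le_pi_norm q.1 i
  · have := nbhP_mul hS (nbhP_zero_exp hS a) hx
    rwa [zero_add] at this

/-- Elements of `(z)^M` are `O(|z|^M)`. -/
theorem norm_le_of_mem_pow (hS : E.IsSheets S) {M : ℕ} {b : IB n K} (hb : b ∈ (zI n K) ^ M) :
    ∃ C : ℝ, 0 ≤ C ∧ ∀ q ∈ S.M, ‖q.1‖ ≤ 1 → ‖E.ev (b : K) q‖ ≤ C * ‖q.1‖ ^ M := by
  change NbhP E S M b
  induction M generalizing b with
  | zero => exact nbhP_zero_exp hS b
  | succ M ih =>
    rw [pow_succ] at hb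
    refine Submodule.mul_induction_on hb (fun r hr s hs => ?_) (fun r s hr hs => nbhP_add hS hr hs)
    exact nbhP_mul hS (ih hr) (nbhP_zI hS hs)

/-- Evaluation at a point of `M` is a ring homomorphism of the integral closure. -/
theorem exists_evHom (hS : E.IsSheets S) (hq : q ∈ S.M) : ∃ φ : IB n K →+* ℂ,
    ∀ b : IB n K, φ b = E.ev (b : K) q := by
  refine ⟨{ toFun := fun b => E.ev (b : K) q
            map_one' := ?_
            map_mul' := ?_
            map_zero' := ?_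
            map_add' := ?_ }, fun b => rfl⟩
  · exact ev_one hS hq
  · intro b c; exact ev_mul hS hq (isReg_ib b) (isReg_ib c)
  · exact ev_zero hS hq
  · intro b c; exact ev_add hS hq (isReg_ib b) (isReg_ib c)

theorem nbh_sub_const_mem (p : Pol n) :
    algebraMap (Pol n) (IB n K) p -
      algebraMap (Pol n) (IB n K) (MvPolynomial.C (MvPolynomial.eval 0 p)) ∈ zI n K := by
  induction p using MvPolynomial.induction_on with
  | C a => simp
  | add p r hp hr =>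
    have := (zI n K).add_mem hp hr
    have e : algebraMap (Pol n) (IB n K) (p + r) -
      algebraMap (Pol n) (IB n K) (MvPolynomial.C (MvPolynomial.eval 0 (p + r))) =
      (algebraMap (Pol n) (IB n K) p -
      algebraMap (Pol n) (IB n K) (MvPolynomial.C (MvPolynomial.eval 0 p))) +
      (algebraMap (Pol n) (IB n K) r -
      algebraMap (Pol n) (IB n K) (MvPolynomial.C (MvPolynomial.eval 0 r))) := by
      rw [map_add, map_add, map_add, map_add]; ring
    rw [e]; exact this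
  | mul_X p i _ =>
    have e : algebraMap (Pol n) (IB n K) (p * MvPolynomial.X i) -
      algebraMap (Pol n) (IB n K) (MvPolynomial.C (MvPolynomial.eval 0 (p * MvPolynomial.X i))) =
      algebraMap (Pol n) (IB n K) p * algebraMap (Pol n) (IB n K) (MvPolynomial.X i) := by
      rw [map_mul (MvPolynomial.eval 0), MvPolynomial.eval_X, Pi.zero_apply, mul_zero, map_zero,
        map_zero, sub_zero, map_mul]
    rw [e]
    exact (zI n K).mul_mem_left _ (Ideal.subset_span ⟨i, rfl⟩)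

/-- finite dimensional algebras are Artinian -/
theorem nbh_art_abs {A : Type} [CommRing A] [Algebra ℂ A] (t : Set A) (ht : t.Finite)
    (h : ∀ a : A, a ∈ Submodule.span ℂ t) : IsArtinianRing A := by
  have : Module.Finite ℂ A := ⟨⟨ht.toFinset, by
    rw [Set.Finite.coe_toFinset, eq_top_iff]; exact fun a _ => h a⟩⟩
  exact IsArtinianRing.of_finite ℂ A

/-- powers of ideals of an Artinian ring -/
theorem nbh_idem_abs {A : Type} [CommRing A] [IsArtinianRing A] [IsNoetherianRing A]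
    (I : Ideal A) : ∃ a : ℕ, 0 < a ∧ ∃ e : A, e * e = e ∧ I ^ a = Ideal.span {e} := by
  obtain ⟨m, hm⟩ := IsArtinian.monotone_stabilizes
    (⟨fun k => OrderDual.toDual (I ^ k), fun i j hij => Ideal.pow_le_pow_right hij⟩ :
      ℕ →o (Ideal A)ᵒᵈ)
  have hm1 : ∀ k, m ≤ k → I ^ m = I ^ k := fun k hk => hm k hk
  have hidem : IsIdempotentElem (I ^ (m + 1)) := by
    rw [IsIdempotentElem, ← pow_add, ← hm1 (m + 1) (by omega), ← hm1 _ (by omega)]
  obtain ⟨e, he, hJ⟩ := (Ideal.isIdempotentElem_iff_of_fg _ (IsNoetherian.noetherian _)).1 hidem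
  exact ⟨m + 1, by omega, e, he, hJ⟩

/-- the algebraic part for a general ring -/
theorem nbh_idem_gen {B : Type} [CommRing B] (I : Ideal B) (h1 : IsArtinianRing (B ⧸ I))
    (h2 : IsNoetherianRing B) (x : B →+* ℂ) (hz : ∀ b ∈ I, x b = 0) :
    ∃ (a : ℕ) (s : B), 0 < a ∧ x s = 0 ∧
    s ^ 2 - s ∈ I ∧ ∀ b : B, x b = 0 → b ^ a * (1 - s) ∈ I := by
  let xb : B ⧸ I →+* ℂ := Ideal.Quotient.lift I x hz
  have hxb : ∀ b, xb (Ideal.Quotient.mk I b) = x b := fun b =>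
    Ideal.Quotient.lift_mk _ _ _
  obtain ⟨m, hm0, e, he, hJ⟩ := nbh_idem_abs (RingHom.ker xb)
  obtain ⟨s, rfl⟩ := Ideal.Quotient.mk_surjective e
  refine ⟨m, s, hm0, ?_, ?_, ?_⟩
  · have h1 : Ideal.Quotient.mk I s ∈ (RingHom.ker xb) ^ m := by
      rw [hJ]; exact Ideal.mem_span_singleton_self _
    have h2 := Ideal.pow_le_self (by omega) h1
    rw [RingHom.mem_ker, hxb] at h2
    exact h2
  · rw [← Ideal.Quotient.eq, map_pow, sq]
    exact he
  · intro b hb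
    have h1 : (Ideal.Quotient.mk I b) ∈ RingHom.ker xb := by
      rw [RingHom.mem_ker, hxb]; exact hb
    have h2 := Ideal.pow_mem_pow h1 m
    rw [hJ, Ideal.mem_span_singleton'] at h2
    obtain ⟨c, hc⟩ := h2
    rw [← Ideal.Quotient.eq_zero_iff_mem, map_mul, map_pow, ← hc, map_sub, map_one]
    calc c * Ideal.Quotient.mk I s * (1 - Ideal.Quotient.mk I s) =
        c * (Ideal.Quotient.mk I s - (Ideal.Quotient.mk I s) * (Ideal.Quotient.mk I s)) := by ring
      _ = 0 := by rw [he, sub_self, mul_zero]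

/-- a polynomial in an element is almost idempotent -/
theorem nbh_poly_abs {B : Type} [CommRing B] (s : B) (L : ℕ) (hL : 1 ≤ L) :
    ∃ c c' : B, (1 - (1 - s ^ L) ^ L) ^ 2 - (1 - (1 - s ^ L) ^ L) = c * (s ^ 2 - s) ^ L ∧
      1 - (1 - (1 - s ^ L) ^ L) = (1 - s) * c' := by
  obtain ⟨c1, hc1⟩ : s ^ L ∣ 1 - (1 - s ^ L) ^ L := by
    have := sub_dvd_pow_sub_pow (1 : B) (1 - s ^ L) L
    rwa [one_pow, sub_sub_cancel] at this
  obtain ⟨c2, hc2⟩ : 1 - s ∣ 1 - s ^ L := by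
    have := sub_dvd_pow_sub_pow (1 : B) s L
    rwa [one_pow] at this
  refine ⟨c1 * c2 ^ L * (-1) ^ (L + 1), c2 * (1 - s ^ L) ^ (L - 1), ?_, ?_⟩
  · have h1 : (1 - (1 - s ^ L) ^ L) ^ 2 - (1 - (1 - s ^ L) ^ L) =
      - ((1 - (1 - s ^ L) ^ L) * (1 - s ^ L) ^ L) := by ring
    have h2 : (s ^ 2 - s) ^ L = (-1) ^ L * (s ^ L * (1 - s) ^ L) := by
      rw [← mul_pow, ← mul_pow]; congr 1; ring
    have h3 : ((-1 : B) ^ L) * (-1) ^ L = 1 := by
      rw [← mul_pow, neg_mul_neg, one_mul, one_pow]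
    rw [h1, hc1, hc2, h2, mul_pow, pow_succ]
    calc -(s ^ L * c1 * ((1 - s) ^ L * c2 ^ L)) =
        -(s ^ L * c1 * ((1 - s) ^ L * c2 ^ L)) * 1 := by rw [mul_one]
      _ = -(s ^ L * c1 * ((1 - s) ^ L * c2 ^ L)) * (((-1 : B) ^ L) * (-1) ^ L) := by
          rw [h3]
      _ = _ := by ring
  · rw [sub_sub_cancel, ← mul_assoc, ← hc2, ← pow_succ', show L - 1 + 1 = L by omega]

section

variable [Algebra (FractionRing (Pol n)) K] [IsScalarTower (Pol n) (FractionRing (Pol n)) K]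
  [FiniteDimensional (FractionRing (Pol n)) K]

theorem nbh_artinian : IsArtinianRing (IB n K ⧸ zI n K) := by
  have : Module.Finite (Pol n) (IB n K) := ib_finite
  obtain ⟨t, ht⟩ := (Module.Finite.fg_top : (⊤ : Submodule (Pol n) (IB n K)).FG)
  have key : ∀ b : IB n K, Ideal.Quotient.mk (zI n K) b ∈
      Submodule.span ℂ ((Ideal.Quotient.mk (zI n K)) '' (t : Set (IB n K))) := by
    intro b
    have hb : b ∈ Submodule.span (Pol n) (t : Set (IB n K)) := by rw [ht]; trivial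
    refine Submodule.span_induction (p := fun b _ => Ideal.Quotient.mk (zI n K) b ∈
      Submodule.span ℂ ((Ideal.Quotient.mk (zI n K)) '' (t : Set (IB n K)))) ?_ ?_ ?_ ?_ hb
    · intro x hx
      exact Submodule.subset_span ⟨x, hx, rfl⟩
    · rw [map_zero]; exact Submodule.zero_mem _
    · intro x y _ _ hx hy
      rw [map_add]; exact Submodule.add_mem _ hx hy
    · intro p x _ hx
      have e : Ideal.Quotient.mk (zI n K) (p • x) =
          (MvPolynomial.eval 0 p : ℂ) • Ideal.Quotient.mk (zI n K) x := by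
        have h1 : Ideal.Quotient.mk (zI n K) (algebraMap (Pol n) (IB n K) p) =
            Ideal.Quotient.mk (zI n K)
              (algebraMap (Pol n) (IB n K) (MvPolynomial.C (MvPolynomial.eval 0 p))) :=
          Ideal.Quotient.eq.2 (nbh_sub_const_mem p)
        have h2 : algebraMap (Pol n) (IB n K) (MvPolynomial.C (MvPolynomial.eval 0 p)) =
            algebraMap ℂ (IB n K) (MvPolynomial.eval 0 p) := by
          apply Subtype.ext
          change algebraMap (Pol n) K (MvPolynomial.C (MvPolynomial.eval 0 p)) =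
            algebraMap ℂ K (MvPolynomial.eval 0 p)
          rw [IsScalarTower.algebraMap_apply ℂ (Pol n) K, MvPolynomial.algebraMap_eq]
        change _ = Ideal.Quotient.mk (zI n K) ((MvPolynomial.eval 0 p : ℂ) • x)
        rw [Algebra.smul_def, map_mul, h1, h2, Algebra.smul_def, map_mul]
      rw [e]
      exact Submodule.smul_mem _ _ hx
  refine nbh_art_abs ((Ideal.Quotient.mk (zI n K)) '' (t : Set (IB n K)))
    (t.finite_toSet.image _) fun y => ?_
  obtain ⟨b, rfl⟩ := Ideal.Quotient.mk_surjective y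
  exact key b

/-- The algebraic part: an idempotent of `B / (z)B` which is `0` at `x` and `1` at the other
points. -/
theorem exists_idem (x : Pt n K) : ∃ (a : ℕ) (s : IB n K), 0 < a ∧ x.toFun s = 0 ∧
    s ^ 2 - s ∈ zI n K ∧ ∀ b : IB n K, x.toFun b = 0 → b ^ a * (1 - s) ∈ zI n K := by
  refine nbh_idem_gen (zI n K) nbh_artinian ib_noetherian x.toFun fun b hb => ?_
  have : zI n K ≤ RingHom.ker x.toFun := by
    rw [Ideal.span_le]
    rintro _ ⟨i, rfl⟩
    change x.toFun _ = 0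
    rw [x.map_alg, MvPolynomial.eval_X]; rfl
  exact this hb

/-- Separation of `x` from the other points over the origin. -/
theorem exists_local_idem (hS : E.IsSheets S) (x : Pt n K) (M : ℕ) : ∃ s : IB n K,
    x.toFun s = 0 ∧ s ^ 2 - s ∈ (zI n K) ^ M ∧
    ∀ W ∈ E.nhd S x, ∃ ε > 0, ∀ q ∈ S.M, ‖q.1‖ < ε → ‖E.ev (s : K) q‖ < 1 / 2 → q ∈ W := by
  obtain ⟨a, s0, ha, hx0, hs0, hb0⟩ := exists_idem x
  obtain ⟨L, hL1, hLM⟩ : ∃ L : ℕ, 1 ≤ L ∧ M ≤ L := ⟨max 1 M, le_max_left _ _, le_max_right _ _⟩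
  obtain ⟨c1, c3, hc1, hdiv⟩ := nbh_poly_abs s0 L hL1
  have hx1 : x.toFun (1 - (1 - s0 ^ L) ^ L) = 0 := by
    rw [map_sub, map_pow, map_sub, map_pow, map_one, hx0, zero_pow (by omega), sub_zero, one_pow,
      sub_self]
  refine ⟨1 - (1 - s0 ^ L) ^ L, hx1, ?_, ?_⟩
  · rw [hc1]
    exact Ideal.mul_mem_left _ _ (Ideal.pow_le_pow_right hLM (Ideal.pow_mem_pow hs0 L))
  · generalize (1 - (1 - s0 ^ L) ^ L : IB n K) = s at hdiv hx1
    intro W hW
    have hF : comap (fun q : (Fin n → ℂ) × ℂ => q.1) (𝓝 0) ⊓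
        𝓟 (S.M ∩ {q | ‖E.ev (s : K) q‖ < 1 / 2}) ≤ E.nhd S x := by
      refine le_inf (inf_le_right.trans (principal_mono.2 Set.inter_subset_left)) ?_
      refine le_iInf fun b => ?_
      rw [← tendsto_iff_comap]
      obtain ⟨b', hb'⟩ : ∃ b' : IB n K, b' = b - algebraMap (Pol n) (IB n K)
        (MvPolynomial.C (x.toFun b)) := ⟨_, rfl⟩
      have hb'0 : x.toFun b' = 0 := by
        rw [hb', map_sub, x.map_alg, MvPolynomial.eval_C, sub_self]
      have hmem : b' ^ a * (1 - s) ∈ (zI n K) ^ 1 := by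
        rw [pow_one, hdiv, ← mul_assoc]
        exact Ideal.mul_mem_right _ _ (hb0 b' hb'0)
      obtain ⟨C, hC, hbd⟩ := norm_le_of_mem_pow hS hmem
      rw [Metric.tendsto_nhds]
      intro ε hε
      have h1 : ∀ᶠ q in comap (fun q : (Fin n → ℂ) × ℂ => q.1) (𝓝 0) ⊓
          𝓟 (S.M ∩ {q | ‖E.ev (s : K) q‖ < 1 / 2}), 2 * C * ‖q.1‖ < ε ^ a ∧ ‖q.1‖ ≤ 1 := by
        have h2 : Tendsto (fun z : Fin n → ℂ => 2 * C * ‖z‖) (𝓝 0) (𝓝 0) := by
          have : Continuous (fun z : Fin n → ℂ => 2 * C * ‖z‖) := by fun_prop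
          simpa using this.tendsto 0
        have h3 : ∀ᶠ z in 𝓝 (0 : Fin n → ℂ), 2 * C * ‖z‖ < ε ^ a :=
          h2.eventually (gt_mem_nhds (by positivity))
        have h4 : ∀ᶠ z in 𝓝 (0 : Fin n → ℂ), ‖z‖ ≤ 1 := by
          have : Tendsto (fun z : Fin n → ℂ => ‖z‖) (𝓝 0) (𝓝 0) := by
            simpa using (continuous_norm (E := Fin n → ℂ)).tendsto 0
          filter_upwards [this.eventually (gt_mem_nhds zero_lt_one)] with z hz using le_of_lt hz
        exact mem_inf_of_left (mem_comap.2 ⟨_, h3.and h4, fun q hq => hq⟩)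
      have h5 : ∀ᶠ q in comap (fun q : (Fin n → ℂ) × ℂ => q.1) (𝓝 0) ⊓
          𝓟 (S.M ∩ {q | ‖E.ev (s : K) q‖ < 1 / 2}),
          q ∈ S.M ∩ {q | ‖E.ev (s : K) q‖ < 1 / 2} := mem_inf_of_right (mem_principal_self _)
      filter_upwards [h1, h5] with q hq1 hq2
      have hqM : q ∈ S.M := hq2.1
      have hqs : ‖E.ev (s : K) q‖ < 1 / 2 := hq2.2
      obtain ⟨φ, hφ⟩ := exists_evHom hS hqM
      have h6 := hbd q hqM hq1.2
      rw [← hφ, map_mul, map_pow, map_sub, map_one, norm_mul, norm_pow, pow_one] at h6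
      rw [← hφ] at hqs
      have h7 : 1 / 2 ≤ ‖1 - φ s‖ := by
        have := norm_sub_norm_le (1 : ℂ) (φ s)
        rw [norm_one] at this
        linarith
      have h8 : ‖φ b'‖ ^ a < ε ^ a := by
        have : ‖φ b'‖ ^ a * (1 / 2) ≤ ‖φ b'‖ ^ a * ‖1 - φ s‖ :=
          mul_le_mul_of_nonneg_left h7 (by positivity)
        linarith [hq1.1]
      have h9 := lt_of_pow_lt_pow_left₀ a hε.le h8
      have h10 : φ b' = E.ev (b : K) q - x.toFun b := by
        rw [hb', map_sub, hφ, hφ, nbh_coe_alg, ev_alg hS hqM, MvPolynomial.eval_C]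
      rw [dist_eq_norm, ← h10]
      exact h9
    have hW' := hF hW
    rw [mem_inf_principal, mem_comap] at hW'
    obtain ⟨t, ht, hsub⟩ := hW'
    obtain ⟨ε, hε, hball⟩ := Metric.mem_nhds_iff.1 ht
    refine ⟨ε, hε, fun q hq hqε hqs => ?_⟩
    have h11 : q.1 ∈ t := hball (by rwa [Metric.mem_ball, dist_zero_right])
    exact hsub h11 ⟨hq, hqs⟩

end

end Prim

end Vale.Agent.P282.L2
end

section

open MeasureTheory Filter Topology
open scoped ENNReal NNReal ComplexConjugate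

namespace Vale.Agent.P282.L2

namespace Sheets

variable {n N : ℕ} {S : Sheets n N}

namespace HDense

/-- weighted norm -/
noncomputable def NN (S : Sheets n N) (Φ : (Fin n → ℂ) × ℂ → ℝ) (f : (Fin n → ℂ) × ℂ → ℂ) :
    ℝ≥0∞ :=
  eLpNorm (fun q => ((Real.exp (-(Φ q) / 2) : ℝ) : ℂ) * f q) 2 S.μ

theorem exp_half_sq (x : ℝ) : Real.exp (-x / 2) ^ 2 = Real.exp (-x) := by
  rw [← Real.exp_nat_mul]
  congr 1
  push_cast
  ring

theorem NN_sq (Φ : (Fin n → ℂ) × ℂ → ℝ) (f : (Fin n → ℂ) × ℂ → ℂ) :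
    NN S Φ f ^ 2 = ∫⁻ q, ENNReal.ofReal (‖f q‖ ^ 2 * Real.exp (-(Φ q))) ∂S.μ := by
  have h : ∀ q, ‖((Real.exp (-(Φ q) / 2) : ℝ) : ℂ) * f q‖ₑ ^ (2 : ℝ) =
      ENNReal.ofReal (‖f q‖ ^ 2 * Real.exp (-(Φ q))) := by
    intro q
    rw [← ofReal_norm, ENNReal.ofReal_rpow_of_nonneg (norm_nonneg _) (by norm_num),
      norm_mul, Complex.norm_real, Real.norm_of_nonneg (Real.exp_pos _).le, ← exp_half_sq]
    congr 1
    norm_cast
    ring
  rw [NN, eLpNorm_eq_lintegral_rpow_enorm_toReal (by norm_num) (by norm_num),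
    ENNReal.toReal_ofNat, ← ENNReal.rpow_natCast, ← ENNReal.rpow_mul,
    show (1 / 2 : ℝ) * ((2 : ℕ) : ℝ) = 1 by norm_num, ENNReal.rpow_one]
  exact lintegral_congr h

variable {Φ Φ' : (Fin n → ℂ) × ℂ → ℝ} {f g : (Fin n → ℂ) × ℂ → ℂ}

theorem sq_eLpNorm (f : (Fin n → ℂ) × ℂ → ℂ) :
    eLpNorm f 2 S.μ ^ 2 = ∫⁻ q, ENNReal.ofReal (‖f q‖ ^ 2) ∂S.μ := by
  have h := NN_sq (S := S) (fun _ => 0) f
  simpa [NN] using h

theorem cd_w (hΦ : S.CD 0 (fun q => (Φ q : ℂ))) :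
    S.CD 0 (fun q => ((Real.exp (-(Φ q) / 2) : ℝ) : ℂ)) :=
  CD.comp_real (φ := fun x => Real.exp (-x / 2)) (by fun_prop) hΦ

/-- measurability of the weighted function -/
theorem aesm_w (hΦ : S.CD 0 (fun q => (Φ q : ℂ))) (hf : AEStronglyMeasurable f S.μ) :
    AEStronglyMeasurable (fun q => ((Real.exp (-(Φ q) / 2) : ℝ) : ℂ) * f q) S.μ :=
  (aestronglyMeasurable_of_CD (cd_w hΦ)).mul hf

theorem NN_add_le (hΦ : S.CD 0 (fun q => (Φ q : ℂ))) (hf : AEStronglyMeasurable f S.μ)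
    (hg : AEStronglyMeasurable g S.μ) :
    NN S Φ (fun q => f q + g q) ≤ NN S Φ f + NN S Φ g := by
  have h1 := eLpNorm_add_le (aesm_w hΦ hf) (aesm_w hΦ hg) (p := 2) (by norm_num)
  unfold NN
  refine le_trans (le_of_eq ?_) h1
  congr 1
  ext q
  simp [mul_add]

theorem NN_sum_le {ι : Type*} (hΦ : S.CD 0 (fun q => (Φ q : ℂ))) (t : Finset ι)
    {f : ι → (Fin n → ℂ) × ℂ → ℂ} (hf : ∀ i ∈ t, AEStronglyMeasurable (f i) S.μ) :
    NN S Φ (fun q => ∑ i ∈ t, f i q) ≤ ∑ i ∈ t, NN S Φ (f i) := by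
  have h1 := eLpNorm_sum_le (f := fun i q => ((Real.exp (-(Φ q) / 2) : ℝ) : ℂ) * f i q)
    (s := t) (fun i hi => aesm_w hΦ (hf i hi)) (p := 2) (by norm_num)
  unfold NN
  refine le_trans (le_of_eq ?_) h1
  congr 1
  ext q
  simp [Finset.mul_sum]

theorem NN_congr (hfg : ∀ q ∈ S.M, f q = g q) : NN S Φ f = NN S Φ g := by
  refine eLpNorm_congr_ae ?_
  filter_upwards [ae_mem_M] with q hq
  rw [hfg q hq]

/-- a uniform bound for a compactly supported function -/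
theorem exists_bd {h : (Fin n → ℂ) × ℂ → ℂ} (hh : S.CD 0 h) {c : Set (Fin n → ℂ)}
    (hc : IsCompact c) (hcV : c ⊆ S.V) (h0 : ∀ q : (Fin n → ℂ) × ℂ, q.1 ∉ c → h q = 0) :
    ∃ B : ℝ, 0 < B ∧ ∀ q ∈ S.M, ‖h q‖ ≤ B := by
  obtain ⟨B, hB⟩ := exists_bound hh hc hcV
  refine ⟨max B 1, lt_max_of_lt_right one_pos, fun q hq => ?_⟩
  by_cases hqc : q.1 ∈ c
  · exact (hB q hq hqc).trans (le_max_left _ _)
  · rw [h0 q hqc, norm_zero]
    exact le_max_of_le_right zero_le_one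

/-- compactly supported multipliers -/
theorem NN_mul_le {h : (Fin n → ℂ) × ℂ → ℂ} (hh : S.CD 0 h) {c : Set (Fin n → ℂ)}
    (hc : IsCompact c) (hcV : c ⊆ S.V) (h0 : ∀ q : (Fin n → ℂ) × ℂ, q.1 ∉ c → h q = 0)
    (hΦ : S.CD 0 (fun q => (Φ q : ℂ))) :
    ∃ B : ℝ, 0 < B ∧ ∀ f, NN S Φ (fun q => h q * f q) ≤ ENNReal.ofReal B * eLpNorm f 2 S.μ := by
  obtain ⟨B, hB, hB'⟩ := exists_bd ((cd_w hΦ).mul hh) hc hcV
    (fun q hq => by rw [h0 q hq, mul_zero])
  refine ⟨B, hB, fun f => eLpNorm_le_mul_eLpNorm_of_ae_le_mul ?_ 2⟩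
  filter_upwards [ae_mem_M] with q hq
  rw [← mul_assoc, norm_mul]
  exact mul_le_mul_of_nonneg_right (hB' q hq) (norm_nonneg _)

theorem NN_small {h : (Fin n → ℂ) × ℂ → ℂ} (hh : S.CD 0 h) {c : Set (Fin n → ℂ)}
    (hc : IsCompact c) (hcV : c ⊆ S.V) (h0 : ∀ q : (Fin n → ℂ) × ℂ, q.1 ∉ c → h q = 0)
    (hΦ : S.CD 0 (fun q => (Φ q : ℂ))) {δ : ℝ≥0∞} (hδ : δ ≠ 0) :
    ∀ᶠ a in 𝓝[>] (0 : ℝ≥0∞), ∀ f, eLpNorm f 2 S.μ ≤ a → NN S Φ (fun q => h q * f q) ≤ δ := by
  obtain ⟨B, hB, hB'⟩ := NN_mul_le hh hc hcV h0 hΦ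
  have hB0 : ENNReal.ofReal B ≠ 0 := by simpa using hB
  have h1 : (0 : ℝ≥0∞) < δ / ENNReal.ofReal B := ENNReal.div_pos hδ ENNReal.ofReal_ne_top
  filter_upwards [mem_nhdsWithin_of_mem_nhds (Iio_mem_nhds h1)] with a ha f hf
  calc NN S Φ (fun q => h q * f q) ≤ ENNReal.ofReal B * eLpNorm f 2 S.μ := hB' f
    _ ≤ ENNReal.ofReal B * (δ / ENNReal.ofReal B) := by
        gcongr
        exact hf.trans (le_of_lt ha)
    _ = δ := ENNReal.mul_div_cancel hB0 ENNReal.ofReal_ne_top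

/-- local square integrability -/
theorem memLp_mul {h : (Fin n → ℂ) × ℂ → ℂ} (hh : S.CD 0 h) {c : Set (Fin n → ℂ)}
    (hc : IsCompact c) (hcV : c ⊆ S.V) (h0 : ∀ q : (Fin n → ℂ) × ℂ, q.1 ∉ c → h q = 0)
    (hΦ : S.CD 0 (fun q => (Φ q : ℂ))) (hf : AEStronglyMeasurable f S.μ) (hf2 : NN S Φ f ≠ ⊤) :
    MemLp (fun q => h q * f q) 2 S.μ := by
  have hw : S.CD 0 (fun q => ((Real.exp (Φ q / 2) : ℝ) : ℂ)) :=
    CD.comp_real (φ := fun x => Real.exp (x / 2)) (by fun_prop) hΦ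
  obtain ⟨B, hB, hB'⟩ := exists_bd (hw.mul hh) hc hcV
    (fun q hq => by rw [h0 q hq, mul_zero])
  refine ⟨(aestronglyMeasurable_of_CD hh).mul hf, ?_⟩
  refine lt_of_le_of_lt (b := ENNReal.ofReal B * NN S Φ f) ?_
    (ENNReal.mul_lt_top ENNReal.ofReal_lt_top (lt_top_iff_ne_top.2 hf2))
  refine eLpNorm_le_mul_eLpNorm_of_ae_le_mul ?_ 2
  filter_upwards [ae_mem_M] with q hq
  have h1 : h q * f q = (((Real.exp (Φ q / 2) : ℝ) : ℂ) * h q) *
      (((Real.exp (-(Φ q) / 2) : ℝ) : ℂ) * f q) := by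
    have h2 : ((Real.exp (Φ q / 2) : ℝ) : ℂ) * ((Real.exp (-(Φ q) / 2) : ℝ) : ℂ) = 1 := by
      rw [← Complex.ofReal_mul, ← Real.exp_add]
      simp [← add_div]
    linear_combination (-(h q * f q)) * h2
  rw [h1, norm_mul]
  exact mul_le_mul_of_nonneg_right (hB' q hq) (norm_nonneg _)

/-- compactly supported continuous functions are square integrable -/
theorem memLp_test {h : (Fin n → ℂ) × ℂ → ℂ} (hh : S.CD 0 h) (hs : S.Supp h) :
    MemLp h 2 S.μ := by
  refine (memLp_two_iff_integrable_sq_norm (aestronglyMeasurable_of_CD hh)).2 ?_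
  have h1 : Integrable (fun q => h q * conj (h q)) S.μ := by
    refine integrable_of_supp (hh.mul hh.conj) ?_
    obtain ⟨c, hc, hcV, h0⟩ := hs
    exact ⟨c, hc, hcV, fun q hq => by simp only [h0 q hq, zero_mul]⟩
  refine h1.norm.congr (Eventually.of_forall fun q => ?_)
  simp only
  rw [norm_mul, RCLike.norm_conj, sq]

/-- convergence of the cut off functions -/
theorem NN_tendsto {h : ℕ → (Fin n → ℂ) × ℂ → ℂ} (hh : ∀ m, S.CD 0 (h m))
    (hle : ∀ m, ∀ q ∈ S.M, ‖h m q‖ ^ 2 * Real.exp (-(Φ' q)) ≤ Real.exp (-(Φ q)))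
    (hz : ∀ q ∈ S.M, ∀ᶠ m in atTop, h m q = 0)
    (hΦ' : S.CD 0 (fun q => (Φ' q : ℂ))) (hf : AEStronglyMeasurable f S.μ)
    (hf2 : NN S Φ f ≠ ⊤) :
    Tendsto (fun m => NN S Φ' (fun q => h m q * f q)) atTop (𝓝 0) := by
  have h1 : Tendsto (fun m => NN S Φ' (fun q => h m q * f q) ^ 2) atTop (𝓝 0) := by
    simp only [NN_sq]
    have h2 : (0 : ℝ≥0∞) = ∫⁻ q, 0 ∂S.μ := by simp
    rw [h2]
    refine tendsto_lintegral_of_dominated_convergence'
      (fun q => ENNReal.ofReal (‖f q‖ ^ 2 * Real.exp (-(Φ q)))) ?_ ?_ ?_ ?_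
    · intro m
      have h3 := (aesm_w hΦ' ((aestronglyMeasurable_of_CD (hh m)).mul hf)).norm.aemeasurable
      have h4 := (h3.pow_const 2).ennreal_ofReal
      refine h4.congr (Eventually.of_forall fun q => ?_)
      simp only [Pi.mul_apply]
      rw [norm_mul, Complex.norm_real, Real.norm_of_nonneg (Real.exp_pos _).le, mul_pow,
        exp_half_sq, mul_comm]
    · intro m
      filter_upwards [ae_mem_M] with q hq
      refine ENNReal.ofReal_le_ofReal ?_
      rw [norm_mul, mul_pow]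
      linarith only [mul_nonneg (sub_nonneg.2 (hle m q hq)) (sq_nonneg ‖f q‖)]
    · rw [← NN_sq]
      exact ENNReal.pow_ne_top hf2
    · filter_upwards [ae_mem_M] with q hq
      refine tendsto_const_nhds.congr' ?_
      filter_upwards [hz q hq] with m hm
      simp [hm]
  have h5 := (ENNReal.continuous_rpow_const (y := 1 / 2)).tendsto 0 |>.comp h1
  have h6 : ((0 : ℝ≥0∞) ^ (1 / 2 : ℝ)) = 0 := ENNReal.zero_rpow_of_pos (by norm_num)
  rw [h6] at h5
  refine h5.congr fun m => ?_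
  simp only [Function.comp]
  rw [← ENNReal.rpow_natCast, ← ENNReal.rpow_mul]
  norm_num

/-! ### cutoff functions -/

/-- the derivatives of a function with values in `[0, 1]` vanish where it is `0` or `1` -/
theorem fderiv_extr {η : (Fin n → ℂ) → ℝ} (hη : ∀ z, 0 ≤ η z ∧ η z ≤ 1) {z : Fin n → ℂ}
    (hz : η z = 0 ∨ η z = 1) : fderiv ℝ (fun z => (η z : ℂ)) z = 0 := by
  by_cases hd : DifferentiableAt ℝ (fun z => (η z : ℂ)) z
  · have hd' : DifferentiableAt ℝ η z := by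
      have h1 : DifferentiableAt ℝ (fun z => Complex.reCLM (η z : ℂ)) z :=
        Complex.reCLM.differentiableAt.comp z hd
      simpa using h1
    have h1 : fderiv ℝ η z = 0 := by
      rcases hz with hz | hz
      · refine IsLocalMin.fderiv_eq_zero (Eventually.of_forall fun w => ?_)
        rw [hz]
        exact (hη w).1
      · refine IsLocalMax.fderiv_eq_zero (Eventually.of_forall fun w => ?_)
        rw [hz]
        exact (hη w).2
    have h2 : HasFDerivAt η (0 : (Fin n → ℂ) →L[ℝ] ℝ) z := by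
      rw [← h1]
      exact hd'.hasFDerivAt
    have h3 := Complex.ofRealCLM.hasFDerivAt.comp z h2
    have h4 : fderiv ℝ (fun z => (η z : ℂ)) z = Complex.ofRealCLM.comp 0 := h3.fderiv
    rw [h4, ContinuousLinearMap.comp_zero]
  · exact fderiv_zero_of_not_differentiableAt hd

theorem dz_extr {η : (Fin n → ℂ) → ℝ} (hη : ∀ z, 0 ≤ η z ∧ η z ≤ 1) {z : Fin n → ℂ}
    (hz : η z = 0 ∨ η z = 1) (j : Fin n) : dz j (fun z => (η z : ℂ)) z = 0 := by
  rw [dz, fderiv_extr hη hz]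
  simp

theorem dzb_extr {η : (Fin n → ℂ) → ℝ} (hη : ∀ z, 0 ≤ η z ∧ η z ≤ 1) {z : Fin n → ℂ}
    (hz : η z = 0 ∨ η z = 1) (j : Fin n) : dzb j (fun z => (η z : ℂ)) z = 0 := by
  rw [dzb, fderiv_extr hη hz]
  simp

theorem norm_dz_real (η : (Fin n → ℂ) → ℝ) (z : Fin n → ℂ) (j : Fin n) :
    ‖dz j (fun z => (η z : ℂ)) z‖ = ‖dzb j (fun z => (η z : ℂ)) z‖ := by
  have h := dz_conj (f := fun z => (η z : ℂ)) (z := z) (j := j)
  simp only [Complex.conj_ofReal] at h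
  rw [h, RCLike.norm_conj]

/-- a cutoff function with compact support -/
structure Cut (S : Sheets n N) (η : (Fin n → ℂ) → ℝ) (c : Set (Fin n → ℂ)) : Prop where
  smooth : ContDiffOn ℝ 4 η S.V
  mem : ∀ z, 0 ≤ η z ∧ η z ≤ 1
  compact : IsCompact c
  subset : c ⊆ S.V
  zero : ∀ z, z ∉ c → η z = 0

theorem Cut.cd {η : (Fin n → ℂ) → ℝ} (hη : ContDiffOn ℝ 4 η S.V) :
    S.CD 4 (fun q => (η q.1 : ℂ)) :=
  CD.fst (f := fun z => (η z : ℂ)) (Complex.ofRealCLM.contDiff.comp_contDiffOn hη)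

theorem Cut.cd_dz {η : (Fin n → ℂ) → ℝ} (hη : ContDiffOn ℝ 4 η S.V) (j : Fin n) :
    S.CD 3 (fun q => dz j (fun z => (η z : ℂ)) q.1) :=
  CD.D (j := j) (m := 3) (Cut.cd hη)

theorem Cut.cd_dzb {η : (Fin n → ℂ) → ℝ} (hη : ContDiffOn ℝ 4 η S.V) (j : Fin n) :
    S.CD 3 (fun q => dzb j (fun z => (η z : ℂ)) q.1) :=
  CD.Db (j := j) (m := 3) (Cut.cd hη)

theorem Cut.dz_zero {η : (Fin n → ℂ) → ℝ} {c : Set (Fin n → ℂ)} (h : Cut S η c)
    {z : Fin n → ℂ} (hz : z ∉ c) (j : Fin n) : dz j (fun z => (η z : ℂ)) z = 0 :=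
  dz_extr h.mem (Or.inl (h.zero z hz)) j

theorem Cut.dzb_zero {η : (Fin n → ℂ) → ℝ} {c : Set (Fin n → ℂ)} (h : Cut S η c)
    {z : Fin n → ℂ} (hz : z ∉ c) (j : Fin n) : dzb j (fun z => (η z : ℂ)) z = 0 :=
  dzb_extr h.mem (Or.inl (h.zero z hz)) j

/-- cutoff functions equal to one on a compact set -/
theorem exists_cut (S : Sheets n N) {c : Set (Fin n → ℂ)} (hc : IsCompact c) (hcV : c ⊆ S.V) :
    ∃ (θ : (Fin n → ℂ) → ℝ) (L : Set (Fin n → ℂ)), Cut S θ L ∧ ∀ z ∈ c, θ z = 1 := by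
  obtain ⟨L, hL, hcL, hLV⟩ := exists_compact_between hc S.isOpen hcV
  obtain ⟨f, hf1, hf0, hf⟩ := exists_contMDiffMap_one_nhds_of_subset_interior
    (n := (4 : ℕ)) (modelWithCornersSelf ℝ (Fin n → ℂ)) hc.isClosed hcL
  refine ⟨f, L, ⟨?_, fun z => hf z, hL, hLV, hf0⟩, fun z hz => hf1.self_of_nhdsSet z hz⟩
  exact (contMDiff_iff_contDiff.1 f.contMDiff).contDiffOn

/-- first step: the cutoff -/
theorem exists_eta {lam ψ : (Fin n → ℂ) × ℂ → ℝ} (hlam : S.CD 0 (fun q => (lam q : ℂ)))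
    (hψ : S.CD 0 (fun q => (ψ q : ℂ))) {p : (Fin n → ℂ) → ℝ} (hcut : S.HasCut p ψ)
    {b : Fin n → (Fin n → ℂ) × ℂ → ℂ} {g : (Fin n → ℂ) × ℂ → ℂ}
    (hb : ∀ j, AEStronglyMeasurable (b j) S.μ) (hg : AEStronglyMeasurable g S.μ)
    (hb2 : ∀ j, NN S (fun q => lam q - ψ q) (b j) ≠ ⊤) (hg2 : NN S lam g ≠ ⊤)
    {δ : ℝ≥0∞} (hδ : δ ≠ 0) :
    ∃ (η : (Fin n → ℂ) → ℝ) (c : Set (Fin n → ℂ)), Cut S η c ∧
      (∀ j, NN S (fun q => lam q - ψ q) (fun q => ((η q.1 : ℂ) - 1) * b j q) ≤ δ) ∧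
      NN S lam (fun q => ((η q.1 : ℂ) - 1) * g q) ≤ δ ∧
      (∀ j k, NN S lam (fun q => dz j (fun z => (η z : ℂ)) q.1 * b k q) ≤ δ) ∧
      ∀ j k, NN S lam (fun q => dzb j (fun z => (η z : ℂ)) q.1 * b k q) ≤ δ := by
  choose η h1 h2 h3 h4 h5 using fun m : ℕ => hcut m
  choose c h6 h7 h8 using h4
  have hφ : S.CD 0 (fun q => ((lam q - ψ q : ℝ) : ℂ)) := by
    have h := hlam.add (hψ.mul (CD.const (S := S) (m := 0) (-1)))
    refine h.congr fun q _ => ?_
    push_cast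
    ring
  have hcd : ∀ m, S.CD 0 (fun q => (η m q.1 : ℂ) - 1) := by
    intro m
    have h := ((Cut.cd (S := S) (h1 m)).mono (m' := 0) (by norm_num)).add
      (CD.const (S := S) (m := 0) (-1))
    refine h.congr fun q _ => ?_
    ring
  have hone : ∀ m, ∀ q ∈ S.M, ‖(η m q.1 : ℂ) - 1‖ ^ 2 ≤ 1 := by
    intro m q hq
    have h9 : ‖(η m q.1 : ℂ) - 1‖ ≤ 1 := by
      rw [← Complex.ofReal_one, ← Complex.ofReal_sub, Complex.norm_real, Real.norm_eq_abs, abs_le]
      have := h2 m q.1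
      constructor <;> linarith
    exact pow_le_one₀ (norm_nonneg _) h9
  have hev : ∀ q ∈ S.M, ∀ᶠ m : ℕ in atTop, η m q.1 = 1 := by
    intro q hq
    filter_upwards [eventually_ge_atTop ⌈p q.1⌉₊] with m hm
    exact h3 m q.1 hq.1 ((Nat.le_ceil _).trans (by exact_mod_cast hm))
  have e1 : ∀ j, Tendsto (fun m => NN S (fun q => lam q - ψ q)
      (fun q => ((η m q.1 : ℂ) - 1) * b j q)) atTop (𝓝 0) := by
    intro j
    refine NN_tendsto (Φ := fun q => lam q - ψ q) hcd ?_ ?_ hφ (hb j) (hb2 j)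
    · intro m q hq
      exact mul_le_of_le_one_left (Real.exp_pos _).le (hone m q hq)
    · intro q hq
      filter_upwards [hev q hq] with m hm
      rw [hm]
      simp
  have e2 : Tendsto (fun m => NN S lam (fun q => ((η m q.1 : ℂ) - 1) * g q)) atTop (𝓝 0) := by
    refine NN_tendsto (Φ := lam) hcd ?_ ?_ hlam hg hg2
    · intro m q hq
      exact mul_le_of_le_one_left (Real.exp_pos _).le (hone m q hq)
    · intro q hq
      filter_upwards [hev q hq] with m hm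
      rw [hm]
      simp
  have hexp : ∀ q, Real.exp (ψ q) * Real.exp (-(lam q)) = Real.exp (-(lam q - ψ q)) := by
    intro q
    rw [← Real.exp_add]
    congr 1
    ring
  have hbar : ∀ m, ∀ q ∈ S.M, ∀ j, ‖dzb j (fun z => (η m z : ℂ)) q.1‖ ^ 2 ≤ Real.exp (ψ q) := by
    intro m q hq j
    exact (Finset.single_le_sum (f := fun j => ‖dzb j (fun z => (η m z : ℂ)) q.1‖ ^ 2)
      (fun _ _ => sq_nonneg _) (Finset.mem_univ j)).trans (h5 m q hq)
  have e3 : ∀ j k, Tendsto (fun m => NN S lam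
      (fun q => dz j (fun z => (η m z : ℂ)) q.1 * b k q)) atTop (𝓝 0) := by
    intro j k
    refine NN_tendsto (Φ := fun q => lam q - ψ q)
      (fun m => (Cut.cd_dz (S := S) (h1 m) j).mono (by norm_num)) ?_ ?_ hlam (hb k) (hb2 k)
    · intro m q hq
      rw [← hexp, norm_dz_real]
      exact mul_le_mul_of_nonneg_right (hbar m q hq j) (Real.exp_pos _).le
    · intro q hq
      filter_upwards [hev q hq] with m hm
      exact dz_extr (h2 m) (Or.inr hm) j
  have e4 : ∀ j k, Tendsto (fun m => NN S lam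
      (fun q => dzb j (fun z => (η m z : ℂ)) q.1 * b k q)) atTop (𝓝 0) := by
    intro j k
    refine NN_tendsto (Φ := fun q => lam q - ψ q)
      (fun m => (Cut.cd_dzb (S := S) (h1 m) j).mono (by norm_num)) ?_ ?_ hlam (hb k) (hb2 k)
    · intro m q hq
      rw [← hexp]
      exact mul_le_mul_of_nonneg_right (hbar m q hq j) (Real.exp_pos _).le
    · intro q hq
      filter_upwards [hev q hq] with m hm
      exact dzb_extr (h2 m) (Or.inr hm) j
  have hδ' : (0 : ℝ≥0∞) < δ := pos_iff_ne_zero.2 hδ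
  have f1 := eventually_all.2 fun j => (e1 j).eventually_le_const hδ'
  have f2 := e2.eventually_le_const hδ'
  have f3 := eventually_all.2 fun j => eventually_all.2 fun k => (e3 j k).eventually_le_const hδ'
  have f4 := eventually_all.2 fun j => eventually_all.2 fun k => (e4 j k).eventually_le_const hδ'
  obtain ⟨m, g1, g2, g3, g4⟩ := (f1.and (f2.and (f3.and f4))).exists
  exact ⟨η m, c m, ⟨h1 m, h2 m, h6 m, h7 m, h8 m⟩, g1, g2, g3, g4⟩

/-! ### weak derivatives after the cutoff -/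

theorem supp_D {κ : (Fin n → ℂ) × ℂ → ℂ} (h : S.Supp κ) (j : Fin n) : S.Supp (S.D j κ) := by
  obtain ⟨c, hc, hcV, h0⟩ := h
  refine ⟨c, hc, hcV, fun q hq => ?_⟩
  have h1 : (fun z => κ (z, S.sec q z)) =ᶠ[𝓝 q.1] fun _ => 0 := by
    filter_upwards [hc.isClosed.isOpen_compl.mem_nhds hq] with z hz
    exact h0 _ hz
  rw [Sheets.D, dz_congr h1, dz_const]

theorem supp_Db {κ : (Fin n → ℂ) × ℂ → ℂ} (h : S.Supp κ) (j : Fin n) : S.Supp (S.Db j κ) := by
  obtain ⟨c, hc, hcV, h0⟩ := h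
  refine ⟨c, hc, hcV, fun q hq => ?_⟩
  have h1 : (fun z => κ (z, S.sec q z)) =ᶠ[𝓝 q.1] fun _ => 0 := by
    filter_upwards [hc.isClosed.isOpen_compl.mem_nhds hq] with z hz
    exact h0 _ hz
  rw [Sheets.Db, dzb_congr h1, dzb_const]

/-- the unweighted weak divergence of `η b` -/
noncomputable def gw (S : Sheets n N) (φ : (Fin n → ℂ) × ℂ → ℝ) (η : (Fin n → ℂ) → ℝ)
    (b : Fin n → (Fin n → ℂ) × ℂ → ℂ) (g : (Fin n → ℂ) × ℂ → ℂ) (q : (Fin n → ℂ) × ℂ) : ℂ :=
  (η q.1 : ℂ) * g q + ∑ j, dz j (fun z => (η z : ℂ)) q.1 * b j q +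
    ∑ j, (S.D j (fun q => (φ q : ℂ)) q * (η q.1 : ℂ)) * b j q

/-- the weak curl of `η b` -/
noncomputable def sw (η : (Fin n → ℂ) → ℝ) (b : Fin n → (Fin n → ℂ) × ℂ → ℂ) (j k : Fin n)
    (q : (Fin n → ℂ) × ℂ) : ℂ :=
  dzb j (fun z => (η z : ℂ)) q.1 * b k q - dzb k (fun z => (η z : ℂ)) q.1 * b j q

section
variable {φ lam : (Fin n → ℂ) × ℂ → ℝ} (hφ : S.CD 2 (fun q => (φ q : ℂ)))
  (hlam : S.CD 0 (fun q => (lam q : ℂ)))
  {b : Fin n → (Fin n → ℂ) × ℂ → ℂ} {g : (Fin n → ℂ) × ℂ → ℂ}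
  (hb : ∀ j, AEStronglyMeasurable (b j) S.μ) (hg : AEStronglyMeasurable g S.μ)
  (hb2 : ∀ j, NN S φ (b j) ≠ ⊤) (hg2 : NN S lam g ≠ ⊤)
  {η : (Fin n → ℂ) → ℝ} {c : Set (Fin n → ℂ)} (hη : Cut S η c)

include hφ hb hb2 hη in
theorem memLp_b (j : Fin n) : MemLp (fun q => (η q.1 : ℂ) * b j q) 2 S.μ :=
  memLp_mul ((Cut.cd hη.smooth).mono (by norm_num)) hη.compact hη.subset
    (fun q hq => by rw [hη.zero q.1 hq, Complex.ofReal_zero]) (hφ.mono (by norm_num)) (hb j) (hb2 j)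

include hlam hg hg2 hη in
theorem memLp_g : MemLp (fun q => (η q.1 : ℂ) * g q) 2 S.μ :=
  memLp_mul ((Cut.cd hη.smooth).mono (by norm_num)) hη.compact hη.subset
    (fun q hq => by rw [hη.zero q.1 hq, Complex.ofReal_zero]) hlam hg hg2

include hφ hb hb2 hη in
theorem memLp_dz (j k : Fin n) :
    MemLp (fun q => dz j (fun z => (η z : ℂ)) q.1 * b k q) 2 S.μ :=
  memLp_mul ((Cut.cd_dz hη.smooth j).mono (by norm_num)) hη.compact hη.subset
    (fun _ hq => hη.dz_zero hq j) (hφ.mono (by norm_num)) (hb k) (hb2 k)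

include hφ hb hb2 hη in
theorem memLp_dzb (j k : Fin n) :
    MemLp (fun q => dzb j (fun z => (η z : ℂ)) q.1 * b k q) 2 S.μ :=
  memLp_mul ((Cut.cd_dzb hη.smooth j).mono (by norm_num)) hη.compact hη.subset
    (fun _ hq => hη.dzb_zero hq j) (hφ.mono (by norm_num)) (hb k) (hb2 k)

include hφ in
theorem cd_Dphi (hη : ContDiffOn ℝ 4 η S.V) (j : Fin n) :
    S.CD 1 (fun q => S.D j (fun q => (φ q : ℂ)) q * (η q.1 : ℂ)) :=
  (CD.D (j := j) (m := 1) hφ).mul ((Cut.cd hη).mono (by norm_num))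

include hφ hb hb2 hη in
theorem memLp_D (j k : Fin n) :
    MemLp (fun q => (S.D j (fun q => (φ q : ℂ)) q * (η q.1 : ℂ)) * b k q) 2 S.μ :=
  memLp_mul ((cd_Dphi hφ hη.smooth j).mono (by norm_num)) hη.compact hη.subset
    (fun q hq => by rw [hη.zero q.1 hq, Complex.ofReal_zero, mul_zero])
    (hφ.mono (by norm_num)) (hb k) (hb2 k)

include hφ hb hb2 hη in
theorem memLp_low : MemLp (fun q => ∑ j, dz j (fun z => (η z : ℂ)) q.1 * b j q +
    ∑ j, (S.D j (fun q => (φ q : ℂ)) q * (η q.1 : ℂ)) * b j q) 2 S.μ :=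
  (memLp_finsetSum _ fun j _ => memLp_dz hφ hb hb2 hη j j).add
    (memLp_finsetSum _ fun j _ => memLp_D hφ hb hb2 hη j j)

include hφ hlam hb hb2 hg hg2 hη in
theorem memLp_gw : MemLp (gw S φ η b g) 2 S.μ := by
  refine ((memLp_g hlam hg hg2 hη).add (memLp_low hφ hb hb2 hη)).ae_eq
    (Eventually.of_forall fun q => ?_)
  simp only [Pi.add_apply, gw]
  ring

include hφ hb hb2 hη in
theorem memLp_sw (j k : Fin n) : MemLp (sw η b j k) 2 S.μ :=
  (memLp_dzb hφ hb hb2 hη j k).sub (memLp_dzb hφ hb hb2 hη k j)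

include hφ hlam hb hb2 hg hg2 hη in
theorem weak_div (hgw : ∀ κ, S.IsTest κ →
      ∫ q, (∑ j, b j q * S.D j κ q) * Real.exp (-(φ q)) ∂S.μ =
      - ∫ q, g q * κ q * Real.exp (-(φ q)) ∂S.μ) (κ : (Fin n → ℂ) × ℂ → ℂ) (hκ : S.IsTest κ) :
    ∫ q, ∑ j, ((η q.1 : ℂ) * b j q) * S.D j κ q ∂S.μ = - ∫ q, gw S φ η b g q * κ q ∂S.μ := by
  have hη2 : S.CD 2 (fun q => (η q.1 : ℂ)) := (Cut.cd hη.smooth).mono (by norm_num)
  have he : S.CD 2 (fun q => ((Real.exp (φ q) : ℝ) : ℂ)) :=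
    CD.comp_real (φ := Real.exp) Real.contDiff_exp hφ
  have hηκ : S.CD 2 (fun q => (η q.1 : ℂ) * κ q) := hη2.mul hκ.1
  have htest : S.IsTest (fun q => ((η q.1 : ℂ) * κ q) * ((Real.exp (φ q) : ℝ) : ℂ)) := by
    refine ⟨hηκ.mul he, c, hη.compact, hη.subset, fun q hq => ?_⟩
    simp only [hη.zero q.1 hq, Complex.ofReal_zero, zero_mul]
  have h1 := hgw _ htest
  have hee : ∀ q, ((Real.exp (φ q) : ℝ) : ℂ) * ((Real.exp (-(φ q)) : ℝ) : ℂ) = 1 := by
    intro q
    rw [← Complex.ofReal_mul, ← Real.exp_add]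
    simp
  have h2 : ∀ q ∈ S.M, (∑ j, b j q * S.D j (fun q => ((η q.1 : ℂ) * κ q) *
      ((Real.exp (φ q) : ℝ) : ℂ)) q) * ((Real.exp (-(φ q)) : ℝ) : ℂ) =
      (∑ j, ((η q.1 : ℂ) * b j q) * S.D j κ q) +
        (∑ j, dz j (fun z => (η z : ℂ)) q.1 * b j q +
          ∑ j, (S.D j (fun q => (φ q : ℂ)) q * (η q.1 : ℂ)) * b j q) * κ q := by
    intro q hq
    rw [Finset.sum_mul, add_mul, Finset.sum_mul, Finset.sum_mul, ← Finset.sum_add_distrib,
      ← Finset.sum_add_distrib]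
    refine Finset.sum_congr rfl fun j _ => ?_
    rw [D_mul (hηκ.mono (by norm_num)) (he.mono (by norm_num)) hq,
      D_mul (hη2.mono (by norm_num)) (hκ.1.mono (by norm_num)) hq,
      D_fst (f := fun z => (η z : ℂ)),
      D_comp_real (φ := Real.exp) (hφ.mono (by norm_num)) hq Real.differentiableAt_exp,
      Real.deriv_exp]
    linear_combination (b j q * (dz j (fun z => (η z : ℂ)) q.1 * κ q + (η q.1 : ℂ) * S.D j κ q +
      (η q.1 : ℂ) * κ q * S.D j (fun q => (φ q : ℂ)) q)) * hee q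
  have h3 : ∀ q ∈ S.M, g q * (((η q.1 : ℂ) * κ q) * ((Real.exp (φ q) : ℝ) : ℂ)) *
      ((Real.exp (-(φ q)) : ℝ) : ℂ) = ((η q.1 : ℂ) * g q) * κ q := by
    intro q hq
    linear_combination (g q * (η q.1 : ℂ) * κ q) * hee q
  have hκ0 : MemLp κ 2 S.μ := memLp_test (hκ.1.mono (by norm_num)) hκ.2
  have i1 : Integrable (fun q => ∑ j, ((η q.1 : ℂ) * b j q) * S.D j κ q) S.μ :=
    integrable_finsetSum _ fun j _ => (memLp_b hφ hb hb2 hη j).integrable_mul
      (memLp_test ((CD.D (j := j) (m := 1) hκ.1).mono (by norm_num)) (supp_D hκ.2 j))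
  have i2 : Integrable (fun q => (∑ j, dz j (fun z => (η z : ℂ)) q.1 * b j q +
          ∑ j, (S.D j (fun q => (φ q : ℂ)) q * (η q.1 : ℂ)) * b j q) * κ q) S.μ :=
    (memLp_low hφ hb hb2 hη).integrable_mul hκ0
  have i3 : Integrable (fun q => ((η q.1 : ℂ) * g q) * κ q) S.μ :=
    (memLp_g hlam hg hg2 hη).integrable_mul hκ0
  rw [integral_congr_ae (g := fun q => (∑ j, ((η q.1 : ℂ) * b j q) * S.D j κ q) +
        (∑ j, dz j (fun z => (η z : ℂ)) q.1 * b j q +
          ∑ j, (S.D j (fun q => (φ q : ℂ)) q * (η q.1 : ℂ)) * b j q) * κ q)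
      (by filter_upwards [ae_mem_M] with q hq using h2 q hq), integral_add i1 i2,
    integral_congr_ae (f := fun q => g q * (((η q.1 : ℂ) * κ q) * ((Real.exp (φ q) : ℝ) : ℂ)) *
      ((Real.exp (-(φ q)) : ℝ) : ℂ)) (g := fun q => ((η q.1 : ℂ) * g q) * κ q)
      (by filter_upwards [ae_mem_M] with q hq using h3 q hq)] at h1
  have h4 : ∫ q, gw S φ η b g q * κ q ∂S.μ = ∫ q, ((η q.1 : ℂ) * g q) * κ q ∂S.μ +
      ∫ q, (∑ j, dz j (fun z => (η z : ℂ)) q.1 * b j q +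
          ∑ j, (S.D j (fun q => (φ q : ℂ)) q * (η q.1 : ℂ)) * b j q) * κ q ∂S.μ := by
    rw [← integral_add i3 i2]
    refine integral_congr_ae (Eventually.of_forall fun q => ?_)
    simp only [gw]
    ring
  rw [h4]
  linear_combination h1

include hφ hb hb2 hη in
theorem weak_curl (hsw : ∀ κ, S.IsTest κ → ∀ j k,
      ∫ q, (b k q * S.Db j κ q - b j q * S.Db k κ q) ∂S.μ = 0)
    (κ : (Fin n → ℂ) × ℂ → ℂ) (hκ : S.IsTest κ) (j k : Fin n) :
    ∫ q, (((η q.1 : ℂ) * b k q) * S.Db j κ q - ((η q.1 : ℂ) * b j q) * S.Db k κ q) ∂S.μ =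
      - ∫ q, sw η b j k q * κ q ∂S.μ := by
  have hη2 : S.CD 2 (fun q => (η q.1 : ℂ)) := (Cut.cd hη.smooth).mono (by norm_num)
  have htest : S.IsTest (fun q => (η q.1 : ℂ) * κ q) := by
    refine ⟨hη2.mul hκ.1, c, hη.compact, hη.subset, fun q hq => ?_⟩
    simp only [hη.zero q.1 hq, Complex.ofReal_zero, zero_mul]
  have h1 := hsw _ htest j k
  have h2 : ∀ q ∈ S.M, b k q * S.Db j (fun q => (η q.1 : ℂ) * κ q) q -
      b j q * S.Db k (fun q => (η q.1 : ℂ) * κ q) q =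
      (((η q.1 : ℂ) * b k q) * S.Db j κ q - ((η q.1 : ℂ) * b j q) * S.Db k κ q) +
        sw η b j k q * κ q := by
    intro q hq
    rw [Db_mul (hη2.mono (by norm_num)) (hκ.1.mono (by norm_num)) hq,
      Db_mul (hη2.mono (by norm_num)) (hκ.1.mono (by norm_num)) hq,
      Db_fst (f := fun z => (η z : ℂ)), Db_fst (f := fun z => (η z : ℂ)), sw]
    ring
  have hκ0 : MemLp κ 2 S.μ := memLp_test (hκ.1.mono (by norm_num)) hκ.2
  have i0 : ∀ j k, Integrable (fun q => ((η q.1 : ℂ) * b k q) * S.Db j κ q) S.μ := fun j k =>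
    (memLp_b hφ hb hb2 hη k).integrable_mul
      (memLp_test ((CD.Db (j := j) (m := 1) hκ.1).mono (by norm_num)) (supp_Db hκ.2 j))
  have i1 := (i0 j k).sub (i0 k j)
  have i2 : Integrable (fun q => sw η b j k q * κ q) S.μ :=
    (memLp_sw hφ hb hb2 hη j k).integrable_mul hκ0
  rw [integral_congr_ae (g := fun q => (((η q.1 : ℂ) * b k q) * S.Db j κ q -
      ((η q.1 : ℂ) * b j q) * S.Db k κ q) + sw η b j k q * κ q)
      (by filter_upwards [ae_mem_M] with q hq using h2 q hq)] at h1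
  have h5 := integral_add i1 i2
  simp only [Pi.sub_apply] at h5
  rw [h5] at h1
  linear_combination h1

end

section
variable {φ lam : (Fin n → ℂ) × ℂ → ℝ} (hφ : S.CD 2 (fun q => (φ q : ℂ)))
  (hlam : S.CD 0 (fun q => (lam q : ℂ)))
  {b : Fin n → (Fin n → ℂ) × ℂ → ℂ} {g : (Fin n → ℂ) × ℂ → ℂ}
  (hb : ∀ j, AEStronglyMeasurable (b j) S.μ) (hg : AEStronglyMeasurable g S.μ)
  (hb2 : ∀ j, NN S φ (b j) ≠ ⊤) (hg2 : NN S lam g ≠ ⊤)
  {η : (Fin n → ℂ) → ℝ} {c : Set (Fin n → ℂ)} (hη : Cut S η c)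

/-- second step, pointwise identity for the divergence -/
theorem div_eq {θ : (Fin n → ℂ) → ℝ} {L : Set (Fin n → ℂ)} (hη : Cut S η c) (hθ : Cut S θ L)
    (h1 : ∀ z ∈ c, θ z = 1) {β : Fin n → (Fin n → ℂ) × ℂ → ℂ} (hβ : ∀ j, S.IsTest (β j))
    {q : (Fin n → ℂ) × ℂ} (hq : q ∈ S.M) :
    ∑ j, (S.D j (fun q => (θ q.1 : ℂ) * β j q) q -
        S.D j (fun q => (φ q : ℂ)) q * ((θ q.1 : ℂ) * β j q)) -
      ((η q.1 : ℂ) * g q + ∑ j, dz j (fun z => (η z : ℂ)) q.1 * b j q) =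
    (∑ j, dz j (fun z => (θ z : ℂ)) q.1 * (β j q - (η q.1 : ℂ) * b j q) +
      (θ q.1 : ℂ) * (∑ j, S.D j (β j) q - gw S φ η b g q)) +
    ∑ j, (-(S.D j (fun q => (φ q : ℂ)) q * (θ q.1 : ℂ))) * (β j q - (η q.1 : ℂ) * b j q) := by
  have hθ2 : S.CD 1 (fun q => (θ q.1 : ℂ)) := (Cut.cd hθ.smooth).mono (by norm_num)
  have e1 : ∀ j, S.D j (fun q => (θ q.1 : ℂ) * β j q) q =
      dz j (fun z => (θ z : ℂ)) q.1 * β j q + (θ q.1 : ℂ) * S.D j (β j) q := by
    intro j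
    rw [D_mul hθ2 ((hβ j).1.mono (by norm_num)) hq, D_fst (f := fun z => (θ z : ℂ))]
  have e3 : ∀ j, dz j (fun z => (θ z : ℂ)) q.1 * ((η q.1 : ℂ) * b j q) = 0 := by
    intro j
    by_cases hqc : q.1 ∈ c
    · rw [dz_extr hθ.mem (Or.inr (h1 _ hqc)), zero_mul]
    · rw [hη.zero _ hqc]
      simp
  have e4 : (θ q.1 : ℂ) * ((η q.1 : ℂ) * g q + ∑ j, dz j (fun z => (η z : ℂ)) q.1 * b j q) =
      (η q.1 : ℂ) * g q + ∑ j, dz j (fun z => (η z : ℂ)) q.1 * b j q := by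
    by_cases hqc : q.1 ∈ c
    · rw [h1 _ hqc]
      simp
    · rw [hη.zero _ hqc, Finset.sum_congr rfl fun j _ => by rw [hη.dz_zero hqc j, zero_mul]]
      simp
  have e5 : ∑ j, (S.D j (fun q => (θ q.1 : ℂ) * β j q) q -
        S.D j (fun q => (φ q : ℂ)) q * ((θ q.1 : ℂ) * β j q)) =
      ∑ j, dz j (fun z => (θ z : ℂ)) q.1 * β j q + (θ q.1 : ℂ) * ∑ j, S.D j (β j) q -
        ∑ j, S.D j (fun q => (φ q : ℂ)) q * (θ q.1 : ℂ) * β j q := by
    rw [Finset.mul_sum, ← Finset.sum_add_distrib, ← Finset.sum_sub_distrib]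
    refine Finset.sum_congr rfl fun j _ => ?_
    rw [e1 j]
    ring
  have e6 : ∑ j, dz j (fun z => (θ z : ℂ)) q.1 * (β j q - (η q.1 : ℂ) * b j q) =
      ∑ j, dz j (fun z => (θ z : ℂ)) q.1 * β j q := by
    refine Finset.sum_congr rfl fun j _ => ?_
    rw [mul_sub, e3 j, sub_zero]
  have e7 : ∑ j, (-(S.D j (fun q => (φ q : ℂ)) q * (θ q.1 : ℂ))) *
      (β j q - (η q.1 : ℂ) * b j q) =
      (θ q.1 : ℂ) * ∑ j, (S.D j (fun q => (φ q : ℂ)) q * (η q.1 : ℂ)) * b j q -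
        ∑ j, S.D j (fun q => (φ q : ℂ)) q * (θ q.1 : ℂ) * β j q := by
    rw [Finset.mul_sum, ← Finset.sum_sub_distrib]
    refine Finset.sum_congr rfl fun j _ => ?_
    ring
  rw [e5, e6, e7, gw]
  linear_combination e4

/-- second step, pointwise identity for the curl -/
theorem curl_eq {θ : (Fin n → ℂ) → ℝ} {L : Set (Fin n → ℂ)} (hη : Cut S η c) (hθ : Cut S θ L)
    (h1 : ∀ z ∈ c, θ z = 1) {β : Fin n → (Fin n → ℂ) × ℂ → ℂ} (hβ : ∀ j, S.IsTest (β j))
    {q : (Fin n → ℂ) × ℂ} (hq : q ∈ S.M) (j k : Fin n) :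
    S.Db j (fun q => (θ q.1 : ℂ) * β k q) q - S.Db k (fun q => (θ q.1 : ℂ) * β j q) q -
      sw η b j k q =
    (dzb j (fun z => (θ z : ℂ)) q.1 * (β k q - (η q.1 : ℂ) * b k q) +
      (θ q.1 : ℂ) * (S.Db j (β k) q - S.Db k (β j) q - sw η b j k q)) +
      (-(dzb k (fun z => (θ z : ℂ)) q.1)) * (β j q - (η q.1 : ℂ) * b j q) := by
  have hθ2 : S.CD 1 (fun q => (θ q.1 : ℂ)) := (Cut.cd hθ.smooth).mono (by norm_num)
  have e1 : ∀ j k, S.Db j (fun q => (θ q.1 : ℂ) * β k q) q =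
      dzb j (fun z => (θ z : ℂ)) q.1 * β k q + (θ q.1 : ℂ) * S.Db j (β k) q := by
    intro j k
    rw [Db_mul hθ2 ((hβ k).1.mono (by norm_num)) hq, Db_fst (f := fun z => (θ z : ℂ))]
  have e3 : ∀ j k, dzb j (fun z => (θ z : ℂ)) q.1 * ((η q.1 : ℂ) * b k q) = 0 := by
    intro j k
    by_cases hqc : q.1 ∈ c
    · rw [dzb_extr hθ.mem (Or.inr (h1 _ hqc)), zero_mul]
    · rw [hη.zero _ hqc]
      simp
  have e4 : (θ q.1 : ℂ) * sw η b j k q = sw η b j k q := by
    by_cases hqc : q.1 ∈ c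
    · rw [h1 _ hqc]
      simp
    · rw [sw, hη.dzb_zero hqc j, hη.dzb_zero hqc k]
      simp
  rw [e1, e1]
  linear_combination e4 + e3 j k - e3 k j

include hφ hlam hb hg hb2 hg2 hη in
/-- second step: approximation of the form after the cutoff -/
theorem exists_test_eta (hgw : ∀ κ, S.IsTest κ →
      ∫ q, (∑ j, b j q * S.D j κ q) * Real.exp (-(φ q)) ∂S.μ =
      - ∫ q, g q * κ q * Real.exp (-(φ q)) ∂S.μ)
    (hsw : ∀ κ, S.IsTest κ → ∀ j k,
      ∫ q, (b k q * S.Db j κ q - b j q * S.Db k κ q) ∂S.μ = 0)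
    {δ : ℝ≥0∞} (hδ : δ ≠ 0) :
    ∃ β : Fin n → (Fin n → ℂ) × ℂ → ℂ, (∀ j, S.IsTest (β j)) ∧
      (∀ j, NN S φ (fun q => β j q - (η q.1 : ℂ) * b j q) ≤ δ) ∧
      NN S lam (fun q => ∑ j, (S.D j (β j) q - S.D j (fun q => (φ q : ℂ)) q * β j q) -
        ((η q.1 : ℂ) * g q + ∑ j, dz j (fun z => (η z : ℂ)) q.1 * b j q)) ≤ (2 * n + 1) * δ ∧
      ∀ j k, NN S lam (fun q => S.Db j (β k) q - S.Db k (β j) q - sw η b j k q) ≤ 3 * δ := by
  obtain ⟨θ, L, hθ, hθ1⟩ := exists_cut S hη.compact hη.subset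
  have hφ0 : S.CD 0 (fun q => (φ q : ℂ)) := hφ.mono (by norm_num)
  have c1 : S.CD 0 (fun q => (θ q.1 : ℂ)) := (Cut.cd hθ.smooth).mono (by norm_num)
  have z1 : ∀ q : (Fin n → ℂ) × ℂ, q.1 ∉ L → (θ q.1 : ℂ) = 0 := fun q hq => by
    rw [hθ.zero _ hq, Complex.ofReal_zero]
  have c2 : ∀ j, S.CD 0 (fun q => dz j (fun z => (θ z : ℂ)) q.1) := fun j =>
    (Cut.cd_dz hθ.smooth j).mono (by norm_num)
  have c3 : ∀ j, S.CD 0 (fun q => dzb j (fun z => (θ z : ℂ)) q.1) := fun j =>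
    (Cut.cd_dzb hθ.smooth j).mono (by norm_num)
  have c3' : ∀ j, S.CD 0 (fun q => -(dzb j (fun z => (θ z : ℂ)) q.1)) := fun j =>
    ((CD.const (S := S) (m := 0) (-1)).mul (c3 j)).congr fun q _ => by ring
  have c4 : ∀ j, S.CD 0 (fun q => -(S.D j (fun q => (φ q : ℂ)) q * (θ q.1 : ℂ))) := fun j =>
    ((CD.const (S := S) (m := 0) (-1)).mul ((cd_Dphi hφ hθ.smooth j).mono (by norm_num))).congr
      fun q _ => by ring
  have s1 := NN_small c1 hθ.compact hθ.subset z1 hφ0 hδ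
  have s1' := NN_small c1 hθ.compact hθ.subset z1 hlam hδ
  have s2 := eventually_all.2 fun j => NN_small (c2 j) hθ.compact hθ.subset
    (fun q hq => hθ.dz_zero hq j) hlam hδ
  have s3 := eventually_all.2 fun j => NN_small (c3 j) hθ.compact hθ.subset
    (fun q hq => hθ.dzb_zero hq j) hlam hδ
  have s3' := eventually_all.2 fun j => NN_small (c3' j) hθ.compact hθ.subset
    (fun q hq => by rw [hθ.dzb_zero hq j, neg_zero]) hlam hδ
  have s4 := eventually_all.2 fun j => NN_small (c4 j) hθ.compact hθ.subset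
    (fun q hq => by rw [z1 q hq, mul_zero, neg_zero]) hlam hδ
  obtain ⟨a, ⟨t1, t1', t2, t3, t3', t4⟩, ha⟩ :=
    ((s1.and (s1'.and (s2.and (s3.and (s3'.and s4))))).and self_mem_nhdsWithin).exists
  have ha0 : a ^ 2 ≠ 0 := pow_ne_zero 2 (ne_of_gt ha)
  obtain ⟨β, hβ, -, b1, b2, b3⟩ := exists_test_approx_compact
    (fun j q => (η q.1 : ℂ) * b j q) (gw S φ η b g) (sw η b) hη.compact hη.subset
    (fun j q hq => by simp only [hη.zero _ hq, Complex.ofReal_zero, zero_mul])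
    (memLp_b hφ hb hb2 hη) (memLp_gw hφ hlam hb hg hb2 hg2 hη) (memLp_sw hφ hb hb2 hη)
    (weak_div hφ hlam hb hg hb2 hg2 hη hgw) (weak_curl hφ hb hb2 hη hsw) ha0
  have conv : ∀ f : (Fin n → ℂ) × ℂ → ℂ, ∫⁻ q, ENNReal.ofReal (‖f q‖ ^ 2) ∂S.μ ≤ a ^ 2 →
      eLpNorm f 2 S.μ ≤ a := by
    intro f hf
    rw [← sq_eLpNorm] at hf
    exact (ENNReal.pow_le_pow_left_iff two_ne_zero).1 hf
  have d1 : ∀ j, eLpNorm (fun q => β j q - (η q.1 : ℂ) * b j q) 2 S.μ ≤ a := fun j => conv _ (b1 j)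
  have d2 := conv _ b2
  have d3 : ∀ j k, eLpNorm (fun q => S.Db j (β k) q - S.Db k (β j) q - sw η b j k q) 2 S.μ ≤ a :=
    fun j k => conv _ (b3 j k)
  -- measurability
  have mβ : ∀ j, AEStronglyMeasurable (β j) S.μ := fun j =>
    aestronglyMeasurable_of_CD ((hβ j).1.mono (by norm_num))
  have m1 : ∀ j, AEStronglyMeasurable (fun q => β j q - (η q.1 : ℂ) * b j q) S.μ := fun j =>
    (mβ j).sub (memLp_b hφ hb hb2 hη j).1
  have m2 : AEStronglyMeasurable (fun q => ∑ j, S.D j (β j) q - gw S φ η b g q) S.μ := by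
    refine AEStronglyMeasurable.sub ?_ (memLp_gw hφ hlam hb hg hb2 hg2 hη).1
    refine aestronglyMeasurable_of_CD (CD.sum _ fun j _ => ?_)
    exact (CD.D (j := j) (m := 1) (hβ j).1).mono (by norm_num)
  have m3 : ∀ j k, AEStronglyMeasurable
      (fun q => S.Db j (β k) q - S.Db k (β j) q - sw η b j k q) S.μ := fun j k =>
    ((aestronglyMeasurable_of_CD ((CD.Db (j := j) (m := 1) (hβ k).1).mono (by norm_num))).sub
      (aestronglyMeasurable_of_CD ((CD.Db (j := k) (m := 1) (hβ j).1).mono (by norm_num)))).sub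
      (memLp_sw hφ hb hb2 hη j k).1
  have mc : ∀ {h f : (Fin n → ℂ) × ℂ → ℂ}, S.CD 0 h → AEStronglyMeasurable f S.μ →
      AEStronglyMeasurable (fun q => h q * f q) S.μ := fun hh hf =>
    (aestronglyMeasurable_of_CD hh).mul hf
  refine ⟨fun j q => (θ q.1 : ℂ) * β j q, ?_, ?_, ?_, ?_⟩
  · intro j
    refine ⟨((Cut.cd hθ.smooth).mono (by norm_num)).mul (hβ j).1, L, hθ.compact, hθ.subset,
      fun q hq => ?_⟩
    simp only [z1 q hq, zero_mul]
  · intro j
    refine le_trans (le_of_eq ?_) (t1 _ (d1 j))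
    refine NN_congr fun q _ => ?_
    have e : (θ q.1 : ℂ) * ((η q.1 : ℂ) * b j q) = (η q.1 : ℂ) * b j q := by
      by_cases hqc : q.1 ∈ c
      · rw [hθ1 _ hqc]
        simp
      · rw [hη.zero _ hqc]
        simp
    linear_combination e
  · rw [NN_congr fun q hq => div_eq hη hθ hθ1 hβ hq]
    have k1 : NN S lam (fun q => ∑ j, dz j (fun z => (θ z : ℂ)) q.1 *
        (β j q - (η q.1 : ℂ) * b j q)) ≤ n * δ := by
      refine (NN_sum_le hlam _ fun j _ => mc (c2 j) (m1 j)).trans ?_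
      refine (Finset.sum_le_sum fun j _ => t2 j _ (d1 j)).trans ?_
      rw [Finset.sum_const, Finset.card_univ, Fintype.card_fin, nsmul_eq_mul]
    have k2 : NN S lam (fun q => (θ q.1 : ℂ) * (∑ j, S.D j (β j) q - gw S φ η b g q)) ≤ δ :=
      t1' _ d2
    have k3 : NN S lam (fun q => ∑ j, (-(S.D j (fun q => (φ q : ℂ)) q * (θ q.1 : ℂ))) *
        (β j q - (η q.1 : ℂ) * b j q)) ≤ n * δ := by
      refine (NN_sum_le hlam _ fun j _ => mc (c4 j) (m1 j)).trans ?_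
      refine (Finset.sum_le_sum fun j _ => t4 j _ (d1 j)).trans ?_
      rw [Finset.sum_const, Finset.card_univ, Fintype.card_fin, nsmul_eq_mul]
    have n1 : AEStronglyMeasurable (fun q => ∑ j, dz j (fun z => (θ z : ℂ)) q.1 *
        (β j q - (η q.1 : ℂ) * b j q)) S.μ :=
      Finset.aestronglyMeasurable_fun_sum _ fun j _ => mc (c2 j) (m1 j)
    have n2 : AEStronglyMeasurable
        (fun q => (θ q.1 : ℂ) * (∑ j, S.D j (β j) q - gw S φ η b g q)) S.μ := mc c1 m2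
    have n3 : AEStronglyMeasurable (fun q => ∑ j,
        (-(S.D j (fun q => (φ q : ℂ)) q * (θ q.1 : ℂ))) * (β j q - (η q.1 : ℂ) * b j q)) S.μ :=
      Finset.aestronglyMeasurable_fun_sum _ fun j _ => mc (c4 j) (m1 j)
    refine (NN_add_le hlam (n1.add n2) n3).trans ?_
    refine (add_le_add (NN_add_le hlam n1 n2) le_rfl).trans ?_
    refine (add_le_add (add_le_add k1 k2) k3).trans (le_of_eq ?_)
    ring
  · intro j k
    rw [NN_congr fun q hq => curl_eq hη hθ hθ1 hβ hq j k]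
    refine (NN_add_le hlam ((mc (c3 j) (m1 k)).add (mc c1 (m3 j k)))
      (mc (c3' k) (m1 j))).trans ?_
    refine (add_le_add (NN_add_le hlam (mc (c3 j) (m1 k)) (mc c1 (m3 j k))) le_rfl).trans ?_
    refine (add_le_add (add_le_add (t3 j _ (d1 k)) (t1' _ (d3 j k))) (t3' k _ (d1 j))).trans
      (le_of_eq ?_)
    ring

end

end HDense

open HDense in
/-- Density of test forms in the graph norm, with weights `φ₁ = lam - 2 ψ`, `φ₂ = lam - ψ`,
`φ₃ = lam`. Here `g` is the weak value of `∑ (D_j b_j - D_j φ₂ b_j)` and `b` is closed. -/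
theorem exists_test_approx {lam ψ : (Fin n → ℂ) × ℂ → ℝ} (hlam : S.CD 2 (fun q => (lam q : ℂ)))
    (hψ : S.CD 2 (fun q => (ψ q : ℂ))) {p : (Fin n → ℂ) → ℝ} (hcut : S.HasCut p ψ)
    (b : Fin n → (Fin n → ℂ) × ℂ → ℂ) (g : (Fin n → ℂ) × ℂ → ℂ)
    (hb : ∀ j, AEStronglyMeasurable (b j) S.μ) (hg : AEStronglyMeasurable g S.μ)
    (hb2 : ∀ j, ∫⁻ q, ENNReal.ofReal (‖b j q‖ ^ 2 * Real.exp (-(lam q - ψ q))) ∂S.μ < ⊤)
    (hg2 : ∫⁻ q, ENNReal.ofReal (‖g q‖ ^ 2 * Real.exp (-lam q)) ∂S.μ < ⊤)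
    (hgw : ∀ κ, S.IsTest κ → ∫ q, (∑ j, b j q * S.D j κ q) * Real.exp (-(lam q - ψ q)) ∂S.μ =
      - ∫ q, g q * κ q * Real.exp (-(lam q - ψ q)) ∂S.μ)
    (hsw : ∀ κ, S.IsTest κ → ∀ j k, ∫ q, (b k q * S.Db j κ q - b j q * S.Db k κ q) ∂S.μ = 0)
    {ε : ℝ≥0∞} (hε : ε ≠ 0) :
    ∃ β : Fin n → (Fin n → ℂ) × ℂ → ℂ, (∀ j, S.IsTest (β j)) ∧
      (∀ j, ∫⁻ q, ENNReal.ofReal (‖β j q - b j q‖ ^ 2 * Real.exp (-(lam q - ψ q))) ∂S.μ ≤ ε) ∧
      ∫⁻ q, ENNReal.ofReal (‖∑ j, (S.D j (β j) q -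
        S.D j (fun q => ((lam q - ψ q : ℝ) : ℂ)) q * β j q) - g q‖ ^ 2 *
          Real.exp (-lam q)) ∂S.μ ≤ ε ∧
      ∀ j k, ∫⁻ q, ENNReal.ofReal (‖S.Db j (β k) q - S.Db k (β j) q‖ ^ 2 *
        Real.exp (-lam q)) ∂S.μ ≤ ε := by
  set φ : (Fin n → ℂ) × ℂ → ℝ := fun q => lam q - ψ q with hφdef
  have hφ : S.CD 2 (fun q => (φ q : ℂ)) := by
    have h := hlam.add (hψ.mul (CD.const (S := S) (m := 2) (-1)))
    refine h.congr fun q _ => ?_
    simp only [hφdef]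
    push_cast
    ring
  have hlam0 : S.CD 0 (fun q => (lam q : ℂ)) := hlam.mono (by norm_num)
  have hφ0 : S.CD 0 (fun q => (φ q : ℂ)) := hφ.mono (by norm_num)
  have fin_of : ∀ (Φ : (Fin n → ℂ) × ℂ → ℝ) (f : (Fin n → ℂ) × ℂ → ℂ),
      ∫⁻ q, ENNReal.ofReal (‖f q‖ ^ 2 * Real.exp (-(Φ q))) ∂S.μ < ⊤ → NN S Φ f ≠ ⊤ := by
    intro Φ f hf h
    rw [← NN_sq, h] at hf
    simp at hf
  have hb2' : ∀ j, NN S φ (b j) ≠ ⊤ := fun j => fin_of φ (b j) (hb2 j)
  have hg2' : NN S lam g ≠ ⊤ := fin_of lam g hg2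
  -- the small quantity
  set δ : ℝ≥0∞ := ε ^ (1 / 2 : ℝ) / (4 * n + 6) with hδdef
  have hn0 : ((4 : ℝ≥0∞) * n + 6) ≠ 0 := by simp
  have hnt : ((4 : ℝ≥0∞) * n + 6) ≠ ⊤ := by
    have : ((4 : ℝ≥0∞) * n + 6) = ((4 * n + 6 : ℕ) : ℝ≥0∞) := by push_cast; ring
    rw [this]
    exact ENNReal.natCast_ne_top _
  have hδ : δ ≠ 0 := by
    refine (ENNReal.div_pos ?_ hnt).ne'
    exact (ENNReal.rpow_pos_of_nonneg (pos_iff_ne_zero.2 hε) (by norm_num)).ne'
  have hδε : ((4 * n + 6) * δ) ^ 2 ≤ ε := by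
    rw [hδdef, ENNReal.mul_div_cancel hn0 hnt, ← ENNReal.rpow_natCast, ← ENNReal.rpow_mul]
    norm_num
  obtain ⟨η, c, hη, a1, a2, a3, a4⟩ := exists_eta hlam0 (hψ.mono (by norm_num)) hcut hb hg hb2'
    hg2' hδ
  obtain ⟨β, hβ, b1, b2, b3⟩ := exists_test_eta hφ hlam0 hb hg hb2' hg2' hη hgw hsw hδ
  have fin : ∀ (Φ : (Fin n → ℂ) × ℂ → ℝ) (f : (Fin n → ℂ) × ℂ → ℂ),
      NN S Φ f ≤ (4 * n + 6) * δ →
      ∫⁻ q, ENNReal.ofReal (‖f q‖ ^ 2 * Real.exp (-(Φ q))) ∂S.μ ≤ ε := by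
    intro Φ f hf
    rw [← NN_sq]
    exact (pow_le_pow_left' hf 2).trans hδε
  have hη0 : S.CD 0 (fun q => (η q.1 : ℂ)) := (Cut.cd hη.smooth).mono (by norm_num)
  have mη : AEStronglyMeasurable (fun q => (η q.1 : ℂ)) S.μ := aestronglyMeasurable_of_CD hη0
  have mη1 : AEStronglyMeasurable (fun q => (η q.1 : ℂ) - 1) S.μ :=
    mη.sub aestronglyMeasurable_const
  have mβ : ∀ j, AEStronglyMeasurable (β j) S.μ := fun j =>
    aestronglyMeasurable_of_CD ((hβ j).1.mono (by norm_num))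
  have mdz : ∀ j k, AEStronglyMeasurable (fun q => dz j (fun z => (η z : ℂ)) q.1 * b k q) S.μ :=
    fun j k => (memLp_dz hφ hb hb2' hη j k).1
  have mdzb : ∀ j k, AEStronglyMeasurable (fun q => dzb j (fun z => (η z : ℂ)) q.1 * b k q) S.μ :=
    fun j k => (memLp_dzb hφ hb hb2' hη j k).1
  refine ⟨β, hβ, ?_, ?_, ?_⟩
  · intro j
    refine fin φ _ ?_
    have e : NN S φ (fun q => β j q - b j q) =
        NN S φ (fun q => (β j q - (η q.1 : ℂ) * b j q) + ((η q.1 : ℂ) - 1) * b j q) :=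
      NN_congr fun q _ => by ring
    rw [e]
    refine (NN_add_le hφ0 ((mβ j).sub (mη.mul (hb j))) (mη1.mul (hb j))).trans ?_
    refine (add_le_add (b1 j) (a1 j)).trans ?_
    calc δ + δ = 2 * δ := by ring
      _ ≤ (4 * n + 6) * δ := by
          gcongr
          exact le_add_left (by norm_num)
  · refine fin lam _ ?_
    have e : NN S lam (fun q => ∑ j, (S.D j (β j) q -
        S.D j (fun q => ((lam q - ψ q : ℝ) : ℂ)) q * β j q) - g q) =
        NN S lam (fun q => (∑ j, (S.D j (β j) q - S.D j (fun q => (φ q : ℂ)) q * β j q) -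
        ((η q.1 : ℂ) * g q + ∑ j, dz j (fun z => (η z : ℂ)) q.1 * b j q)) +
        (((η q.1 : ℂ) - 1) * g q + ∑ j, dz j (fun z => (η z : ℂ)) q.1 * b j q)) :=
      NN_congr fun q _ => by ring
    rw [e]
    have m1 : AEStronglyMeasurable (fun q => ∑ j, (S.D j (β j) q -
        S.D j (fun q => (φ q : ℂ)) q * β j q)) S.μ := by
      refine Finset.aestronglyMeasurable_fun_sum _ fun j _ => ?_
      refine AEStronglyMeasurable.sub ?_ (AEStronglyMeasurable.mul ?_ (mβ j))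
      · exact aestronglyMeasurable_of_CD ((CD.D (j := j) (m := 1) (hβ j).1).mono (by norm_num))
      · exact aestronglyMeasurable_of_CD ((CD.D (j := j) (m := 1) hφ).mono (by norm_num))
    have m2 : AEStronglyMeasurable (fun q => ∑ j, dz j (fun z => (η z : ℂ)) q.1 * b j q) S.μ :=
      Finset.aestronglyMeasurable_fun_sum _ fun j _ => mdz j j
    refine (NN_add_le hlam0 (m1.sub ((mη.mul hg).add m2)) ((mη1.mul hg).add m2)).trans ?_
    refine (add_le_add b2 ((NN_add_le hlam0 (mη1.mul hg) m2).trans (add_le_add a2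
      (NN_sum_le hlam0 _ fun j _ => mdz j j)))).trans ?_
    refine (add_le_add le_rfl (add_le_add le_rfl
      (Finset.sum_le_sum fun j _ => a3 j j))).trans ?_
    rw [Finset.sum_const, Finset.card_univ, Fintype.card_fin, nsmul_eq_mul]
    calc (2 * (n : ℝ≥0∞) + 1) * δ + (δ + n * δ) = (3 * n + 2) * δ := by ring
      _ ≤ (4 * n + 6) * δ := by
          gcongr <;> norm_num
  · intro j k
    refine fin lam _ ?_
    have e : NN S lam (fun q => S.Db j (β k) q - S.Db k (β j) q) =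
        NN S lam (fun q => ((S.Db j (β k) q - S.Db k (β j) q - sw η b j k q) +
          dzb j (fun z => (η z : ℂ)) q.1 * b k q) +
          (-1) * (dzb k (fun z => (η z : ℂ)) q.1 * b j q)) :=
      NN_congr fun q _ => by rw [sw]; ring
    have e' : NN S lam (fun q => (-1) * (dzb k (fun z => (η z : ℂ)) q.1 * b j q)) =
        NN S lam (fun q => dzb k (fun z => (η z : ℂ)) q.1 * b j q) := by
      rw [NN, NN, ← eLpNorm_neg]
      congr 1
      ext q
      simp only [Pi.neg_apply]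
      ring
    rw [e]
    have m1 : AEStronglyMeasurable
        (fun q => S.Db j (β k) q - S.Db k (β j) q - sw η b j k q) S.μ :=
      ((aestronglyMeasurable_of_CD ((CD.Db (j := j) (m := 1) (hβ k).1).mono (by norm_num))).sub
      (aestronglyMeasurable_of_CD ((CD.Db (j := k) (m := 1) (hβ j).1).mono (by norm_num)))).sub
      (memLp_sw hφ hb hb2' hη j k).1
    refine (NN_add_le (g := fun q => (-1) * (dzb k (fun z => (η z : ℂ)) q.1 * b j q)) hlam0
      (m1.add (mdzb j k)) (aestronglyMeasurable_const.mul (mdzb k j))).trans ?_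
    rw [e']
    refine (add_le_add ((NN_add_le hlam0 m1 (mdzb j k)).trans (add_le_add (b3 j k) (a4 j k)))
      (a4 k j)).trans ?_
    calc 3 * δ + δ + δ = 5 * δ := by ring
      _ ≤ (4 * n + 6) * δ := by
          gcongr
          exact le_add_left (by norm_num)

end Sheets

end Vale.Agent.P282.L2
end

section

open MeasureTheory Filter Topology
open scoped ENNReal NNReal ComplexConjugate

namespace Vale.Agent.P282.L2

namespace Sheets

variable {n N : ℕ} {S : Sheets n N}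

section hb

variable {X Y : (Fin n → ℂ) × ℂ → ℂ} {q : (Fin n → ℂ) × ℂ} {j k : Fin n} {m : ℕ}
  {lam : (Fin n → ℂ) × ℂ → ℝ}

theorem hb_supp_mul (hX : S.Supp X) (Y : (Fin n → ℂ) × ℂ → ℂ) :
    S.Supp (fun q => X q * Y q) := by
  obtain ⟨C, hC, hCV, h⟩ := hX
  exact ⟨C, hC, hCV, fun q hq => by simp only [h q hq, zero_mul]⟩

theorem hb_supp_mul' (X : (Fin n → ℂ) × ℂ → ℂ) (hY : S.Supp Y) :
    S.Supp (fun q => X q * Y q) := by
  obtain ⟨C, hC, hCV, h⟩ := hY
  exact ⟨C, hC, hCV, fun q hq => by simp only [h q hq, mul_zero]⟩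

theorem hb_supp_conj (hX : S.Supp X) : S.Supp (fun q => conj (X q)) := by
  obtain ⟨C, hC, hCV, h⟩ := hX
  exact ⟨C, hC, hCV, fun q hq => by simp only [h q hq, map_zero]⟩

theorem hb_supp_add (hX : S.Supp X) (hY : S.Supp Y) : S.Supp (fun q => X q + Y q) := by
  obtain ⟨C, hC, hCV, h⟩ := hX
  obtain ⟨C', hC', hCV', h'⟩ := hY
  refine ⟨C ∪ C', hC.union hC', Set.union_subset hCV hCV', fun q hq => ?_⟩
  change X q + Y q = 0
  rw [h q fun hh => hq (Or.inl hh), h' q fun hh => hq (Or.inr hh), add_zero]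

theorem hb_supp_sub (hX : S.Supp X) (hY : S.Supp Y) : S.Supp (fun q => X q - Y q) := by
  obtain ⟨C, hC, hCV, h⟩ := hX
  obtain ⟨C', hC', hCV', h'⟩ := hY
  refine ⟨C ∪ C', hC.union hC', Set.union_subset hCV hCV', fun q hq => ?_⟩
  change X q - Y q = 0
  rw [h q fun hh => hq (Or.inl hh), h' q fun hh => hq (Or.inr hh), sub_zero]

theorem hb_supp_zero : S.Supp (fun _ => 0) :=
  ⟨∅, isCompact_empty, Set.empty_subset _, fun _ _ => rfl⟩

theorem hb_supp_sum {ι : Type*} (t : Finset ι) {X : ι → (Fin n → ℂ) × ℂ → ℂ}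
    (hX : ∀ i ∈ t, S.Supp (X i)) : S.Supp (fun q => ∑ i ∈ t, X i q) := by
  classical
  induction t using Finset.induction_on with
  | empty => simpa using hb_supp_zero (S := S)
  | insert a t ha ih =>
    simp only [Finset.sum_insert ha]
    exact hb_supp_add (hX a (Finset.mem_insert_self _ _))
      (ih fun i hi => hX i (Finset.mem_insert_of_mem hi))

theorem hb_supp_D (hX : S.Supp X) : S.Supp (S.D j X) := by
  obtain ⟨C, hC, hCV, h⟩ := hX
  refine ⟨C, hC, hCV, fun q hq => ?_⟩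
  have h1 : (fun z => X (z, S.sec q z)) =ᶠ[𝓝 q.1] fun _ => 0 := by
    filter_upwards [hC.isClosed.isOpen_compl.mem_nhds hq] with z hz
    exact h _ hz
  rw [Sheets.D, dz_congr h1, dz_const]

theorem hb_supp_Db (hX : S.Supp X) : S.Supp (S.Db j X) := by
  obtain ⟨C, hC, hCV, h⟩ := hX
  refine ⟨C, hC, hCV, fun q hq => ?_⟩
  have h1 : (fun z => X (z, S.sec q z)) =ᶠ[𝓝 q.1] fun _ => 0 := by
    filter_upwards [hC.isClosed.isOpen_compl.mem_nhds hq] with z hz
    exact h _ hz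
  rw [Sheets.Db, dzb_congr h1, dzb_const]

theorem hb_CD_neg (hX : S.CD m X) : S.CD m (fun q => -X q) := by
  simpa using (CD.const (S := S) (m := m) (-1 : ℂ)).mul hX

theorem hb_CD_sub (hX : S.CD m X) (hY : S.CD m Y) : S.CD m (fun q => X q - Y q) := by
  simpa only [sub_eq_add_neg] using hX.add (hb_CD_neg hY)

theorem hb_D_neg (hX : S.CD 1 X) (hq : q ∈ S.M) : S.D j (fun q => -X q) q = -S.D j X q := by
  have h := D_mul (S := S) (j := j) (CD.const (-1 : ℂ)) hX hq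
  have h0 : S.D j (fun _ => (-1 : ℂ)) q = 0 := by rw [Sheets.D, dz_const]
  simpa [h0] using h

theorem hb_Db_neg (hX : S.CD 1 X) (hq : q ∈ S.M) : S.Db j (fun q => -X q) q = -S.Db j X q := by
  have h := Db_mul (S := S) (j := j) (CD.const (-1 : ℂ)) hX hq
  have h0 : S.Db j (fun _ => (-1 : ℂ)) q = 0 := by rw [Sheets.Db, dzb_const]
  simpa [h0] using h

theorem hb_D_sub (hX : S.CD 1 X) (hY : S.CD 1 Y) (hq : q ∈ S.M) :
    S.D j (fun q => X q - Y q) q = S.D j X q - S.D j Y q := by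
  simp only [sub_eq_add_neg]
  rw [D_add hX (hb_CD_neg hY) hq, hb_D_neg hY hq]

theorem hb_Db_sub (hX : S.CD 1 X) (hY : S.CD 1 Y) (hq : q ∈ S.M) :
    S.Db j (fun q => X q - Y q) q = S.Db j X q - S.Db j Y q := by
  simp only [sub_eq_add_neg]
  rw [Db_add hX (hb_CD_neg hY) hq, hb_Db_neg hY hq]

theorem hb_CD_exp (hlam : S.CD m (fun q => (lam q : ℂ))) :
    S.CD m (fun q => ((Real.exp (-lam q) : ℝ) : ℂ)) :=
  CD.comp_real (φ := fun t => Real.exp (-t)) (by fun_prop) hlam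

theorem hb_D_exp (hlam : S.CD 1 (fun q => (lam q : ℂ))) (hq : q ∈ S.M) :
    S.D j (fun q => ((Real.exp (-lam q) : ℝ) : ℂ)) q =
      -(S.D j (fun q => (lam q : ℂ)) q * ((Real.exp (-lam q) : ℝ) : ℂ)) := by
  have hd : ∀ t : ℝ, HasDerivAt (fun t => Real.exp (-t)) (-Real.exp (-t)) t := fun t => by
    simpa using (hasDerivAt_neg t).exp
  have h := D_comp_real (φ := fun t => Real.exp (-t)) (j := j) hlam hq (hd _).differentiableAt
  rw [(hd _).deriv] at h
  rw [h]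
  push_cast
  ring

/-- `δ_j X = D_j X - (D_j lam) X`. -/
noncomputable def hb_del (S : Sheets n N) (lam : (Fin n → ℂ) × ℂ → ℝ) (j : Fin n)
    (X : (Fin n → ℂ) × ℂ → ℂ) (q : (Fin n → ℂ) × ℂ) : ℂ :=
  S.D j X q - S.D j (fun q => (lam q : ℂ)) q * X q

theorem hb_CD_del (hlam : S.CD (m + 1) (fun q => (lam q : ℂ))) (hX : S.CD (m + 1) X) :
    S.CD m (S.hb_del lam j X) :=
  hb_CD_sub hX.D (hlam.D.mul (hX.mono (Nat.le_succ m)))

theorem hb_supp_del (hX : S.Supp X) : S.Supp (S.hb_del lam j X) :=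
  hb_supp_sub (hb_supp_D hX) (hb_supp_mul' _ hX)

/-- First rule. -/
theorem hb_adj (hlam : S.CD 2 (fun q => (lam q : ℂ))) (hX : S.CD 1 X) (hs : S.Supp X)
    (hY : S.CD 1 Y) :
    ∫ q, S.hb_del lam j X q * conj (Y q) * ((Real.exp (-lam q) : ℝ) : ℂ) ∂S.μ =
      -∫ q, X q * conj (S.Db j Y q) * ((Real.exp (-lam q) : ℝ) : ℂ) ∂S.μ := by
  have hlam1 : S.CD 1 (fun q => (lam q : ℂ)) := hlam.mono (by norm_num)
  have hE := hb_CD_exp hlam1
  have h := integral_mul_D (j := j) hY.conj (hX.mul hE) (hb_supp_mul hs _)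
  have e1 : ∫ q, conj (Y q) * S.D j (fun q => X q * ((Real.exp (-lam q) : ℝ) : ℂ)) q ∂S.μ =
      ∫ q, S.hb_del lam j X q * conj (Y q) * ((Real.exp (-lam q) : ℝ) : ℂ) ∂S.μ := by
    refine integral_congr_ae (ae_mem_M.mono fun q hq => ?_)
    change conj (Y q) * S.D j (fun q => X q * ((Real.exp (-lam q) : ℝ) : ℂ)) q = _
    beta_reduce
    rw [D_mul hX hE hq, hb_D_exp hlam1 hq, hb_del]
    ring
  rw [← e1, h]
  congr 1
  refine integral_congr_ae (Eventually.of_forall fun q => ?_)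
  change S.D j (fun q => conj (Y q)) q * (X q * ((Real.exp (-lam q) : ℝ) : ℂ)) = _
  rw [D_conj]
  ring

/-- Second rule. -/
theorem hb_adj' (hlam : S.CD 2 (fun q => (lam q : ℂ))) (hX : S.CD 1 X) (hY : S.CD 1 Y)
    (hs : S.Supp Y) :
    ∫ q, X q * conj (S.hb_del lam j Y q) * ((Real.exp (-lam q) : ℝ) : ℂ) ∂S.μ =
      -∫ q, S.Db j X q * conj (Y q) * ((Real.exp (-lam q) : ℝ) : ℂ) ∂S.μ := by
  have h := congrArg conj (hb_adj (j := j) hlam hY hs hX)
  rw [map_neg, ← integral_conj, ← integral_conj] at h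
  have e1 : ∫ q, X q * conj (S.hb_del lam j Y q) * ((Real.exp (-lam q) : ℝ) : ℂ) ∂S.μ =
      ∫ q, conj (S.hb_del lam j Y q * conj (X q) * ((Real.exp (-lam q) : ℝ) : ℂ)) ∂S.μ := by
    refine integral_congr_ae (Eventually.of_forall fun q => ?_)
    simp only [map_mul, Complex.conj_conj, Complex.conj_ofReal]
    ring
  rw [e1, h]
  congr 1
  refine integral_congr_ae (Eventually.of_forall fun q => ?_)
  simp only [map_mul, Complex.conj_conj, Complex.conj_ofReal]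
  ring

/-- Commutator. -/
theorem hb_comm (hlam : S.CD 2 (fun q => (lam q : ℂ))) (hX : S.CD 2 X) (hq : q ∈ S.M) :
    S.Db k (S.hb_del lam j X) q = S.hb_del lam j (S.Db k X) q -
      S.D j (S.Db k (fun q => (lam q : ℂ))) q * X q := by
  have hX1 : S.CD 1 X := hX.mono (by norm_num)
  have h1 : S.CD 1 (S.D j X) := CD.D (m := 1) hX
  have h2 : S.CD 1 (S.D j (fun q => (lam q : ℂ))) := CD.D (m := 1) hlam
  have e : S.Db k (S.hb_del lam j X) q = S.Db k (fun q => S.D j X q -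
      S.D j (fun q => (lam q : ℂ)) q * X q) q := rfl
  rw [e, hb_Db_sub h1 (h2.mul hX1) hq, Db_mul h2 hX1 hq, ← D_Db_comm hX hq,
    ← D_Db_comm hlam hq]
  change _ = (S.D j (S.Db k X) q - S.D j (fun q => (lam q : ℂ)) q * S.Db k X q) - _
  ring

theorem hb_re_sum {F : Fin n → Fin n → (Fin n → ℂ) × ℂ → ℂ}
    (h : ∀ j k, Integrable (F j k) S.μ) :
    (∑ j, ∑ k, ∫ q, F j k q ∂S.μ).re = ∫ q, (∑ j, ∑ k, F j k q).re ∂S.μ := by
  have h1 : ∀ j, ∑ k, ∫ q, F j k q ∂S.μ = ∫ q, ∑ k, F j k q ∂S.μ := fun j =>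
    (integral_finsetSum _ fun k _ => h j k).symm
  have h2 : ∑ j, ∑ k, ∫ q, F j k q ∂S.μ = ∫ q, ∑ j, ∑ k, F j k q ∂S.μ := by
    simp only [h1]
    exact (integral_finsetSum _ fun j _ => integrable_finsetSum _ fun k _ => h j k).symm
  rw [h2]
  exact (integral_re (integrable_finsetSum _ fun j _ => integrable_finsetSum _ fun k _ =>
    h j k)).symm

theorem hb_cross (hlam : S.CD 2 (fun q => (lam q : ℂ))) (hX : S.IsTest X) (hY : S.IsTest Y) :
    ∫ q, S.hb_del lam j X q * conj (S.hb_del lam k Y q) * ((Real.exp (-lam q) : ℝ) : ℂ) ∂S.μ =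
      ∫ q, S.Db k X q * conj (S.Db j Y q) * ((Real.exp (-lam q) : ℝ) : ℂ) ∂S.μ +
      ∫ q, S.D j (S.Db k (fun q => (lam q : ℂ))) q * X q * conj (Y q) *
        ((Real.exp (-lam q) : ℝ) : ℂ) ∂S.μ := by
  have hX1 : S.CD 1 X := hX.1.mono (by norm_num)
  have hY1 : S.CD 1 Y := hY.1.mono (by norm_num)
  have hX0 : S.CD 0 X := hX.1.mono (by norm_num)
  have hY0 : S.CD 0 Y := hY.1.mono (by norm_num)
  have hdel : S.CD 1 (S.hb_del lam j X) := hb_CD_del (m := 1) hlam hX.1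
  have hDbX : S.CD 1 (S.Db k X) := CD.Db (m := 1) hX.1
  have hE0 : S.CD 0 (fun q => ((Real.exp (-lam q) : ℝ) : ℂ)) :=
    hb_CD_exp (hlam.mono (by norm_num))
  have hL0 : S.CD 0 (S.D j (S.Db k (fun q => (lam q : ℂ)))) :=
    CD.D (m := 0) (CD.Db (m := 1) hlam)
  have hlam1 : S.CD 1 (fun q => (lam q : ℂ)) := hlam.mono (by norm_num)
  rw [hb_adj' hlam hdel hY1 hY.2]
  have e1 : ∫ q, S.Db k (S.hb_del lam j X) q * conj (Y q) *
        ((Real.exp (-lam q) : ℝ) : ℂ) ∂S.μ =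
      ∫ q, (S.hb_del lam j (S.Db k X) q * conj (Y q) * ((Real.exp (-lam q) : ℝ) : ℂ) -
        S.D j (S.Db k (fun q => (lam q : ℂ))) q * X q * conj (Y q) *
        ((Real.exp (-lam q) : ℝ) : ℂ)) ∂S.μ := by
    refine integral_congr_ae (ae_mem_M.mono fun q hq => ?_)
    simp only [hb_comm hlam hX.1 hq]
    ring
  have i1 : Integrable (fun q => S.hb_del lam j (S.Db k X) q * conj (Y q) *
      ((Real.exp (-lam q) : ℝ) : ℂ)) S.μ :=
    integrable_of_supp (((hb_CD_del (m := 0) hlam1 hDbX).mul hY0.conj).mul hE0)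
      (hb_supp_mul (hb_supp_mul' _ (hb_supp_conj hY.2)) _)
  have i2 : Integrable (fun q => S.D j (S.Db k (fun q => (lam q : ℂ))) q * X q * conj (Y q) *
      ((Real.exp (-lam q) : ℝ) : ℂ)) S.μ :=
    integrable_of_supp (((hL0.mul hX0).mul hY0.conj).mul hE0)
      (hb_supp_mul (hb_supp_mul' _ (hb_supp_conj hY.2)) _)
  rw [e1, integral_sub i1 i2, hb_adj hlam hDbX (hb_supp_Db hX.2) hY1]
  ring

theorem hb_integrable_real {f : (Fin n → ℂ) × ℂ → ℝ} (hf : S.CD 0 (fun q => (f q : ℂ)))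
    (hs : S.Supp (fun q => (f q : ℂ))) : Integrable f S.μ := by
  have h := (integrable_of_supp hf hs).re
  exact h

/-- algebra for the final step. -/
theorem hb_alg (a : Fin n → Fin n → ℂ) :
    -(1 / 2 : ℝ) * ∑ j, ∑ k, ‖a j k - a k j‖ ^ 2 ≤ (∑ j, ∑ k, a k j * conj (a j k)).re := by
  have h1 : ∀ j k, ‖a j k - a k j‖ ^ 2 =
      ‖a j k‖ ^ 2 + ‖a k j‖ ^ 2 - 2 * (a k j * conj (a j k)).re := by
    intro j k
    rw [← Complex.normSq_eq_norm_sq, ← Complex.normSq_eq_norm_sq, ← Complex.normSq_eq_norm_sq,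
      Complex.normSq_sub]
    have : (a j k * conj (a k j)).re = (a k j * conj (a j k)).re := by
      simp only [Complex.mul_re, Complex.conj_re, Complex.conj_im]
      ring
    rw [this]
  have h2 : ∑ j, ∑ k, ‖a j k - a k j‖ ^ 2 =
      2 * ∑ j, ∑ k, ‖a j k‖ ^ 2 - 2 * (∑ j, ∑ k, a k j * conj (a j k)).re := by
    simp only [h1, Finset.sum_sub_distrib, Finset.sum_add_distrib, ← Finset.mul_sum,
      Complex.re_sum]
    rw [Finset.sum_comm (f := fun j k => ‖a k j‖ ^ 2)]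
    ring
  rw [h2]
  have h3 : 0 ≤ ∑ j, ∑ k, ‖a j k‖ ^ 2 := by (clear * -; positivity)
  linarith

end hb

/-- The basic inequality (Kodaira-Nakano-Hörmander), for the weight `exp (-lam)`. -/
theorem basic_ineq (lam : (Fin n → ℂ) × ℂ → ℝ) (hlam : S.CD 2 (fun q => (lam q : ℂ)))
    (β : Fin n → (Fin n → ℂ) × ℂ → ℂ) (hβ : ∀ j, S.IsTest (β j)) :
    ∫ q, S.levi lam (fun j => β j q) q * Real.exp (-lam q) ∂S.μ ≤
      ∫ q, ‖∑ j, (S.D j (β j) q - S.D j (fun q => (lam q : ℂ)) q * β j q)‖ ^ 2 *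
        Real.exp (-lam q) ∂S.μ +
      (1 / 2) * ∑ j, ∑ k, ∫ q, ‖S.Db j (β k) q - S.Db k (β j) q‖ ^ 2 *
        Real.exp (-lam q) ∂S.μ := by
  have hE0 : S.CD 0 (fun q => ((Real.exp (-lam q) : ℝ) : ℂ)) :=
    hb_CD_exp (hlam.mono (by norm_num))
  have hlam1 : S.CD 1 (fun q => (lam q : ℂ)) := hlam.mono (by norm_num)
  have hβ0 : ∀ j, S.CD 0 (β j) := fun j => (hβ j).1.mono (by norm_num)
  have hβ1 : ∀ j, S.CD 1 (β j) := fun j => (hβ j).1.mono (by norm_num)
  have hdel : ∀ j, S.CD 0 (S.hb_del lam j (β j)) := fun j => hb_CD_del (m := 0) hlam1 (hβ1 j)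
  have hDb : ∀ j k, S.CD 0 (S.Db k (β j)) := fun j k => CD.Db (m := 0) (hβ1 j)
  have hL0 : ∀ j k, S.CD 0 (S.D j (S.Db k (fun q => (lam q : ℂ)))) := fun j k =>
    CD.D (m := 0) (CD.Db (m := 1) hlam)
  -- integrability of the three families
  have i1 : ∀ j k, Integrable (fun q => S.hb_del lam j (β j) q *
      conj (S.hb_del lam k (β k) q) * ((Real.exp (-lam q) : ℝ) : ℂ)) S.μ := fun j k =>
    integrable_of_supp (((hdel j).mul (hdel k).conj).mul hE0)
      (hb_supp_mul (hb_supp_mul (hb_supp_del (hβ j).2) _) _)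
  have i2 : ∀ j k, Integrable (fun q => S.Db k (β j) q * conj (S.Db j (β k) q) *
      ((Real.exp (-lam q) : ℝ) : ℂ)) S.μ := fun j k =>
    integrable_of_supp (((hDb j k).mul (hDb k j).conj).mul hE0)
      (hb_supp_mul (hb_supp_mul (hb_supp_Db (hβ j).2) _) _)
  have i3 : ∀ j k, Integrable (fun q => S.D j (S.Db k (fun q => (lam q : ℂ))) q * β j q *
      conj (β k q) * ((Real.exp (-lam q) : ℝ) : ℂ)) S.μ := fun j k =>
    integrable_of_supp ((((hL0 j k).mul (hβ0 j)).mul (hβ0 k).conj).mul hE0)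
      (hb_supp_mul (hb_supp_mul (hb_supp_mul' _ (hβ j).2) _) _)
  have i4 : ∀ j k, Integrable (fun q => ‖S.Db j (β k) q - S.Db k (β j) q‖ ^ 2 *
      Real.exp (-lam q)) S.μ := by
    intro j k
    have e : (fun q => (((‖S.Db j (β k) q - S.Db k (β j) q‖ ^ 2 * Real.exp (-lam q) : ℝ)) : ℂ)) =
        fun q => (S.Db j (β k) q - S.Db k (β j) q) * conj (S.Db j (β k) q - S.Db k (β j) q) *
          ((Real.exp (-lam q) : ℝ) : ℂ) := by
      funext q
      rw [Complex.mul_conj, Complex.normSq_eq_norm_sq]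
      push_cast
      rfl
    have hsub := hb_CD_sub (hDb k j) (hDb j k)
    refine hb_integrable_real ?_ ?_
    · rw [e]
      exact (hsub.mul hsub.conj).mul hE0
    · rw [e]
      exact hb_supp_mul (hb_supp_mul (hb_supp_sub (hb_supp_Db (hβ k).2) (hb_supp_Db (hβ j).2)) _) _
  -- the identity
  have key : ∑ j, ∑ k, ∫ q, S.hb_del lam j (β j) q * conj (S.hb_del lam k (β k) q) *
        ((Real.exp (-lam q) : ℝ) : ℂ) ∂S.μ =
      ∑ j, ∑ k, ∫ q, S.Db k (β j) q * conj (S.Db j (β k) q) *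
        ((Real.exp (-lam q) : ℝ) : ℂ) ∂S.μ +
      ∑ j, ∑ k, ∫ q, S.D j (S.Db k (fun q => (lam q : ℂ))) q * β j q * conj (β k q) *
        ((Real.exp (-lam q) : ℝ) : ℂ) ∂S.μ := by
    simp only [hb_cross hlam (hβ _) (hβ _), Finset.sum_add_distrib]
  have r1 : (∑ j, ∑ k, ∫ q, S.hb_del lam j (β j) q * conj (S.hb_del lam k (β k) q) *
        ((Real.exp (-lam q) : ℝ) : ℂ) ∂S.μ).re =
      ∫ q, ‖∑ j, (S.D j (β j) q - S.D j (fun q => (lam q : ℂ)) q * β j q)‖ ^ 2 *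
        Real.exp (-lam q) ∂S.μ := by
    rw [hb_re_sum i1]
    refine integral_congr_ae (Eventually.of_forall fun q => ?_)
    have e : ∑ j, ∑ k, S.hb_del lam j (β j) q * conj (S.hb_del lam k (β k) q) *
        ((Real.exp (-lam q) : ℝ) : ℂ) =
        (((‖∑ j, (S.D j (β j) q - S.D j (fun q => (lam q : ℂ)) q * β j q)‖ ^ 2 *
          Real.exp (-lam q) : ℝ)) : ℂ) := by
      rw [Complex.ofReal_mul, ← Complex.normSq_eq_norm_sq, ← Complex.mul_conj, map_sum,
        Finset.sum_mul_sum, Finset.sum_mul]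
      refine Finset.sum_congr rfl fun j _ => ?_
      rw [Finset.sum_mul]
      rfl
    change (∑ j, ∑ k, S.hb_del lam j (β j) q * conj (S.hb_del lam k (β k) q) *
        ((Real.exp (-lam q) : ℝ) : ℂ)).re = _
    rw [e, Complex.ofReal_re]
  have r2 : (∑ j, ∑ k, ∫ q, S.Db k (β j) q * conj (S.Db j (β k) q) *
        ((Real.exp (-lam q) : ℝ) : ℂ) ∂S.μ).re =
      ∫ q, (∑ j, ∑ k, S.Db k (β j) q * conj (S.Db j (β k) q)).re * Real.exp (-lam q) ∂S.μ := by
    rw [hb_re_sum i2]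
    refine integral_congr_ae (Eventually.of_forall fun q => ?_)
    change (∑ j, ∑ k, S.Db k (β j) q * conj (S.Db j (β k) q) *
        ((Real.exp (-lam q) : ℝ) : ℂ)).re = _
    beta_reduce
    rw [← Complex.re_mul_ofReal, Finset.sum_mul]
    congr 1
    exact Finset.sum_congr rfl fun j _ => (Finset.sum_mul _ _ _).symm
  have r3 : (∑ j, ∑ k, ∫ q, S.D j (S.Db k (fun q => (lam q : ℂ))) q * β j q * conj (β k q) *
        ((Real.exp (-lam q) : ℝ) : ℂ) ∂S.μ).re =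
      ∫ q, S.levi lam (fun j => β j q) q * Real.exp (-lam q) ∂S.μ := by
    rw [hb_re_sum i3]
    refine integral_congr_ae (Eventually.of_forall fun q => ?_)
    change (∑ j, ∑ k, S.D j (S.Db k (fun q => (lam q : ℂ))) q * β j q * conj (β k q) *
        ((Real.exp (-lam q) : ℝ) : ℂ)).re = _
    beta_reduce
    rw [levi, ← Complex.re_mul_ofReal, Finset.sum_mul]
    congr 1
    exact Finset.sum_congr rfl fun j _ => (Finset.sum_mul _ _ _).symm
  have key' := congrArg Complex.re key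
  rw [Complex.add_re, r1, r2, r3] at key'
  -- the last inequality
  have i2' : Integrable (fun q => (∑ j, ∑ k, S.Db k (β j) q * conj (S.Db j (β k) q)).re *
      Real.exp (-lam q)) S.μ := by
    have h := (integrable_finsetSum Finset.univ fun j (_ : j ∈ Finset.univ) =>
      integrable_finsetSum Finset.univ fun k (_ : k ∈ Finset.univ) => i2 j k).re
    refine h.congr (Eventually.of_forall fun q => ?_)
    change (∑ j, ∑ k, S.Db k (β j) q * conj (S.Db j (β k) q) *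
        ((Real.exp (-lam q) : ℝ) : ℂ)).re = _
    beta_reduce
    rw [← Complex.re_mul_ofReal, Finset.sum_mul]
    congr 1
    exact Finset.sum_congr rfl fun j _ => (Finset.sum_mul _ _ _).symm
  have i4' : Integrable (fun q => ∑ j, ∑ k, ‖S.Db j (β k) q - S.Db k (β j) q‖ ^ 2 *
      Real.exp (-lam q)) S.μ :=
    integrable_finsetSum _ fun j _ => integrable_finsetSum _ fun k _ => i4 j k
  have e4 : ∑ j, ∑ k, ∫ q, ‖S.Db j (β k) q - S.Db k (β j) q‖ ^ 2 * Real.exp (-lam q) ∂S.μ =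
      ∫ q, ∑ j, ∑ k, ‖S.Db j (β k) q - S.Db k (β j) q‖ ^ 2 * Real.exp (-lam q) ∂S.μ := by
    rw [integral_finsetSum _ fun j _ => integrable_finsetSum _ fun k _ => i4 j k]
    exact Finset.sum_congr rfl fun j _ => (integral_finsetSum _ fun k _ => i4 j k).symm
  have hle : -(1 / 2 : ℝ) * ∫ q, ∑ j, ∑ k, ‖S.Db j (β k) q - S.Db k (β j) q‖ ^ 2 *
      Real.exp (-lam q) ∂S.μ ≤
      ∫ q, (∑ j, ∑ k, S.Db k (β j) q * conj (S.Db j (β k) q)).re * Real.exp (-lam q) ∂S.μ := by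
    rw [← integral_const_mul]
    refine integral_mono (i4'.const_mul _) i2' fun q => ?_
    have h := hb_alg fun j k => S.Db j (β k) q
    change -(1 / 2 : ℝ) * ∑ j, ∑ k, ‖S.Db j (β k) q - S.Db k (β j) q‖ ^ 2 * Real.exp (-lam q) ≤
      (∑ j, ∑ k, S.Db k (β j) q * conj (S.Db j (β k) q)).re * Real.exp (-lam q)
    simp only [← Finset.sum_mul]
    rw [← mul_assoc]
    exact mul_le_mul_of_nonneg_right h (Real.exp_pos _).le
  rw [e4]
  linarith only [hle, key']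

end Sheets

end Vale.Agent.P282.L2
end

section

open MeasureTheory Filter Topology
open scoped ENNReal NNReal ComplexConjugate

namespace Vale.Agent.P282.L2

namespace Sheets

variable {n N : ℕ} {S : Sheets n N}

theorem hp_int_levi {Φ lam : (Fin n → ℂ) × ℂ → ℝ} (hΦ : S.CD 2 (fun q => (Φ q : ℂ)))
    (hlam : S.CD 0 (fun q => (lam q : ℂ)))
    {β : Fin n → (Fin n → ℂ) × ℂ → ℂ} (hβ : ∀ j, S.IsTest (β j)) :
    Integrable (fun q => S.levi Φ (fun j => β j q) q * Real.exp (-lam q)) S.μ := by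
  have hE0 : S.CD 0 (fun q => ((Real.exp (-lam q) : ℝ) : ℂ)) := hb_CD_exp hlam
  have hβ0 : ∀ j, S.CD 0 (β j) := fun j => (hβ j).1.mono (by norm_num)
  have hL0 : ∀ j k, S.CD 0 (S.D j (S.Db k (fun q => (Φ q : ℂ)))) := fun j k =>
    CD.D (m := 0) (CD.Db (m := 1) hΦ)
  have i3 : ∀ j k, Integrable (fun q => S.D j (S.Db k (fun q => (Φ q : ℂ))) q * β j q *
      conj (β k q) * ((Real.exp (-lam q) : ℝ) : ℂ)) S.μ := fun j k =>
    integrable_of_supp ((((hL0 j k).mul (hβ0 j)).mul (hβ0 k).conj).mul hE0)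
      (hb_supp_mul (hb_supp_mul (hb_supp_mul' _ (hβ j).2) _) _)
  have h := (integrable_finsetSum Finset.univ fun j (_ : j ∈ Finset.univ) =>
    integrable_finsetSum Finset.univ fun k (_ : k ∈ Finset.univ) => i3 j k).re
  refine h.congr (Eventually.of_forall fun q => ?_)
  change (∑ j, ∑ k, S.D j (S.Db k (fun q => (Φ q : ℂ))) q * β j q * conj (β k q) *
      ((Real.exp (-lam q) : ℝ) : ℂ)).re = _
  beta_reduce
  rw [levi, ← Complex.re_mul_ofReal, Finset.sum_mul]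
  congr 1
  exact Finset.sum_congr rfl fun j _ => (Finset.sum_mul _ _ _).symm

theorem hp_int_sq {lam : (Fin n → ℂ) × ℂ → ℝ} (hlam : S.CD 0 (fun q => (lam q : ℂ)))
    {G : (Fin n → ℂ) × ℂ → ℂ} (hG : S.CD 0 G) (hs : S.Supp G) :
    Integrable (fun q => ‖G q‖ ^ 2 * Real.exp (-lam q)) S.μ := by
  have hE0 : S.CD 0 (fun q => ((Real.exp (-lam q) : ℝ) : ℂ)) := hb_CD_exp hlam
  have e : (fun q => (((‖G q‖ ^ 2 * Real.exp (-lam q) : ℝ)) : ℂ)) =
      fun q => G q * conj (G q) * ((Real.exp (-lam q) : ℝ) : ℂ) := by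
    funext q
    rw [Complex.mul_conj, Complex.normSq_eq_norm_sq]
    push_cast
    rfl
  refine hb_integrable_real ?_ ?_
  · rw [e]
    exact (hG.mul hG.conj).mul hE0
  · rw [e]
    exact hb_supp_mul (hb_supp_mul hs _) _

/-- The a priori estimate for test forms. `Φ` is the weight, `ψ` and `χ` as above;
`lam = Φ + χ`, `φ₁ = lam - 2 ψ`, `φ₂ = lam - ψ`, `φ₃ = lam`. -/
theorem a_priori {Φ ψ χ : (Fin n → ℂ) × ℂ → ℝ} (hΦ : S.CD 2 (fun q => (Φ q : ℂ)))
    (hψ : S.CD 2 (fun q => (ψ q : ℂ))) (hχ : S.CD 2 (fun q => (χ q : ℂ)))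
    (hχψ : ∀ q ∈ S.M, ∀ β : Fin n → ℂ,
      2 * ((∑ j, ‖S.D j (fun q => (ψ q : ℂ)) q‖ ^ 2) * ∑ j, ‖β j‖ ^ 2) ≤ S.levi χ β q)
    (β : Fin n → (Fin n → ℂ) × ℂ → ℂ) (hβ : ∀ j, S.IsTest (β j)) :
    ∫ q, S.levi Φ (fun j => β j q) q * Real.exp (-(Φ q + χ q)) ∂S.μ ≤
      2 * ∫ q, ‖∑ j, (S.D j (β j) q - S.D j (fun q => ((Φ q + χ q - ψ q : ℝ) : ℂ)) q * β j q)‖ ^ 2 *
        Real.exp (-(Φ q + χ q)) ∂S.μ +
      (1 / 2) * ∑ j, ∑ k, ∫ q, ‖S.Db j (β k) q - S.Db k (β j) q‖ ^ 2 *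
        Real.exp (-(Φ q + χ q)) ∂S.μ := by
  have hlam : S.CD 2 (fun q => ((Φ q + χ q : ℝ) : ℂ)) := by
    simpa only [Complex.ofReal_add] using hΦ.add hχ
  have hlam0 : S.CD 0 (fun q => ((Φ q + χ q : ℝ) : ℂ)) := hlam.mono (by norm_num)
  have hlam1 : S.CD 1 (fun q => ((Φ q + χ q : ℝ) : ℂ)) := hlam.mono (by norm_num)
  have hψ1 : S.CD 1 (fun q => (ψ q : ℂ)) := hψ.mono (by norm_num)
  have hgam1 : S.CD 1 (fun q => ((Φ q + χ q - ψ q : ℝ) : ℂ)) := by
    simpa only [Complex.ofReal_sub] using hb_CD_sub hlam1 hψ1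
  have hβ0 : ∀ j, S.CD 0 (β j) := fun j => (hβ j).1.mono (by norm_num)
  have hβ1 : ∀ j, S.CD 1 (β j) := fun j => (hβ j).1.mono (by norm_num)
  have hb := basic_ineq (fun q => Φ q + χ q) hlam β hβ
  have iΦ := hp_int_levi hΦ hlam0 hβ
  have iχ := hp_int_levi hχ hlam0 hβ
  have iA : Integrable (fun q => ‖∑ j, (S.D j (β j) q -
      S.D j (fun q => ((Φ q + χ q - ψ q : ℝ) : ℂ)) q * β j q)‖ ^ 2 *
      Real.exp (-(Φ q + χ q))) S.μ :=
    hp_int_sq hlam0
      (CD.sum Finset.univ (X := fun j q => S.D j (β j) q -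
        S.D j (fun q => ((Φ q + χ q - ψ q : ℝ) : ℂ)) q * β j q) fun j _ =>
        hb_CD_sub (CD.D (m := 0) (hβ1 j)) ((CD.D (m := 0) hgam1).mul (hβ0 j)))
      (hb_supp_sum Finset.univ (X := fun j q => S.D j (β j) q -
        S.D j (fun q => ((Φ q + χ q - ψ q : ℝ) : ℂ)) q * β j q) fun j _ =>
        hb_supp_sub (hb_supp_D (hβ j).2) (hb_supp_mul' _ (hβ j).2))
  have iL : Integrable (fun q => ‖∑ j, (S.D j (β j) q -
      S.D j (fun q => ((Φ q + χ q : ℝ) : ℂ)) q * β j q)‖ ^ 2 *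
      Real.exp (-(Φ q + χ q))) S.μ :=
    hp_int_sq hlam0
      (CD.sum Finset.univ (X := fun j q => S.D j (β j) q -
        S.D j (fun q => ((Φ q + χ q : ℝ) : ℂ)) q * β j q) fun j _ =>
        hb_CD_sub (CD.D (m := 0) (hβ1 j)) ((CD.D (m := 0) hlam1).mul (hβ0 j)))
      (hb_supp_sum Finset.univ (X := fun j q => S.D j (β j) q -
        S.D j (fun q => ((Φ q + χ q : ℝ) : ℂ)) q * β j q) fun j _ =>
        hb_supp_sub (hb_supp_D (hβ j).2) (hb_supp_mul' _ (hβ j).2))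
  -- the Levi form of the sum
  have e1 : ∫ q, S.levi (fun q => Φ q + χ q) (fun j => β j q) q *
        Real.exp (-(Φ q + χ q)) ∂S.μ =
      ∫ q, S.levi Φ (fun j => β j q) q * Real.exp (-(Φ q + χ q)) ∂S.μ +
      ∫ q, S.levi χ (fun j => β j q) q * Real.exp (-(Φ q + χ q)) ∂S.μ := by
    rw [← integral_add iΦ iχ]
    refine integral_congr_ae (ae_mem_M.mono fun q hq => ?_)
    beta_reduce
    rw [levi_add hΦ hχ hq, add_mul]
  -- the pointwise estimate
  have e2 : ∫ q, ‖∑ j, (S.D j (β j) q -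
        S.D j (fun q => ((Φ q + χ q : ℝ) : ℂ)) q * β j q)‖ ^ 2 *
        Real.exp (-(Φ q + χ q)) ∂S.μ ≤
      2 * ∫ q, ‖∑ j, (S.D j (β j) q -
        S.D j (fun q => ((Φ q + χ q - ψ q : ℝ) : ℂ)) q * β j q)‖ ^ 2 *
        Real.exp (-(Φ q + χ q)) ∂S.μ +
      ∫ q, S.levi χ (fun j => β j q) q * Real.exp (-(Φ q + χ q)) ∂S.μ := by
    rw [← integral_const_mul, ← integral_add (iA.const_mul 2) iχ]
    refine integral_mono_ae iL ((iA.const_mul 2).add iχ) (ae_mem_M.mono fun q hq => ?_)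
    change ‖∑ j, (S.D j (β j) q - S.D j (fun q => ((Φ q + χ q : ℝ) : ℂ)) q * β j q)‖ ^ 2 *
        Real.exp (-(Φ q + χ q)) ≤
      2 * (‖∑ j, (S.D j (β j) q -
        S.D j (fun q => ((Φ q + χ q - ψ q : ℝ) : ℂ)) q * β j q)‖ ^ 2 *
        Real.exp (-(Φ q + χ q))) +
      S.levi χ (fun j => β j q) q * Real.exp (-(Φ q + χ q))
    have hd : ∀ j, S.D j (fun q => ((Φ q + χ q : ℝ) : ℂ)) q =
        S.D j (fun q => ((Φ q + χ q - ψ q : ℝ) : ℂ)) q + S.D j (fun q => (ψ q : ℂ)) q := by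
      intro j
      have h := D_add (j := j) hgam1 hψ1 hq
      rw [← h]
      congr 1
      funext q
      push_cast
      ring
    have hsum : ∑ j, (S.D j (β j) q - S.D j (fun q => ((Φ q + χ q : ℝ) : ℂ)) q * β j q) =
        ∑ j, (S.D j (β j) q - S.D j (fun q => ((Φ q + χ q - ψ q : ℝ) : ℂ)) q * β j q) -
        ∑ j, S.D j (fun q => (ψ q : ℂ)) q * β j q := by
      rw [← Finset.sum_sub_distrib]
      refine Finset.sum_congr rfl fun j _ => ?_
      rw [hd j]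
      ring
    set A := ∑ j, (S.D j (β j) q -
      S.D j (fun q => ((Φ q + χ q - ψ q : ℝ) : ℂ)) q * β j q) with hA
    set B := ∑ j, S.D j (fun q => (ψ q : ℂ)) q * β j q with hB
    have h1 : ‖A - B‖ ^ 2 ≤ 2 * ‖A‖ ^ 2 + 2 * ‖B‖ ^ 2 := by
      have h := norm_sub_le A B
      linarith only [mul_nonneg (sub_nonneg.2 h) (sub_nonneg.2 (norm_nonneg B)), mul_nonneg (sub_nonneg.2 h) (sub_nonneg.2 (norm_nonneg A)), mul_nonneg (sub_nonneg.2 h) (sub_nonneg.2 (norm_nonneg (A - B))), mul_nonneg (mul_self_nonneg (1 : ℝ)) (sq_nonneg (‖A‖ - ‖B‖))]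
    have h2 : ‖B‖ ^ 2 ≤ (∑ j, ‖S.D j (fun q => (ψ q : ℂ)) q‖ ^ 2) * ∑ j, ‖β j q‖ ^ 2 := by
      have h3 : ‖B‖ ≤ ∑ j, ‖S.D j (fun q => (ψ q : ℂ)) q‖ * ‖β j q‖ := by
        rw [hB]
        exact (norm_sum_le _ _).trans (Finset.sum_le_sum fun j _ => (norm_mul _ _).le)
      calc ‖B‖ ^ 2 ≤ (∑ j, ‖S.D j (fun q => (ψ q : ℂ)) q‖ * ‖β j q‖) ^ 2 :=
            pow_le_pow_left₀ (norm_nonneg _) h3 2
        _ ≤ _ := Finset.sum_mul_sq_le_sq_mul_sq _ _ _
    have h4 := hχψ q hq fun j => β j q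
    rw [hsum, ← mul_assoc, ← add_mul]
    refine mul_le_mul_of_nonneg_right ?_ (Real.exp_pos _).le
    linarith
  rw [e1] at hb
  linarith

end Sheets

end Vale.Agent.P282.L2
end

section

open MeasureTheory Filter Topology
open scoped ENNReal NNReal ComplexConjugate

namespace Vale.Agent.P282.L2

section aux

variable {Ω : Type*} [MeasurableSpace Ω] {ν : Measure Ω}

theorem HPair_integrable {f : Ω → ℝ} (hf : AEStronglyMeasurable f ν) (h0 : ∀ x, 0 ≤ f x)
    (h : ∫⁻ x, ENNReal.ofReal (f x) ∂ν < ⊤) : Integrable f ν := by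
  refine ⟨hf, ?_⟩
  rwa [hasFiniteIntegral_iff_ofReal (ae_of_all _ h0)]

theorem HPair_integral_le {f : Ω → ℝ} (hf : AEStronglyMeasurable f ν) (h0 : ∀ x, 0 ≤ f x)
    {c : ℝ} (hc : 0 ≤ c) (h : ∫⁻ x, ENNReal.ofReal (f x) ∂ν ≤ ENNReal.ofReal c) :
    ∫ x, f x ∂ν ≤ c := by
  rw [integral_eq_lintegral_of_nonneg_ae (ae_of_all _ h0) hf]
  exact ENNReal.toReal_le_of_le_ofReal hc h

/-- Products of two weighted square integrable functions. -/
theorem HPair_mul_integrable {X Y : Ω → ℂ} {w : Ω → ℝ} (hX : AEStronglyMeasurable X ν)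
    (hY : AEStronglyMeasurable Y ν) (hw : AEStronglyMeasurable w ν) (hw0 : ∀ x, 0 ≤ w x)
    (hX2 : Integrable (fun x => ‖X x‖ ^ 2 * w x) ν)
    (hY2 : Integrable (fun x => ‖Y x‖ ^ 2 * w x) ν) :
    Integrable (fun x => X x * conj (Y x) * (w x : ℂ)) ν := by
  refine Integrable.mono' ((hX2.add hY2).const_mul (1 / 2)) ?_ (ae_of_all _ fun x => ?_)
  · exact (hX.mul (Complex.continuous_conj.comp_aestronglyMeasurable hY)).mul
      (Complex.continuous_ofReal.comp_aestronglyMeasurable hw)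
  · simp only [Pi.add_apply]
    rw [norm_mul, norm_mul, RCLike.norm_conj, Complex.norm_real, Real.norm_of_nonneg (hw0 x)]
    have h1 : ‖X x‖ * ‖Y x‖ ≤ 1 / 2 * (‖X x‖ ^ 2 + ‖Y x‖ ^ 2) := by
      linarith only [sq_nonneg (‖X x‖ - ‖Y x‖)]
    have h2 := mul_le_mul_of_nonneg_right h1 (hw0 x)
    linarith

/-- The discriminant argument. -/
theorem HPair_discrim {I A G : ℝ} (hI : 0 ≤ I) (hA : 0 ≤ A)
    (h : ∀ t : ℝ, 0 < t → 2 * I ≤ t * A + t⁻¹ * G) (hG : 0 ≤ G) : I ^ 2 ≤ A * G := by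
  have key : ∀ t : ℝ, 0 ≤ A * (t * t) + (-(2 * I)) * t + G := by
    intro t
    rcases le_or_gt t 0 with ht | ht
    · have h1 : 0 ≤ A * (t * t) := mul_nonneg hA (mul_self_nonneg t)
      have h2 : 0 ≤ (-(2 * I)) * t := by linarith only [mul_nonneg (sub_nonneg.2 hI) (sub_nonneg.2 ht)]
      linarith
    · have h1 := mul_le_mul_of_nonneg_left (h t ht) ht.le
      have h2 : t * (t * A + t⁻¹ * G) = A * (t * t) + G := by
        field_simp
      rw [h2] at h1
      linarith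
  have h1 := discrim_le_zero key
  rw [discrim] at h1
  linarith only [h1]

end aux

namespace Sheets

variable {n N : ℕ} {S : Sheets n N}

theorem HPair_supp_mul {X Y : (Fin n → ℂ) × ℂ → ℂ} (hX : S.Supp X) :
    S.Supp (fun q => X q * Y q) := by
  obtain ⟨C, h1, h2, h3⟩ := hX
  exact ⟨C, h1, h2, fun q hq => by beta_reduce; rw [h3 q hq, zero_mul]⟩

theorem HPair_supp_mul' {X Y : (Fin n → ℂ) × ℂ → ℂ} (hX : S.Supp X) :
    S.Supp (fun q => Y q * X q) := by
  obtain ⟨C, h1, h2, h3⟩ := hX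
  exact ⟨C, h1, h2, fun q hq => by beta_reduce; rw [h3 q hq, mul_zero]⟩

theorem HPair_supp_conj {X : (Fin n → ℂ) × ℂ → ℂ} (hX : S.Supp X) :
    S.Supp (fun q => conj (X q)) := by
  obtain ⟨C, h1, h2, h3⟩ := hX
  exact ⟨C, h1, h2, fun q hq => by beta_reduce; rw [h3 q hq, map_zero]⟩

theorem HPair_supp_sum {ι : Type*} (t : Finset ι) {X : ι → (Fin n → ℂ) × ℂ → ℂ}
    (hX : ∀ i ∈ t, S.Supp (X i)) : S.Supp (fun q => ∑ i ∈ t, X i q) := by
  classical
  induction t using Finset.induction_on with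
  | empty => exact ⟨∅, isCompact_empty, Set.empty_subset _, fun q _ => by simp⟩
  | insert i t hi ih =>
    obtain ⟨C, h1, h2, h3⟩ := ih fun j hj => hX j (Finset.mem_insert_of_mem hj)
    obtain ⟨C', h1', h2', h3'⟩ := hX i (Finset.mem_insert_self _ _)
    refine ⟨C ∪ C', h1.union h1', Set.union_subset h2 h2', fun q hq => ?_⟩
    beta_reduce
    rw [Finset.sum_insert hi, h3' q fun h => hq (Or.inr h), zero_add]
    exact h3 q fun h => hq (Or.inl h)

/-- The derivative `D` of a function with support over a compact set (almost everywhere version):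
we only need that `D_j X` agrees on `M` with a function supported over a compact set. -/
theorem HPair_D_zero {X : (Fin n → ℂ) × ℂ → ℂ} (j : Fin n) {C : Set (Fin n → ℂ)}
    (hC : IsClosed C) (h : ∀ q : (Fin n → ℂ) × ℂ, q.1 ∉ C → X q = 0)
    (q : (Fin n → ℂ) × ℂ) (hq : q.1 ∉ C) : S.D j X q = 0 := by
  have h1 : (fun z => X (z, S.sec q z)) =ᶠ[𝓝 q.1] fun _ => 0 := by
    filter_upwards [hC.isOpen_compl.mem_nhds hq] with z hz
    exact h _ hz
  rw [Sheets.D, dz_congr h1, dz_const]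

theorem HPair_Db_zero {X : (Fin n → ℂ) × ℂ → ℂ} (j : Fin n) {C : Set (Fin n → ℂ)}
    (hC : IsClosed C) (h : ∀ q : (Fin n → ℂ) × ℂ, q.1 ∉ C → X q = 0)
    (q : (Fin n → ℂ) × ℂ) (hq : q.1 ∉ C) : S.Db j X q = 0 := by
  have h1 : (fun z => X (z, S.sec q z)) =ᶠ[𝓝 q.1] fun _ => 0 := by
    filter_upwards [hC.isOpen_compl.mem_nhds hq] with z hz
    exact h _ hz
  rw [Sheets.Db, dzb_congr h1, dzb_const]

theorem HPair_supp_D {X : (Fin n → ℂ) × ℂ → ℂ} (hX : S.Supp X) (j : Fin n) :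
    S.Supp (S.D j X) := by
  obtain ⟨C, h1, h2, h3⟩ := hX
  exact ⟨C, h1, h2, fun q hq => HPair_D_zero j h1.isClosed h3 q hq⟩

theorem HPair_supp_Db {X : (Fin n → ℂ) × ℂ → ℂ} (hX : S.Supp X) (j : Fin n) :
    S.Supp (S.Db j X) := by
  obtain ⟨C, h1, h2, h3⟩ := hX
  exact ⟨C, h1, h2, fun q hq => HPair_Db_zero j h1.isClosed h3 q hq⟩

/-- Measurability of real functions which are continuous along the sheets. -/
theorem HPair_meas_real {u : (Fin n → ℂ) × ℂ → ℝ} (hu : S.CD 0 (fun q => (u q : ℂ))) :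
    AEStronglyMeasurable u S.μ := by
  have h := (aestronglyMeasurable_of_CD hu).re
  simpa using h

theorem HPair_integrable_sq {X : (Fin n → ℂ) × ℂ → ℂ} {u : (Fin n → ℂ) × ℂ → ℝ}
    (hX : S.CD 0 X) (hs : S.Supp X) (hu : S.CD 0 (fun q => (u q : ℂ))) :
    Integrable (fun q => ‖X q‖ ^ 2 * u q) S.μ := by
  have h1 : Integrable (fun q => X q * conj (X q) * (u q : ℂ)) S.μ :=
    integrable_of_supp ((hX.mul hX.conj).mul hu) (HPair_supp_mul (HPair_supp_mul hs))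
  have h2 := h1.re
  refine h2.congr (ae_of_all _ fun q => ?_)
  simp only [RCLike.re_to_complex]
  rw [Complex.mul_conj, ← Complex.ofReal_mul, Complex.ofReal_re, Complex.normSq_eq_norm_sq]

/-- The estimate for `(α, β)` when `β` is closed and in the domain of the adjoint. -/
theorem pairing_le {Φ ψ χ : (Fin n → ℂ) × ℂ → ℝ} (hΦ : S.CD 2 (fun q => (Φ q : ℂ)))
    (hψ : S.CD 2 (fun q => (ψ q : ℂ))) (hχ : S.CD 2 (fun q => (χ q : ℂ)))
    (hχψ : ∀ q ∈ S.M, ∀ β : Fin n → ℂ,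
      2 * ((∑ j, ‖S.D j (fun q => (ψ q : ℂ)) q‖ ^ 2) * ∑ j, ‖β j‖ ^ 2) ≤ S.levi χ β q)
    (hχψ' : ∀ q ∈ S.M, 2 * ψ q ≤ χ q) (hlevi : ∀ q ∈ S.M, ∀ β : Fin n → ℂ, 0 ≤ S.levi Φ β q)
    {p : (Fin n → ℂ) → ℝ} (hcut : S.HasCut p ψ)
    (α : Fin n → (Fin n → ℂ) × ℂ → ℂ) (hα : ∀ j, S.CD 1 (α j))
    (hα2 : ∀ j, ∫⁻ q, ENNReal.ofReal (‖α j q‖ ^ 2 * Real.exp (-(Φ q + χ q - ψ q))) ∂S.μ < ⊤)
    (a : (Fin n → ℂ) × ℂ → ℝ) (ha : ∀ q, 0 ≤ a q) (ham : AEMeasurable a S.μ)
    (hab : ∀ q ∈ S.M, ∀ β : Fin n → ℂ, ‖∑ j, α j q * conj (β j)‖ ^ 2 ≤ a q * S.levi Φ β q)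
    {A : ℝ} (hA0 : 0 ≤ A)
    (hA : ∫⁻ q, ENNReal.ofReal (a q * Real.exp (-Φ q)) ∂S.μ ≤ ENNReal.ofReal A)
    (b : Fin n → (Fin n → ℂ) × ℂ → ℂ) (g : (Fin n → ℂ) × ℂ → ℂ)
    (hb : ∀ j, AEStronglyMeasurable (b j) S.μ) (hg : AEStronglyMeasurable g S.μ)
    (hb2 : ∀ j, ∫⁻ q, ENNReal.ofReal (‖b j q‖ ^ 2 * Real.exp (-(Φ q + χ q - ψ q))) ∂S.μ < ⊤)
    (hg2 : ∫⁻ q, ENNReal.ofReal (‖g q‖ ^ 2 * Real.exp (-(Φ q + χ q))) ∂S.μ < ⊤)
    (hgw : ∀ κ, S.IsTest κ →
      ∫ q, (∑ j, b j q * S.D j κ q) * Real.exp (-(Φ q + χ q - ψ q)) ∂S.μ =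
        - ∫ q, g q * κ q * Real.exp (-(Φ q + χ q - ψ q)) ∂S.μ)
    (hsw : ∀ κ, S.IsTest κ → ∀ j k, ∫ q, (b k q * S.Db j κ q - b j q * S.Db k κ q) ∂S.μ = 0) :
    ‖∫ q, (∑ j, α j q * conj (b j q)) * Real.exp (-(Φ q + χ q - ψ q)) ∂S.μ‖ ^ 2 ≤
      2 * A * ∫ q, ‖g q‖ ^ 2 * Real.exp (-(Φ q + χ q)) ∂S.μ := by
  -- regularity of the weights
  have hlam : S.CD 2 (fun q => ((Φ q + χ q : ℝ) : ℂ)) :=
    (hΦ.add hχ).congr fun q _ => by push_cast; ring
  have hφ2 : S.CD 2 (fun q => ((Φ q + χ q - ψ q : ℝ) : ℂ)) :=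
    (hlam.add ((CD.const (-1)).mul hψ)).congr fun q _ => by push_cast; ring
  have hw2 : S.CD 2 (fun q => ((Real.exp (-(Φ q + χ q - ψ q)) : ℝ) : ℂ)) :=
    CD.comp_real (φ := fun x => Real.exp (-x)) (by fun_prop) hφ2
  have hw3 : S.CD 2 (fun q => ((Real.exp (-(Φ q + χ q)) : ℝ) : ℂ)) :=
    CD.comp_real (φ := fun x => Real.exp (-x)) (by fun_prop) hlam
  have hw1 : S.CD 2 (fun q => ((Real.exp (-Φ q) : ℝ) : ℂ)) :=
    CD.comp_real (φ := fun x => Real.exp (-x)) (by fun_prop) hΦ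
  have hw2m := HPair_meas_real (hw2.mono (Nat.zero_le 2))
  have hw3m := HPair_meas_real (hw3.mono (Nat.zero_le 2))
  have hw1m := HPair_meas_real (hw1.mono (Nat.zero_le 2))
  have hαm : ∀ j, AEStronglyMeasurable (α j) S.μ := fun j =>
    aestronglyMeasurable_of_CD ((hα j).mono (Nat.zero_le 1))
  -- integrability
  have hαi : ∀ j, Integrable (fun q => ‖α j q‖ ^ 2 * Real.exp (-(Φ q + χ q - ψ q))) S.μ :=
    fun j => HPair_integrable (((hαm j).norm.pow 2).mul hw2m) (fun q => by positivity) (hα2 j)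
  have hbi : ∀ j, Integrable (fun q => ‖b j q‖ ^ 2 * Real.exp (-(Φ q + χ q - ψ q))) S.μ :=
    fun j => HPair_integrable (((hb j).norm.pow 2).mul hw2m) (fun q => by positivity) (hb2 j)
  have hgi : Integrable (fun q => ‖g q‖ ^ 2 * Real.exp (-(Φ q + χ q))) S.μ :=
    HPair_integrable ((hg.norm.pow 2).mul hw3m) (fun q => by positivity) hg2
  have hai : Integrable (fun q => a q * Real.exp (-Φ q)) S.μ :=
    HPair_integrable (ham.aestronglyMeasurable.mul hw1m)
      (fun q => mul_nonneg (ha q) (Real.exp_pos _).le) (lt_of_le_of_lt hA ENNReal.ofReal_lt_top)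
  have hAint : ∫ q, a q * Real.exp (-Φ q) ∂S.μ ≤ A :=
    HPair_integral_le (ham.aestronglyMeasurable.mul hw1m)
      (fun q => mul_nonneg (ha q) (Real.exp_pos _).le) hA0 hA
  set G : ℝ := ∫ q, ‖g q‖ ^ 2 * Real.exp (-(Φ q + χ q)) ∂S.μ with hG
  have hG0 : 0 ≤ G := integral_nonneg fun q => by positivity
  have hαb : ∀ j, Integrable (fun q => α j q * conj (b j q) *
      (Real.exp (-(Φ q + χ q - ψ q)) : ℂ)) S.μ := fun j =>
    HPair_mul_integrable (hαm j) (hb j) hw2m (fun q => (Real.exp_pos _).le) (hαi j) (hbi j)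
  set K : ℝ := ∑ j, (∫ q, ‖α j q‖ ^ 2 * Real.exp (-(Φ q + χ q - ψ q)) ∂S.μ + 1) / 2 with hK
  -- the estimate with a parameter
  have main : ∀ t : ℝ, 0 < t → ∀ δ : ℝ, 0 < δ → δ ≤ 1 →
      2 * ‖∫ q, (∑ j, α j q * conj (b j q)) * Real.exp (-(Φ q + χ q - ψ q)) ∂S.μ‖ ≤
        t * A + t⁻¹ * (2 * ((1 + δ) * G + (1 + δ⁻¹) * δ ^ 2) + 1 / 2 * (n * (n * δ ^ 2))) +
          2 * (δ * K) := by
    intro t ht δ hδ hδ1
    obtain ⟨β, hβ, hβb, hβg, hβs⟩ := exists_test_approx (lam := fun q => Φ q + χ q) hlam hψ hcut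
      b g hb hg hb2 hg2 hgw hsw (ε := ENNReal.ofReal (δ ^ 2))
      (by rw [Ne, ENNReal.ofReal_eq_zero, not_le]; positivity)
    have hβ0 : ∀ j, S.CD 0 (β j) := fun j => (hβ j).1.mono (Nat.zero_le 2)
    have hβm : ∀ j, AEStronglyMeasurable (β j) S.μ := fun j => aestronglyMeasurable_of_CD (hβ0 j)
    -- the function `T`
    set T : (Fin n → ℂ) × ℂ → ℂ := fun q => ∑ j, (S.D j (β j) q -
      S.D j (fun q => ((Φ q + χ q - ψ q : ℝ) : ℂ)) q * β j q) with hT
    have hTc : S.CD 0 T := by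
      have h1 : S.CD 0 (fun q => ∑ j, (S.D j (β j) q + (-1) *
          (S.D j (fun q => ((Φ q + χ q - ψ q : ℝ) : ℂ)) q * β j q))) := by
        refine CD.sum _ fun j _ => CD.add ?_ (CD.mul (CD.const _) (CD.mul ?_ (hβ0 j)))
        · exact (CD.D (m := 1) (hβ j).1).mono (Nat.zero_le 1)
        · exact (CD.D (m := 1) hφ2).mono (Nat.zero_le 1)
      refine h1.congr fun q _ => ?_
      simp only [hT]
      refine Finset.sum_congr rfl fun j _ => ?_
      ring
    have hTs : S.Supp T := by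
      have h1 : S.Supp (fun q => ∑ j, (S.D j (β j) q -
          S.D j (fun q => ((Φ q + χ q - ψ q : ℝ) : ℂ)) q * β j q)) := by
        refine HPair_supp_sum _ fun j _ => ?_
        obtain ⟨C, h1, h2, h3⟩ := (hβ j).2
        refine ⟨C, h1, h2, fun q hq => ?_⟩
        beta_reduce
        rw [HPair_D_zero j h1.isClosed h3 q hq, h3 q hq, mul_zero, sub_zero]
      exact h1
    have hTm : AEStronglyMeasurable T S.μ := aestronglyMeasurable_of_CD hTc
    have hTi : Integrable (fun q => ‖T q‖ ^ 2 * Real.exp (-(Φ q + χ q))) S.μ :=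
      HPair_integrable_sq hTc hTs (hw3.mono (Nat.zero_le 2))
    -- `T` is close to `g`
    have hTg : Integrable (fun q => ‖T q - g q‖ ^ 2 * Real.exp (-(Φ q + χ q))) S.μ :=
      HPair_integrable (((hTm.sub hg).norm.pow 2).mul hw3m) (fun q => by positivity)
        (lt_of_le_of_lt hβg ENNReal.ofReal_lt_top)
    have hTg' : ∫ q, ‖T q - g q‖ ^ 2 * Real.exp (-(Φ q + χ q)) ∂S.μ ≤ δ ^ 2 :=
      HPair_integral_le (((hTm.sub hg).norm.pow 2).mul hw3m)
        (fun q => mul_nonneg (sq_nonneg _) (Real.exp_pos _).le) (sq_nonneg δ) hβg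
    have hTb : ∫ q, ‖T q‖ ^ 2 * Real.exp (-(Φ q + χ q)) ∂S.μ ≤
        (1 + δ) * G + (1 + δ⁻¹) * δ ^ 2 := by
      have h1 : ∫ q, ‖T q‖ ^ 2 * Real.exp (-(Φ q + χ q)) ∂S.μ ≤
          ∫ q, ((1 + δ) * (‖g q‖ ^ 2 * Real.exp (-(Φ q + χ q))) +
            (1 + δ⁻¹) * (‖T q - g q‖ ^ 2 * Real.exp (-(Φ q + χ q)))) ∂S.μ := by
        refine integral_mono hTi ((hgi.const_mul _).add (hTg.const_mul _)) fun q => ?_
        have h2 : ‖T q‖ ≤ ‖g q‖ + ‖T q - g q‖ := by
          have := norm_add_le (g q) (T q - g q)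
          rwa [add_sub_cancel] at this
        have h3 : ‖T q‖ ^ 2 ≤ (‖g q‖ + ‖T q - g q‖) ^ 2 := pow_le_pow_left₀ (norm_nonneg _) h2 2
        have h4 : (‖g q‖ + ‖T q - g q‖) ^ 2 ≤
            (1 + δ) * ‖g q‖ ^ 2 + (1 + δ⁻¹) * ‖T q - g q‖ ^ 2 := by
          have h5 : (1 + δ) * ‖g q‖ ^ 2 + (1 + δ⁻¹) * ‖T q - g q‖ ^ 2 -
              (‖g q‖ + ‖T q - g q‖) ^ 2 = (δ * ‖g q‖ - ‖T q - g q‖) ^ 2 / δ := by
            field_simp
            ring
          have h6 : 0 ≤ (δ * ‖g q‖ - ‖T q - g q‖) ^ 2 / δ := by (clear * - hδ; positivity)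
          linarith
        have h7 := mul_le_mul_of_nonneg_right (h3.trans h4) (Real.exp_pos (-(Φ q + χ q))).le
        simp only
        linarith
      rw [integral_add (hgi.const_mul _) (hTg.const_mul _), integral_const_mul,
        integral_const_mul, ← hG] at h1
      refine h1.trans ?_
      gcongr
    -- the closedness defect
    have hSm : ∀ j k, AEStronglyMeasurable (fun q => S.Db j (β k) q - S.Db k (β j) q) S.μ :=
      fun j k => (aestronglyMeasurable_of_CD ((CD.Db (m := 1) (hβ k).1).mono (Nat.zero_le 1))).sub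
        (aestronglyMeasurable_of_CD ((CD.Db (m := 1) (hβ j).1).mono (Nat.zero_le 1)))
    have hSb : ∀ j k, ∫ q, ‖S.Db j (β k) q - S.Db k (β j) q‖ ^ 2 *
        Real.exp (-(Φ q + χ q)) ∂S.μ ≤ δ ^ 2 := fun j k =>
      HPair_integral_le (((hSm j k).norm.pow 2).mul hw3m)
        (fun q => mul_nonneg (sq_nonneg _) (Real.exp_pos _).le) (sq_nonneg δ) (hβs j k)
    have hSsum : ∑ j, ∑ k, ∫ q, ‖S.Db j (β k) q - S.Db k (β j) q‖ ^ 2 *
        Real.exp (-(Φ q + χ q)) ∂S.μ ≤ n * (n * δ ^ 2) := by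
      calc ∑ j, ∑ k, ∫ q, ‖S.Db j (β k) q - S.Db k (β j) q‖ ^ 2 *
            Real.exp (-(Φ q + χ q)) ∂S.μ ≤ ∑ _j : Fin n, ∑ _k : Fin n, δ ^ 2 :=
            Finset.sum_le_sum fun j _ => Finset.sum_le_sum fun k _ => hSb j k
        _ = n * (n * δ ^ 2) := by simp
    -- the Levi form
    have hap := a_priori hΦ hψ hχ hχψ β hβ
    have hLb : ∫ q, S.levi Φ (fun j => β j q) q * Real.exp (-(Φ q + χ q)) ∂S.μ ≤
        2 * ((1 + δ) * G + (1 + δ⁻¹) * δ ^ 2) + 1 / 2 * (n * (n * δ ^ 2)) := by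
      refine hap.trans ?_
      gcongr
    have hLi : Integrable (fun q => S.levi Φ (fun j => β j q) q * Real.exp (-(Φ q + χ q)))
        S.μ := by
      have h1 : S.CD 0 (fun q => ∑ j, ∑ k,
          S.D j (S.Db k (fun q => (Φ q : ℂ))) q * β j q * conj (β k q)) := by
        refine CD.sum _ fun j _ => CD.sum _ fun k _ => CD.mul (CD.mul ?_ (hβ0 j)) (hβ0 k).conj
        exact CD.D (m := 0) (CD.Db (m := 1) hΦ)
      have h2 : S.Supp (fun q => ∑ j, ∑ k,
          S.D j (S.Db k (fun q => (Φ q : ℂ))) q * β j q * conj (β k q)) :=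
        HPair_supp_sum _ fun j _ => HPair_supp_sum _ fun k _ =>
          HPair_supp_mul (HPair_supp_mul' (hβ j).2)
      have h3 := (integrable_of_supp (h1.mul (hw3.mono (Nat.zero_le 2)))
        (HPair_supp_mul h2)).re
      refine h3.congr (ae_of_all _ fun q => ?_)
      simp only [RCLike.re_to_complex]
      rw [Complex.re_mul_ofReal]
      rfl
    -- the pairing with the test form
    have hαβ : ∀ j, Integrable (fun q => α j q * conj (β j q) *
        (Real.exp (-(Φ q + χ q - ψ q)) : ℂ)) S.μ := fun j =>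
      integrable_of_supp ((((hα j).mono (Nat.zero_le 1)).mul (hβ0 j).conj).mul
        (hw2.mono (Nat.zero_le 2))) (HPair_supp_mul (HPair_supp_mul' (HPair_supp_conj (hβ j).2)))
    have hsumb : ∫ q, (∑ j, α j q * conj (b j q)) * Real.exp (-(Φ q + χ q - ψ q)) ∂S.μ =
        ∑ j, ∫ q, α j q * conj (b j q) * (Real.exp (-(Φ q + χ q - ψ q)) : ℂ) ∂S.μ := by
      rw [← integral_finsetSum _ fun j _ => hαb j]
      refine integral_congr_ae (ae_of_all _ fun q => ?_)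
      simp only [Finset.sum_mul]
    have hsumβ : ∫ q, (∑ j, α j q * conj (β j q)) * Real.exp (-(Φ q + χ q - ψ q)) ∂S.μ =
        ∑ j, ∫ q, α j q * conj (β j q) * (Real.exp (-(Φ q + χ q - ψ q)) : ℂ) ∂S.μ := by
      rw [← integral_finsetSum _ fun j _ => hαβ j]
      refine integral_congr_ae (ae_of_all _ fun q => ?_)
      simp only [Finset.sum_mul]
    have hβpair : 2 * ‖∫ q, (∑ j, α j q * conj (β j q)) *
        Real.exp (-(Φ q + χ q - ψ q)) ∂S.μ‖ ≤
        t * A + t⁻¹ * (2 * ((1 + δ) * G + (1 + δ⁻¹) * δ ^ 2) + 1 / 2 * (n * (n * δ ^ 2))) := by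
      have h1 : ‖∫ q, (∑ j, α j q * conj (β j q)) * Real.exp (-(Φ q + χ q - ψ q)) ∂S.μ‖ ≤
          ∫ q, (1 / 2 * (t * (a q * Real.exp (-Φ q)) + t⁻¹ *
            (S.levi Φ (fun j => β j q) q * Real.exp (-(Φ q + χ q))))) ∂S.μ := by
        refine norm_integral_le_of_norm_le
          (((hai.const_mul t).add (hLi.const_mul t⁻¹)).const_mul (1 / 2)) ?_
        filter_upwards [S.ae_mem_M] with q hq
        rw [norm_mul, Complex.norm_real, Real.norm_of_nonneg (Real.exp_pos _).le]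
        have h2 := hab q hq (fun j => β j q)
        have h3 := hlevi q hq (fun j => β j q)
        set L := S.levi Φ (fun j => β j q) q with hL
        set x := ‖∑ j, α j q * conj (β j q)‖ with hx
        have hx0 : 0 ≤ x := norm_nonneg _
        have h4 : Real.exp (-(Φ q + χ q - ψ q)) ≤
            Real.exp (-Φ q / 2) * Real.exp (-(Φ q + χ q) / 2) := by
          rw [← Real.exp_add]
          apply Real.exp_le_exp.2
          have := hχψ' q hq
          linarith only [this]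
        have h5 : 0 ≤ Real.exp (-Φ q / 2) * Real.exp (-(Φ q + χ q) / 2) := by positivity
        have h6 : Real.exp (-Φ q) = Real.exp (-Φ q / 2) ^ 2 := by
          rw [← Real.exp_nat_mul]
          congr 1
          push_cast
          ring
        have h7 : Real.exp (-(Φ q + χ q)) = Real.exp (-(Φ q + χ q) / 2) ^ 2 := by
          rw [← Real.exp_nat_mul]
          congr 1
          push_cast
          ring
        refine (mul_le_mul_of_nonneg_left h4 hx0).trans ?_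
        rw [h6, h7]
        set E := Real.exp (-Φ q / 2) with hE
        set F := Real.exp (-(Φ q + χ q) / 2) with hF
        have hE0 : 0 < E := Real.exp_pos _
        have hF0 : 0 < F := Real.exp_pos _
        -- `x E F ≤ (t a E² + t⁻¹ L F²) / 2`
        have h8 : x ≤ Real.sqrt (a q) * Real.sqrt L := by
          rw [← Real.sqrt_mul (ha q)]
          exact Real.le_sqrt_of_sq_le h2
        have h9 : x * (E * F) ≤ Real.sqrt (a q) * Real.sqrt L * (E * F) :=
          mul_le_mul_of_nonneg_right h8 h5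
        have h10 : a q = Real.sqrt (a q) ^ 2 := (Real.sq_sqrt (ha q)).symm
        have h11 : L = Real.sqrt L ^ 2 := (Real.sq_sqrt h3).symm
        set sa := Real.sqrt (a q) with hsa
        set sL := Real.sqrt L with hsL
        rw [h10, h11]
        refine h9.trans ?_
        have h12 : 1 / 2 * (t * (sa ^ 2 * E ^ 2) + t⁻¹ * (sL ^ 2 * F ^ 2)) -
            sa * sL * (E * F) = (t * (sa * E) - sL * F) ^ 2 / (2 * t) := by
          field_simp
          ring
        have h13 : 0 ≤ (t * (sa * E) - sL * F) ^ 2 / (2 * t) := by (clear * - ht; positivity)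
        linarith only [h13, h12]
      rw [integral_const_mul, integral_add (hai.const_mul t) (hLi.const_mul t⁻¹),
        integral_const_mul, integral_const_mul] at h1
      have h2 := mul_le_mul_of_nonneg_left hAint ht.le
      have h3 := mul_le_mul_of_nonneg_left hLb (inv_pos.2 ht).le
      linarith only [h3, h2, h1]
    -- the difference
    have hdiff : ‖∫ q, (∑ j, α j q * conj (b j q)) * Real.exp (-(Φ q + χ q - ψ q)) ∂S.μ -
        ∫ q, (∑ j, α j q * conj (β j q)) * Real.exp (-(Φ q + χ q - ψ q)) ∂S.μ‖ ≤ δ * K := by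
      rw [hsumb, hsumβ, ← Finset.sum_sub_distrib, hK, Finset.mul_sum]
      refine norm_sum_le_of_le _ fun j _ => ?_
      rw [← integral_sub (hαb j) (hαβ j)]
      have hbβm : AEStronglyMeasurable (fun q => β j q - b j q) S.μ := (hβm j).sub (hb j)
      have hbβi : Integrable (fun q => ‖β j q - b j q‖ ^ 2 *
          Real.exp (-(Φ q + χ q - ψ q))) S.μ :=
        HPair_integrable ((hbβm.norm.pow 2).mul hw2m) (fun q => by (clear * -; positivity))
          (lt_of_le_of_lt (hβb j) ENNReal.ofReal_lt_top)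
      have hbβ2 : ∫ q, ‖β j q - b j q‖ ^ 2 * Real.exp (-(Φ q + χ q - ψ q)) ∂S.μ ≤ δ ^ 2 :=
        HPair_integral_le ((hbβm.norm.pow 2).mul hw2m)
          (fun q => mul_nonneg (sq_nonneg _) (Real.exp_pos _).le) (sq_nonneg δ) (hβb j)
      have h1 : ‖∫ q, (α j q * conj (b j q) * (Real.exp (-(Φ q + χ q - ψ q)) : ℂ) -
          α j q * conj (β j q) * (Real.exp (-(Φ q + χ q - ψ q)) : ℂ)) ∂S.μ‖ ≤
          ∫ q, (1 / 2 * (δ * (‖α j q‖ ^ 2 * Real.exp (-(Φ q + χ q - ψ q))) +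
            δ⁻¹ * (‖β j q - b j q‖ ^ 2 * Real.exp (-(Φ q + χ q - ψ q))))) ∂S.μ := by
        refine norm_integral_le_of_norm_le
          ((((hαi j).const_mul δ).add (hbβi.const_mul δ⁻¹)).const_mul (1 / 2))
          (ae_of_all _ fun q => ?_)
        have h2 : α j q * conj (b j q) * (Real.exp (-(Φ q + χ q - ψ q)) : ℂ) -
            α j q * conj (β j q) * (Real.exp (-(Φ q + χ q - ψ q)) : ℂ) =
            -(α j q * conj (β j q - b j q) * (Real.exp (-(Φ q + χ q - ψ q)) : ℂ)) := by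
          rw [map_sub]
          ring
        rw [h2, norm_neg, norm_mul, norm_mul, RCLike.norm_conj, Complex.norm_real,
          Real.norm_of_nonneg (Real.exp_pos _).le]
        set x := ‖α j q‖ with hx
        set y := ‖β j q - b j q‖ with hy
        set E := Real.exp (-(Φ q + χ q - ψ q)) with hE
        have hE0 : 0 < E := Real.exp_pos _
        have h3 : 1 / 2 * (δ * (x ^ 2 * E) + δ⁻¹ * (y ^ 2 * E)) - x * y * E =
            (δ * x - y) ^ 2 * E / (2 * δ) := by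
          field_simp
          ring
        have h4 : 0 ≤ (δ * x - y) ^ 2 * E / (2 * δ) := by (clear * - hδ; positivity)
        linarith only [h4, h3]
      refine h1.trans ?_
      rw [integral_const_mul, integral_add ((hαi j).const_mul δ) (hbβi.const_mul δ⁻¹),
        integral_const_mul, integral_const_mul]
      have h5 : δ⁻¹ * ∫ q, ‖β j q - b j q‖ ^ 2 * Real.exp (-(Φ q + χ q - ψ q)) ∂S.μ ≤ δ := by
        calc δ⁻¹ * ∫ q, ‖β j q - b j q‖ ^ 2 * Real.exp (-(Φ q + χ q - ψ q)) ∂S.μ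
            ≤ δ⁻¹ * δ ^ 2 := mul_le_mul_of_nonneg_left hbβ2 (inv_pos.2 hδ).le
          _ = δ := by field_simp
      linarith only [h5]
    -- conclusion
    have h9 : ‖∫ q, (∑ j, α j q * conj (b j q)) * Real.exp (-(Φ q + χ q - ψ q)) ∂S.μ‖ ≤
        ‖∫ q, (∑ j, α j q * conj (β j q)) * Real.exp (-(Φ q + χ q - ψ q)) ∂S.μ‖ + δ * K := by
      have := norm_le_norm_add_norm_sub'
        (∫ q, (∑ j, α j q * conj (b j q)) * Real.exp (-(Φ q + χ q - ψ q)) ∂S.μ)
        (∫ q, (∑ j, α j q * conj (β j q)) * Real.exp (-(Φ q + χ q - ψ q)) ∂S.μ)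
      linarith only [this, hdiff]
    linarith only [h9, hβpair]
  -- limit `δ → 0`
  have main2 : ∀ t : ℝ, 0 < t →
      2 * ‖∫ q, (∑ j, α j q * conj (b j q)) * Real.exp (-(Φ q + χ q - ψ q)) ∂S.μ‖ ≤
        t * A + t⁻¹ * (2 * G) := by
    intro t ht
    have hlim : Tendsto (fun δ : ℝ => t * A + t⁻¹ * (2 * ((1 + δ) * G + (δ ^ 2 + δ)) +
        1 / 2 * (n * (n * δ ^ 2))) + 2 * (δ * K)) (𝓝[>] 0) (𝓝 (t * A + t⁻¹ * (2 * G))) := by
      have h1 : Continuous (fun δ : ℝ => t * A + t⁻¹ * (2 * ((1 + δ) * G + (δ ^ 2 + δ)) +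
        1 / 2 * (n * (n * δ ^ 2))) + 2 * (δ * K)) := by fun_prop
      have h2 := h1.tendsto 0
      simp only [ne_eq, OfNat.ofNat_ne_zero, not_false_eq_true, zero_pow, mul_zero, add_zero,
        zero_mul, one_mul] at h2
      exact h2.mono_left nhdsWithin_le_nhds
    refine ge_of_tendsto hlim ?_
    filter_upwards [Ioc_mem_nhdsGT (zero_lt_one : (0 : ℝ) < 1)] with δ hδ
    have h1 := main t ht δ hδ.1 hδ.2
    have h2 : (1 + δ⁻¹) * δ ^ 2 = δ ^ 2 + δ := by
      have := hδ.1.ne'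
      field_simp
    rw [h2] at h1
    exact h1
  have h := HPair_discrim (norm_nonneg _) hA0 main2 (by (clear * -; positivity))
  linarith

end Sheets

end Vale.Agent.P282.L2
end

section

open MeasureTheory Filter Topology
open scoped ENNReal NNReal ComplexConjugate

namespace Vale.Agent.P282.L2

section aux

theorem HProj_hilbert {E : Type*} [NormedAddCommGroup E] [InnerProductSpace ℂ E] [CompleteSpace E]
    (T : Set E) (v : E) : ∃ b : E, (∀ t ∈ T, inner ℂ t b = 0) ∧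
      ∀ a : E, (∀ t ∈ T, inner ℂ t a = 0) → inner ℂ b a = inner ℂ v a := by
  obtain ⟨b, hb, c, hc, hbc⟩ :=
    Submodule.exists_add_mem_mem_orthogonal (K := (Submodule.span ℂ T)ᗮ) v
  refine ⟨b, fun t ht => (Submodule.mem_orthogonal _ _).1 hb t (Submodule.subset_span ht),
    fun a ha => ?_⟩
  have ha' : a ∈ (Submodule.span ℂ T)ᗮ := by
    rw [Submodule.mem_orthogonal]
    intro u hu
    induction hu using Submodule.span_induction with
    | mem x hx => exact ha x hx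
    | zero => exact inner_zero_left _
    | add x y _ _ hx hy => rw [inner_add_left, hx, hy, add_zero]
    | smul r x _ hx => rw [inner_smul_left, hx, mul_zero]
  rw [hbc, inner_add_left, (Submodule.mem_orthogonal' _ _).1 hc a ha', add_zero]

variable {Ω : Type*} [MeasurableSpace Ω] {ν : Measure Ω} {n : ℕ}

/-- The vector of classes in the Hilbert space. -/
noncomputable def HProj_emb (X : Fin n → Ω → ℂ) (hX : ∀ j, MemLp (X j) 2 ν) :
    PiLp 2 (fun _ : Fin n => Lp ℂ 2 ν) :=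
  WithLp.toLp 2 (fun j => (hX j).toLp (X j))

theorem HProj_integrable {X Y : Ω → ℂ} (hX : MemLp X 2 ν) (hY : MemLp Y 2 ν) :
    Integrable (fun x => Y x * conj (X x)) ν := by
  have h := L2.integrable_inner (𝕜 := ℂ) (hX.toLp X) (hY.toLp Y)
  refine h.congr ?_
  filter_upwards [hX.coeFn_toLp, hY.coeFn_toLp] with x h1 h2
  rw [h1, h2, RCLike.inner_apply]

theorem HProj_inner (X Y : Fin n → Ω → ℂ) (hX : ∀ j, MemLp (X j) 2 ν)
    (hY : ∀ j, MemLp (Y j) 2 ν) :
    inner ℂ (HProj_emb X hX) (HProj_emb Y hY) = ∫ x, ∑ j, Y j x * conj (X j x) ∂ν := by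
  rw [PiLp.inner_apply, integral_finsetSum _ fun j _ => HProj_integrable (hX j) (hY j)]
  refine Finset.sum_congr rfl fun j _ => ?_
  rw [L2.inner_def]
  refine integral_congr_ae ?_
  have h1 := (hX j).coeFn_toLp
  have h2 := (hY j).coeFn_toLp
  filter_upwards [h1, h2] with x h1 h2
  change inner ℂ (((hX j).toLp (X j) : Lp ℂ 2 ν) x) (((hY j).toLp (Y j) : Lp ℂ 2 ν) x) = _
  rw [h1, h2, RCLike.inner_apply]

/-- Projection on the orthogonal complement of a set of vectors. -/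
theorem HProj_exists (P : Set (Fin n → Ω → ℂ)) (hP : ∀ V ∈ P, ∀ j, MemLp (V j) 2 ν)
    (B : Fin n → Ω → ℂ) (hB : ∀ j, MemLp (B j) 2 ν) :
    ∃ B' : Fin n → Ω → ℂ, (∀ j, MemLp (B' j) 2 ν) ∧
      (∀ V ∈ P, ∫ x, ∑ j, V j x * B' j x ∂ν = 0) ∧
      ∀ A : Fin n → Ω → ℂ, (∀ j, MemLp (A j) 2 ν) →
        (∀ V ∈ P, ∫ x, ∑ j, V j x * A j x ∂ν = 0) →
        ∫ x, ∑ j, A j x * conj (B' j x) ∂ν = ∫ x, ∑ j, A j x * conj (B j x) ∂ν := by
  have hPc : ∀ V ∈ P, ∀ j, MemLp (fun x => conj (V j x)) 2 ν := fun V hV j => (hP V hV j).star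
  obtain ⟨b, hb1, hb2⟩ := HProj_hilbert
    {v | ∃ V, ∃ hV : V ∈ P, v = HProj_emb (fun j x => conj (V j x)) (hPc V hV)} (HProj_emb B hB)
  have hb' : ∀ j, MemLp (fun x => (b j : Lp ℂ 2 ν) x) 2 ν := fun j => Lp.memLp _
  have hbe : b = HProj_emb (fun j x => (b j : Lp ℂ 2 ν) x) hb' := by
    ext1 j
    change b j = (hb' j).toLp _
    rw [Lp.toLp_coeFn]
  have key : ∀ (V : Fin n → Ω → ℂ) (hV : V ∈ P) (A : Fin n → Ω → ℂ) (hA : ∀ j, MemLp (A j) 2 ν),
      inner ℂ (HProj_emb (fun j x => conj (V j x)) (hPc V hV)) (HProj_emb A hA) =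
        ∫ x, ∑ j, V j x * A j x ∂ν := by
    intro V hV A hA
    rw [HProj_inner]
    refine integral_congr_ae (ae_of_all _ fun x => Finset.sum_congr rfl fun j _ => ?_)
    simp only [Complex.conj_conj]
    ring
  refine ⟨fun j x => (b j : Lp ℂ 2 ν) x, hb', fun V hV => ?_, fun A hA hAV => ?_⟩
  · rw [← key V hV _ hb', ← hbe]
    exact hb1 _ ⟨V, hV, rfl⟩
  · have h := hb2 (HProj_emb A hA) (by
      rintro t ⟨V, hV, rfl⟩
      rw [key V hV]
      exact hAV V hV)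
    rw [hbe, HProj_inner, HProj_inner] at h
    exact h

end aux

namespace Sheets

variable {n N : ℕ} {S : Sheets n N}

theorem HProj_memLp {X : (Fin n → ℂ) × ℂ → ℂ} (hX : S.CD 0 X) (hs : S.Supp X) :
    MemLp X 2 S.μ := by
  have hm := aestronglyMeasurable_of_CD hX
  rw [memLp_two_iff_integrable_sq_norm hm]
  have h1 : S.CD 0 (fun _ => (((1 : ℝ)) : ℂ)) := CD.const _
  have h := HPair_integrable_sq hX hs (u := fun _ => 1) h1
  simpa using h

/-- Closed forms pair to zero with the weak equations. -/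
theorem HProj_closed {X : Fin n → (Fin n → ℂ) × ℂ → ℂ} (hX : ∀ j, S.CD 1 (X j))
    (hcl : ∀ q ∈ S.M, ∀ j k, S.Db j (X k) q = S.Db k (X j) q) {κ : (Fin n → ℂ) × ℂ → ℂ}
    (hκ : S.IsTest κ) (j k : Fin n) :
    ∫ q, (X k q * S.Db j κ q - X j q * S.Db k κ q) ∂S.μ = 0 := by
  have hκ1 : S.CD 1 κ := hκ.1.mono (by norm_num)
  have hint : ∀ i l, Integrable (fun q => X i q * S.Db l κ q) S.μ := fun i l =>
    integrable_of_supp (((hX i).mono (Nat.zero_le 1)).mul
      ((CD.Db (m := 1) hκ.1).mono (Nat.zero_le 1))) (HPair_supp_mul' (HPair_supp_Db hκ.2 l))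
  rw [integral_sub (hint k j) (hint j k), integral_mul_Db (hX k) hκ1 hκ.2,
    integral_mul_Db (hX j) hκ1 hκ.2]
  have h : ∫ q, S.Db j (X k) q * κ q ∂S.μ = ∫ q, S.Db k (X j) q * κ q ∂S.μ := by
    refine integral_congr_ae ?_
    filter_upwards [S.ae_mem_M] with q hq
    rw [hcl q hq j k]
  rw [h, sub_self]

/-- The estimate for `(α, γ)`, `γ` an arbitrary test form. -/
theorem twisted_estimate {Φ ψ χ : (Fin n → ℂ) × ℂ → ℝ} (hΦ : S.CD 2 (fun q => (Φ q : ℂ)))
    (hψ : S.CD 2 (fun q => (ψ q : ℂ))) (hχ : S.CD 2 (fun q => (χ q : ℂ)))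
    (hχψ : ∀ q ∈ S.M, ∀ β : Fin n → ℂ,
      2 * ((∑ j, ‖S.D j (fun q => (ψ q : ℂ)) q‖ ^ 2) * ∑ j, ‖β j‖ ^ 2) ≤ S.levi χ β q)
    (hχψ' : ∀ q ∈ S.M, 2 * ψ q ≤ χ q) (hlevi : ∀ q ∈ S.M, ∀ β : Fin n → ℂ, 0 ≤ S.levi Φ β q)
    {p : (Fin n → ℂ) → ℝ} (hcut : S.HasCut p ψ)
    (α : Fin n → (Fin n → ℂ) × ℂ → ℂ) (hα : ∀ j, S.CD 1 (α j))
    (hcl : ∀ q ∈ S.M, ∀ j k, S.Db j (α k) q = S.Db k (α j) q)
    (hα2 : ∀ j, ∫⁻ q, ENNReal.ofReal (‖α j q‖ ^ 2 * Real.exp (-(Φ q + χ q - ψ q))) ∂S.μ < ⊤)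
    (a : (Fin n → ℂ) × ℂ → ℝ) (ha : ∀ q, 0 ≤ a q) (ham : AEMeasurable a S.μ)
    (hab : ∀ q ∈ S.M, ∀ β : Fin n → ℂ, ‖∑ j, α j q * conj (β j)‖ ^ 2 ≤ a q * S.levi Φ β q)
    {A : ℝ} (hA0 : 0 ≤ A)
    (hA : ∫⁻ q, ENNReal.ofReal (a q * Real.exp (-Φ q)) ∂S.μ ≤ ENNReal.ofReal A)
    (γ : Fin n → (Fin n → ℂ) × ℂ → ℂ) (hγ : ∀ j, S.IsTest (γ j)) :
    ‖∫ q, ∑ j, α j q * conj (γ j q) ∂S.μ‖ ^ 2 ≤
      2 * A * ∫ q, ‖∑ j, S.D j (γ j) q‖ ^ 2 * Real.exp (Φ q + χ q - 2 * ψ q) ∂S.μ := by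
  -- weights
  have hwc : S.CD 2 (fun q => ((Φ q + χ q - ψ q : ℝ) : ℂ)) :=
    ((hΦ.add hχ).add ((CD.const (-1)).mul hψ)).congr fun q _ => by push_cast; ring
  have hlam : S.CD 2 (fun q => ((Φ q + χ q : ℝ) : ℂ)) :=
    (hΦ.add hχ).congr fun q _ => by push_cast; ring
  obtain ⟨E, hE⟩ : ∃ E : (Fin n → ℂ) × ℂ → ℝ, E = fun q => Real.exp ((Φ q + χ q - ψ q) / 2) :=
    ⟨_, rfl⟩
  obtain ⟨F, hF⟩ : ∃ F : (Fin n → ℂ) × ℂ → ℝ, F = fun q => Real.exp (-(Φ q + χ q - ψ q) / 2) :=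
    ⟨_, rfl⟩
  have hEc : S.CD 2 (fun q => (E q : ℂ)) := by
    rw [hE]
    exact CD.comp_real (φ := fun x => Real.exp (x / 2)) (by fun_prop) hwc
  have hFc : S.CD 2 (fun q => (F q : ℂ)) := by
    rw [hF]
    exact CD.comp_real (φ := fun x => Real.exp (-x / 2)) (by fun_prop) hwc
  have hEF : ∀ q, (E q : ℂ) * (F q : ℂ) = 1 := fun q => by
    rw [← Complex.ofReal_mul, hE, hF]
    beta_reduce
    rw [← Real.exp_add, ← add_div, add_neg_cancel, zero_div, Real.exp_zero, Complex.ofReal_one]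
  have hEw : ∀ q, (E q : ℂ) * (Real.exp (-(Φ q + χ q - ψ q)) : ℂ) = (F q : ℂ) := fun q => by
    rw [← Complex.ofReal_mul, hE, hF]
    beta_reduce
    rw [← Real.exp_add]
    congr 2
    ring
  have hE2 : ∀ q, E q ^ 2 * Real.exp (-(Φ q + χ q - ψ q)) = 1 := fun q => by
    rw [hE]
    beta_reduce
    rw [← Real.exp_nat_mul, ← Real.exp_add, ← Real.exp_zero]
    congr 1
    push_cast
    ring
  have hF2 : ∀ q, F q ^ 2 = Real.exp (-(Φ q + χ q - ψ q)) := fun q => by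
    rw [hF]
    beta_reduce
    rw [← Real.exp_nat_mul]
    congr 1
    push_cast
    ring
  have hE0 : S.CD 0 (fun q => (E q : ℂ)) := hEc.mono (Nat.zero_le 2)
  have hF0 : S.CD 0 (fun q => (F q : ℂ)) := hFc.mono (Nat.zero_le 2)
  have hEm : AEStronglyMeasurable (fun q => (E q : ℂ)) S.μ := aestronglyMeasurable_of_CD hE0
  have hFm : AEStronglyMeasurable (fun q => (F q : ℂ)) S.μ := aestronglyMeasurable_of_CD hF0
  have hαm : ∀ j, AEStronglyMeasurable (α j) S.μ := fun j =>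
    aestronglyMeasurable_of_CD ((hα j).mono (Nat.zero_le 1))
  have hwm : AEStronglyMeasurable (fun q => Real.exp (-(Φ q + χ q - ψ q))) S.μ := by
    have h1 : S.CD 2 (fun q => ((Real.exp (-(Φ q + χ q - ψ q)) : ℝ) : ℂ)) :=
      CD.comp_real (φ := fun x => Real.exp (-x)) (by fun_prop) hwc
    exact HPair_meas_real (h1.mono (Nat.zero_le 2))
  -- the set of vectors
  let P : Set (Fin n → (Fin n → ℂ) × ℂ → ℂ) := {V | ∃ κ j k, S.IsTest κ ∧ V = fun i q =>
    (if i = k then 1 else 0) * (S.Db j κ q * (E q : ℂ)) -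
      (if i = j then 1 else 0) * (S.Db k κ q * (E q : ℂ))}
  have hDbE : ∀ κ, S.IsTest κ → ∀ j, MemLp (fun q => S.Db j κ q * (E q : ℂ)) 2 S.μ :=
    fun κ hκ j => HProj_memLp (((CD.Db (m := 1) hκ.1).mono (Nat.zero_le 1)).mul hE0)
      (HPair_supp_mul (HPair_supp_Db hκ.2 j))
  have hP : ∀ V ∈ P, ∀ i, MemLp (V i) 2 S.μ := by
    rintro V ⟨κ, j, k, hκ, rfl⟩ i
    exact ((hDbE κ hκ j).const_mul _).sub ((hDbE κ hκ k).const_mul _)
  have hPsum : ∀ (κ : (Fin n → ℂ) × ℂ → ℂ) (j k : Fin n) (Y : Fin n → (Fin n → ℂ) × ℂ → ℂ)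
      (q : (Fin n → ℂ) × ℂ), ∑ i, ((if i = k then 1 else 0) * (S.Db j κ q * (E q : ℂ)) -
        (if i = j then 1 else 0) * (S.Db k κ q * (E q : ℂ))) * Y i q =
      (E q : ℂ) * Y k q * S.Db j κ q - (E q : ℂ) * Y j q * S.Db k κ q := by
    intro κ j k Y q
    simp only [sub_mul, Finset.sum_sub_distrib, ite_mul, one_mul, zero_mul, Finset.sum_ite_eq',
      Finset.mem_univ, if_true]
    ring
  have hBm : ∀ i, MemLp (fun q => γ i q * (E q : ℂ)) 2 S.μ := fun i =>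
    HProj_memLp (((hγ i).1.mono (Nat.zero_le 2)).mul hE0) (HPair_supp_mul (hγ i).2)
  obtain ⟨B', hB'm, hB'1, hB'2⟩ := HProj_exists P hP (fun i q => γ i q * (E q : ℂ)) hBm
  -- closed forms are orthogonal to the vectors
  have hort : ∀ X : Fin n → (Fin n → ℂ) × ℂ → ℂ, (∀ j, S.CD 1 (X j)) →
      (∀ q ∈ S.M, ∀ j k, S.Db j (X k) q = S.Db k (X j) q) →
      ∀ V ∈ P, ∫ q, ∑ i, V i q * (X i q * (F q : ℂ)) ∂S.μ = 0 := by
    rintro X hX hXcl V ⟨κ, j, k, hκ, rfl⟩
    refine Eq.trans ?_ (HProj_closed hX hXcl hκ j k)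
    refine integral_congr_ae (ae_of_all _ fun q => ?_)
    beta_reduce
    rw [hPsum κ j k (fun i q => X i q * (F q : ℂ)) q]
    linear_combination (X k q * S.Db j κ q - X j q * S.Db k κ q) * hEF q
  -- the pair `(b', g)`
  have hDγc : S.CD 0 (fun q => ∑ j, S.D j (γ j) q) :=
    CD.sum _ fun j _ => (CD.D (m := 1) (hγ j).1).mono (Nat.zero_le 1)
  have hDγs : S.Supp (fun q => ∑ j, S.D j (γ j) q) :=
    HPair_supp_sum _ fun j _ => HPair_supp_D (hγ j).2 j
  obtain ⟨b', hb'⟩ : ∃ b' : Fin n → (Fin n → ℂ) × ℂ → ℂ, b' = fun i q => (E q : ℂ) * B' i q :=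
    ⟨_, rfl⟩
  obtain ⟨g, hg⟩ : ∃ g : (Fin n → ℂ) × ℂ → ℂ, g = fun q => (E q : ℂ) ^ 2 * ∑ j, S.D j (γ j) q :=
    ⟨_, rfl⟩
  have hb : ∀ j, AEStronglyMeasurable (b' j) S.μ := fun j => by
    rw [hb']
    exact hEm.mul (hB'm j).1
  have hgc : S.CD 0 g := by
    rw [hg]
    refine ((hE0.mul hE0).mul hDγc).congr fun q _ => ?_
    ring
  have hgs : S.Supp g := by
    rw [hg]
    exact HPair_supp_mul' hDγs
  have hgm : AEStronglyMeasurable g S.μ := aestronglyMeasurable_of_CD hgc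
  have hb2 : ∀ j, ∫⁻ q, ENNReal.ofReal (‖b' j q‖ ^ 2 * Real.exp (-(Φ q + χ q - ψ q))) ∂S.μ < ⊤ := by
    intro j
    have h1 : ∀ q, ‖b' j q‖ ^ 2 * Real.exp (-(Φ q + χ q - ψ q)) = ‖B' j q‖ ^ 2 := fun q => by
      rw [hb']
      beta_reduce
      rw [norm_mul, Complex.norm_real, mul_pow, Real.norm_eq_abs, sq_abs]
      linear_combination ‖B' j q‖ ^ 2 * hE2 q
    simp only [h1]
    have h2 := (memLp_two_iff_integrable_sq_norm (hB'm j).1).1 (hB'm j)
    have h3 := h2.2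
    rwa [hasFiniteIntegral_iff_ofReal (ae_of_all _ fun q => sq_nonneg _)] at h3
  have hg2 : ∫⁻ q, ENNReal.ofReal (‖g q‖ ^ 2 * Real.exp (-(Φ q + χ q))) ∂S.μ < ⊤ := by
    have h1 : S.CD 2 (fun q => ((Real.exp (-(Φ q + χ q)) : ℝ) : ℂ)) :=
      CD.comp_real (φ := fun x => Real.exp (-x)) (by fun_prop) hlam
    have h2 := (HPair_integrable_sq hgc hgs (h1.mono (Nat.zero_le 2))).2
    rwa [hasFiniteIntegral_iff_ofReal (ae_of_all _ fun q => by positivity)] at h2
  have hgw : ∀ κ, S.IsTest κ →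
      ∫ q, (∑ j, b' j q * S.D j κ q) * Real.exp (-(Φ q + χ q - ψ q)) ∂S.μ =
        - ∫ q, g q * κ q * Real.exp (-(Φ q + χ q - ψ q)) ∂S.μ := by
    intro κ hκ
    have hκ1 : S.CD 1 κ := hκ.1.mono (by norm_num)
    have hX : ∀ j, S.CD 1 (fun q => conj (S.D j κ q)) := fun j => (CD.D (m := 1) hκ.1).conj
    have hXe : ∀ j, (fun q => conj (S.D j κ q)) = S.Db j (fun q => conj (κ q)) := fun j => by
      funext q
      rw [Db_conj]
    have hXcl : ∀ q ∈ S.M, ∀ j k, S.Db j (fun q => conj (S.D k κ q)) q =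
        S.Db k (fun q => conj (S.D j κ q)) q := fun q hq j k => by
      rw [hXe, hXe]
      exact Db_Db_comm hκ.1.conj hq
    have hXm : ∀ j, MemLp (fun q => conj (S.D j κ q) * (F q : ℂ)) 2 S.μ := fun j =>
      HProj_memLp (((hX j).mono (Nat.zero_le 1)).mul hF0)
        (HPair_supp_mul (HPair_supp_conj (HPair_supp_D hκ.2 j)))
    have h1 := hB'2 (fun j q => conj (S.D j κ q) * (F q : ℂ)) hXm (hort _ hX hXcl)
    have h2 := congrArg (starRingEnd ℂ) h1
    rw [← integral_conj, ← integral_conj] at h2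
    have h3 : ∫ q, (∑ j, b' j q * S.D j κ q) * Real.exp (-(Φ q + χ q - ψ q)) ∂S.μ =
        ∫ q, conj (∑ j, conj (S.D j κ q) * (F q : ℂ) * conj (B' j q)) ∂S.μ := by
      refine integral_congr_ae (ae_of_all _ fun q => ?_)
      beta_reduce
      rw [map_sum, Finset.sum_mul]
      refine Finset.sum_congr rfl fun j _ => ?_
      rw [hb', map_mul, map_mul, Complex.conj_conj, Complex.conj_conj, Complex.conj_ofReal,
        ← hEw q]
      ring
    have h4 : ∫ q, conj (∑ j, conj (S.D j κ q) * (F q : ℂ) * conj (γ j q * (E q : ℂ))) ∂S.μ =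
        ∑ j, ∫ q, γ j q * S.D j κ q ∂S.μ := by
      rw [← integral_finsetSum _ fun j _ => integrable_of_supp
        (((hγ j).1.mono (Nat.zero_le 2)).mul ((CD.D (m := 1) hκ.1).mono (Nat.zero_le 1)))
        (HPair_supp_mul (hγ j).2)]
      refine integral_congr_ae (ae_of_all _ fun q => ?_)
      beta_reduce
      rw [map_sum]
      refine Finset.sum_congr rfl fun j _ => ?_
      rw [map_mul, map_mul, Complex.conj_conj, Complex.conj_conj, Complex.conj_ofReal]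
      linear_combination (γ j q * S.D j κ q) * hEF q
    have h5 : ∫ q, g q * κ q * Real.exp (-(Φ q + χ q - ψ q)) ∂S.μ =
        ∑ j, ∫ q, S.D j (γ j) q * κ q ∂S.μ := by
      rw [← integral_finsetSum _ fun j _ => integrable_of_supp
        (((CD.D (m := 1) (hγ j).1).mono (Nat.zero_le 1)).mul (hκ.1.mono (Nat.zero_le 2)))
        (HPair_supp_mul' hκ.2)]
      refine integral_congr_ae (ae_of_all _ fun q => ?_)
      beta_reduce
      rw [hg, ← Finset.sum_mul]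
      beta_reduce
      have h6 : (E q : ℂ) ^ 2 * (Real.exp (-(Φ q + χ q - ψ q)) : ℂ) = 1 := by
        rw [← Complex.ofReal_pow, ← Complex.ofReal_mul, hE2 q, Complex.ofReal_one]
      linear_combination ((∑ j, S.D j (γ j) q) * κ q) * h6
    rw [h3, h2, h4, h5, ← Finset.sum_neg_distrib]
    refine Finset.sum_congr rfl fun j _ => ?_
    exact integral_mul_D ((hγ j).1.mono (by norm_num)) hκ1 hκ.2
  have hsw : ∀ κ, S.IsTest κ → ∀ j k,
      ∫ q, (b' k q * S.Db j κ q - b' j q * S.Db k κ q) ∂S.μ = 0 := by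
    intro κ hκ j k
    refine Eq.trans ?_ (hB'1 _ ⟨κ, j, k, hκ, rfl⟩)
    refine integral_congr_ae (ae_of_all _ fun q => ?_)
    beta_reduce
    rw [hPsum κ j k B' q, hb']
  have hpl := pairing_le hΦ hψ hχ hχψ hχψ' hlevi hcut α hα hα2 a ha ham hab hA0 hA b' g hb hgm
    hb2 hg2 hgw hsw
  -- rewrite both sides
  have hαF : ∀ j, MemLp (fun q => α j q * (F q : ℂ)) 2 S.μ := by
    intro j
    have hm : AEStronglyMeasurable (fun q => α j q * (F q : ℂ)) S.μ := (hαm j).mul hFm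
    rw [memLp_two_iff_integrable_sq_norm hm]
    have h1 : Integrable (fun q => ‖α j q‖ ^ 2 * Real.exp (-(Φ q + χ q - ψ q))) S.μ :=
      HPair_integrable (((hαm j).norm.pow 2).mul hwm) (fun q => by (clear * -; positivity)) (hα2 j)
    refine h1.congr (ae_of_all _ fun q => ?_)
    beta_reduce
    rw [norm_mul, Complex.norm_real, mul_pow, Real.norm_eq_abs, sq_abs, hF2 q]
  have hL := hB'2 (fun j q => α j q * (F q : ℂ)) hαF (hort α hα hcl)
  have hL1 : ∫ q, (∑ j, α j q * conj (b' j q)) * Real.exp (-(Φ q + χ q - ψ q)) ∂S.μ =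
      ∫ q, ∑ j, α j q * (F q : ℂ) * conj (B' j q) ∂S.μ := by
    refine integral_congr_ae (ae_of_all _ fun q => ?_)
    beta_reduce
    rw [Finset.sum_mul]
    refine Finset.sum_congr rfl fun j _ => ?_
    rw [hb', map_mul, Complex.conj_ofReal, ← hEw q]
    ring
  have hL2 : ∫ q, ∑ j, α j q * (F q : ℂ) * conj (γ j q * (E q : ℂ)) ∂S.μ =
      ∫ q, ∑ j, α j q * conj (γ j q) ∂S.μ := by
    refine integral_congr_ae (ae_of_all _ fun q => ?_)
    beta_reduce
    refine Finset.sum_congr rfl fun j _ => ?_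
    rw [map_mul, Complex.conj_ofReal]
    linear_combination (α j q * conj (γ j q)) * hEF q
  have hR : ∫ q, ‖g q‖ ^ 2 * Real.exp (-(Φ q + χ q)) ∂S.μ =
      ∫ q, ‖∑ j, S.D j (γ j) q‖ ^ 2 * Real.exp (Φ q + χ q - 2 * ψ q) ∂S.μ := by
    refine integral_congr_ae (ae_of_all _ fun q => ?_)
    beta_reduce
    have h1 : E q ^ 4 * Real.exp (-(Φ q + χ q)) = Real.exp (Φ q + χ q - 2 * ψ q) := by
      rw [hE]
      beta_reduce
      rw [← Real.exp_nat_mul, ← Real.exp_add]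
      congr 1
      push_cast
      ring
    rw [hg, ← h1]
    beta_reduce
    rw [norm_mul, norm_pow, Complex.norm_real, Real.norm_eq_abs, sq_abs]
    ring
  rw [hL1, hL, hL2, hR] at hpl
  exact hpl

end Sheets

end Vale.Agent.P282.L2
end

section

open MeasureTheory Filter Topology
open scoped ENNReal NNReal ComplexConjugate

namespace Vale.Agent.P282.L2

variable {n N : ℕ} {K : Type} [Field K] [Algebra ℂ K] [Algebra (Pol n) K]
  [IsScalarTower ℂ (Pol n) K] [FaithfulSMul (Pol n) K]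
  [Algebra (FractionRing (Pol n)) K] [IsScalarTower (Pol n) (FractionRing (Pol n)) K]
  [FiniteDimensional (FractionRing (Pol n)) K]

/-- The trace to `ℂ(z)`. -/
noncomputable abbrev tr (a : K) : FractionRing (Pol n) := Algebra.trace (FractionRing (Pol n)) K a

namespace Prim

variable {E : Prim n K} {S : Sheets n N} {a b : K} {q : (Fin n → ℂ) × ℂ}

section Aux

omit [IsScalarTower ℂ (Pol n) K] [Algebra (FractionRing (Pol n)) K]
  [IsScalarTower (Pol n) (FractionRing (Pol n)) K] [FiniteDimensional (FractionRing (Pol n)) K]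

omit [Algebra ℂ K] [Algebra (Pol n) K] [FaithfulSMul (Pol n) K] [Field K] in
theorem du_card_sheets {z : Fin n → ℂ} (hz : z ∈ S.V) : (S.fib z).card = N := by
  obtain ⟨W, s, -, hzW, -, -, h⟩ := S.loc z hz
  obtain ⟨hinj, hf⟩ := h z hzW
  rw [hf, Finset.card_image_of_injective _ hinj, Finset.card_univ, Fintype.card_fin]

omit [FaithfulSMul (Pol n) K] in
theorem du_nonempty (hS : E.IsSheets S) : ∃ z, z ∈ S.V := by
  by_contra hcon
  push Not at hcon
  refine E.h0 (MvPolynomial.funext fun z => ?_)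
  rw [map_zero]
  by_contra h
  exact hcon z ((hS.1 z).2 h)

theorem du_unram (E : Prim n K) : ∃ f g : Polynomial (Pol n),
    f * Polynomial.derivative (minpoly (Pol n) E.y) =
      Polynomial.C E.h + minpoly (Pol n) E.y * g := by
  obtain ⟨f, hf⟩ := E.unram
  have hinj := FaithfulSMul.algebraMap_injective (Pol n) K
  have h0 : Polynomial.aeval E.y
      (f * Polynomial.derivative (minpoly (Pol n) E.y) - Polynomial.C E.h) = 0 := by
    rw [map_sub, map_mul, hf, Polynomial.aeval_C, sub_self]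
  obtain ⟨g, hg⟩ := minpoly.isIntegrallyClosed_dvd E.integral h0
  exact ⟨f, g, by rw [← hg]; ring⟩

theorem du_sep (hS : E.IsSheets S) {z : Fin n → ℂ} (hz : z ∈ S.V) :
    ((minpoly (Pol n) E.y).map (MvPolynomial.eval z)).Separable := by
  obtain ⟨f, g, hfg⟩ := du_unram E
  have hne : MvPolynomial.eval z E.h ≠ 0 := (hS.1 z).1 hz
  have h1 := congrArg (Polynomial.map (MvPolynomial.eval z)) hfg
  rw [Polynomial.map_mul, Polynomial.map_add, Polynomial.map_mul, Polynomial.map_C,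
    ← Polynomial.derivative_map] at h1
  rw [Polynomial.separable_def']
  refine ⟨-(Polynomial.C (MvPolynomial.eval z E.h)⁻¹ * g.map (MvPolynomial.eval z)),
    Polynomial.C (MvPolynomial.eval z E.h)⁻¹ * f.map (MvPolynomial.eval z), ?_⟩
  rw [mul_assoc, h1]
  have h2 : Polynomial.C (MvPolynomial.eval z E.h)⁻¹ * Polynomial.C (MvPolynomial.eval z E.h)
      = 1 := by
    rw [← Polynomial.C_mul, inv_mul_cancel₀ hne, Polynomial.C_1]
  linear_combination h2

theorem du_card (hS : E.IsSheets S) {z : Fin n → ℂ} (hz : z ∈ S.V) :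
    (S.fib z).card = (minpoly (Pol n) E.y).natDegree := by
  classical
  have hm : ((minpoly (Pol n) E.y).map (MvPolynomial.eval z)).Monic :=
    (minpoly.monic E.integral).map _
  have h1 : S.fib z = ((minpoly (Pol n) E.y).map (MvPolynomial.eval z)).roots.toFinset := by
    ext w
    rw [hS.2 z w, Multiset.mem_toFinset, Polynomial.mem_roots hm.ne_zero, Polynomial.IsRoot.def]
  rw [h1, Multiset.toFinset_card_of_nodup (Polynomial.nodup_roots (du_sep hS hz)),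
    ← (IsAlgClosed.splits _).natDegree_eq_card_roots,
    (minpoly.monic E.integral).natDegree_map]

theorem du_N (hS : E.IsSheets S) : N = (minpoly (Pol n) E.y).natDegree := by
  obtain ⟨z, hz⟩ := du_nonempty hS
  rw [← du_card hS hz, du_card_sheets hz]

end Aux

section Reg

omit [Algebra (FractionRing (Pol n)) K]
  [IsScalarTower (Pol n) (FractionRing (Pol n)) K] [FiniteDimensional (FractionRing (Pol n)) K]

/-- The algebra of the regular elements. -/
def duReg (E : Prim n K) : Subalgebra (Pol n) K where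
  carrier := {a | E.IsReg a}
  mul_mem' := fun ha hb => IsReg.mul ha hb
  add_mem' := fun ha hb => IsReg.add ha hb
  algebraMap_mem' := fun f => isReg_alg f

/-- The generator as a regular element. -/
def duY (E : Prim n K) : duReg E := ⟨E.y, isReg_y⟩

/-- Evaluation as a ring homomorphism. -/
noncomputable def duEv (hS : E.IsSheets S) (hq : q ∈ S.M) : duReg E →+* ℂ where
  toFun := fun a => E.ev (a : K) q
  map_one' := ev_one hS hq
  map_mul' := fun a b => ev_mul hS hq a.2 b.2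
  map_zero' := ev_zero hS hq
  map_add' := fun a b => ev_add hS hq a.2 b.2

theorem du_inj (E : Prim n K) : Function.Injective (algebraMap (duReg E) K) :=
  Subtype.val_injective

theorem du_minpoly (E : Prim n K) : minpoly (Pol n) (duY E) = minpoly (Pol n) E.y :=
  (minpoly.algebraMap_eq (A := Pol n) (du_inj E) (duY E)).symm

theorem du_div (E : Prim n K) : (minpolyDiv (Pol n) (duY E)).map (algebraMap (duReg E) K) =
    minpolyDiv (Pol n) E.y := by
  unfold minpolyDiv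
  rw [Polynomial.map_divByMonic _ (Polynomial.monic_X_sub_C _), Polynomial.map_map,
    ← IsScalarTower.algebraMap_eq, du_minpoly, Polynomial.map_sub, Polynomial.map_X,
    Polynomial.map_C]
  rfl

/-- The dual basis. -/
noncomputable def duC (E : Prim n K) (i : ℕ) : K :=
  (minpolyDiv (Pol n) E.y).coeff i /
    Polynomial.aeval E.y (Polynomial.derivative (minpoly (Pol n) E.y))

theorem du_coeff (E : Prim n K) (i : ℕ) : (minpolyDiv (Pol n) E.y).coeff i =
    (((minpolyDiv (Pol n) (duY E)).coeff i : duReg E) : K) := by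
  rw [← du_div, Polynomial.coeff_map]
  rfl

theorem du_reg_coeff (E : Prim n K) (i : ℕ) : E.IsReg ((minpolyDiv (Pol n) E.y).coeff i) := by
  rw [du_coeff]
  exact ((minpolyDiv (Pol n) (duY E)).coeff i).2

theorem du_reg_C (E : Prim n K) (i : ℕ) : E.IsReg (duC E i) := by
  unfold duC
  rw [div_eq_mul_inv]
  exact IsReg.mul (du_reg_coeff E i) isReg_deriv_inv

theorem du_reg_der (E : Prim n K) :
    E.IsReg (Polynomial.aeval E.y (Polynomial.derivative (minpoly (Pol n) E.y))) :=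
  isReg_aeval _

theorem du_ev_C (hS : E.IsSheets S) (hq : q ∈ S.M) (i : ℕ) :
    E.ev (duC E i) q = duEv hS hq ((minpolyDiv (Pol n) (duY E)).coeff i) *
      (E.ev (Polynomial.aeval E.y (Polynomial.derivative (minpoly (Pol n) E.y))) q)⁻¹ := by
  unfold duC
  rw [div_eq_mul_inv, ev_mul hS hq (du_reg_coeff E i) isReg_deriv_inv,
    ev_inv hS hq (du_reg_der E) isReg_deriv_inv, du_coeff]
  rfl

theorem du_eval (hS : E.IsSheets S) {z : Fin n → ℂ} (hz : z ∈ S.V) {w w' : ℂ}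
    (hw : w ∈ S.fib z) (hw' : w' ∈ S.fib z) :
    ∑ i : Fin N, E.ev (duC E i) (z, w') * w ^ (i : ℕ) = if w = w' then 1 else 0 := by
  have hq : ((z, w') : (Fin n → ℂ) × ℂ) ∈ S.M := ⟨hz, hw'⟩
  set σ := duEv hS hq with hσ
  set δ := E.ev (Polynomial.aeval E.y (Polynomial.derivative (minpoly (Pol n) E.y))) (z, w')
    with hδ
  have hδ0 : δ ≠ 0 := ev_ne_zero_of_inv hS hq aeval_derivative_ne_zero (du_reg_der E)
    isReg_deriv_inv
  have hcomp : σ.comp (algebraMap (Pol n) (duReg E)) = MvPolynomial.eval z := by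
    refine RingHom.ext fun f => ?_
    exact ev_alg hS hq f
  have hy : Polynomial.eval₂ (σ.comp (algebraMap (Pol n) (duReg E))) w
      (minpoly (Pol n) (duY E)) = 0 := by
    rw [hcomp, du_minpoly, Polynomial.eval₂_eq_eval_map]
    exact (hS.2 z w).1 hw
  have h1 := eval₂_minpolyDiv_of_eval₂_eq_zero σ hy
  have hσy : σ (duY E) = w' := ev_y hS hq
  have hσd : σ (Polynomial.aeval (duY E) (Polynomial.derivative (minpoly (Pol n) (duY E)))) = δ := by
    rw [du_minpoly]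
    have h2 : ((Polynomial.aeval (duY E) (Polynomial.derivative (minpoly (Pol n) E.y)) :
        duReg E) : K) = Polynomial.aeval E.y (Polynomial.derivative (minpoly (Pol n) E.y)) := by
      exact (Polynomial.aeval_algebraMap_apply K (duY E) _).symm
    show E.ev ((Polynomial.aeval (duY E) (Polynomial.derivative (minpoly (Pol n) E.y)) :
        duReg E) : K) (z, w') = δ
    rw [h2]
  rw [hσy, hσd] at h1
  have hdeg : (minpolyDiv (Pol n) (duY E)).natDegree < N := by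
    have hint : IsIntegral (Pol n) (duY E) :=
      (isIntegral_algebraMap_iff (du_inj E)).1 E.integral
    have := natDegree_minpolyDiv_lt hint
    rwa [du_minpoly, ← du_N hS] at this
  rw [Polynomial.eval₂_eq_sum_range' σ hdeg] at h1
  have h3 : ∑ i : Fin N, E.ev (duC E i) (z, w') * w ^ (i : ℕ) =
      (∑ i ∈ Finset.range N, σ ((minpolyDiv (Pol n) (duY E)).coeff i) * w ^ i) * δ⁻¹ := by
    rw [Finset.sum_mul, Finset.sum_range]
    refine Finset.sum_congr rfl fun i _ => ?_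
    rw [du_ev_C hS hq]
    ring
  rw [h3, h1]
  by_cases hww : w = w'
  · rw [if_pos hww.symm, if_pos hww, mul_inv_cancel₀ hδ0]
  · rw [if_neg (fun h => hww h.symm), if_neg hww, zero_mul]

theorem du_eval' (hS : E.IsSheets S) {z : Fin n → ℂ} (hz : z ∈ S.V) (i j : Fin N) :
    ∑ w ∈ S.fib z, E.ev (duC E i) (z, w) * w ^ (j : ℕ) = if i = j then 1 else 0 := by
  classical
  set A : Matrix (S.fib z) (Fin N) ℂ := Matrix.of fun w i => (w : ℂ) ^ (i : ℕ) with hA
  set B : Matrix (Fin N) (S.fib z) ℂ := Matrix.of fun i w => E.ev (duC E i) (z, w) with hB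
  have hcard : Fintype.card (S.fib z) = Fintype.card (Fin N) := by
    rw [Fintype.card_coe, Fintype.card_fin, du_card_sheets hz]
  have hAB : A * B = 1 := by
    ext w w'
    rw [Matrix.mul_apply, Matrix.one_apply]
    have := du_eval hS hz w.2 w'.2
    simp only [hA, hB, Matrix.of_apply]
    have e1 : (if w = w' then (1 : ℂ) else 0) = if (w : ℂ) = w' then 1 else 0 := by
      by_cases h : w = w'
      · rw [if_pos h, if_pos (congrArg Subtype.val h)]
      · rw [if_neg h, if_neg fun h' => h (Subtype.ext h')]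
    rw [e1, ← this]
    exact Finset.sum_congr rfl fun i _ => mul_comm _ _
  have hBA : B * A = 1 := (Matrix.mul_eq_one_comm_of_card_eq _ _ _ hcard).1 hAB
  have h1 := congrFun (congrFun hBA i) j
  rw [Matrix.mul_apply, Matrix.one_apply] at h1
  rw [← h1, ← Finset.sum_coe_sort]
  rfl

end Reg

section Field

theorem du_int (E : Prim n K) (i : ℕ) : IsIntegral (Pol n) ((minpolyDiv (Pol n) E.y).coeff i) := by
  have h1 := coeff_minpolyDiv_mem_adjoin (R := Pol n) E.y i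
  exact (adjoin_le_integralClosure E.integral) h1

theorem du_pb (E : Prim n K) : ∃ pb : PowerBasis (FractionRing (Pol n)) K, pb.gen = E.y := by
  have hint : IsIntegral (FractionRing (Pol n)) E.y := E.integral.tower_top
  have htop : Algebra.adjoin (FractionRing (Pol n)) {E.y} = ⊤ := by
    rw [eq_top_iff]
    intro a _
    obtain ⟨f, c, hc, h⟩ := E.gen a
    have hc' : algebraMap (Pol n) K c ≠ 0 := by
      rw [Ne, FaithfulSMul.algebraMap_eq_zero_iff]
      exact hc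
    have h1 : a = (algebraMap (Pol n) (FractionRing (Pol n)) c)⁻¹ •
        Polynomial.aeval E.y (f.map (algebraMap (Pol n) (FractionRing (Pol n)))) := by
      rw [Polynomial.aeval_map_algebraMap, ← h, Algebra.smul_def, map_inv₀,
        ← IsScalarTower.algebraMap_apply, inv_mul_cancel_left₀ hc']
    rw [h1]
    exact Subalgebra.smul_mem _ (Polynomial.aeval_mem_adjoin_singleton _ _) _
  refine ⟨(Algebra.adjoin.powerBasis' hint).map
    ((Subalgebra.equivOfEq _ _ htop).trans Subalgebra.topEquiv), ?_⟩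
  simp

end Field

theorem card_eq (hS : E.IsSheets S) : N = (minpoly (Pol n) E.y).natDegree := du_N hS

/-- The dual basis of `1, y, …` (Euler). -/
theorem exists_dual_basis (hS : E.IsSheets S) : ∃ c : Fin N → K, (∀ i, E.IsReg (c i)) ∧
    (∀ i, IsIntegral (Pol n)
      (Polynomial.aeval E.y (Polynomial.derivative (minpoly (Pol n) E.y)) * c i)) ∧
    (∀ a : K, a = ∑ i : Fin N, algebraMap (FractionRing (Pol n)) K (tr (n := n) (a * E.y ^ (i : ℕ))) *
      c i) ∧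
    (∀ i j : Fin N, tr (n := n) (c i * E.y ^ (j : ℕ)) = if i = j then 1 else 0) ∧
    (∀ z ∈ S.V, ∀ w ∈ S.fib z, ∀ w' ∈ S.fib z,
      ∑ i : Fin N, E.ev (c i) (z, w') * w ^ (i : ℕ) = if w = w' then 1 else 0) ∧
    ∀ z ∈ S.V, ∀ i j : Fin N,
      ∑ w ∈ S.fib z, E.ev (c i) (z, w) * w ^ (j : ℕ) = if i = j then 1 else 0 := by
  classical
  obtain ⟨pb, hpb⟩ := du_pb E
  have hN : N = pb.dim := by
    rw [du_N hS, ← pb.natDegree_minpoly, hpb,
      minpoly.isIntegrallyClosed_eq_field_fractions' (FractionRing (Pol n)) E.integral,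
      (minpoly.monic E.integral).natDegree_map]
  have hC : ∀ i : Fin pb.dim, pb.basis.traceDual i = duC E i := by
    intro i
    rw [Module.Basis.traceDual_powerBasis_eq, hpb]
    unfold duC
    rw [minpolyDiv_eq_of_isIntegrallyClosed (FractionRing (Pol n)) E.integral,
      minpoly.isIntegrallyClosed_eq_field_fractions' (FractionRing (Pol n)) E.integral,
      Polynomial.derivative_map, Polynomial.aeval_map_algebraMap]
  refine ⟨fun i => duC E i, fun i => du_reg_C E i, fun i => ?_, fun a => ?_, fun i j => ?_,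
    fun z hz w hw w' hw' => du_eval hS hz hw hw', fun z hz i j => du_eval' hS hz i j⟩
  · have : Polynomial.aeval E.y (Polynomial.derivative (minpoly (Pol n) E.y)) * duC E i =
        (minpolyDiv (Pol n) E.y).coeff i := by
      unfold duC
      rw [mul_div_cancel₀ _ aeval_derivative_ne_zero]
    rw [this]
    exact du_int E i
  · subst hN
    have h1 := pb.basis.traceDual.sum_repr a
    conv_lhs => rw [← h1]
    refine Finset.sum_congr rfl fun i _ => ?_
    rw [Module.Basis.traceDual_repr_apply, hC, Algebra.smul_def, Algebra.traceForm_apply,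
      pb.coe_basis, hpb]
  · subst hN
    have h1 := Module.Basis.trace_traceDual_mul pb.basis i j
    rw [hC, pb.coe_basis, hpb] at h1
    refine Eq.trans h1 ?_
    by_cases h : i = j
    · rw [if_pos h.symm, if_pos h]
    · rw [if_neg fun h' => h h'.symm, if_neg h]

/-- The trace is the sum over the sheets. -/
theorem tr_ib (hS : E.IsSheets S) (b : IB n K) : ∃ t : Pol n,
    tr (n := n) (b : K) = algebraMap (Pol n) (FractionRing (Pol n)) t ∧
    ∀ z ∈ S.V, MvPolynomial.eval z t = S.fsum (E.ev (b : K)) z := by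
  obtain ⟨c, hreg, -, hexp, -, -, hdual⟩ := exists_dual_basis hS
  have hb : IsIntegral (Pol n) (b : K) := b.2
  have hex : ∀ i : ℕ, ∃ t : Pol n, algebraMap (Pol n) (FractionRing (Pol n)) t =
      tr (n := n) ((b : K) * E.y ^ i) := by
    intro i
    exact IsIntegrallyClosed.isIntegral_iff.1
      (Algebra.isIntegral_trace (hb.mul (E.integral.pow i)))
  choose t ht using hex
  have hNpos : 0 < N := pos_of_isSheets hS
  refine ⟨t 0, ?_, fun z hz => ?_⟩
  · rw [ht 0, pow_zero, mul_one]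
  · unfold Sheets.fsum
    have h1 : ∀ w ∈ S.fib z, E.ev (b : K) (z, w) =
        ∑ i : Fin N, MvPolynomial.eval z (t i) * E.ev (c i) (z, w) := by
      intro w hw
      have hq : ((z, w) : (Fin n → ℂ) × ℂ) ∈ S.M := ⟨hz, hw⟩
      have h2 : (b : K) = ∑ i : Fin N, algebraMap (Pol n) K (t i) * c i := by
        conv_lhs => rw [hexp (b : K)]
        refine Finset.sum_congr rfl fun i _ => ?_
        rw [← ht, ← IsScalarTower.algebraMap_apply]
      rw [h2, ev_sum hS hq _ fun i _ => IsReg.mul (isReg_alg _) (hreg i)]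
      refine Finset.sum_congr rfl fun i _ => ?_
      rw [ev_mul hS hq (isReg_alg _) (hreg i), ev_alg hS hq]
    rw [Finset.sum_congr rfl h1, Finset.sum_comm]
    have h3 : ∀ i : Fin N, ∑ w ∈ S.fib z, MvPolynomial.eval z (t i) * E.ev (c i) (z, w) =
        MvPolynomial.eval z (t i) * if i = ⟨0, hNpos⟩ then 1 else 0 := by
      intro i
      rw [← hdual z hz i ⟨0, hNpos⟩, Finset.mul_sum]
      refine Finset.sum_congr rfl fun w _ => ?_
      simp
    rw [Finset.sum_congr rfl fun i _ => h3 i]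
    simp

end Prim

end Vale.Agent.P282.L2
end
namespace AFast9067b7x3145b
@[reducible] noncomputable def a0 {x1 : ℕ} {x2 : Type} [x3 : Field x2] [x4 : Algebra (Vale.Agent.P282.L2.Pol x1) x2] [x5 : Algebra ℂ x2] [x6 : IsScalarTower ℂ (Vale.Agent.P282.L2.Pol x1) x2] [x7 : FaithfulSMul (Vale.Agent.P282.L2.Pol x1) x2] {x8 : Vale.Agent.P282.L2.Prim x1 x2} : Algebra (Vale.Agent.P282.L2.Pol x1) ↥x8.duReg := inferInstance
end AFast9067b7x3145b
attribute [local instance] AFast9067b7x3145b.a0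

section

open MeasureTheory Filter Topology
open scoped ENNReal NNReal ComplexConjugate

namespace Vale.Agent.P282.L2

variable {n : ℕ}

private theorem ordPow_poly {P : Polynomial ℂ} {C δ : ℝ} {M : ℕ} (hδ : 0 < δ)
    (hP : ∀ t : ℂ, ‖t‖ < δ → ‖P.eval t‖ ≤ C * ‖t‖ ^ M) :
    ∀ m ≤ M, (Polynomial.X : Polynomial ℂ) ^ m ∣ P := by
  intro m
  induction m with
  | zero => intro _; simp
  | succ m ih =>
    intro hm
    obtain ⟨Q, hQ⟩ := ih (by omega)
    rw [hQ, pow_succ]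
    apply mul_dvd_mul_left
    rw [Polynomial.X_dvd_iff, Polynomial.coeff_zero_eq_eval_zero]
    have h1 : Tendsto (fun t : ℂ => ‖Q.eval t‖) (𝓝[≠] 0) (𝓝 ‖Q.eval 0‖) :=
      (Q.continuous.norm.tendsto 0).mono_left nhdsWithin_le_nhds
    have h2 : Tendsto (fun t : ℂ => C * ‖t‖ ^ (M - m)) (𝓝[≠] 0) (𝓝 0) := by
      have hc : Continuous fun t : ℂ => C * ‖t‖ ^ (M - m) := by fun_prop
      have h := hc.tendsto 0
      have hne : M - m ≠ 0 := by omega
      rw [norm_zero, zero_pow hne, mul_zero] at h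
      exact h.mono_left nhdsWithin_le_nhds
    have h3 : ∀ᶠ t : ℂ in 𝓝[≠] 0, ‖Q.eval t‖ ≤ C * ‖t‖ ^ (M - m) := by
      have hb : ∀ᶠ t : ℂ in 𝓝[≠] 0, ‖t‖ < δ := by
        apply Filter.Eventually.filter_mono nhdsWithin_le_nhds
        have := Metric.ball_mem_nhds (0 : ℂ) hδ
        filter_upwards [this] with t ht
        simpa using ht
      filter_upwards [hb, self_mem_nhdsWithin] with t ht ht0
      have ht0' : 0 < ‖t‖ := norm_pos_iff.mpr ht0
      have h := hP t ht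
      rw [hQ, Polynomial.eval_mul, Polynomial.eval_pow, Polynomial.eval_X, norm_mul,
        norm_pow] at h
      have hM : ‖t‖ ^ M = ‖t‖ ^ m * ‖t‖ ^ (M - m) := by
        rw [← pow_add]; congr 1; omega
      rw [hM] at h
      have hp : 0 < ‖t‖ ^ m := pow_pos ht0' m
      refine le_of_mul_le_mul_left ?_ hp
      linarith
    exact norm_le_zero_iff.mp (le_of_tendsto_of_tendsto h1 h2 h3)

private theorem ordPow_hom {φ : Pol n} {k : ℕ} (hφ : φ.IsHomogeneous k) (t : ℂ)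
    (v : Fin n → ℂ) : MvPolynomial.eval (t • v) φ = t ^ k * MvPolynomial.eval v φ := by
  rw [MvPolynomial.eval_eq', MvPolynomial.eval_eq', Finset.mul_sum]
  refine Finset.sum_congr rfl fun d hd => ?_
  have hk : ∑ i, d i = k := by
    have h := hφ (MvPolynomial.mem_support_iff.mp hd)
    rw [← h, Finsupp.weight_apply, Finsupp.sum_fintype _ _ (by simp)]
    simp
  have : ∏ i, (t • v) i ^ d i = t ^ k * ∏ i, v i ^ d i := by
    simp only [Pi.smul_apply, smul_eq_mul, mul_pow, Finset.prod_mul_distrib]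
    rw [Finset.prod_pow_eq_pow_sum, hk]
  rw [this]; ring

private theorem ordPow_ball {h : Pol n} (h0 : h ≠ 0) (f : Pol n) (M : ℕ) {C ε : ℝ}
    (hf : ∀ z : Fin n → ℂ, ‖z‖ < ε → MvPolynomial.eval z h ≠ 0 →
      ‖MvPolynomial.eval z f‖ ≤ C * ‖z‖ ^ M) (z : Fin n → ℂ) (hz : ‖z‖ < ε) :
    ‖MvPolynomial.eval z f‖ ≤ C * ‖z‖ ^ M := by
  have hcl : IsClosed {z : Fin n → ℂ | ‖MvPolynomial.eval z f‖ ≤ C * ‖z‖ ^ M} := by
    apply isClosed_le
    · exact (MvPolynomial.continuous_eval f).norm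
    · fun_prop
  have hd := (dense_nonzeros h0).open_subset_closure_inter
    (Metric.isOpen_ball (x := (0 : Fin n → ℂ)) (ε := ε))
  have hz' : z ∈ Metric.ball (0 : Fin n → ℂ) ε := by simpa using hz
  have hsub : Metric.ball (0 : Fin n → ℂ) ε ∩ {z : Fin n → ℂ | MvPolynomial.eval z h ≠ 0} ⊆
      {z : Fin n → ℂ | ‖MvPolynomial.eval z f‖ ≤ C * ‖z‖ ^ M} := by
    rintro w ⟨hw1, hw2⟩
    exact hf w (by simpa using hw1) hw2
  exact closure_minimal hsub hcl (hd hz')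

private theorem ordPow_comp (f : Pol n) (M : ℕ) {C ε : ℝ} (hε : 0 < ε)
    (hf : ∀ z : Fin n → ℂ, ‖z‖ < ε → ‖MvPolynomial.eval z f‖ ≤ C * ‖z‖ ^ M)
    (k : ℕ) (hk : k < M) : MvPolynomial.homogeneousComponent k f = 0 := by
  apply MvPolynomial.funext
  intro v
  rw [map_zero]
  set P : Polynomial ℂ := ∑ j ∈ Finset.range (f.totalDegree + 1),
    Polynomial.C (MvPolynomial.eval v (MvPolynomial.homogeneousComponent j f)) *
      Polynomial.X ^ j with hPdef
  have hPe : ∀ t : ℂ, P.eval t = MvPolynomial.eval (t • v) f := by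
    intro t
    conv_rhs => rw [← MvPolynomial.sum_homogeneousComponent f]
    rw [hPdef, Polynomial.eval_finsetSum, map_sum]
    refine Finset.sum_congr rfl fun j _ => ?_
    rw [ordPow_hom (MvPolynomial.homogeneousComponent_isHomogeneous j f)]
    rw [Polynomial.eval_mul, Polynomial.eval_C, Polynomial.eval_pow, Polynomial.eval_X, mul_comm]
  have hPc : P.coeff k = MvPolynomial.eval v (MvPolynomial.homogeneousComponent k f) := by
    rw [hPdef, Polynomial.finsetSum_coeff]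
    simp only [Polynomial.coeff_C_mul, Polynomial.coeff_X_pow, mul_ite, mul_one, mul_zero]
    rw [Finset.sum_ite_eq]
    split_ifs with hmem
    · rfl
    · have : f.totalDegree < k := by
        simp at hmem; omega
      rw [MvPolynomial.homogeneousComponent_eq_zero _ _ this, map_zero]
  have hδ : 0 < ε / (‖v‖ + 1) := by positivity
  have hb : ∀ t : ℂ, ‖t‖ < ε / (‖v‖ + 1) → ‖P.eval t‖ ≤ (C * ‖v‖ ^ M) * ‖t‖ ^ M := by
    intro t ht
    rw [hPe]
    have h1 : ‖t • v‖ < ε := by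
      rw [norm_smul]
      rw [lt_div_iff₀ (by positivity)] at ht
      have := norm_nonneg t
      have := norm_nonneg v
      nlinarith
    have h2 := hf _ h1
    rw [norm_smul, mul_pow] at h2
    linarith
  have hdvd := ordPow_poly hδ hb M le_rfl
  rw [← hPc]
  exact Polynomial.X_pow_dvd_iff.mp hdvd k hk

/-- Polynomials vanishing to order `M` at the origin. -/
theorem mem_pow_of_bound {h : Pol n} (h0 : h ≠ 0) (f : Pol n) (M : ℕ) {C ε : ℝ} (hε : 0 < ε)
    (hf : ∀ z : Fin n → ℂ, ‖z‖ < ε → MvPolynomial.eval z h ≠ 0 →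
      ‖MvPolynomial.eval z f‖ ≤ C * ‖z‖ ^ M) :
    f ∈ (Ideal.span (Set.range (MvPolynomial.X : Fin n → Pol n))) ^ M := by
  refine (MvPolynomial.mem_pow_idealOfVars_iff' M f).mpr fun x hx => ?_
  have h1 := ordPow_comp f M hε (ordPow_ball h0 f M hf) x.degree hx
  have h2 := MvPolynomial.coeff_homogeneousComponent x.degree f x
  rw [h1] at h2
  simpa using h2.symm

end Vale.Agent.P282.L2
end

section

open MeasureTheory Filter Topology
open scoped ENNReal NNReal ComplexConjugate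

namespace Vale.Agent.P282.L2

variable {n N : ℕ} {K : Type} [Field K] [Algebra ℂ K] [Algebra (Pol n) K]
  [IsScalarTower ℂ (Pol n) K] [FaithfulSMul (Pol n) K]

namespace Prim

variable {E : Prim n K} {S : Sheets n N} {x : Pt n K} {U : Ultrafilter (Pairs n)}

section

variable [Algebra (FractionRing (Pol n)) K] [IsScalarTower (Pol n) (FractionRing (Pol n)) K]
  [FiniteDimensional (FractionRing (Pol n)) K]

omit [Algebra ℂ K] [IsScalarTower ℂ (Pol n) K] [FaithfulSMul (Pol n) K]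
  [Algebra (FractionRing (Pol n)) K] [IsScalarTower (Pol n) (FractionRing (Pol n)) K]
  [FiniteDimensional (FractionRing (Pol n)) K] in
theorem pr_x_zI (x : Pt n K) {b : IB n K} (hb : b ∈ zI n K) : x.toFun b = 0 := by
  have : zI n K ≤ RingHom.ker x.toFun := by
    rw [Ideal.span_le]
    rintro _ ⟨i, rfl⟩
    change x.toFun _ = 0
    rw [x.map_alg, MvPolynomial.eval_X]
    rfl
  exact this hb

omit [IsScalarTower ℂ (Pol n) K] [Algebra ℂ K] [FaithfulSMul (Pol n) K]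
  [Algebra (FractionRing (Pol n)) K] [IsScalarTower (Pol n) (FractionRing (Pol n)) K]
  [FiniteDimensional (FractionRing (Pol n)) K] in
theorem pr_map_pow {t : Pol n} {M : ℕ}
    (ht : t ∈ (Ideal.span (Set.range (MvPolynomial.X : Fin n → Pol n))) ^ M) :
    algebraMap (Pol n) (IB n K) t ∈ (zI n K) ^ M := by
  have h1 : (zI n K) = Ideal.map (algebraMap (Pol n) (IB n K))
      (Ideal.span (Set.range (MvPolynomial.X : Fin n → Pol n))) := by
    rw [Ideal.map_span, ← Set.range_comp]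
    rfl
  rw [h1, ← Ideal.map_pow]
  exact Ideal.mem_map_of_mem _ ht

/-- Artin-Rees, first power. -/
theorem pr_artinRees {δ : IB n K} (hδ : δ ≠ 0) : ∃ M : ℕ, ∀ g : IB n K,
    δ * g ∈ (zI n K) ^ M → g ∈ zI n K := by
  have hnoeth : IsNoetherianRing (IB n K) := ib_noetherian
  obtain ⟨k, hk⟩ := Ideal.exists_pow_inf_eq_pow_smul (zI n K)
    (Ideal.span {δ} : Submodule (IB n K) (IB n K))
  refine ⟨k + 1, fun g hg => ?_⟩
  have h1 : δ * g ∈ (zI n K) ^ (k + 1) • (⊤ : Submodule (IB n K) (IB n K)) ⊓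
      (Ideal.span {δ} : Submodule (IB n K) (IB n K)) := by
    refine ⟨?_, Ideal.mem_span_singleton.2 (dvd_mul_right _ _)⟩
    rw [smul_eq_mul, Ideal.mul_top]
    exact hg
  rw [hk (k + 1) (by omega), show k + 1 - k = 1 by omega, pow_one] at h1
  have hle : (zI n K) • ((zI n K) ^ k • (⊤ : Submodule (IB n K) (IB n K)) ⊓
      (Ideal.span {δ} : Submodule (IB n K) (IB n K))) ≤
      (zI n K) • (Ideal.span {δ} : Submodule (IB n K) (IB n K)) :=
    smul_mono_right (zI n K) inf_le_right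
  have h2 : δ * g ∈ (zI n K) • (Ideal.span {δ} : Submodule (IB n K) (IB n K)) := hle h1
  rw [smul_eq_mul, Ideal.mem_mul_span_singleton] at h2
  obtain ⟨r, hr, hrg⟩ := h2
  have h3 : g = r := by
    apply mul_left_cancel₀ hδ
    rw [← hrg, mul_comm]
  rw [h3]
  exact hr

/-- Existence of pairs at a singular point. -/
theorem exists_isPairs (hS : E.IsSheets S) (x : Pt n K)
    (hsing : ∃ f : IB n K, x.toFun f = 0 ∧ ∀ s : IB n K, x.toFun s ≠ 0 → s * f ∉ zI n K) :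
    ∃ U : Ultrafilter (Pairs n), E.IsPairs S x U := by
  classical
  obtain ⟨G, hG⟩ : ∃ G : Filter (Pairs n), G = comap Prod.fst (E.nhd S x) ⊓
    comap Prod.snd (E.nhd S x) ⊓ 𝓟 {u : Pairs n | u.1.1 = u.2.1 ∧ u.1 ≠ u.2} := ⟨_, rfl⟩
  by_cases hbot : G = ⊥
  swap
  · have : G.NeBot := ⟨hbot⟩
    have hle : ((Ultrafilter.of G : Ultrafilter (Pairs n)) : Filter (Pairs n)) ≤ G :=
      Ultrafilter.of_le G
    refine ⟨Ultrafilter.of G, ?_, ?_, ?_⟩
    · rw [tendsto_iff_comap]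
      exact hle.trans (by rw [hG]; exact inf_le_left.trans inf_le_left)
    · rw [tendsto_iff_comap]
      exact hle.trans (by rw [hG]; exact inf_le_left.trans inf_le_right)
    · have h1 : {u : Pairs n | u.1.1 = u.2.1 ∧ u.1 ≠ u.2} ∈ G := by
        rw [hG]; exact mem_inf_of_right (mem_principal_self _)
      exact hle h1
  exfalso
  -- a neighbourhood without pairs
  obtain ⟨W, hW, hinj⟩ : ∃ W ∈ E.nhd S x, ∀ q ∈ W, ∀ q' ∈ W, q.1 = q'.1 → q = q' := by
    have h1 : (∅ : Set (Pairs n)) ∈ G := by rw [hbot]; exact mem_bot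
    rw [hG, mem_inf_principal] at h1
    obtain ⟨A, hA, B, hB, hAB⟩ := mem_inf_iff.1 h1
    obtain ⟨W1, hW1, hW1'⟩ := hA
    obtain ⟨W2, hW2, hW2'⟩ := hB
    refine ⟨W1 ∩ W2, inter_mem hW1 hW2, fun q hq q' hq' h => ?_⟩
    by_contra hne
    have h2 : ((q, q') : Pairs n) ∈ A ∩ B := ⟨hW1' hq.1, hW2' hq'.2⟩
    rw [← hAB] at h2
    exact h2 ⟨h, hne⟩
  obtain ⟨f, hxf, hf⟩ := hsing
  -- the different
  have hδint : IsIntegral (Pol n)
      (Polynomial.aeval E.y (Polynomial.derivative (minpoly (Pol n) E.y))) :=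
    IsIntegral.of_mem_of_fg _ E.integral.fg_adjoin_singleton _
      (Polynomial.aeval_mem_adjoin_singleton (Pol n) E.y)
  obtain ⟨δ, hδ⟩ : ∃ δ : IB n K, (δ : K) =
    Polynomial.aeval E.y (Polynomial.derivative (minpoly (Pol n) E.y)) := ⟨⟨_, hδint⟩, rfl⟩
  have hδ0 : δ ≠ 0 := by
    intro h
    apply aeval_derivative_ne_zero (E := E)
    rw [← hδ, h]
    rfl
  obtain ⟨M, hM⟩ := pr_artinRees hδ0
  obtain ⟨s, hxs, hss, hloc⟩ := exists_local_idem hS x M
  obtain ⟨ε, hε, hloc⟩ := hloc W hW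
  obtain ⟨t, ht, htz⟩ := tr_ib hS (f * (1 - s))
  -- bounds
  obtain ⟨C1, hC1, hb1⟩ := norm_le_of_mem_pow hS hss
  have hbd : ∀ b : IB n K, ∃ C : ℝ, 0 ≤ C ∧ ∀ q ∈ S.M, ‖q.1‖ ≤ 1 → ‖E.ev (b : K) q‖ ≤ C := by
    intro b
    obtain ⟨C, hC, h⟩ := norm_le_of_mem_pow (M := 0) hS
      (show b ∈ (zI n K) ^ 0 by rw [pow_zero, Ideal.one_eq_top]; trivial)
    exact ⟨C, hC, fun q hq hq1 => by simpa using h q hq hq1⟩
  obtain ⟨Cf, hCf, hbf⟩ := hbd f
  obtain ⟨Cθ, hCθ, hbθ⟩ := hbd (1 - s)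
  obtain ⟨Cg, hCg, hbg⟩ := hbd (f - algebraMap (Pol n) (IB n K) t)
  -- values
  have hval : ∀ q ∈ S.M, E.ev ((1 - s : IB n K) : K) q = 1 - E.ev (s : K) q := by
    intro q hq
    have e1 : ((1 - s : IB n K) : K) = 1 - (s : K) := rfl
    rw [e1, ev_sub hS hq isReg_one (isReg_ib s), ev_one hS hq]
  have hvals : ∀ q ∈ S.M, ‖E.ev (s : K) q‖ * ‖1 - E.ev (s : K) q‖ =
      ‖E.ev ((s ^ 2 - s : IB n K) : K) q‖ := by
    intro q hq
    have e1 : ((s ^ 2 - s : IB n K) : K) = (s : K) ^ 2 - (s : K) := rfl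
    rw [e1, ev_sub hS hq ((isReg_ib s).pow 2) (isReg_ib s), ev_pow hS hq (isReg_ib s), ← norm_mul,
      ← norm_neg]
    congr 1
    ring
  have hvft : ∀ q ∈ S.M, E.ev ((f * (1 - s) : IB n K) : K) q =
      E.ev (f : K) q * (1 - E.ev (s : K) q) := by
    intro q hq
    have e1 : ((f * (1 - s) : IB n K) : K) = (f : K) * ((1 - s : IB n K) : K) := rfl
    rw [e1, ev_mul hS hq (isReg_ib f) (isReg_ib _), hval q hq]
  have hvfm : ∀ q ∈ S.M, E.ev ((f - algebraMap (Pol n) (IB n K) t : IB n K) : K) q =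
      E.ev (f : K) q - MvPolynomial.eval q.1 t := by
    intro q hq
    have e1 : ((f - algebraMap (Pol n) (IB n K) t : IB n K) : K) =
      (f : K) - algebraMap (Pol n) K t := rfl
    rw [e1, ev_sub hS hq (isReg_ib f) (isReg_alg _), ev_alg hS hq]
  obtain ⟨g, hg⟩ : ∃ g : IB n K, g = (1 - s) * (f - algebraMap (Pol n) (IB n K) t) := ⟨_, rfl⟩
  have hvg : ∀ q ∈ S.M, E.ev (g : K) q =
      (1 - E.ev (s : K) q) * (E.ev (f : K) q - MvPolynomial.eval q.1 t) := by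
    intro q hq
    have e1 : (g : K) = ((1 - s : IB n K) : K) *
      ((f - algebraMap (Pol n) (IB n K) t : IB n K) : K) := by rw [hg]; rfl
    rw [e1, ev_mul hS hq (isReg_ib _) (isReg_ib _), hval q hq, hvfm q hq]
  -- the main bound
  obtain ⟨C, hC⟩ : ∃ C : ℝ, C = Cθ * (Cf * (2 * C1) + N * (Cf * (2 * C1))) + 2 * C1 * Cg :=
    ⟨_, rfl⟩
  have hC0 : 0 ≤ C := by rw [hC]; (clear * - hCθ hCf hC1 hCg; positivity)
  have hgb : ∀ q ∈ S.M, ‖q.1‖ < ε → ‖q.1‖ ≤ 1 → ‖E.ev (g : K) q‖ ≤ C * ‖q.1‖ ^ M := by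
    intro q hq hqε hq1
    have hzM : 0 ≤ ‖q.1‖ ^ M := by positivity
    have h1 : ‖E.ev (s : K) q‖ * ‖1 - E.ev (s : K) q‖ ≤ C1 * ‖q.1‖ ^ M := by
      rw [hvals q hq]; exact hb1 q hq hq1
    rcases lt_or_ge ‖E.ev (s : K) q‖ (1 / 2) with hlt | hge
    · have hqW : q ∈ W := hloc q hq hqε hlt
      have h2 : 1 / 2 ≤ ‖1 - E.ev (s : K) q‖ := by
        have := norm_sub_norm_le (1 : ℂ) (E.ev (s : K) q)
        rw [norm_one] at this
        linarith
      have h3 : ‖E.ev (s : K) q‖ ≤ 2 * C1 * ‖q.1‖ ^ M := by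
        (by_contra nlg; linarith only [nlg, mul_nonneg (sub_nonneg.2 h2) (sub_nonneg.2 (norm_nonneg (E.ev (s : K) q))), mul_nonneg (sub_nonneg.2 h1) (sub_nonneg.2 (norm_nonneg (E.ev (s : K) q))), mul_nonneg (sub_nonneg.2 h1) (le_of_lt (sub_pos.2 hlt)), mul_nonneg (le_of_lt (sub_pos.2 (not_le.1 nlg))) (sub_nonneg.2 (norm_nonneg (E.ev (s : K) q))), mul_pos (sub_pos.2 (not_le.1 nlg)) (sub_pos.2 hlt)])
      -- the other points of the fiber
      have h4 : ∀ w ∈ (S.fib q.1).erase q.2, ‖E.ev ((f * (1 - s) : IB n K) : K) (q.1, w)‖ ≤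
          Cf * (2 * C1 * ‖q.1‖ ^ M) := by
        intro w hw
        have hw' : ((q.1, w) : (Fin n → ℂ) × ℂ) ∈ S.M := ⟨hq.1, Finset.mem_of_mem_erase hw⟩
        have h5 : 1 / 2 ≤ ‖E.ev (s : K) (q.1, w)‖ := by
          by_contra h
          push Not at h
          have h6 := hinj q hqW (q.1, w) (hloc _ hw' hqε h) rfl
          exact (Finset.ne_of_mem_erase hw) (congrArg Prod.snd h6).symm
        have h7 : ‖E.ev (s : K) (q.1, w)‖ * ‖1 - E.ev (s : K) (q.1, w)‖ ≤ C1 * ‖q.1‖ ^ M := by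
          rw [hvals _ hw']; exact hb1 _ hw' hq1
        have h8 : ‖1 - E.ev (s : K) (q.1, w)‖ ≤ 2 * C1 * ‖q.1‖ ^ M := by
          linarith only [mul_nonneg (sub_nonneg.2 h5) (sub_nonneg.2 (norm_nonneg (1 - E.ev (s : K) (q.1, w)))), mul_nonneg (mul_self_nonneg (1 : ℝ)) (sub_nonneg.2 h7)]
        rw [hvft _ hw', norm_mul]
        exact mul_le_mul (hbf _ hw' hq1) h8 (norm_nonneg _) hCf
      have h9 : MvPolynomial.eval q.1 t = E.ev (f : K) q * (1 - E.ev (s : K) q) +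
          ∑ w ∈ (S.fib q.1).erase q.2, E.ev ((f * (1 - s) : IB n K) : K) (q.1, w) := by
        rw [htz q.1 hq.1, Sheets.fsum, ← Finset.add_sum_erase _ _ hq.2, ← hvft q hq]
      have h10 : ‖∑ w ∈ (S.fib q.1).erase q.2, E.ev ((f * (1 - s) : IB n K) : K) (q.1, w)‖ ≤
          N * (Cf * (2 * C1 * ‖q.1‖ ^ M)) := by
        refine (norm_sum_le _ _).trans ((Finset.sum_le_sum h4).trans ?_)
        rw [Finset.sum_const, nsmul_eq_mul]
        apply mul_le_mul_of_nonneg_right _ (by (clear * - hCf hC1; positivity))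
        have : ((S.fib q.1).erase q.2).card ≤ N :=
          (Finset.card_le_card (Finset.erase_subset _ _)).trans (du_card_sheets (S := S) hq.1).le
        exact_mod_cast this
      have h11 : ‖E.ev (f : K) q - MvPolynomial.eval q.1 t‖ ≤
          Cf * (2 * C1 * ‖q.1‖ ^ M) + N * (Cf * (2 * C1 * ‖q.1‖ ^ M)) := by
        rw [h9]
        have e1 : E.ev (f : K) q - (E.ev (f : K) q * (1 - E.ev (s : K) q) +
            ∑ w ∈ (S.fib q.1).erase q.2, E.ev ((f * (1 - s) : IB n K) : K) (q.1, w)) =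
            E.ev (f : K) q * E.ev (s : K) q -
            ∑ w ∈ (S.fib q.1).erase q.2, E.ev ((f * (1 - s) : IB n K) : K) (q.1, w) := by ring
        rw [e1]
        refine (norm_sub_le _ _).trans (add_le_add ?_ h10)
        rw [norm_mul]
        exact mul_le_mul (hbf _ hq hq1) h3 (norm_nonneg _) hCf
      rw [hvg q hq, norm_mul, ← hval q hq]
      calc ‖E.ev ((1 - s : IB n K) : K) q‖ * ‖E.ev (f : K) q - MvPolynomial.eval q.1 t‖
          ≤ Cθ * (Cf * (2 * C1 * ‖q.1‖ ^ M) + N * (Cf * (2 * C1 * ‖q.1‖ ^ M))) :=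
            mul_le_mul (hbθ q hq hq1) h11 (norm_nonneg _) hCθ
        _ ≤ C * ‖q.1‖ ^ M := by
            rw [hC]
            have : 0 ≤ 2 * C1 * Cg * ‖q.1‖ ^ M := by (clear * - hC1 hCg; positivity)
            linarith only [this]
    · have h2 : ‖1 - E.ev (s : K) q‖ ≤ 2 * C1 * ‖q.1‖ ^ M := by
        linarith only [mul_nonneg (sub_nonneg.2 hge) (sub_nonneg.2 (norm_nonneg (1 - E.ev (s : K) q))), mul_nonneg (mul_self_nonneg (1 : ℝ)) (sub_nonneg.2 h1)]
      rw [hvg q hq, norm_mul, ← hvfm q hq]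
      calc ‖1 - E.ev (s : K) q‖ * ‖E.ev ((f - algebraMap (Pol n) (IB n K) t : IB n K) : K) q‖
          ≤ (2 * C1 * ‖q.1‖ ^ M) * Cg :=
            mul_le_mul h2 (hbg q hq hq1) (norm_nonneg _) (by (clear * - hC1; positivity))
        _ ≤ C * ‖q.1‖ ^ M := by
            rw [hC]
            have : 0 ≤ Cθ * (Cf * (2 * C1) + N * (Cf * (2 * C1))) * ‖q.1‖ ^ M := by (clear * - hCθ hCf hC1; positivity)
            linarith only [this]
  -- the expansion in the dual basis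
  obtain ⟨c, -, hcint, hcexp, -, -, -⟩ := exists_dual_basis hS
  have hti : ∀ i : ℕ, ∃ ti : Pol n,
      tr (n := n) ((g : K) * E.y ^ i) = algebraMap (Pol n) (FractionRing (Pol n)) ti ∧
      ti ∈ (Ideal.span (Set.range (MvPolynomial.X : Fin n → Pol n))) ^ M := by
    intro i
    obtain ⟨yB, hyB⟩ : ∃ yB : IB n K, (yB : K) = E.y := ⟨⟨E.y, E.integral⟩, rfl⟩
    obtain ⟨ti, hti, htiz⟩ := tr_ib hS (g * yB ^ i)
    refine ⟨ti, ?_, ?_⟩
    · rw [← hti]
      congr 1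
      rw [← hyB]
      rfl
    · obtain ⟨Cy, hCy, hby⟩ := hbd (yB ^ i)
      refine mem_pow_of_bound E.h0 ti M (C := N * (C * Cy)) (ε := min ε 1) (by positivity) ?_
      intro z hz hhz
      have hzV : z ∈ S.V := (hS.1 z).2 hhz
      have hz1 : ‖z‖ < ε := lt_of_lt_of_le hz (min_le_left _ _)
      have hz2 : ‖z‖ ≤ 1 := (lt_of_lt_of_le hz (min_le_right _ _)).le
      rw [htiz z hzV, Sheets.fsum]
      have h1 : ∀ w ∈ S.fib z, ‖E.ev ((g * yB ^ i : IB n K) : K) (z, w)‖ ≤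
          C * Cy * ‖z‖ ^ M := by
        intro w hw
        have hq : ((z, w) : (Fin n → ℂ) × ℂ) ∈ S.M := ⟨hzV, hw⟩
        have e1 : ((g * yB ^ i : IB n K) : K) = (g : K) * ((yB ^ i : IB n K) : K) := rfl
        rw [e1, ev_mul hS hq (isReg_ib _) (isReg_ib _), norm_mul]
        calc ‖E.ev (g : K) (z, w)‖ * ‖E.ev ((yB ^ i : IB n K) : K) (z, w)‖
            ≤ (C * ‖z‖ ^ M) * Cy :=
              mul_le_mul (hgb _ hq hz1 hz2) (hby _ hq hz2) (norm_nonneg _) (by (clear * - hC0; positivity))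
          _ = C * Cy * ‖z‖ ^ M := by ring
      refine (norm_sum_le _ _).trans ((Finset.sum_le_sum h1).trans ?_)
      rw [Finset.sum_const, nsmul_eq_mul, du_card_sheets (S := S) hzV]
      apply le_of_eq
      ring
  have hmem : δ * g ∈ (zI n K) ^ M := by
    choose ti hti1 hti2 using hti
    choose e he using fun i : Fin N => (⟨⟨_, hcint i⟩, rfl⟩ : ∃ e : IB n K, (e : K) =
      Polynomial.aeval E.y (Polynomial.derivative (minpoly (Pol n) E.y)) * c i)
    have h1 : δ * g = ∑ i : Fin N, algebraMap (Pol n) (IB n K) (ti i) * e i := by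
      apply Subtype.ext
      push_cast
      rw [hδ, hcexp (g : K), Finset.mul_sum]
      refine Finset.sum_congr rfl fun i _ => ?_
      rw [he i, hti1 i, ← IsScalarTower.algebraMap_apply]
      ring
    rw [h1]
    exact Ideal.sum_mem _ fun i _ => Ideal.mul_mem_right _ _ (pr_map_pow (hti2 i))
  have hgz : g ∈ zI n K := hM g hmem
  -- the contradiction
  have ht0 : algebraMap (Pol n) (IB n K) t -
      algebraMap (Pol n) (IB n K) (MvPolynomial.C (MvPolynomial.eval 0 t)) ∈ zI n K :=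
    nbh_sub_const_mem t
  have h1 : (1 - s) * (f - algebraMap (Pol n) (IB n K)
      (MvPolynomial.C (MvPolynomial.eval 0 t))) ∈ zI n K := by
    have e1 : (1 - s) * (f - algebraMap (Pol n) (IB n K)
        (MvPolynomial.C (MvPolynomial.eval 0 t))) = g + (1 - s) * (algebraMap (Pol n) (IB n K) t -
        algebraMap (Pol n) (IB n K) (MvPolynomial.C (MvPolynomial.eval 0 t))) := by
      rw [hg]; ring
    rw [e1]
    exact Ideal.add_mem _ hgz (Ideal.mul_mem_left _ _ ht0)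
  have h2 : MvPolynomial.eval 0 t = 0 := by
    have := pr_x_zI x h1
    rw [map_mul, map_sub, map_sub, map_one, hxs, hxf, x.map_alg, MvPolynomial.eval_C] at this
    simpa using this
  rw [h2, map_zero, map_zero, sub_zero] at h1
  exact hf (1 - s) (by rw [map_sub, map_one, hxs, sub_zero]; exact one_ne_zero) h1

/-- The point derivation. -/
theorem IsPairs.exists_psi (hS : E.IsSheets S) (hU : E.IsPairs S x U) :
    ∃ (ψ : IB n K → ℂ) (s : Pairs n → ℝ) (g : IB n K),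
      (∀ᶠ u in (U : Filter (Pairs n)), 0 < s u) ∧
      (∀ b : IB n K, Tendsto (fun u : Pairs n => (E.ev (b : K) u.1 - E.ev (b : K) u.2) / (s u : ℂ))
        U (𝓝 (ψ b))) ∧ x.toFun g = 0 ∧ ψ g ≠ 0 := by
  classical
  have hfin : Module.Finite (Pol n) (IB n K) := ib_finite
  obtain ⟨T, hT⟩ := hfin.fg_top
  have hM1 : ∀ᶠ u in (U : Filter (Pairs n)), u.1 ∈ S.M := hU.fst (M_mem_nhd E S x)
  have hM2 : ∀ᶠ u in (U : Filter (Pairs n)), u.2 ∈ S.M := hU.snd (M_mem_nhd E S x)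
  have hz : Tendsto (fun u : Pairs n => u.1.1) (U : Filter (Pairs n)) (𝓝 0) :=
    (tendsto_fst_nhd hS x).comp hU.fst
  -- expansion of elements
  have hexp : ∀ b : IB n K, ∃ P : IB n K → Pol n, ∀ q ∈ S.M,
      E.ev (b : K) q = ∑ c ∈ T, MvPolynomial.eval q.1 (P c) * E.ev (c : K) q := by
    intro b
    have h1 : b ∈ Submodule.span (Pol n) (T : Set (IB n K)) := by rw [hT]; trivial
    obtain ⟨P, -, hP⟩ := Submodule.mem_span_finset.1 h1
    refine ⟨P, fun q hq => ?_⟩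
    have h2 : (b : K) = ∑ c ∈ T, algebraMap (Pol n) K (P c) * (c : K) := by
      rw [← hP]
      push_cast
      refine Finset.sum_congr rfl fun c _ => ?_
      rw [Algebra.smul_def]
    rw [h2, ev_sum hS hq _ (fun c _ => (isReg_alg _).mul (isReg_ib c))]
    refine Finset.sum_congr rfl fun c _ => ?_
    rw [ev_mul hS hq (isReg_alg _) (isReg_ib c), ev_alg hS hq]
  obtain ⟨s, hs⟩ : ∃ s : Pairs n → ℝ,
    s = fun u => ∑ c ∈ T, ‖E.ev (c : K) u.1 - E.ev (c : K) u.2‖ := ⟨_, rfl⟩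
  have hs0 : ∀ u, 0 ≤ s u := fun u => by
    rw [hs]; exact Finset.sum_nonneg fun _ _ => norm_nonneg _
  have hspos : ∀ᶠ u in (U : Filter (Pairs n)), 0 < s u := by
    filter_upwards [hM1, hM2, hU.ne] with u h1 h2 h3
    refine lt_of_le_of_ne (hs0 u) fun h => h3.2 ?_
    have h4 : ∀ c ∈ T, E.ev (c : K) u.1 = E.ev (c : K) u.2 := by
      intro c hc
      have h5 : ∑ c ∈ T, ‖E.ev (c : K) u.1 - E.ev (c : K) u.2‖ = 0 := by
        rw [hs] at h; exact h.symm
      rw [Finset.sum_eq_zero_iff_of_nonneg fun _ _ => norm_nonneg _] at h5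
      exact sub_eq_zero.1 (norm_eq_zero.1 (h5 c hc))
    obtain ⟨P, hP⟩ := hexp ⟨E.y, E.integral⟩
    have h6 : E.ev E.y u.1 = E.ev E.y u.2 := by
      have e1 := hP u.1 h1
      have e2 := hP u.2 h2
      simp only at e1 e2
      rw [e1, e2]
      refine Finset.sum_congr rfl fun c hc => ?_
      rw [h4 c hc, h3.1]
    rw [ev_y hS h1, ev_y hS h2] at h6
    exact Prod.ext h3.1 h6
  have hlimT : ∀ c ∈ T, ∃ l : ℂ, Tendsto (fun u : Pairs n =>
      (E.ev (c : K) u.1 - E.ev (c : K) u.2) / (s u : ℂ)) U (𝓝 l) := by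
    intro c hc
    have h1 : ((U.map fun u : Pairs n => (E.ev (c : K) u.1 - E.ev (c : K) u.2) / (s u : ℂ) :
        Ultrafilter ℂ) : Filter ℂ) ≤ 𝓟 (Metric.closedBall (0 : ℂ) 1) := by
      rw [le_principal_iff]
      change _ ∈ (U : Filter (Pairs n))
      filter_upwards with u
      rw [Set.mem_preimage, mem_closedBall_zero_iff, norm_div, Complex.norm_real,
        Real.norm_of_nonneg (hs0 u)]
      apply div_le_one_of_le₀ _ (hs0 u)
      rw [hs]
      exact Finset.single_le_sum (f := fun c : IB n K => ‖E.ev (c : K) u.1 - E.ev (c : K) u.2‖)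
        (fun _ _ => norm_nonneg _) hc
    obtain ⟨l, -, hl⟩ := (isCompact_closedBall (0 : ℂ) 1).ultrafilter_le_nhds _ h1
    exact ⟨l, hl⟩
  have hlim : ∀ b : IB n K, ∃ l : ℂ, Tendsto (fun u : Pairs n =>
      (E.ev (b : K) u.1 - E.ev (b : K) u.2) / (s u : ℂ)) U (𝓝 l) := by
    intro b
    obtain ⟨P, hP⟩ := hexp b
    choose! l hl using hlimT
    refine ⟨∑ c ∈ T, MvPolynomial.eval 0 (P c) * l c, ?_⟩
    have h1 : Tendsto (fun u : Pairs n => ∑ c ∈ T, MvPolynomial.eval u.1.1 (P c) *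
        ((E.ev (c : K) u.1 - E.ev (c : K) u.2) / (s u : ℂ))) U
        (𝓝 (∑ c ∈ T, MvPolynomial.eval 0 (P c) * l c)) := by
      apply tendsto_finsetSum
      intro c hc
      exact (((evHol_cont (P c)).tendsto 0).comp hz).mul (hl c hc)
    refine h1.congr' ?_
    filter_upwards [hM1, hM2, hU.ne] with u h1 h2 h3
    rw [hP u.1 h1, hP u.2 h2, ← Finset.sum_sub_distrib, Finset.sum_div]
    refine Finset.sum_congr rfl fun c _ => ?_
    rw [← h3.1]
    ring
  choose ψ hψ using hlim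
  have hsum : ∑ c ∈ T, ‖ψ c‖ = 1 := by
    have h1 : Tendsto (fun u : Pairs n => ∑ c ∈ T,
        ‖(E.ev (c : K) u.1 - E.ev (c : K) u.2) / (s u : ℂ)‖) U (𝓝 (∑ c ∈ T, ‖ψ c‖)) :=
      tendsto_finsetSum _ fun c _ => (hψ c).norm
    have h2 : Tendsto (fun u : Pairs n => ∑ c ∈ T,
        ‖(E.ev (c : K) u.1 - E.ev (c : K) u.2) / (s u : ℂ)‖) U (𝓝 1) := by
      refine tendsto_const_nhds.congr' ?_
      filter_upwards [hspos] with u hu
      have h3 : ∀ c : IB n K, ‖(E.ev (c : K) u.1 - E.ev (c : K) u.2) / (s u : ℂ)‖ =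
          ‖E.ev (c : K) u.1 - E.ev (c : K) u.2‖ / s u := fun c => by
        rw [norm_div, Complex.norm_real, Real.norm_of_nonneg hu.le]
      simp only [h3]
      rw [← Finset.sum_div]
      have h4 : ∑ c ∈ T, ‖E.ev (c : K) u.1 - E.ev (c : K) u.2‖ = s u := by rw [hs]
      rw [h4, div_self hu.ne']
    exact tendsto_nhds_unique h1 h2
  obtain ⟨b, hbT, hb⟩ : ∃ b ∈ T, ψ b ≠ 0 := by
    by_contra h
    push Not at h
    rw [Finset.sum_eq_zero fun c hc => by rw [h c hc, norm_zero]] at hsum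
    exact zero_ne_one hsum
  refine ⟨ψ, s, b - algebraMap (Pol n) (IB n K) (MvPolynomial.C (x.toFun b)), hspos, hψ, ?_, ?_⟩
  · rw [map_sub, x.map_alg, MvPolynomial.eval_C, sub_self]
  · have h1 : Tendsto (fun u : Pairs n => (E.ev (b : K) u.1 - E.ev (b : K) u.2) / (s u : ℂ)) U
        (𝓝 (ψ (b - algebraMap (Pol n) (IB n K) (MvPolynomial.C (x.toFun b))))) := by
      refine (hψ _).congr' ?_
      filter_upwards [hM1, hM2] with u h1 h2
      have e1 : ((b - algebraMap (Pol n) (IB n K) (MvPolynomial.C (x.toFun b)) : IB n K) : K) =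
          (b : K) - algebraMap (Pol n) K (MvPolynomial.C (x.toFun b)) := rfl
      rw [e1, ev_sub hS h1 (isReg_ib b) (isReg_alg _), ev_sub hS h2 (isReg_ib b) (isReg_alg _),
        ev_alg hS h1, ev_alg hS h2, MvPolynomial.eval_C, MvPolynomial.eval_C]
      congr 1
      ring
    rw [tendsto_nhds_unique h1 (hψ b)]
    exact hb

end

end Prim

end Vale.Agent.P282.L2
end

section

/-!
P282, the equality case: definitions (see notes 5493 and 5802, `EQ/PAPER.md`, `EQ/PAPER2.md`).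
-/

open MeasureTheory Filter Topology
open scoped ENNReal NNReal ComplexConjugate

namespace Vale.Agent.P282.EQ

open Vale.Agent.P282.L2

variable {n N : ℕ} {K : Type} [Field K] [Algebra ℂ K] [Algebra (Pol n) K]

/-- The maximal ideal of `x` in the integral closure `B`. -/
noncomputable def kx (x : Pt n K) : Ideal (IB n K) := RingHom.ker x.toFun

omit [Algebra ℂ K] in
theorem mem_kx {x : Pt n K} {b : IB n K} : b ∈ kx x ↔ x.toFun b = 0 := RingHom.mem_ker

/-- The maximal ideal of the local ring of `x` is integral over `(ζ)`. -/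
def Red (x : Pt n K) {r : ℕ} (ζ : Fin r → IB n K) : Prop :=
  ∃ k : ℕ, ∀ a ∈ kx x ^ (k + 1), ∃ s : IB n K, x.toFun s ≠ 0 ∧
    s * a ∈ Ideal.span (Set.range ζ) * kx x ^ k

/-- Ultrafilters of pairs of distinct points near `x` (not necessarily over the same `z`). -/
structure GPairs (E : Prim n K) (S : Sheets n N) (x : Pt n K) (U : Ultrafilter (Pairs n)) :
    Prop where
  fst : Tendsto Prod.fst (U : Filter (Pairs n)) (E.nhd S x)
  snd : Tendsto Prod.snd (U : Filter (Pairs n)) (E.nhd S x)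
  ne : ∀ᶠ u in (U : Filter (Pairs n)), u.1 ≠ u.2

theorem gpairs_of_isPairs {E : Prim n K} {S : Sheets n N} {x : Pt n K} {U : Ultrafilter (Pairs n)}
    (h : E.IsPairs S x U) : GPairs E S x U := ⟨h.fst, h.snd, h.ne.mono fun _ hu => hu.2⟩

/-- The limit along `U` of the ideals of functions vanishing to order `m₁` at `u.1` and `m₂` at
`u.2`. (`E.Lim U m` is `Lim2 E U m m`.) -/
def Lim2 (E : Prim n K) (U : Filter (Pairs n)) (m₁ m₂ : ℕ) (b : IB n K) : Prop :=
  ∃ (r : ℕ) (e : Fin r → IB n K) (c : Pairs n → Fin r → ℂ) (c₀ : Fin r → ℂ),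
    Tendsto c U (𝓝 c₀) ∧
    b = ∑ l, algebraMap (Pol n) (IB n K) (MvPolynomial.C (c₀ l)) * e l ∧
    ∀ᶠ u in U,
      E.Van m₁ u.1 (∑ l, algebraMap (Pol n) (IB n K) (MvPolynomial.C (c u l)) * e l) ∧
      E.Van m₂ u.2 (∑ l, algebraMap (Pol n) (IB n K) (MvPolynomial.C (c u l)) * e l)

theorem lim2_self {E : Prim n K} {U : Filter (Pairs n)} {m : ℕ} {b : IB n K} :
    Lim2 E U m m b ↔ E.Lim U m b := Iff.rfl

/-- `ψ` is the limit along `U` of the difference quotients with scale `s`. -/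
structure IsPsi (E : Prim n K) (U : Filter (Pairs n)) (ψ : IB n K → ℂ) (s : Pairs n → ℝ) :
    Prop where
  pos : ∀ᶠ u in U, 0 < s u
  lim : ∀ b : IB n K, Tendsto
    (fun u : Pairs n => (E.ev (b : K) u.1 - E.ev (b : K) u.2) / (s u : ℂ)) U (𝓝 (ψ b))

/-- `|F|²`. -/
noncomputable def nsq (E : Prim n K) {r : ℕ} (F : Fin r → IB n K) (q : (Fin n → ℂ) × ℂ) : ℝ :=
  ∑ j, ‖E.ev (F j : K) q‖ ^ 2

/-- `|F|` is small only near `x`. -/
def HLoc (E : Prim n K) (S : Sheets n N) (x : Pt n K) {r : ℕ} (F : Fin r → IB n K) : Prop :=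
  ∀ W ∈ E.nhd S x, ∃ ε > 0, ∀ q ∈ S.M, nsq E F q ≤ ε → q ∈ W

/-- Admissible ultrafilters of pairs: the maximal ideal of `x` is integral over `b₁`. -/
structure Adm (E : Prim n K) (S : Sheets n N) (x : Pt n K) (U : Ultrafilter (Pairs n)) :
    Prop where
  pairs : GPairs E S x U
  red : ∃ (r : ℕ) (ζ : Fin r → IB n K), (∀ i, E.Lim U 1 (ζ i)) ∧ Red x ζ

/-- Graded families of ideals primary to the maximal ideal of `x`. -/
structure Fam (x : Pt n K) (I : ℕ → Ideal (IB n K)) : Prop where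
  zero : I 0 = ⊤
  mul : ∀ k l, I k * I l ≤ I (k + l)
  anti : Antitone I
  prim : ∀ k, ∃ L, kx x ^ L ≤ I k
  le : ∀ k, 0 < k → I k ≤ kx x

/-- Local integrability near `x` of `w / |J|²`. -/
def LInt (E : Prim n K) (S : Sheets n N) (x : Pt n K) (J : K) (w : (Fin n → ℂ) × ℂ → ℝ) : Prop :=
  ∃ W ∈ E.nhd S x, ∫⁻ q in W, ENNReal.ofReal (w q * ‖E.ev J⁻¹ q‖ ^ 2) ∂S.μ < ⊤

/-- Divergence of `∫ |g|² |F|^{-2c} |J|⁻²` near `x` for `c > λ`; `F` generators of `I`. -/
def Div (E : Prim n K) (S : Sheets n N) (x : Pt n K) (J : K) (g : IB n K) (I : Ideal (IB n K))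
    (lam : ℝ) : Prop :=
  ∀ (r : ℕ) (F : Fin r → IB n K), Ideal.span (Set.range F) = I → ∀ e : ℝ, 0 < e →
    ¬ LInt E S x J (fun q => ‖E.ev (g : K) q‖ ^ 2 * nsq E F q ^ (-(lam + e)))

/-- `A(v) ≤ a`: the log discrepancy of `v` is at most `a`. -/
def ALe (d : Fin n → Derivation ℂ K K) (J : K) (v : Valuation K ℝ≥0) (a : ℝ) : Prop :=
  ∀ b : Fin n → K, (∀ i, b i ≠ 0) → jac d b ≠ 0 →
    (Real.exp (-a)).toNNReal ≤ v (hfun d J b)

/-- The valuation ideal `{v ≥ t}`, as an ideal of `B`. -/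
def vIdeal {x : Pt n K} {v : Valuation K ℝ≥0} (hv : Over x v) (t : ℝ) : Ideal (IB n K) where
  carrier := {b | v (b : K) ≤ (Real.exp (-t)).toNNReal}
  zero_mem' := by simp
  add_mem' := by
    intro a b ha hb
    exact (v.map_add _ _).trans (max_le ha hb)
  smul_mem' := by
    intro c b hb
    change v ((c : K) * (b : K)) ≤ _
    rw [map_mul]
    calc v (c : K) * v (b : K) ≤ 1 * _ := mul_le_mul' (hv.1 c) hb
      _ = _ := one_mul _

omit [Algebra ℂ K] in
theorem mem_vIdeal {x : Pt n K} {v : Valuation K ℝ≥0} {hv : Over x v} {t : ℝ} {b : IB n K} :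
    b ∈ vIdeal hv t ↔ v (b : K) ≤ (Real.exp (-t)).toNNReal := Iff.rfl

/-- The colength of an ideal of `B` (dimension over `ℂ`); an ideal is a `ℂ`-subspace through
`ℂ → Pol n → B`. -/
noncomputable def cod [IsScalarTower ℂ (Pol n) K] (I : Ideal (IB n K)) : ℕ :=
  Module.finrank ℂ (IB n K ⧸ I)

/-- The lower bound `A(v)^n vol(v) ≥ V` for all real valuations centered at `x`. -/
def VolGe [IsScalarTower ℂ (Pol n) K] (x : Pt n K) (d : Fin n → Derivation ℂ K K) (J : K)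
    (V : ℝ) : Prop :=
  ∀ (v : Valuation K ℝ≥0) (hv : Centered x v) (a : ℝ), 0 < a → ALe d J v a →
    ∀ ε : ℝ, 0 < ε → ∀ᶠ t : ℕ in atTop,
      (V - ε) * (t : ℝ) ^ n ≤ a ^ n * (n.factorial * (cod (vIdeal hv.1 t) : ℝ))

end Vale.Agent.P282.EQ
end

section

/-!
P282-EQ-1: estimates near `x`.
-/

open MeasureTheory Filter Topology
open scoped ENNReal NNReal ComplexConjugate

namespace Vale.Agent.P282.EQ

open Vale.Agent.P282.L2

set_option linter.unusedSectionVars false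

variable {n N : ℕ} {K : Type} [Field K] [Algebra ℂ K] [Algebra (Pol n) K]
  [IsScalarTower ℂ (Pol n) K] [FaithfulSMul (Pol n) K]
  [Algebra (FractionRing (Pol n)) K] [IsScalarTower (Pol n) (FractionRing (Pol n)) K]
  [FiniteDimensional (FractionRing (Pol n)) K]

variable {E : Prim n K} {S : Sheets n N} {x : Pt n K}

open Vale.Agent.P282.L2.Prim in
/-- Functions small of high order at `z = 0` are in `(z)`. -/
theorem near_aux_zI (hS : E.IsSheets S) : ∃ M : ℕ, ∀ (g : IB n K) (C ε : ℝ), 0 < ε →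
    (∀ q ∈ S.M, ‖q.1‖ < ε → ‖E.ev (g : K) q‖ ≤ C * ‖q.1‖ ^ M) → g ∈ zI n K := by
  have hδint : IsIntegral (Pol n)
      (Polynomial.aeval E.y (Polynomial.derivative (minpoly (Pol n) E.y))) :=
    IsIntegral.of_mem_of_fg _ E.integral.fg_adjoin_singleton _
      (Polynomial.aeval_mem_adjoin_singleton (Pol n) E.y)
  obtain ⟨δ, hδ⟩ : ∃ δ : IB n K, (δ : K) =
    Polynomial.aeval E.y (Polynomial.derivative (minpoly (Pol n) E.y)) := ⟨⟨_, hδint⟩, rfl⟩
  have hδ0 : δ ≠ 0 := by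
    intro h
    apply aeval_derivative_ne_zero (E := E)
    rw [← hδ, h]
    rfl
  obtain ⟨M, hM⟩ := pr_artinRees hδ0
  refine ⟨M, fun g C ε hε hgb => hM g ?_⟩
  obtain ⟨c, -, hcint, hcexp, -, -, -⟩ := exists_dual_basis hS
  have hti : ∀ i : ℕ, ∃ ti : Pol n,
      tr (n := n) ((g : K) * E.y ^ i) = algebraMap (Pol n) (FractionRing (Pol n)) ti ∧
      ti ∈ (Ideal.span (Set.range (MvPolynomial.X : Fin n → Pol n))) ^ M := by
    intro i
    obtain ⟨yB, hyB⟩ : ∃ yB : IB n K, (yB : K) = E.y := ⟨⟨E.y, E.integral⟩, rfl⟩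
    obtain ⟨ti, hti, htiz⟩ := tr_ib hS (g * yB ^ i)
    refine ⟨ti, ?_, ?_⟩
    · rw [← hti]
      congr 1
      rw [← hyB]
      rfl
    · obtain ⟨Cy, hCy, hby⟩ := norm_le_of_mem_pow (M := 0) hS
        (show yB ^ i ∈ (zI n K) ^ 0 by rw [pow_zero, Ideal.one_eq_top]; trivial)
      refine mem_pow_of_bound E.h0 ti M (C := N * (|C| * Cy)) (ε := min ε 1) (by positivity) ?_
      intro z hz hhz
      have hzV : z ∈ S.V := (hS.1 z).2 hhz
      have hz1 : ‖z‖ < ε := lt_of_lt_of_le hz (min_le_left _ _)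
      have hz2 : ‖z‖ ≤ 1 := (lt_of_lt_of_le hz (min_le_right _ _)).le
      rw [htiz z hzV, Sheets.fsum]
      have h1 : ∀ w ∈ S.fib z, ‖E.ev ((g * yB ^ i : IB n K) : K) (z, w)‖ ≤
          |C| * Cy * ‖z‖ ^ M := by
        intro w hw
        have hq : ((z, w) : (Fin n → ℂ) × ℂ) ∈ S.M := ⟨hzV, hw⟩
        have e1 : ((g * yB ^ i : IB n K) : K) = (g : K) * ((yB ^ i : IB n K) : K) := rfl
        rw [e1, ev_mul hS hq (isReg_ib _) (isReg_ib _), norm_mul]
        have h2 : ‖E.ev ((yB ^ i : IB n K) : K) (z, w)‖ ≤ Cy := by simpa using hby _ hq hz2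
        have h3 : ‖E.ev (g : K) (z, w)‖ ≤ |C| * ‖z‖ ^ M :=
          (hgb _ hq hz1).trans (mul_le_mul_of_nonneg_right (le_abs_self C) (by positivity))
        calc ‖E.ev (g : K) (z, w)‖ * ‖E.ev ((yB ^ i : IB n K) : K) (z, w)‖
            ≤ (|C| * ‖z‖ ^ M) * Cy := mul_le_mul h3 h2 (norm_nonneg _) (by (clear * -; positivity))
          _ = |C| * Cy * ‖z‖ ^ M := by ring
      refine (norm_sum_le _ _).trans ((Finset.sum_le_sum h1).trans ?_)
      rw [Finset.sum_const, nsmul_eq_mul, Sheets.card_fib hzV]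
      apply le_of_eq
      ring
  choose ti hti1 hti2 using hti
  choose e he using fun i : Fin N => (⟨⟨_, hcint i⟩, rfl⟩ : ∃ e : IB n K, (e : K) =
    Polynomial.aeval E.y (Polynomial.derivative (minpoly (Pol n) E.y)) * c i)
  have h1 : δ * g = ∑ i : Fin N, algebraMap (Pol n) (IB n K) (ti i) * e i := by
    apply Subtype.ext
    push_cast
    rw [hδ, hcexp (g : K), Finset.mul_sum]
    refine Finset.sum_congr rfl fun i _ => ?_
    rw [he i, hti1 i, ← IsScalarTower.algebraMap_apply]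
    ring
  rw [h1]
  exact Ideal.sum_mem _ fun i _ => Ideal.mul_mem_right _ _ (pr_map_pow (hti2 i))

/-- There are points of `M` near `x` over every `z ∈ V` near `0`. -/
theorem exists_near (hS : E.IsSheets S) (x : Pt n K) {W : Set ((Fin n → ℂ) × ℂ)}
    (hW : W ∈ E.nhd S x) : ∃ ε > 0, ∀ z ∈ S.V, ‖z‖ < ε → ∃ w ∈ S.fib z, (z, w) ∈ W := by
  classical
  obtain ⟨M, hM⟩ := near_aux_zI hS
  obtain ⟨s, hxs, hss, hloc⟩ := Prim.exists_local_idem hS x (M + 1)
  obtain ⟨ε, hε, hloc⟩ := hloc W hW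
  obtain ⟨t, -, htz⟩ := Prim.tr_ib hS (1 - s)
  obtain ⟨C, hC, hb⟩ := Prim.norm_le_of_mem_pow hS hss
  have hval : ∀ q ∈ S.M, E.ev ((1 - s : IB n K) : K) q = 1 - E.ev (s : K) q := by
    intro q hq
    have e1 : ((1 - s : IB n K) : K) = 1 - (s : K) := rfl
    rw [e1, Prim.ev_sub hS hq Prim.isReg_one (Prim.isReg_ib s), Prim.ev_one hS hq]
  have hvals : ∀ q ∈ S.M, ‖q.1‖ ≤ 1 →
      ‖E.ev (s : K) q‖ * ‖1 - E.ev (s : K) q‖ ≤ C * ‖q.1‖ ^ (M + 1) := by
    intro q hq hq1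
    have e1 : ((s ^ 2 - s : IB n K) : K) = (s : K) ^ 2 - (s : K) := rfl
    have h1 := hb q hq hq1
    rw [e1, Prim.ev_sub hS hq ((Prim.isReg_ib s).pow 2) (Prim.isReg_ib s),
      Prim.ev_pow hS hq (Prim.isReg_ib s)] at h1
    have e2 : E.ev (s : K) q ^ 2 - E.ev (s : K) q =
        -(E.ev (s : K) q * (1 - E.ev (s : K) q)) := by ring
    rwa [e2, norm_neg, norm_mul] at h1
  have hbig : ∀ q ∈ S.M, ‖q.1‖ ≤ 1 → 1 / 2 ≤ ‖E.ev (s : K) q‖ →
      ‖1 - E.ev (s : K) q‖ ≤ 2 * C * ‖q.1‖ ^ (M + 1) := by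
    intro q hq hq1 h
    have h1 := hvals q hq hq1
    have h2 := mul_le_mul_of_nonneg_right h (norm_nonneg (1 - E.ev (s : K) q))
    linarith
  have hsmall : ∀ q ∈ S.M, ‖q.1‖ ≤ 1 → ‖E.ev (s : K) q‖ < 1 / 2 →
      ‖E.ev (s : K) q‖ ≤ 2 * C * ‖q.1‖ ^ (M + 1) := by
    intro q hq hq1 h
    have h1 := hvals q hq hq1
    have h3 : 1 / 2 ≤ ‖1 - E.ev (s : K) q‖ := by
      have := norm_sub_norm_le (1 : ℂ) (E.ev (s : K) q)
      rw [norm_one] at this
      linarith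
    have h2 := mul_le_mul_of_nonneg_left h3 (norm_nonneg (E.ev (s : K) q))
    linarith
  obtain ⟨k, hkdef⟩ : ∃ k : (Fin n → ℂ) → ℕ, ∀ z, k z =
    ((S.fib z).filter fun w => ‖E.ev (s : K) (z, w)‖ < 1 / 2).card := ⟨_, fun _ => rfl⟩
  have hk : ∀ z ∈ S.V, ‖z‖ ≤ 1 →
      ‖MvPolynomial.eval z t - (k z : ℂ)‖ ≤ N * (2 * C * ‖z‖ ^ (M + 1)) := by
    intro z hz hz1
    rw [htz z hz, Sheets.fsum]
    have e : (k z : ℂ) = ∑ w ∈ S.fib z, if ‖E.ev (s : K) (z, w)‖ < 1 / 2 then (1 : ℂ) else 0 := by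
      rw [← Finset.sum_filter, Finset.sum_const, hkdef z]
      simp
    rw [e, ← Finset.sum_sub_distrib]
    refine (norm_sum_le _ _).trans
      ((Finset.sum_le_card_nsmul _ _ (2 * C * ‖z‖ ^ (M + 1)) ?_).trans (le_of_eq ?_))
    · intro w hw
      have hq : ((z, w) : (Fin n → ℂ) × ℂ) ∈ S.M := ⟨hz, hw⟩
      rw [hval _ hq]
      split_ifs with h
      · have e : 1 - E.ev (s : K) (z, w) - 1 = -E.ev (s : K) (z, w) := by ring
        rw [e, norm_neg]
        exact hsmall _ hq hz1 h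
      · rw [sub_zero]
        exact hbig _ hq hz1 (not_lt.1 h)
    · rw [Sheets.card_fib hz, nsmul_eq_mul]
  have c1 : ContinuousAt (fun z : Fin n → ℂ => MvPolynomial.eval z t) 0 :=
    (evHol_cont t).continuousAt
  obtain ⟨δ1, hδ1, h1⟩ := Metric.continuousAt_iff.1 c1 (1 / 4) (by norm_num)
  have c2 : ContinuousAt (fun z : Fin n → ℂ => (N : ℝ) * (2 * C * ‖z‖ ^ (M + 1))) 0 := by
    fun_prop
  obtain ⟨δ2, hδ2, h2⟩ := Metric.continuousAt_iff.1 c2 (1 / 4) (by norm_num)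
  obtain ⟨δ, hδ, hδ1', hδ2', hδε, hδone⟩ : ∃ δ : ℝ, 0 < δ ∧ δ ≤ δ1 ∧ δ ≤ δ2 ∧ δ ≤ ε ∧ δ ≤ 1 := by
    refine ⟨min (min δ1 δ2) (min ε 1), by positivity, ?_, ?_, ?_, ?_⟩
    · exact (min_le_left _ _).trans (min_le_left _ _)
    · exact (min_le_left _ _).trans (min_le_right _ _)
    · exact (min_le_right _ _).trans (min_le_left _ _)
    · exact (min_le_right _ _).trans (min_le_right _ _)
  have h3 : ∀ z ∈ S.V, ‖z‖ < δ → ‖MvPolynomial.eval 0 t - (k z : ℂ)‖ < 1 / 2 := by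
    intro z hz hzδ
    have h4 := h1 (x := z) (by rw [dist_zero_right]; linarith)
    have h5 := h2 (x := z) (by rw [dist_zero_right]; linarith)
    rw [dist_eq_norm] at h4 h5
    have h6 := hk z hz (by linarith)
    have e0 : (N : ℝ) * (2 * C * ‖(0 : Fin n → ℂ)‖ ^ (M + 1)) = 0 := by simp
    rw [e0, sub_zero] at h5
    have h7 : N * (2 * C * ‖z‖ ^ (M + 1)) < 1 / 4 := (le_abs_self _).trans_lt h5
    have e1 : MvPolynomial.eval 0 t - (k z : ℂ) = -(MvPolynomial.eval z t -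
        MvPolynomial.eval 0 t) + (MvPolynomial.eval z t - (k z : ℂ)) := by ring
    rw [e1]
    refine (norm_add_le _ _).trans_lt ?_
    rw [norm_neg]
    linarith only [h7, h6, h4]
  have h4 : ∀ z ∈ S.V, ‖z‖ < δ → ∀ z' ∈ S.V, ‖z'‖ < δ → k z = k z' := by
    intro z hz hz1 z' hz' hz1'
    have h5 := h3 z hz hz1
    have h6 := h3 z' hz' hz1'
    have h7 : ‖((k z : ℂ) - (k z' : ℂ))‖ < 1 := by
      have e1 : (k z : ℂ) - (k z' : ℂ) = -(MvPolynomial.eval 0 t - (k z : ℂ)) +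
        (MvPolynomial.eval 0 t - (k z' : ℂ)) := by ring
      rw [e1]
      refine (norm_add_le _ _).trans_lt ?_
      rw [norm_neg]
      linarith
    have h8 : |((k z : ℤ) : ℝ) - ((k z' : ℤ) : ℝ)| < 1 := by
      rw [← Real.norm_eq_abs, ← Complex.norm_real]
      push_cast
      exact h7
    have h9 : |(k z : ℤ) - (k z' : ℤ)| < 1 := by exact_mod_cast h8
    rw [Int.abs_lt_one_iff, sub_eq_zero] at h9
    exact_mod_cast h9
  obtain ⟨z1, hz1, hz1δ, hk1⟩ : ∃ z1 ∈ S.V, ‖z1‖ < δ ∧ 0 < k z1 := by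
    by_contra hcon
    push Not at hcon
    have h5 : (1 - s : IB n K) ∈ zI n K := by
      refine hM _ (2 * C) δ hδ fun q hq hqδ => ?_
      have h6 : k q.1 = 0 := Nat.le_zero.1 (hcon q.1 hq.1 hqδ)
      rw [hkdef, Finset.card_eq_zero, Finset.filter_eq_empty_iff] at h6
      have h7 : 1 / 2 ≤ ‖E.ev (s : K) q‖ := not_lt.1 (h6 hq.2)
      rw [hval q hq]
      refine (hbig q hq (by linarith) h7).trans ?_
      apply mul_le_mul_of_nonneg_left _ (by positivity)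
      exact pow_le_pow_of_le_one (norm_nonneg _) (by linarith) (Nat.le_succ M)
    have h6 := Prim.pr_x_zI x h5
    rw [map_sub, map_one, hxs, sub_zero] at h6
    exact one_ne_zero h6
  refine ⟨δ, hδ, fun z hz hzδ => ?_⟩
  have h5 : 0 < k z := by rw [h4 z hz hzδ z1 hz1 hz1δ]; exact hk1
  rw [hkdef, Finset.card_pos] at h5
  obtain ⟨w, hw⟩ := h5
  rw [Finset.mem_filter] at hw
  exact ⟨w, hw.1, hloc (z, w) ⟨hz, hw.1⟩ (lt_of_lt_of_le hzδ hδε) hw.2⟩

theorem nhd_neBot (hS : E.IsSheets S) (x : Pt n K) : (E.nhd S x).NeBot := by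
  refine ⟨fun hbot => ?_⟩
  have h0 : (∅ : Set ((Fin n → ℂ) × ℂ)) ∈ E.nhd S x := by rw [hbot]; exact mem_bot
  obtain ⟨ε, hε, h1⟩ := exists_near hS x h0
  obtain ⟨z, hz, hzε⟩ := (dense_nonzeros E.h0).exists_mem_open Metric.isOpen_ball
    ⟨(0 : Fin n → ℂ), Metric.mem_ball_self hε⟩
  obtain ⟨w, -, hw⟩ := h1 z ((hS.1 z).2 hz) (by simpa using hzε)
  exact hw

/-- If a multiple `s b`, `s(x) ≠ 0`, is in the ideal of the `F j`, then `|b| ≤ C |F|` near `x`. -/
theorem near_le (hS : E.IsSheets S) {r : ℕ} (F : Fin r → IB n K) {b s : IB n K}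
    (hs : x.toFun s ≠ 0) (hb : s * b ∈ Ideal.span (Set.range F)) :
    ∃ C > 0, ∀ᶠ q in E.nhd S x, ‖E.ev (b : K) q‖ ^ 2 ≤ C * nsq E F q := by
  rw [Ideal.mem_span_range_iff_exists_fun] at hb
  obtain ⟨a, ha⟩ := hb
  obtain ⟨A, hA⟩ : ∃ A : ℝ, A = ∑ j, (‖x.toFun (a j)‖ + 1) ^ 2 := ⟨_, rfl⟩
  have hA0 : 0 ≤ A := by rw [hA]; positivity
  have hs0 : 0 < ‖x.toFun s‖ := norm_pos_iff.2 hs
  refine ⟨(A + 1) * (4 / ‖x.toFun s‖ ^ 2), by positivity, ?_⟩
  have h1 : ∀ j, ∀ᶠ q in E.nhd S x, ‖E.ev (a j : K) q‖ < ‖x.toFun (a j)‖ + 1 := fun j =>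
    (Prim.tendsto_ev_nhd E S x (a j)).norm.eventually_lt_const (lt_add_one _)
  have h2 : ∀ᶠ q in E.nhd S x, ‖x.toFun s‖ / 2 < ‖E.ev (s : K) q‖ :=
    (Prim.tendsto_ev_nhd E S x s).norm.eventually_const_lt (half_lt_self hs0)
  filter_upwards [eventually_all.2 h1, h2, Prim.M_mem_nhd E S x] with q hq1 hq2 hqM
  have e : E.ev (s : K) q * E.ev (b : K) q = ∑ j, E.ev (a j : K) q * E.ev (F j : K) q := by
    obtain ⟨φ, hφ⟩ := Prim.exists_evHom hS hqM
    have h3 := congrArg φ ha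
    simp only [map_sum, map_mul] at h3
    simp only [hφ] at h3
    exact h3.symm
  have h3 : (‖E.ev (s : K) q‖ * ‖E.ev (b : K) q‖) ^ 2 ≤ A * nsq E F q := by
    rw [← norm_mul, e]
    calc ‖∑ j, E.ev (a j : K) q * E.ev (F j : K) q‖ ^ 2
        ≤ (∑ j, ‖E.ev (a j : K) q‖ * ‖E.ev (F j : K) q‖) ^ 2 := by
          refine pow_le_pow_left₀ (norm_nonneg _) ((norm_sum_le _ _).trans (le_of_eq ?_)) 2
          simp only [norm_mul]
      _ ≤ (∑ j, ‖E.ev (a j : K) q‖ ^ 2) * ∑ j, ‖E.ev (F j : K) q‖ ^ 2 :=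
          Finset.sum_mul_sq_le_sq_mul_sq _ _ _
      _ ≤ A * nsq E F q := by
          refine mul_le_mul_of_nonneg_right ?_ (Finset.sum_nonneg fun _ _ => by positivity)
          rw [hA]
          exact Finset.sum_le_sum fun j _ => pow_le_pow_left₀ (norm_nonneg _) (hq1 j).le 2
  have h4 : (‖x.toFun s‖ / 2) ^ 2 * ‖E.ev (b : K) q‖ ^ 2 ≤
      (‖E.ev (s : K) q‖ * ‖E.ev (b : K) q‖) ^ 2 := by
    rw [mul_pow]
    exact mul_le_mul_of_nonneg_right (pow_le_pow_left₀ (by positivity) hq2.le 2) (by positivity)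
  have h5 : 0 ≤ nsq E F q := Finset.sum_nonneg fun _ _ => by positivity
  have h6 : (‖x.toFun s‖ / 2) ^ 2 * ‖E.ev (b : K) q‖ ^ 2 ≤ (A + 1) * nsq E F q := by
    linarith only [h5, h4, h3]
  have h7 : ‖E.ev (b : K) q‖ ^ 2 = (4 / ‖x.toFun s‖ ^ 2) *
      ((‖x.toFun s‖ / 2) ^ 2 * ‖E.ev (b : K) q‖ ^ 2) := by
    field_simp
    ring
  rw [h7]
  calc (4 / ‖x.toFun s‖ ^ 2) * ((‖x.toFun s‖ / 2) ^ 2 * ‖E.ev (b : K) q‖ ^ 2)
      ≤ (4 / ‖x.toFun s‖ ^ 2) * ((A + 1) * nsq E F q) :=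
        mul_le_mul_of_nonneg_left h6 (by positivity)
    _ = _ := by ring

/-- If some power `b ^ l` has a multiple in the ideal of the `F j` then `|b|^l ≤ C |F|`. -/
theorem near_pow_le (hS : E.IsSheets S) {r : ℕ} (F : Fin r → IB n K) {b s : IB n K} (l : ℕ)
    (hs : x.toFun s ≠ 0) (hb : s * b ^ l ∈ Ideal.span (Set.range F)) :
    ∃ C > 0, ∀ᶠ q in E.nhd S x, (‖E.ev (b : K) q‖ ^ 2) ^ l ≤ C * nsq E F q := by
  obtain ⟨C, hC, h⟩ := near_le hS F hs hb
  refine ⟨C, hC, ?_⟩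
  filter_upwards [h, Prim.M_mem_nhd E S x] with q hq hqM
  have e1 : ((b ^ l : IB n K) : K) = (b : K) ^ l := rfl
  rw [e1, Prim.ev_pow hS hqM (Prim.isReg_ib b), norm_pow, ← pow_mul, mul_comm l 2,
    pow_mul] at hq
  exact hq

theorem near_aux_add (hS : E.IsSheets S) {q : (Fin n → ℂ) × ℂ} (hq : q ∈ S.M) {u v : IB n K}
    {C D G : ℝ} (h1 : ‖E.ev (u : K) q‖ ^ 2 ≤ C * G) (h2 : ‖E.ev (v : K) q‖ ^ 2 ≤ D * G) :
    ‖E.ev ((u + v : IB n K) : K) q‖ ^ 2 ≤ (2 * C + 2 * D) * G := by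
  have e1 : ((u + v : IB n K) : K) = (u : K) + (v : K) := rfl
  rw [e1, Prim.ev_add hS hq (Prim.isReg_ib u) (Prim.isReg_ib v)]
  have h3 := pow_le_pow_left₀ (norm_nonneg _) (norm_add_le (E.ev (u : K) q) (E.ev (v : K) q)) 2
  linarith only [sq_nonneg (‖E.ev (u : K) q‖ - ‖E.ev (v : K) q‖), h3, h2, h1]

/-- Elements of powers of the maximal ideal. -/
theorem near_aux_pow (hS : E.IsSheets S) {p : ℕ} (g : Fin p → IB n K)
    (hg : Ideal.span (Set.range g) = kx x) (k : ℕ) : ∀ c ∈ kx x ^ k,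
    ∃ C > 0, ∀ᶠ q in E.nhd S x, ‖E.ev (c : K) q‖ ^ 2 ≤ C * nsq E g q ^ k := by
  have hone : x.toFun (1 : IB n K) ≠ 0 := by rw [map_one]; exact one_ne_zero
  induction k with
  | zero =>
    intro c _
    refine ⟨(‖x.toFun c‖ + 1) ^ 2, by positivity, ?_⟩
    filter_upwards [(Prim.tendsto_ev_nhd E S x c).norm.eventually_lt_const
      (lt_add_one _)] with q hq
    rw [pow_zero, mul_one]
    exact pow_le_pow_left₀ (norm_nonneg _) hq.le 2
  | succ k ih =>
    intro c hc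
    rw [pow_succ] at hc
    refine Submodule.mul_induction_on hc (fun u hu v hv => ?_) (fun u v hu hv => ?_)
    · obtain ⟨C, hC, h⟩ := ih u hu
      obtain ⟨D, hD, h'⟩ := near_le hS g hone (b := v) (s := 1) (by
        rw [one_mul, hg]
        exact hv)
      refine ⟨C * D, by positivity, ?_⟩
      filter_upwards [h, h', Prim.M_mem_nhd E S x] with q h1 h2 hqM
      have e1 : ((u * v : IB n K) : K) = (u : K) * (v : K) := rfl
      have h0 : 0 ≤ nsq E g q := Finset.sum_nonneg fun _ _ => by positivity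
      rw [e1, Prim.ev_mul hS hqM (Prim.isReg_ib u) (Prim.isReg_ib v), norm_mul, mul_pow]
      calc ‖E.ev (u : K) q‖ ^ 2 * ‖E.ev (v : K) q‖ ^ 2
          ≤ (C * nsq E g q ^ k) * (D * nsq E g q) := mul_le_mul h1 h2 (by positivity) (by positivity)
        _ = _ := by ring
    · obtain ⟨C, hC, h⟩ := hu
      obtain ⟨D, hD, h'⟩ := hv
      refine ⟨2 * C + 2 * D, by positivity, ?_⟩
      filter_upwards [h, h', Prim.M_mem_nhd E S x] with q h1 h2 hqM
      exact near_aux_add hS hqM h1 h2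

/-- Elements of `(ζ) kx ^ k`. -/
theorem near_aux_mul (hS : E.IsSheets S) {r p : ℕ} (ζ : Fin r → IB n K) {g : Fin p → IB n K}
    {k : ℕ} (hpow : ∀ c ∈ kx x ^ k,
      ∃ C > 0, ∀ᶠ q in E.nhd S x, ‖E.ev (c : K) q‖ ^ 2 ≤ C * nsq E g q ^ k) {c : IB n K}
    (hc : c ∈ Ideal.span (Set.range ζ) * kx x ^ k) :
    ∃ C > 0, ∀ᶠ q in E.nhd S x, ‖E.ev (c : K) q‖ ^ 2 ≤ C * (nsq E ζ q * nsq E g q ^ k) := by
  have hone : x.toFun (1 : IB n K) ≠ 0 := by rw [map_one]; exact one_ne_zero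
  refine Submodule.mul_induction_on hc (fun u hu v hv => ?_) (fun u v hu hv => ?_)
  · obtain ⟨C, hC, h⟩ := hpow v hv
    obtain ⟨D, hD, h'⟩ := near_le hS ζ hone (b := u) (s := 1) (by
      rw [one_mul]
      exact hu)
    refine ⟨D * C, by positivity, ?_⟩
    filter_upwards [h, h', Prim.M_mem_nhd E S x] with q h1 h2 hqM
    have e1 : ((u * v : IB n K) : K) = (u : K) * (v : K) := rfl
    have h0 : 0 ≤ nsq E ζ q := Finset.sum_nonneg fun _ _ => by positivity
    rw [e1, Prim.ev_mul hS hqM (Prim.isReg_ib u) (Prim.isReg_ib v), norm_mul, mul_pow]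
    calc ‖E.ev (u : K) q‖ ^ 2 * ‖E.ev (v : K) q‖ ^ 2
        ≤ (D * nsq E ζ q) * (C * nsq E g q ^ k) := mul_le_mul h2 h1 (by positivity) (by positivity)
      _ = _ := by ring
  · obtain ⟨C, hC, h⟩ := hu
    obtain ⟨D, hD, h'⟩ := hv
    refine ⟨2 * C + 2 * D, by positivity, ?_⟩
    filter_upwards [h, h', Prim.M_mem_nhd E S x] with q h1 h2 hqM
    exact near_aux_add hS hqM h1 h2

/-- Elements of the maximal ideal are bounded by a reduction. -/
theorem near_red (hS : E.IsSheets S) {r : ℕ} {ζ : Fin r → IB n K} (hζ : Red x ζ) {b : IB n K}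
    (hb : x.toFun b = 0) :
    ∃ C > 0, ∀ᶠ q in E.nhd S x, ‖E.ev (b : K) q‖ ^ 2 ≤ C * nsq E ζ q := by
  have hnoeth : IsNoetherianRing (IB n K) := ib_noetherian
  obtain ⟨p, g, hg⟩ := Submodule.fg_iff_exists_fin_generating_family.1
    (IsNoetherian.noetherian (kx x))
  have hg' : Ideal.span (Set.range g) = kx x := hg
  have hone : x.toFun (1 : IB n K) ≠ 0 := by rw [map_one]; exact one_ne_zero
  have hgk : ∀ i, g i ∈ kx x := fun i => hg' ▸ Ideal.subset_span ⟨i, rfl⟩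
  obtain ⟨k, hk⟩ := hζ
  have hpow := near_aux_pow hS g hg' k
  have hB : ∀ i, ∃ C > 0, ∀ᶠ q in E.nhd S x, (‖E.ev (g i : K) q‖ ^ 2) ^ (k + 1) ≤
      C * (nsq E ζ q * nsq E g q ^ k) := by
    intro i
    obtain ⟨s, hs, hmem⟩ := hk (g i ^ (k + 1)) (Ideal.pow_mem_pow (hgk i) _)
    obtain ⟨C, hC, h⟩ := near_aux_mul hS ζ hpow hmem
    have hs0 : 0 < ‖x.toFun s‖ := norm_pos_iff.2 hs
    have h2 : ∀ᶠ q in E.nhd S x, ‖x.toFun s‖ / 2 < ‖E.ev (s : K) q‖ :=
      (Prim.tendsto_ev_nhd E S x s).norm.eventually_const_lt (half_lt_self hs0)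
    refine ⟨C * (4 / ‖x.toFun s‖ ^ 2), by positivity, ?_⟩
    filter_upwards [h, h2, Prim.M_mem_nhd E S x] with q hq hq2 hqM
    have e1 : ((s * g i ^ (k + 1) : IB n K) : K) = (s : K) * (g i : K) ^ (k + 1) := rfl
    rw [e1, Prim.ev_mul hS hqM (Prim.isReg_ib s) ((Prim.isReg_ib (g i)).pow _),
      Prim.ev_pow hS hqM (Prim.isReg_ib (g i)), norm_mul, norm_pow, mul_pow, ← pow_mul,
      mul_comm (k + 1) 2, pow_mul] at hq
    have h4 : (‖x.toFun s‖ / 2) ^ 2 * (‖E.ev (g i : K) q‖ ^ 2) ^ (k + 1) ≤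
        ‖E.ev (s : K) q‖ ^ 2 * (‖E.ev (g i : K) q‖ ^ 2) ^ (k + 1) :=
      mul_le_mul_of_nonneg_right (pow_le_pow_left₀ (by positivity) hq2.le 2) (by positivity)
    have h7 : (‖E.ev (g i : K) q‖ ^ 2) ^ (k + 1) = (4 / ‖x.toFun s‖ ^ 2) *
        ((‖x.toFun s‖ / 2) ^ 2 * (‖E.ev (g i : K) q‖ ^ 2) ^ (k + 1)) := by
      field_simp
      ring
    rw [h7]
    calc (4 / ‖x.toFun s‖ ^ 2) * ((‖x.toFun s‖ / 2) ^ 2 * (‖E.ev (g i : K) q‖ ^ 2) ^ (k + 1))
        ≤ (4 / ‖x.toFun s‖ ^ 2) * (C * (nsq E ζ q * nsq E g q ^ k)) :=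
          mul_le_mul_of_nonneg_left (h4.trans hq) (by positivity)
      _ = _ := by ring
  choose C hC0 hC using hB
  obtain ⟨D, hD, hbD⟩ := near_le hS g hone (b := b) (s := 1) (by
    rw [one_mul, hg']
    exact hb)
  refine ⟨D * (((p : ℝ) ^ k * ∑ i, C i) + 1), by
    have : 0 ≤ ∑ i, C i := Finset.sum_nonneg fun i _ => (hC0 i).le
    (clear * - hD this; positivity), ?_⟩
  filter_upwards [eventually_all.2 hC, hbD] with q hq hqD
  have hG0 : 0 ≤ nsq E g q := Finset.sum_nonneg fun _ _ => by positivity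
  have hZ0 : 0 ≤ nsq E ζ q := Finset.sum_nonneg fun _ _ => by positivity
  have hS0 : 0 ≤ (p : ℝ) ^ k * ∑ i, C i :=
    mul_nonneg (by positivity) (Finset.sum_nonneg fun i _ => (hC0 i).le)
  have h1 : nsq E g q ^ (k + 1) ≤ ((p : ℝ) ^ k * ∑ i, C i) * nsq E ζ q * nsq E g q ^ k := by
    rcases Nat.eq_zero_or_pos p with hp | hp
    · subst hp
      have e0 : nsq E g q = 0 := by simp [nsq]
      rw [e0, pow_succ, mul_zero]
      have : 0 ≤ (((0 : ℕ) : ℝ) ^ k * ∑ i, C i) * nsq E ζ q * (0 : ℝ) ^ k := by (clear * - hZ0; positivity)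
      exact this
    · have h2 := pow_sum_div_card_le_sum_pow (s := (Finset.univ : Finset (Fin p)))
        (f := fun i => ‖E.ev (g i : K) q‖ ^ 2) (fun i _ => by positivity) k
      rw [Finset.card_univ, Fintype.card_fin, div_le_iff₀ (by positivity)] at h2
      calc nsq E g q ^ (k + 1) ≤ (∑ i, (‖E.ev (g i : K) q‖ ^ 2) ^ (k + 1)) * (p : ℝ) ^ k := h2
        _ ≤ (∑ i, C i * (nsq E ζ q * nsq E g q ^ k)) * (p : ℝ) ^ k :=
            mul_le_mul_of_nonneg_right (Finset.sum_le_sum fun i _ => hq i) (by positivity)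
        _ = _ := by rw [← Finset.sum_mul]; ring
  have h2 : nsq E g q ≤ ((p : ℝ) ^ k * ∑ i, C i) * nsq E ζ q := by
    rcases hG0.eq_or_lt with h | h
    · rw [← h]
      (clear * - hS0 hZ0; positivity)
    · rw [pow_succ'] at h1
      exact le_of_mul_le_mul_right h1 (pow_pos h k)
  calc ‖E.ev (b : K) q‖ ^ 2 ≤ D * nsq E g q := hqD
    _ ≤ D * ((((p : ℝ) ^ k * ∑ i, C i) + 1) * nsq E ζ q) :=
        mul_le_mul_of_nonneg_left (by linarith) hD.le
    _ = _ := by ring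

theorem near_nsq_le (hS : E.IsSheets S) {r r' : ℕ} (F : Fin r → IB n K) (G : Fin r' → IB n K)
    (h : ∀ j, ∃ C > 0, ∀ᶠ q in E.nhd S x, ‖E.ev (G j : K) q‖ ^ 2 ≤ C * nsq E F q) :
    ∃ C > 0, ∀ᶠ q in E.nhd S x, nsq E G q ≤ C * nsq E F q := by
  choose C hC0 hC using h
  refine ⟨(∑ j, C j) + 1, by
    have : 0 ≤ ∑ j, C j := Finset.sum_nonneg fun j _ => (hC0 j).le
    linarith, ?_⟩
  filter_upwards [eventually_all.2 hC] with q hq
  have h0 : 0 ≤ nsq E F q := Finset.sum_nonneg fun _ _ => by positivity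
  calc nsq E G q ≤ ∑ j, C j * nsq E F q := Finset.sum_le_sum fun j _ => hq j
    _ = (∑ j, C j) * nsq E F q := by rw [Finset.sum_mul]
    _ ≤ _ := by rw [add_mul]; linarith

theorem nsq_nonneg {r : ℕ} (F : Fin r → IB n K) (q : (Fin n → ℂ) × ℂ) : 0 ≤ nsq E F q :=
  Finset.sum_nonneg fun _ _ => by positivity

theorem near_bdd (hS : E.IsSheets S) (b : IB n K) :
    ∃ C > 0, ∀ᶠ q in E.nhd S x, ‖E.ev (b : K) q‖ ^ 2 ≤ C := by
  refine ⟨(‖x.toFun b‖ + 1) ^ 2, by positivity, ?_⟩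
  filter_upwards [(Prim.tendsto_ev_nhd E S x b).norm.eventually_lt_const (lt_add_one _)] with q hq
  exact pow_le_pow_left₀ (norm_nonneg _) hq.le 2

theorem near_nsq_bdd (hS : E.IsSheets S) {r : ℕ} (F : Fin r → IB n K) :
    ∃ C > 0, ∀ᶠ q in E.nhd S x, nsq E F q ≤ C := by
  choose C hC0 hC using fun j => near_bdd (x := x) hS (F j)
  refine ⟨(∑ j, C j) + 1, by
    have : 0 ≤ ∑ j, C j := Finset.sum_nonneg fun j _ => (hC0 j).le
    linarith, ?_⟩
  filter_upwards [eventually_all.2 hC] with q hq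
  have h1 : nsq E F q ≤ ∑ j, C j := Finset.sum_le_sum fun j _ => hq j
  linarith

/-- Positivity almost everywhere. -/
theorem nsq_pos_ae (hS : E.IsSheets S) {r : ℕ} {F : Fin r → IB n K} (hF : ∃ j, F j ≠ 0) :
    ∀ᵐ q ∂S.μ, 0 < nsq E F q := by
  obtain ⟨j, hj⟩ := hF
  have hne : (F j : K) ≠ 0 := fun h => hj (Subtype.ext h)
  filter_upwards [Prim.ae_ev_ne_zero hS (Prim.isReg_ib (E := E) (F j)) hne] with q hq
  have h1 : 0 < ‖E.ev (F j : K) q‖ ^ 2 := by
    have : 0 < ‖E.ev (F j : K) q‖ := norm_pos_iff.mpr hq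
    positivity
  exact lt_of_lt_of_le h1 (Finset.single_le_sum (f := fun j => ‖E.ev (F j : K) q‖ ^ 2)
    (fun _ _ => by positivity) (Finset.mem_univ j))

/-- Some `F j ≠ 0` if the vector `F` is small only near `x`. -/
theorem HLoc.exists_ne (hS : E.IsSheets S) (hn : 0 < n) {r : ℕ} {F : Fin r → IB n K}
    (hF : HLoc E S x F) : ∃ j, F j ≠ 0 := by
  by_contra hcon
  push Not at hcon
  have h0 : ∀ q ∈ S.M, nsq E F q = 0 := by
    intro q hq
    refine Finset.sum_eq_zero fun j _ => ?_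
    have e : E.ev (F j : K) q = 0 := by
      rw [hcon j]
      exact Prim.ev_zero hS hq
    rw [e, norm_zero]
    norm_num
  have hW : {q : (Fin n → ℂ) × ℂ | ‖q.1‖ < 1} ∈ E.nhd S x := by
    have h1 := (Prim.tendsto_fst_nhd hS x).norm
    rw [norm_zero] at h1
    exact h1.eventually_lt_const one_pos
  obtain ⟨ε, hε, h1⟩ := hF _ hW
  have ho : IsOpen {z : Fin n → ℂ | 1 < ‖z‖} := isOpen_lt continuous_const continuous_norm
  obtain ⟨z, hz, hz1⟩ := (dense_nonzeros E.h0).exists_mem_open ho ⟨fun _ => 2, by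
    have h2 := norm_le_pi_norm (fun _ : Fin n => (2 : ℂ)) ⟨0, hn⟩
    have h3 : ‖(2 : ℂ)‖ = 2 := by simp
    rw [h3] at h2
    exact lt_of_lt_of_le one_lt_two h2⟩
  have hzV : z ∈ S.V := (hS.1 z).2 hz
  have hc : 0 < (S.fib z).card := by
    rw [Sheets.card_fib hzV]
    exact Prim.pos_of_isSheets hS
  obtain ⟨w, hw⟩ := Finset.card_pos.1 hc
  have h2 := h1 (z, w) ⟨hzV, hw⟩ (by rw [h0 _ ⟨hzV, hw⟩]; exact hε.le)
  have h3 : ‖z‖ < 1 := h2
  have h4 : 1 < ‖z‖ := hz1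
  linarith

/-- Null measurable neighbourhoods. -/
theorem exists_nullMeasurable_nhd (hS : E.IsSheets S) {W : Set ((Fin n → ℂ) × ℂ)}
    (hW : W ∈ E.nhd S x) : ∃ W' ∈ E.nhd S x, W' ⊆ W ∧ W' ⊆ S.M ∧ NullMeasurableSet W' S.μ := by
  have h1 : {q | q ∈ S.M → q ∈ W} ∈ ⨅ b : IB n K, comap (fun q => E.ev (b : K) q)
      (𝓝 (x.toFun b)) := by
    unfold Prim.nhd at hW
    rw [inf_comm, mem_inf_principal] at hW
    exact hW
  obtain ⟨I, hI, V, hV, hVe⟩ := mem_iInf.1 h1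
  have h2 : ∀ b : I, ∃ O : Set ℂ, IsOpen O ∧ x.toFun b.1 ∈ O ∧
      (fun q => E.ev (b.1 : K) q) ⁻¹' O ⊆ V b := by
    intro b
    obtain ⟨T, hT, hTV⟩ := mem_comap.1 (hV b)
    obtain ⟨O, hOT, hO, hx⟩ := mem_nhds_iff.1 hT
    exact ⟨O, hO, hx, (Set.preimage_mono hOT).trans hTV⟩
  choose O hO hxO hOV using h2
  have hfin : Finite I := hI
  refine ⟨S.M ∩ ⋂ b : I, (fun q => E.ev (b.1 : K) q) ⁻¹' O b, ?_, ?_, Set.inter_subset_left, ?_⟩
  · refine inter_mem (Prim.M_mem_nhd E S x) ?_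
    rw [iInter_mem]
    intro b
    exact (Prim.tendsto_ev_nhd E S x b.1) ((hO b).mem_nhds (hxO b))
  · rintro q ⟨hq, hq2⟩
    have h3 : q ∈ {q | q ∈ S.M → q ∈ W} := by
      rw [hVe]
      exact Set.mem_iInter.2 fun b => hOV b (Set.mem_iInter.1 hq2 b)
    exact h3 hq
  · refine Sheets.measurableSet_M.nullMeasurableSet.inter (NullMeasurableSet.iInter fun b => ?_)
    have h3 : AEMeasurable (fun q => E.ev (b.1 : K) q) S.μ :=
      (Sheets.aestronglyMeasurable_of_CD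
        ((Prim.holo_ev hS (Prim.isReg_ib b.1)).CD 0)).aemeasurable
    exact h3.nullMeasurableSet_preimage (hO b).measurableSet

/-- Comparison of local integrability. -/
theorem LInt.mono (hS : E.IsSheets S) {J : K} {w w' : (Fin n → ℂ) × ℂ → ℝ} {C : ℝ}
    (h : ∀ᶠ q in E.nhd S x, w' q ≤ C * w q) (hC : 0 ≤ C) (hw : LInt E S x J w) :
    LInt E S x J w' := by
  obtain ⟨W, hW, hlt⟩ := hw
  obtain ⟨W', hW', hsub, -, hmeas⟩ := exists_nullMeasurable_nhd hS (inter_mem hW h)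
  refine ⟨W', hW', ?_⟩
  have h1 : ∫⁻ q in W', ENNReal.ofReal (w' q * ‖E.ev J⁻¹ q‖ ^ 2) ∂S.μ ≤
      ∫⁻ q in W', ENNReal.ofReal C * ENNReal.ofReal (w q * ‖E.ev J⁻¹ q‖ ^ 2) ∂S.μ := by
    refine lintegral_mono_ae ?_
    filter_upwards [ae_restrict_mem₀ hmeas] with q hq
    rw [← ENNReal.ofReal_mul hC]
    apply ENNReal.ofReal_le_ofReal
    rw [← mul_assoc]
    exact mul_le_mul_of_nonneg_right (hsub hq).2 (by positivity)
  refine h1.trans_lt ?_
  rw [lintegral_const_mul' _ _ ENNReal.ofReal_ne_top]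
  refine ENNReal.mul_lt_top ENNReal.ofReal_lt_top ?_
  exact (lintegral_mono_set (hsub.trans Set.inter_subset_left)).trans_lt hlt

/-- Values of elements of the local ring. -/
theorem tendsto_frac (hS : E.IsSheets S) {a : K} (ha : E.IsReg a) {s t : IB n K}
    (hs : x.toFun s ≠ 0) (h : (s : K) * a = t) :
    Tendsto (fun q => E.ev a q) (E.nhd S x) (𝓝 (x.toFun t / x.toFun s)) := by
  have h1 := (Prim.tendsto_ev_nhd E S x t).div (Prim.tendsto_ev_nhd E S x s) hs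
  refine h1.congr' ?_
  have h2 : ∀ᶠ q in E.nhd S x, E.ev (s : K) q ≠ 0 :=
    (Prim.tendsto_ev_nhd E S x s).eventually_ne hs
  filter_upwards [h2, Prim.M_mem_nhd E S x] with q hq hqM
  have h3 : E.ev (t : K) q = E.ev (s : K) q * E.ev a q := by
    rw [← h, Prim.ev_mul hS hqM (Prim.isReg_ib s) ha]
  simp only [Pi.div_apply]
  rw [h3]
  field_simp

end Vale.Agent.P282.EQ
end

section

/-!
P282-EQ-2: generators of primary ideals; independence of the generators; colengths.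
-/

open MeasureTheory Filter Topology
open scoped ENNReal NNReal ComplexConjugate

namespace Vale.Agent.P282.EQ

open Vale.Agent.P282.L2

variable {n N : ℕ} {K : Type} [Field K] [Algebra ℂ K] [Algebra (Pol n) K]
  [IsScalarTower ℂ (Pol n) K] [FaithfulSMul (Pol n) K]
  [Algebra (FractionRing (Pol n)) K] [IsScalarTower (Pol n) (FractionRing (Pol n)) K]
  [FiniteDimensional (FractionRing (Pol n)) K]

variable {E : Prim n K} {S : Sheets n N} {x : Pt n K}

omit [Algebra ℂ K] [IsScalarTower ℂ (Pol n) K] [FaithfulSMul (Pol n) K]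
  [Algebra (FractionRing (Pol n)) K] [IsScalarTower (Pol n) (FractionRing (Pol n)) K]
  [FiniteDimensional (FractionRing (Pol n)) K] in
theorem gi_X_mem (x : Pt n K) (i : Fin n) :
    algebraMap (Pol n) (IB n K) (MvPolynomial.X i) ∈ kx x := by
  rw [mem_kx, x.map_alg, MvPolynomial.eval_X]
  rfl

/-- Vectors of generators of a primary ideal are small only near `x` if they contain powers of the
coordinates (this controls the points at infinity). -/
theorem hloc_of_span (hS : E.IsSheets S) (x : Pt n K) {I : Ideal (IB n K)}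
    (hI : ∃ L, kx x ^ L ≤ I) {r : ℕ} {F : Fin r → IB n K} (hF : Ideal.span (Set.range F) = I)
    {M : ℕ} (hM : 0 < M)
    (hz : ∀ i : Fin n, ∃ j, F j = algebraMap (Pol n) (IB n K) (MvPolynomial.X i) ^ M) :
    HLoc E S x F := by
  intro W hW
  obtain ⟨L, hL⟩ := hI
  obtain ⟨s, hs0, -, hsW⟩ := Prim.exists_local_idem hS x 1
  obtain ⟨ε0, hε0, hε⟩ := hsW W hW
  have hsI : s ^ L ∈ Ideal.span (Set.range F) := by
    rw [hF]
    exact hL (Ideal.pow_mem_pow (mem_kx.2 hs0) L)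
  obtain ⟨c, hc⟩ := (Ideal.mem_span_range_iff_exists_fun).1 hsI
  choose C hC hCb using fun j => Prim.nbhP_zero_exp hS (c j)
  obtain ⟨t, ht0, ht1, ht2⟩ : ∃ t : ℝ, 0 < t ∧ t < ε0 ∧ t < 1 := by
    refine ⟨min ε0 1 / 2, by positivity, ?_, ?_⟩
    · have := min_le_left ε0 1
      linarith
    · have := min_le_right ε0 1
      linarith
  have hCs : 0 ≤ ∑ j, C j := Finset.sum_nonneg fun j _ => hC j
  obtain ⟨δ, hδ⟩ : ∃ δ : ℝ, δ = (1 / 2) ^ L / (∑ j, C j + 1) / 2 := ⟨_, rfl⟩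
  have hδ0 : 0 < δ := by rw [hδ]; positivity
  refine ⟨min (t ^ (2 * M)) (δ ^ 2), by positivity, fun q hq hsum => ?_⟩
  have hterm : ∀ j, ‖E.ev (F j : K) q‖ ^ 2 ≤ min (t ^ (2 * M)) (δ ^ 2) := by
    intro j
    refine le_trans ?_ hsum
    exact Finset.single_le_sum (f := fun j => ‖E.ev (F j : K) q‖ ^ 2)
      (fun j _ => by positivity) (Finset.mem_univ j)
  have hqi : ∀ i, ‖q.1 i‖ ≤ t := by
    intro i
    obtain ⟨j, hj⟩ := hz i
    have h1 := (hterm j).trans (min_le_left _ _)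
    have h2 : E.ev (F j : K) q = q.1 i ^ M := by
      have : (F j : K) = algebraMap (Pol n) K (MvPolynomial.X i) ^ M := by
        rw [hj]; simp
      rw [this, Prim.ev_pow hS hq (Prim.isReg_alg _), Prim.ev_alg hS hq]
      simp
    rw [h2, norm_pow, ← pow_mul, mul_comm 2 M] at h1
    exact (pow_le_pow_iff_left₀ (norm_nonneg _) ht0.le (by omega)).1 h1
  have hq1 : ‖q.1‖ ≤ t := (pi_norm_le_iff_of_nonneg ht0.le).2 hqi
  refine hε q hq (lt_of_le_of_lt hq1 ht1) ?_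
  have hFj : ∀ j, ‖E.ev (F j : K) q‖ ≤ δ := fun j =>
    (pow_le_pow_iff_left₀ (norm_nonneg _) hδ0.le two_ne_zero).1 ((hterm j).trans (min_le_right _ _))
  obtain ⟨φ, hφ⟩ := Prim.exists_evHom hS hq
  have h3 : ‖E.ev (s : K) q‖ ^ L ≤ (∑ j, C j) * δ := by
    rw [← hφ, ← norm_pow, ← map_pow, ← hc, map_sum, Finset.sum_mul]
    refine (norm_sum_le _ _).trans (Finset.sum_le_sum fun j _ => ?_)
    rw [map_mul, norm_mul]
    have h4 := hCb j q hq (hq1.trans ht2.le)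
    rw [pow_zero, mul_one] at h4
    rw [hφ, hφ]
    exact mul_le_mul h4 (hFj j) (norm_nonneg _) (hC j)
  have h5 : (∑ j, C j) * δ < (1 / 2 : ℝ) ^ L := by
    have h6 : (∑ j, C j + 1) * δ = (1 / 2 : ℝ) ^ L / 2 := by
      rw [hδ]
      field_simp
    have h7 : (0 : ℝ) < (1 / 2 : ℝ) ^ L := by positivity
    linarith only [h7, h6, hδ0]
  exact lt_of_pow_lt_pow_left₀ L (by norm_num) (h3.trans_lt h5)

/-- Good generators of an ideal primary to the maximal ideal of `x`. -/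
theorem exists_gen (hS : E.IsSheets S) (x : Pt n K) (I : Ideal (IB n K))
    (hI : ∃ L, kx x ^ L ≤ I) : ∃ (M r₀ : ℕ), 0 < M ∧ ∀ r, r₀ ≤ r → ∃ F : Fin r → IB n K,
      Ideal.span (Set.range F) = I ∧ HLoc E S x F ∧
      ∀ i : Fin n, ∃ j, F j = algebraMap (Pol n) (IB n K) (MvPolynomial.X i) ^ M := by
  have hnoeth : IsNoetherianRing (IB n K) := ib_noetherian
  obtain ⟨L, hL⟩ := id hI
  obtain ⟨r0, F0, hF0⟩ := Submodule.fg_iff_exists_fin_generating_family.1 (hnoeth.noetherian I)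
  have hXI : ∀ i : Fin n, algebraMap (Pol n) (IB n K) (MvPolynomial.X i) ^ (L + 1) ∈ I := by
    intro i
    rw [pow_succ]
    exact I.mul_mem_right _ (hL (Ideal.pow_mem_pow (gi_X_mem x i) L))
  let G : Fin r0 ⊕ Fin n → IB n K :=
    Sum.elim F0 (fun i => algebraMap (Pol n) (IB n K) (MvPolynomial.X i) ^ (L + 1))
  let e := Fintype.equivFin (Fin r0 ⊕ Fin n)
  refine ⟨L + 1, Fintype.card (Fin r0 ⊕ Fin n), by omega, fun r hr => ?_⟩
  let F : Fin r → IB n K := fun j =>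
    if h : (j : ℕ) < Fintype.card (Fin r0 ⊕ Fin n) then G (e.symm ⟨j, h⟩) else 0
  have hG : ∀ t, ∃ j, F j = G t := by
    intro t
    refine ⟨⟨e t, (e t).2.trans_le hr⟩, ?_⟩
    change (if h : ((e t : ℕ)) < Fintype.card (Fin r0 ⊕ Fin n) then G (e.symm ⟨e t, h⟩) else 0) = _
    rw [dif_pos (e t).2]
    exact congrArg G (e.symm_apply_apply t)
  have hGI : ∀ t, G t ∈ I := by
    rintro (j | i)
    · rw [← hF0]
      exact Submodule.subset_span ⟨j, rfl⟩
    · exact hXI i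
  have hspan : Ideal.span (Set.range F) = I := by
    apply le_antisymm
    · rw [Ideal.span_le]
      rintro _ ⟨j, rfl⟩
      by_cases h : (j : ℕ) < Fintype.card (Fin r0 ⊕ Fin n)
      · simp only [F, h, dif_pos]
        exact hGI _
      · simp only [F, h, dif_neg, not_false_eq_true]
        exact I.zero_mem
    · conv_lhs => rw [← hF0]
      refine Submodule.span_le.2 ?_
      rintro _ ⟨j, rfl⟩
      obtain ⟨j', hj'⟩ := hG (Sum.inl j)
      have : F0 j = F j' := hj'.symm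
      rw [this]
      exact Ideal.subset_span ⟨j', rfl⟩
  have hz : ∀ i : Fin n, ∃ j, F j = algebraMap (Pol n) (IB n K) (MvPolynomial.X i) ^ (L + 1) :=
    fun i => hG (Sum.inr i)
  exact ⟨F, hspan, hloc_of_span hS x hI hspan (by omega) hz, hz⟩

/-- Two vectors of generators are comparable near `x`. -/
theorem nsq_comparable (hS : E.IsSheets S) {r r' : ℕ} {F : Fin r → IB n K}
    {G : Fin r' → IB n K} (h : Ideal.span (Set.range G) ≤ Ideal.span (Set.range F)) :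
    ∃ C > 0, ∀ᶠ q in E.nhd S x, nsq E G q ≤ C * nsq E F q := by
  refine near_nsq_le hS F G fun j => near_le hS F (s := 1) ?_ ?_
  · rw [map_one]
    exact one_ne_zero
  · rw [one_mul]
    exact h (Ideal.subset_span ⟨j, rfl⟩)

theorem gi_exists_ne (hn : 0 < n) {I : Ideal (IB n K)} (hI : ∃ L, kx x ^ L ≤ I)
    {r : ℕ} {F : Fin r → IB n K} (hF : Ideal.span (Set.range F) = I) : ∃ j, F j ≠ 0 := by
  by_contra hcon
  push Not at hcon
  obtain ⟨L, hL⟩ := hI
  have h1 : algebraMap (Pol n) (IB n K) (MvPolynomial.X ⟨0, hn⟩) ^ L ∈ I :=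
    hL (Ideal.pow_mem_pow (gi_X_mem x _) L)
  have h2 : I ≤ ⊥ := by
    rw [← hF, Ideal.span_le]
    rintro _ ⟨j, rfl⟩
    rw [hcon j]
    exact Submodule.zero_mem _
  have h3 := h2 h1
  rw [Ideal.mem_bot] at h3
  have hL0 : L ≠ 0 := by
    rintro rfl
    simp at h3
  have h4 : (algebraMap (Pol n) (IB n K) (MvPolynomial.X ⟨0, hn⟩) : IB n K) = 0 :=
    (pow_eq_zero_iff hL0).1 h3
  have h5 : algebraMap (Pol n) K (MvPolynomial.X ⟨0, hn⟩) = 0 := congrArg Subtype.val h4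
  rw [FaithfulSMul.algebraMap_eq_zero_iff] at h5
  exact MvPolynomial.X_ne_zero _ h5

/-- It is enough to check the divergence for one vector of generators. -/
theorem div_of_one (hS : E.IsSheets S) (hn : 0 < n) {J : K} (hJ0 : J ≠ 0)
    (hJ : IsIntegral (Pol n) J) {g : IB n K} {I : Ideal (IB n K)} (hI : ∃ L, kx x ^ L ≤ I)
    {lam : ℝ} (hlam : 0 ≤ lam) {r : ℕ} {F : Fin r → IB n K} (hF : Ideal.span (Set.range F) = I)
    (h : ∀ e : ℝ, 0 < e →
      ¬ LInt E S x J (fun q => ‖E.ev (g : K) q‖ ^ 2 * nsq E F q ^ (-(lam + e)))) :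
    Div E S x J g I lam := by
  intro r' G hG e he hint
  refine h e he ?_
  obtain ⟨W, hW, hfin⟩ := hint
  obtain ⟨C, hC, hcomp⟩ := nsq_comparable (x := x) hS (F := F) (G := G) (by rw [hF, hG])
  obtain ⟨W', hW', hsub, hM, hnull⟩ := exists_nullMeasurable_nhd hS (Filter.inter_mem hW hcomp)
  have hp : 0 < lam + e := by linarith
  refine ⟨W', hW', ?_⟩
  have hpos := nsq_pos_ae hS (gi_exists_ne hn hI hG)
  have hle : ∫⁻ q in W', ENNReal.ofReal (‖E.ev (g : K) q‖ ^ 2 * nsq E F q ^ (-(lam + e)) *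
        ‖E.ev J⁻¹ q‖ ^ 2) ∂S.μ ≤
      ∫⁻ q in W', ENNReal.ofReal (C ^ (lam + e)) *
        ENNReal.ofReal (‖E.ev (g : K) q‖ ^ 2 * nsq E G q ^ (-(lam + e)) *
        ‖E.ev J⁻¹ q‖ ^ 2) ∂S.μ := by
    refine lintegral_mono_ae ?_
    rw [ae_restrict_iff'₀ hnull]
    filter_upwards [hpos] with q hq hqW
    have h1 : nsq E G q ≤ C * nsq E F q := (hsub hqW).2
    rw [← ENNReal.ofReal_mul (by positivity)]
    apply ENNReal.ofReal_le_ofReal
    have h2 : nsq E F q ^ (-(lam + e)) ≤ C ^ (lam + e) * nsq E G q ^ (-(lam + e)) := by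
      have h3 : (C * nsq E F q) ^ (-(lam + e)) ≤ nsq E G q ^ (-(lam + e)) :=
        Real.rpow_le_rpow_of_nonpos hq h1 (by linarith)
      rw [Real.mul_rpow hC.le (nsq_nonneg F q)] at h3
      have h4 : C ^ (lam + e) * C ^ (-(lam + e)) = 1 := by
        rw [← Real.rpow_add hC]
        simp
      calc nsq E F q ^ (-(lam + e)) = (C ^ (lam + e) * C ^ (-(lam + e))) *
            nsq E F q ^ (-(lam + e)) := by rw [h4, one_mul]
        _ = C ^ (lam + e) * (C ^ (-(lam + e)) * nsq E F q ^ (-(lam + e))) := by ring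
        _ ≤ _ := mul_le_mul_of_nonneg_left h3 (by positivity)
    calc ‖E.ev (g : K) q‖ ^ 2 * nsq E F q ^ (-(lam + e)) * ‖E.ev J⁻¹ q‖ ^ 2
        ≤ ‖E.ev (g : K) q‖ ^ 2 * (C ^ (lam + e) * nsq E G q ^ (-(lam + e))) *
          ‖E.ev J⁻¹ q‖ ^ 2 := by gcongr
      _ = _ := by ring
  refine lt_of_le_of_lt hle ?_
  rw [lintegral_const_mul' _ _ ENNReal.ofReal_ne_top]
  refine ENNReal.mul_lt_top ENNReal.ofReal_lt_top (lt_of_le_of_lt ?_ hfin)
  exact lintegral_mono_set fun q hq => (hsub hq).1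

/-- The form used in `exists_valuation_of_divergent`. -/
theorem Div.lintegral_eq_top {J : K} {g : IB n K} {I : Ideal (IB n K)} {lam : ℝ}
    (h : Div E S x J g I lam) {r : ℕ} {F : Fin r → IB n K} (hF : Ideal.span (Set.range F) = I)
    {c : ℝ} (hc : lam < c) {W : Set ((Fin n → ℂ) × ℂ)} (hW : W ∈ E.nhd S x) :
    ∫⁻ q in W, ENNReal.ofReal (‖E.ev (g : K) q‖ ^ 2 *
      (∑ j, ‖E.ev (F j : K) q‖ ^ 2) ^ (-c) * ‖E.ev J⁻¹ q‖ ^ 2) ∂S.μ = ⊤ := by
  by_contra hcon
  refine h r F hF (c - lam) (by linarith) ⟨W, hW, ?_⟩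
  rw [add_sub_cancel]
  exact lt_top_iff_ne_top.2 hcon

theorem gi_smul (c : ℂ) (f : IB n K) :
    algebraMap (Pol n) (IB n K) (MvPolynomial.C c) * f = c • f := by
  have h2 : algebraMap (Pol n) (IB n K) (MvPolynomial.C c) = algebraMap ℂ (IB n K) c := by
    apply Subtype.ext
    change algebraMap (Pol n) K (MvPolynomial.C c) = algebraMap ℂ K c
    rw [IsScalarTower.algebraMap_apply ℂ (Pol n) K, MvPolynomial.algebraMap_eq]
  rw [h2, Algebra.smul_def]

theorem gi_span (x : Pt n K) (L : ℕ) : ∃ t : Finset (IB n K), ∀ b : IB n K,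
    ∃ v ∈ Submodule.span ℂ (t : Set (IB n K)), b - v ∈ kx x ^ L := by
  classical
  have hnoeth : IsNoetherianRing (IB n K) := ib_noetherian
  induction L with
  | zero =>
    refine ⟨∅, fun b => ⟨0, Submodule.zero_mem _, ?_⟩⟩
    rw [pow_zero, Ideal.one_eq_top]
    trivial
  | succ L ih =>
    obtain ⟨t, ht⟩ := ih
    obtain ⟨g, hg⟩ := hnoeth.noetherian (kx x ^ L)
    refine ⟨t ∪ g, fun b => ?_⟩
    obtain ⟨v, hv, hb⟩ := ht b
    have key : ∀ w ∈ Submodule.span (IB n K) (g : Set (IB n K)),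
        ∃ u ∈ Submodule.span ℂ (g : Set (IB n K)), w - u ∈ kx x ^ (L + 1) := by
      intro w hw
      refine Submodule.span_induction (p := fun w _ =>
        ∃ u ∈ Submodule.span ℂ (g : Set (IB n K)), w - u ∈ kx x ^ (L + 1)) ?_ ?_ ?_ ?_ hw
      · intro w hw
        exact ⟨w, Submodule.subset_span hw, by rw [sub_self]; exact Submodule.zero_mem _⟩
      · exact ⟨0, Submodule.zero_mem _, by rw [sub_self]; exact Submodule.zero_mem _⟩
      · rintro w w' _ _ ⟨u, hu, h⟩ ⟨u', hu', h'⟩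
        refine ⟨u + u', Submodule.add_mem _ hu hu', ?_⟩
        have := Submodule.add_mem _ h h'
        rwa [show w + w' - (u + u') = (w - u) + (w' - u') by ring]
      · rintro a w hw ⟨u, hu, h⟩
        refine ⟨x.toFun a • u, Submodule.smul_mem _ _ hu, ?_⟩
        have hwL : u ∈ kx x ^ L := by
          have h1 : w ∈ kx x ^ L := by rw [← hg]; exact hw
          have h2 : w - u ∈ kx x ^ L := Ideal.pow_le_pow_right (Nat.le_succ L) h
          have := Submodule.sub_mem _ h1 h2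
          rwa [sub_sub_cancel] at this
        have ha : a - algebraMap (Pol n) (IB n K) (MvPolynomial.C (x.toFun a)) ∈ kx x := by
          rw [mem_kx, map_sub, x.map_alg, MvPolynomial.eval_C, sub_self]
        have e : a • w - x.toFun a • u = a * (w - u) +
            (a - algebraMap (Pol n) (IB n K) (MvPolynomial.C (x.toFun a))) * u := by
          rw [← gi_smul, smul_eq_mul]
          ring
        rw [e]
        refine Submodule.add_mem _ (Ideal.mul_mem_left _ _ h) ?_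
        rw [pow_succ, mul_comm (kx x ^ L)]
        exact Ideal.mul_mem_mul ha hwL
    obtain ⟨u, hu, h⟩ := key (b - v) (by rw [← hg] at hb; exact hb)
    refine ⟨v + u, Submodule.add_mem _ (Submodule.span_mono (by simp) hv)
      (Submodule.span_mono (by simp) hu), ?_⟩
    rwa [← sub_sub]

/-- Primary ideals have finite colength. -/
theorem finite_quotient (x : Pt n K) {I : Ideal (IB n K)} (hI : ∃ L, kx x ^ L ≤ I) :
    Module.Finite ℂ (IB n K ⧸ I) := by
  obtain ⟨L, hL⟩ := hI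
  obtain ⟨t, ht⟩ := gi_span x L
  have h1 : Submodule.map (Ideal.Quotient.mkₐ ℂ I).toLinearMap
      (Submodule.span ℂ (t : Set (IB n K))) = ⊤ := by
    rw [eq_top_iff]
    rintro y -
    obtain ⟨b, rfl⟩ := Ideal.Quotient.mk_surjective y
    obtain ⟨v, hv, hb⟩ := ht b
    refine ⟨v, hv, ?_⟩
    exact (Ideal.Quotient.eq.2 (hL hb)).symm
  refine ⟨?_⟩
  rw [← h1]
  exact Submodule.FG.map _ ⟨t, rfl⟩

theorem cod_anti (x : Pt n K) {I I' : Ideal (IB n K)} (hI : ∃ L, kx x ^ L ≤ I) (h : I ≤ I') :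
    cod I' ≤ cod I := by
  have := finite_quotient x hI
  refine LinearMap.finrank_le_finrank_of_surjective (f := (Ideal.Quotient.factorₐ ℂ h).toLinearMap)
    ?_
  exact Ideal.Quotient.factor_surjective h

theorem gi_mk_sum {I : Ideal (IB n K)} {D : ℕ} (c : Fin D → ℂ) (f : Fin D → IB n K) :
    Ideal.Quotient.mk I (∑ l, algebraMap (Pol n) (IB n K) (MvPolynomial.C (c l)) * f l) =
      ∑ l, c l • Ideal.Quotient.mk I (f l) := by
  rw [map_sum]
  refine Finset.sum_congr rfl fun l _ => ?_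
  rw [gi_smul]
  exact map_smul (Ideal.Quotient.mkₐ ℂ I) (c l) (f l)

/-- An upper bound for the colength of an ideal. -/
theorem cod_le_of_dep (x : Pt n K) {I : Ideal (IB n K)} (hI : ∃ L, kx x ^ L ≤ I) {D : ℕ}
    (h : ∀ f : Fin (D + 1) → IB n K, ∃ c : Fin (D + 1) → ℂ, c ≠ 0 ∧
      ∑ l, algebraMap (Pol n) (IB n K) (MvPolynomial.C (c l)) * f l ∈ I) : cod I ≤ D := by
  have := finite_quotient x hI
  by_contra hcon
  push Not at hcon
  obtain ⟨y, hy⟩ := exists_linearIndependent_of_le_finrank (R := ℂ) (M := IB n K ⧸ I)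
    (n := D + 1) hcon
  choose f hf using fun l => Ideal.Quotient.mk_surjective (y l)
  obtain ⟨c, hc, hcI⟩ := h f
  rw [← Ideal.Quotient.eq_zero_iff_mem, gi_mk_sum] at hcI
  refine hc (funext fun l => ?_)
  refine Fintype.linearIndependent_iff.1 hy c ?_ l
  simpa only [hf] using hcI

/-- The converse. -/
theorem dep_of_cod (x : Pt n K) {I : Ideal (IB n K)} (hI : ∃ L, kx x ^ L ≤ I) {D : ℕ}
    (hD : cod I < D) (f : Fin D → IB n K) : ∃ c : Fin D → ℂ, c ≠ 0 ∧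
      ∑ l, algebraMap (Pol n) (IB n K) (MvPolynomial.C (c l)) * f l ∈ I := by
  have := finite_quotient x hI
  have h1 : ¬ LinearIndependent ℂ (fun l => Ideal.Quotient.mk I (f l)) := by
    intro h2
    have h3 := h2.fintype_card_le_finrank
    rw [Fintype.card_fin] at h3
    exact absurd hD (not_lt.2 h3)
  obtain ⟨c, hc, i, hi⟩ := Fintype.not_linearIndependent_iff.1 h1
  refine ⟨c, fun h => hi (by rw [h]; rfl), ?_⟩
  rw [← Ideal.Quotient.eq_zero_iff_mem, gi_mk_sum]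
  exact hc

/-- Valuation ideals of centered valuations are primary. -/
theorem vIdeal_prim {v : Valuation K ℝ≥0} (hv : Centered x v) (t : ℝ) :
    ∃ L, kx x ^ L ≤ vIdeal hv.1 t := by
  have hnoeth : IsNoetherianRing (IB n K) := ib_noetherian
  obtain ⟨g, hg⟩ := hnoeth.noetherian (kx x)
  obtain ⟨σ, hσ⟩ : ∃ σ : ℝ≥0, σ = g.sup fun b => v (b : K) := ⟨_, rfl⟩
  have hσ1 : σ < 1 := by
    rw [hσ, Finset.sup_lt_iff (by simp)]
    intro b hb
    refine hv.2 b ?_
    rw [← mem_kx, ← hg]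
    exact Submodule.subset_span hb
  have h1 : ∀ b ∈ kx x, v ((b : IB n K) : K) ≤ σ := by
    intro b hb
    rw [← hg] at hb
    refine Submodule.span_induction (p := fun b _ => v ((b : IB n K) : K) ≤ σ) ?_ ?_ ?_ ?_ hb
    · intro b hb
      rw [hσ]
      exact Finset.le_sup (f := fun b : IB n K => v (b : K)) hb
    · simp
    · intro y z _ _ h1 h2
      exact (v.map_add _ _).trans (max_le h1 h2)
    · intro c y _ h
      change v ((c : K) * (y : K)) ≤ σ
      rw [map_mul]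
      calc v (c : K) * v (y : K) ≤ 1 * σ := mul_le_mul' (hv.1.1 c) h
        _ = σ := one_mul _
  have h2 : ∀ L : ℕ, ∀ b ∈ kx x ^ L, v ((b : IB n K) : K) ≤ σ ^ L := by
    intro L
    induction L with
    | zero => intro b _; rw [pow_zero]; exact hv.1.1 b
    | succ L ih =>
      intro b hb
      rw [pow_succ] at hb
      refine Submodule.mul_induction_on hb (fun r hr s hs => ?_) (fun r s hr hs => ?_)
      · change v ((r : K) * (s : K)) ≤ _
        rw [map_mul, pow_succ]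
        exact mul_le_mul' (ih r hr) (h1 s hs)
      · exact (v.map_add _ _).trans (max_le hr hs)
  obtain ⟨L, hL⟩ : ∃ L : ℕ, σ ^ L < (Real.exp (-t)).toNNReal :=
    exists_pow_lt_of_lt_one (by simp [Real.exp_pos]) hσ1
  exact ⟨L, fun b hb => (h2 L b hb).trans hL.le⟩

/-- Multiplication by `h` induces an injection `B/a_s → a_t' / ...`: volume comparison. If
`h r ∈ I` implies `r ∈ I'` and `h ∈ I''` then `l(B/I') + l(B/I'') ≤ l(B/I)` when `I ≤ I''`. -/
theorem cod_add_le (x : Pt n K) {I I' I'' : Ideal (IB n K)} (hI : ∃ L, kx x ^ L ≤ I)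
    (hII : I ≤ I'') {h : IB n K} (hh : h ∈ I'') (hinj : ∀ r : IB n K, h * r ∈ I → r ∈ I') :
    cod I' + cod I'' ≤ cod I := by
  have := finite_quotient x hI
  let φ : IB n K →ₗ[ℂ] IB n K ⧸ I :=
    (Ideal.Quotient.mkₐ ℂ I).toLinearMap ∘ₗ (LinearMap.mulLeft ℂ h)
  let ψ : (IB n K ⧸ I) →ₗ[ℂ] IB n K ⧸ I'' := (Ideal.Quotient.factorₐ ℂ hII).toLinearMap
  have hφ : ∀ r, φ r = Ideal.Quotient.mk I (h * r) := fun r => rfl
  have hψ : ∀ b, ψ (Ideal.Quotient.mk I b) = Ideal.Quotient.mk I'' b := fun b => rfl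
  have hψs : LinearMap.range ψ = ⊤ := by
    rw [LinearMap.range_eq_top]
    exact Ideal.Quotient.factor_surjective hII
  have h1 : Module.finrank ℂ (IB n K ⧸ I'') + Module.finrank ℂ (LinearMap.ker ψ) =
      Module.finrank ℂ (IB n K ⧸ I) := by
    have := LinearMap.finrank_range_add_finrank_ker ψ
    rwa [hψs, finrank_top] at this
  have h2 : LinearMap.range φ ≤ LinearMap.ker ψ := by
    rintro _ ⟨r, rfl⟩
    rw [LinearMap.mem_ker, hφ, hψ, Ideal.Quotient.eq_zero_iff_mem]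
    exact I''.mul_mem_right _ hh
  have h3 : Module.finrank ℂ (LinearMap.range φ) ≤ Module.finrank ℂ (LinearMap.ker ψ) :=
    Submodule.finrank_mono h2
  have h4 : LinearMap.ker φ ≤ LinearMap.ker (Ideal.Quotient.mkₐ ℂ I').toLinearMap := by
    intro r hr
    rw [LinearMap.mem_ker, hφ, Ideal.Quotient.eq_zero_iff_mem] at hr
    rw [LinearMap.mem_ker]
    exact Ideal.Quotient.eq_zero_iff_mem.2 (hinj r hr)
  have h5 : Module.finrank ℂ (IB n K ⧸ I') ≤ Module.finrank ℂ (LinearMap.range φ) := by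
    refine LinearMap.finrank_le_finrank_of_surjective
      (f := ((LinearMap.ker φ).liftQ (Ideal.Quotient.mkₐ ℂ I').toLinearMap h4) ∘ₗ
        (φ.quotKerEquivRange.symm : LinearMap.range φ →ₗ[ℂ] (IB n K ⧸ LinearMap.ker φ))) ?_
    intro y
    obtain ⟨b, rfl⟩ := Ideal.Quotient.mk_surjective y
    refine ⟨φ.quotKerEquivRange (Submodule.Quotient.mk b), ?_⟩
    simp
  change Module.finrank ℂ (IB n K ⧸ I') + Module.finrank ℂ (IB n K ⧸ I'') ≤
    Module.finrank ℂ (IB n K ⧸ I)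
  omega

end Vale.Agent.P282.EQ
end
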