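import Mathlib
import Vale.Agent.P282.Bd3.B3
import Vale.Agent.P282.Bd3.B1
import Vale.Agent.P282.Bd3.B4
import Vale.Agent.P282.Full.Germ
import Vale.Agent.P282.Bd3.B2

set_option linter.all false
namespace AFastdbfe4ax8a
theorem a0 {x1 : ℕ} : OpensMeasurableSpace (Fin x1 → ℂ) := inferInstance
@[reducible] noncomputable def a1 {x1 : ℕ} {x2 : Type} [x3 : Field x2] [x4 : Algebra (FractionRing (Vale.Agent.P282.L2.Pol x1)) x2] : Module (FractionRing (Vale.Agent.P282.L2.Pol x1)) x2 := inferInstance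
@[reducible] noncomputable def a2 {x1 : ℕ} : Algebra (Vale.Agent.P282.L2.Pol x1) (OreLocalization (nonZeroDivisors (Vale.Agent.P282.L2.Pol x1)) (Vale.Agent.P282.L2.Pol x1)) := inferInstance
theorem a3 : CovariantClass ℝ ℝ (Function.swap fun x1 x2 => x1 + x2) fun x1 x2 => x1 ≤ x2 := inferInstance
theorem a4 : TopologicalSpace.SeparableSpace ℂ := inferInstance
theorem a5 : SecondCountableTopology ℂ := inferInstance
theorem a6 : AddLeftMono ℝ := inferInstance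
theorem a7 : TopologicalSpace.IsCompletelyMetrizableSpace ℂ := inferInstance
theorem a8 : PolishSpace ℂ := inferInstance
theorem a9 {x1 : Type} {x2 : Type} [x3 : CommRing x1] [x4 : Field x2] : MulHomClass (x1 →+* x2) x1 x2 := inferInstance
theorem a10 {x1 : Type} [x2 : Field x1] : MulHomClass (Valuation x1 NNReal) x1 NNReal := inferInstance
theorem a11 : IsTopologicalAddGroup ℂ := inferInstance
theorem a12 : CharZero ℝ := inferInstance
@[reducible] noncomputable def a13 {x1 : ℕ} : MeasureTheory.MeasureSpace (Fin x1 → ℂ) := inferInstance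
@[reducible] noncomputable def a14 {x1 : ℕ} : SMul (Vale.Agent.P282.L2.Pol x1) (OreLocalization (nonZeroDivisors (Vale.Agent.P282.L2.Pol x1)) (Vale.Agent.P282.L2.Pol x1)) := inferInstance
@[reducible] noncomputable def a15 {x1 : Type} {x2 : ℕ} [x3 : Field x1] [x4 : Algebra (Vale.Agent.P282.L2.Pol x2) x1] : Pow ↥(integralClosure (Vale.Agent.P282.L2.Pol x2) x1) ℕ := inferInstance
theorem a16 : ContinuousAdd ℂ := inferInstance
theorem a17 : IsTopologicalRing ℂ := inferInstance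
@[reducible] noncomputable def a18 {x1 : ℕ} : DivisionRing (OreLocalization (nonZeroDivisors (Vale.Agent.P282.L2.Pol x1)) (Vale.Agent.P282.L2.Pol x1)) := inferInstance
@[reducible] noncomputable def a19 {x1 : ℕ} {x2 : Type} [x3 : Field x2] [x4 : Algebra (Vale.Agent.P282.L2.Pol x1) x2] : Zero (Vale.Agent.P282.L2.IB x1 x2) := inferInstance
theorem a20 : IsTopologicalSemiring ℂ := inferInstance
@[reducible] noncomputable def a21 {x1 : ℕ} : Module ℝ (Fin x1 → ℂ) := inferInstance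
theorem a22 : SigmaCompactSpace ℂ := inferInstance
theorem a23 {x1 : Type} {x2 : Type} [x3 : CommRing x1] [x4 : Field x2] : NonUnitalRingHomClass (x1 →+* x2) x1 x2 := inferInstance
@[reducible] noncomputable def a24 {x1 : ℕ} {x2 : Type} [x3 : Field x2] [x4 : Algebra (Vale.Agent.P282.L2.Pol x1) x2] : Pow (Vale.Agent.P282.L2.IB x1 x2) ℕ := inferInstance
theorem a25 : ContinuousMul ℂ := inferInstance
@[reducible] noncomputable def a26 {x1 : ℕ} : CommSemiring (OreLocalization (nonZeroDivisors (Vale.Agent.P282.L2.Pol x1)) (Vale.Agent.P282.L2.Pol x1)) := inferInstance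
theorem a27 : PosMulStrictMono ℝ := inferInstance
theorem a28 : IsSemitopologicalRing ℂ := inferInstance
theorem a29 : ContinuousSub ℂ := inferInstance
theorem a30 : IsSemitopologicalSemiring ℂ := inferInstance
@[reducible] noncomputable def a31 {x1 : ℕ} : OreLocalization.OreSet (nonZeroDivisors (Vale.Agent.P282.L2.Pol x1)) := inferInstance
@[reducible] noncomputable def a32 {x1 : ℕ} : NonAssocSemiring (FractionRing (Vale.Agent.P282.L2.Pol x1)) := inferInstance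
theorem a33 : PosMulReflectLT ℝ := inferInstance
@[reducible] def a34 : Monoid ℂ := inferInstance
@[reducible] noncomputable def a35 : MeasureTheory.MeasureSpace ℂ := inferInstance
theorem a36 : PosMulReflectLE ℝ := inferInstance
@[reducible] noncomputable def a37 {x1 : ℕ} {x2 : Type} [x3 : Field x2] [x4 : Algebra (Vale.Agent.P282.L2.Pol x1) x2] : Monoid (Vale.Agent.P282.L2.IB x1 x2) := inferInstance
@[reducible] noncomputable def a38 {x1 : ℕ} {x2 : ℕ} {x3 : Vale.Agent.P282.L2.Sheets x1 x2} : AddZero ↥(MeasureTheory.Lp ℂ 2 x3.μ) := inferInstance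
@[reducible] noncomputable def a39 {x1 : ℕ} {x2 : ℕ} {x3 : Vale.Agent.P282.L2.Sheets x1 x2} : AddZeroClass ↥(MeasureTheory.Lp ℂ 2 x3.μ) := inferInstance
@[reducible] noncomputable def a40 {x1 : ℕ} {x2 : ℕ} {x3 : Vale.Agent.P282.L2.Sheets x1 x2} : AddMonoid ↥(MeasureTheory.Lp ℂ 2 x3.μ) := inferInstance
@[reducible] noncomputable def a41 : NormedSpace ℝ ℂ := inferInstance
@[reducible] noncomputable def a42 {x1 : ℕ} {x2 : Type} [x3 : Field x2] [x4 : Algebra (Vale.Agent.P282.L2.Pol x1) x2] : NPow (Vale.Agent.P282.L2.IB x1 x2) := inferInstance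
@[reducible] noncomputable def a43 {x1 : ℕ} : CommMonoid (Vale.Agent.P282.L2.Pol x1) := inferInstance
@[reducible] noncomputable def a44 : NormedSpace ℝ ℝ := inferInstance
@[reducible] noncomputable def a45 {x1 : ℕ} {x2 : ℕ} {x3 : Vale.Agent.P282.L2.Sheets x1 x2} : Module ℂ ↥(MeasureTheory.Lp ℂ 2 x3.μ) := inferInstance
theorem a46 : IsTopologicalDivisionRing ℂ := inferInstance
@[reducible] noncomputable def a47 {x1 : ℕ} {x2 : Type} [x3 : Field x2] [x4 : Algebra (Vale.Agent.P282.L2.Pol x1) x2] : Pow (Submodule (Vale.Agent.P282.L2.IB x1 x2) (Vale.Agent.P282.L2.IB x1 x2)) ℕ := inferInstance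
@[reducible] def a48 : Pow ℂ ℕ := inferInstance
@[reducible] def a49 : NPow ℂ := inferInstance
@[reducible] noncomputable def a50 {x1 : ℕ} : Semiring (OreLocalization (nonZeroDivisors (Vale.Agent.P282.L2.Pol x1)) (Vale.Agent.P282.L2.Pol x1)) := inferInstance
@[reducible] noncomputable def a51 {x1 : ℕ} {x2 : ℕ} {x3 : Vale.Agent.P282.L2.Sheets x1 x2} : AddGroup ((Fin x1 → ℂ) × ℂ →ₘ[x3.μ] ℂ) := inferInstance
@[reducible] noncomputable def a52 {x1 : ℕ} : Monoid (Vale.Agent.P282.L2.Pol x1) := inferInstance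
@[reducible] noncomputable def a53 {x1 : Type} {x2 : ℕ} [x3 : Field x1] [x4 : Algebra (Vale.Agent.P282.L2.Pol x2) x1] : Zero ↥(integralClosure (Vale.Agent.P282.L2.Pol x2) x1) := inferInstance
theorem a54 : OrderClosedTopology ℝ := inferInstance
theorem a55 {x1 : ℕ} {x2 : Type} [x3 : Field x2] [x4 : Algebra (Vale.Agent.P282.L2.Pol x1) x2] : SubmonoidClass (Subalgebra (Vale.Agent.P282.L2.Pol x1) x2) x2 := inferInstance
theorem a56 : MeasurableMul₂ ℝ := inferInstance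
theorem a57 {x1 : Type} [x2 : Field x1] : MonoidHomClass (Valuation x1 NNReal) x1 NNReal := inferInstance
theorem a58 : AddRightStrictMono ℝ := inferInstance
theorem a59 {x1 : ℕ} : IsScalarTower (Vale.Agent.P282.L2.Pol x1) (Vale.Agent.P282.L2.Pol x1) (Vale.Agent.P282.L2.Pol x1) := inferInstance
theorem a60 : CovariantClass NNReal NNReal (Function.swap fun x1 x2 => x1 * x2) fun x1 x2 => x1 ≤ x2 := inferInstance
theorem a61 : WeaklyLocallyCompactSpace ℂ := inferInstance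
end AFastdbfe4ax8a
attribute [local instance] AFastdbfe4ax8a.a0 AFastdbfe4ax8a.a1 AFastdbfe4ax8a.a2 AFastdbfe4ax8a.a3
  AFastdbfe4ax8a.a4 AFastdbfe4ax8a.a5 AFastdbfe4ax8a.a6 AFastdbfe4ax8a.a7 AFastdbfe4ax8a.a8
  AFastdbfe4ax8a.a9 AFastdbfe4ax8a.a10 AFastdbfe4ax8a.a11 AFastdbfe4ax8a.a12 AFastdbfe4ax8a.a13
  AFastdbfe4ax8a.a14 AFastdbfe4ax8a.a15 AFastdbfe4ax8a.a16 AFastdbfe4ax8a.a17 AFastdbfe4ax8a.a18
  AFastdbfe4ax8a.a19 AFastdbfe4ax8a.a20 AFastdbfe4ax8a.a21 AFastdbfe4ax8a.a22 AFastdbfe4ax8a.a23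
  AFastdbfe4ax8a.a24 AFastdbfe4ax8a.a25 AFastdbfe4ax8a.a26 AFastdbfe4ax8a.a27 AFastdbfe4ax8a.a28
  AFastdbfe4ax8a.a29 AFastdbfe4ax8a.a30 AFastdbfe4ax8a.a31 AFastdbfe4ax8a.a32 AFastdbfe4ax8a.a33
  AFastdbfe4ax8a.a34 AFastdbfe4ax8a.a35 AFastdbfe4ax8a.a36 AFastdbfe4ax8a.a37 AFastdbfe4ax8a.a38
  AFastdbfe4ax8a.a39 AFastdbfe4ax8a.a40 AFastdbfe4ax8a.a41 AFastdbfe4ax8a.a42 AFastdbfe4ax8a.a43
  AFastdbfe4ax8a.a44 AFastdbfe4ax8a.a45 AFastdbfe4ax8a.a46 AFastdbfe4ax8a.a47 AFastdbfe4ax8a.a48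
  AFastdbfe4ax8a.a49 AFastdbfe4ax8a.a50 AFastdbfe4ax8a.a51 AFastdbfe4ax8a.a52 AFastdbfe4ax8a.a53
  AFastdbfe4ax8a.a54 AFastdbfe4ax8a.a55 AFastdbfe4ax8a.a56 AFastdbfe4ax8a.a57 AFastdbfe4ax8a.a58
  AFastdbfe4ax8a.a59 AFastdbfe4ax8a.a60 AFastdbfe4ax8a.a61
namespace AFastdbfe4ax8b
@[reducible] noncomputable def a0 {x1 : ℕ} {x2 : Type} [x3 : Field x2] [x4 : Algebra (Vale.Agent.P282.L2.Pol x1) x2] : Algebra (Vale.Agent.P282.L2.Pol x1) ↥(integralClosure (Vale.Agent.P282.L2.Pol x1) x2) := inferInstance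
@[reducible] def a1 {x1 : ℕ} {x2 : Type} [x3 : Field x2] [x4 : Algebra (Vale.Agent.P282.L2.Pol x1) x2] : SMul (Vale.Agent.P282.L2.Pol x1) x2 := inferInstance
@[reducible] def a2 {x1 : ℕ} {x2 : Type} [x3 : Field x2] [x4 : Algebra (FractionRing (Vale.Agent.P282.L2.Pol x1)) x2] : SMul (FractionRing (Vale.Agent.P282.L2.Pol x1)) x2 := inferInstance
@[reducible] noncomputable def a3 {x1 : ℕ} {x2 : ℕ} {x3 : Vale.Agent.P282.L2.Sheets x1 x2} : SMulZeroClass ℂ ↥(MeasureTheory.Lp ℂ 2 x3.μ) := inferInstance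
theorem a4 {x1 : Type} {x2 : Type} [x3 : CommRing x1] [x4 : Field x2] : AddHomClass (x1 →+* x2) x1 x2 := inferInstance
@[reducible] noncomputable def a5 {x1 : ℕ} : DistribMulAction (Vale.Agent.P282.L2.Pol x1) (Vale.Agent.P282.L2.Pol x1) := inferInstance
@[reducible] noncomputable def a6 {x1 : ℕ} {x2 : ℕ} {x3 : Vale.Agent.P282.L2.Sheets x1 x2} : DistribSMul ℂ ↥(MeasureTheory.Lp ℂ 2 x3.μ) := inferInstance
theorem a7 {x1 : Type} {x2 : Type} [x3 : CommRing x1] [x4 : Field x2] : AddMonoidHomClass (x1 →+* x2) x1 x2 := inferInstance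
@[reducible] noncomputable def a8 {x1 : ℕ} : AddCommMonoid (FractionRing (Vale.Agent.P282.L2.Pol x1)) := inferInstance
@[reducible] noncomputable def a9 {x1 : ℕ} {x2 : ℕ} {x3 : Vale.Agent.P282.L2.Sheets x1 x2} : DistribMulAction ℂ ↥(MeasureTheory.Lp ℂ 2 x3.μ) := inferInstance
theorem a10 {x1 : ℕ} : AddMonoidHomClass (Vale.Agent.P282.L2.Pol x1 →+* FractionRing (Vale.Agent.P282.L2.Pol x1)) (Vale.Agent.P282.L2.Pol x1) (FractionRing (Vale.Agent.P282.L2.Pol x1)) := inferInstance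
@[reducible] noncomputable def a11 {x1 : ℕ} {x2 : ℕ} {x3 : Vale.Agent.P282.L2.Sheets x1 x2} : AddCommMonoid ↥(MeasureTheory.Lp ℂ 2 x3.μ) := inferInstance
@[reducible] noncomputable def a12 {x1 : ℕ} : AddCommMonoid (OreLocalization (nonZeroDivisors (Vale.Agent.P282.L2.Pol x1)) (Vale.Agent.P282.L2.Pol x1)) := inferInstance
@[reducible] noncomputable def a13 : Module ℝ ℂ := inferInstance
@[reducible] noncomputable def a14 {x1 : ℕ} {x2 : ℕ} {x3 : Vale.Agent.P282.L2.Sheets x1 x2} : SMul ℂ ↥(MeasureTheory.Lp ℂ 2 x3.μ) := inferInstance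
theorem a15 {x1 : ℕ} {x2 : Type} [x3 : Field x2] [x4 : Algebra (Vale.Agent.P282.L2.Pol x1) x2] : AddMonoidHomClass (Vale.Agent.P282.L2.Pol x1 →+* Vale.Agent.P282.L2.IB x1 x2) (Vale.Agent.P282.L2.Pol x1) (Vale.Agent.P282.L2.IB x1 x2) := inferInstance
@[reducible] noncomputable def a16 {x1 : ℕ} : AddZeroClass (FractionRing (Vale.Agent.P282.L2.Pol x1)) := inferInstance
@[reducible] noncomputable def a17 {x1 : ℕ} : AddMonoid (FractionRing (Vale.Agent.P282.L2.Pol x1)) := inferInstance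
@[reducible] noncomputable def a18 {x1 : ℕ} : Add (OreLocalization (nonZeroDivisors (Vale.Agent.P282.L2.Pol x1)) (Vale.Agent.P282.L2.Pol x1)) := inferInstance
theorem a19 : Module.Free ℝ ℂ := inferInstance
theorem a20 : Module.Flat ℝ ℂ := inferInstance
theorem a21 {x1 : ℕ} : AddMonoidHomClass (MvPolynomial (Fin x1) ℂ →+* ℂ) (MvPolynomial (Fin x1) ℂ) ℂ := inferInstance
theorem a22 : Module.FaithfullyFlat ℝ ℂ := inferInstance
theorem a23 : ContinuousSMul ℚ≥0 ℝ := inferInstance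
@[reducible] noncomputable def a24 {x1 : ℕ} {x2 : ℕ} {x3 : Vale.Agent.P282.L2.Sheets x1 x2} : AddCommMagma ↥(MeasureTheory.Lp ℂ 2 x3.μ) := inferInstance
@[reducible] noncomputable def a25 {x1 : ℕ} {x2 : ℕ} {x3 : Vale.Agent.P282.L2.Sheets x1 x2} : AddCommSemigroup ↥(MeasureTheory.Lp ℂ 2 x3.μ) := inferInstance
theorem a26 {x1 : Nat} : @MeasureTheory.Measure.IsAddHaarMeasure (Fin x1 → Complex) (@Pi.addGroup (Fin x1) (fun a => Complex) fun i => @SeminormedAddGroup.toAddGroup ((fun a => Complex) i) ((fun i => @SeminormedAddCommGroup.toSeminormedAddGroup ((fun a => Complex) i) (@NormedAddCommGroup.toSeminormedAddCommGroup ((fun a => Complex) i) ((fun i => Complex.instNormedAddCommGroup) i))) i)) (@Pi.topologicalSpace (Fin x1) (fun a => Complex) fun i => @UniformSpace.toTopologicalSpace ((fun a => Complex) i) ((fun i => @PseudoEMetricSpace.toUniformSpace ((fun a => Complex) i) ((fun b =>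 @PseudoMetricSpace.toPseudoEMetricSpace ((fun a => Complex) b) ((fun b => @SeminormedAddGroup.toPseudoMetricSpace ((fun a => Complex) b) ((fun i => @SeminormedAddCommGroup.toSeminormedAddGroup ((fun a => Complex) i) (@NormedAddCommGroup.toSeminormedAddCommGroup ((fun a => Complex) i) ((fun i => Complex.instNormedAddCommGroup) i))) b)) b)) i)) i)) (@MeasureTheory.MeasureSpace.toMeasurableSpace (Fin x1 → Complex) (@MeasureTheory.MeasureSpace.pi (Fin x1) (Fin.fintype x1) (fun a => Complex) fun i => @measureSpaceOfInnerProductSpace Complex Complex.instNormedAddCommGroup instInnerProductSpaceRealComplex Complex.instFiniteDimensionalReal Complex.measurableSpace Complex.borelSpace)) (@MeasureTheory.volume (Fin x1 → Complex) (@MeasureTheory.MeasureSpace.pi (Fin x1) (Fin.fintype x1) (fun a => Complex) fun i => @measureSpaceOfInnerProductSpace Complex Complex.instNormedAddCommGroup instInnerProductSpaceRealComplex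 Complex.instFiniteDimensionalReal Complex.measurableSpace Complex.borelSpace)) := inferInstance
@[reducible] noncomputable def a27.{u1, u2} {x1 : Type u1} [x2 : NormedAddCommGroup x1] [x3 : InnerProductSpace ℂ x1] {x4 : Type u2} [x5 : AddCommGroup x4] [x6 : Module ℂ x4] {x7 : x4 →ₗ[ℂ] x1} : Norm (↥x7.range →L[ℂ] ℂ) := inferInstance
theorem a28 : IsScalarTower ℚ≥0 ℚ ℝ := inferInstance
@[reducible] noncomputable def a29.{u1, u2} {x1 : Type u1} [x2 : NormedAddCommGroup x1] [x3 : InnerProductSpace ℂ x1] {x4 : Type u2} [x5 : AddCommGroup x4] [x6 : Module ℂ x4] {x7 : x4 →ₗ[ℂ] x1} : NormedSpace ℂ ↥x7.range := inferInstance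
@[reducible] noncomputable def a30 : Module ℚ ℝ := inferInstance
theorem a31 {x1 : ℕ} : BorelSpace (Fin x1 → ℂ) := inferInstance
end AFastdbfe4ax8b
attribute [local instance] AFastdbfe4ax8b.a0 AFastdbfe4ax8b.a1 AFastdbfe4ax8b.a2 AFastdbfe4ax8b.a3
  AFastdbfe4ax8b.a4 AFastdbfe4ax8b.a5 AFastdbfe4ax8b.a6 AFastdbfe4ax8b.a7 AFastdbfe4ax8b.a8
  AFastdbfe4ax8b.a9 AFastdbfe4ax8b.a10 AFastdbfe4ax8b.a11 AFastdbfe4ax8b.a12 AFastdbfe4ax8b.a13
  AFastdbfe4ax8b.a14 AFastdbfe4ax8b.a15 AFastdbfe4ax8b.a16 AFastdbfe4ax8b.a17 AFastdbfe4ax8b.a18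
  AFastdbfe4ax8b.a19 AFastdbfe4ax8b.a20 AFastdbfe4ax8b.a21 AFastdbfe4ax8b.a22 AFastdbfe4ax8b.a23
  AFastdbfe4ax8b.a24 AFastdbfe4ax8b.a25 AFastdbfe4ax8b.a26 AFastdbfe4ax8b.a27 AFastdbfe4ax8b.a28
  AFastdbfe4ax8b.a29 AFastdbfe4ax8b.a30 AFastdbfe4ax8b.a31
seal MeasureTheory.ae

section

open MeasureTheory Filter Topology
open scoped ENNReal NNReal ComplexConjugate

namespace Vale.Agent.P282.L2

/-- Riesz representation, in the form in which it is used. -/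
theorem exists_riesz {X H : Type*} [AddCommGroup X] [Module ℂ X] [NormedAddCommGroup H]
    [InnerProductSpace ℂ H] [CompleteSpace H] (L : X →ₗ[ℂ] H) (l : X →ₗ[ℂ] ℂ) {C : ℝ}
    (hC : 0 ≤ C) (h : ∀ x, ‖l x‖ ^ 2 ≤ C * ‖L x‖ ^ 2) :
    ∃ U : H, ‖U‖ ^ 2 ≤ C ∧ ∀ x, l x = inner ℂ U (L x) := by
  have hker : LinearMap.ker L ≤ LinearMap.ker l := by
    intro x hx
    rw [LinearMap.mem_ker] at hx ⊢
    have := h x
    rw [hx, norm_zero] at this
    have h2 : ‖l x‖ ^ 2 ≤ 0 := by simpa using this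
    have h3 : ‖l x‖ = 0 := by
      have := sq_nonneg ‖l x‖
      exact pow_eq_zero_iff (two_ne_zero) |>.1 (le_antisymm h2 this)
    exact norm_eq_zero.1 h3
  let l0 : LinearMap.range L →ₗ[ℂ] ℂ :=
    ((LinearMap.ker L).liftQ l hker).comp (L.quotKerEquivRange.symm : LinearMap.range L →ₗ[ℂ] _)
  have hl0 : ∀ x (hx : L x ∈ LinearMap.range L), l0 ⟨L x, hx⟩ = l x := by
    intro x hx
    have : L.quotKerEquivRange.symm ⟨L x, hx⟩ = (LinearMap.ker L).mkQ x := by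
      rw [LinearEquiv.symm_apply_eq]
      ext
      simp
    simp only [l0, LinearMap.comp_apply, LinearEquiv.coe_coe, this, Submodule.mkQ_apply,
      Submodule.liftQ_apply]
  have hb : ∀ y : LinearMap.range L, ‖l0 y‖ ≤ Real.sqrt C * ‖y‖ := by
    rintro ⟨y, hy⟩
    obtain ⟨x, rfl⟩ := LinearMap.mem_range.1 hy
    rw [hl0 x hy]
    have h1 := h x
    have h2 : ‖l x‖ ≤ Real.sqrt (C * ‖L x‖ ^ 2) := Real.le_sqrt_of_sq_le h1
    rw [Real.sqrt_mul hC, Real.sqrt_sq (norm_nonneg _)] at h2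
    exact h2
  let f : StrongDual ℂ (LinearMap.range L) := l0.mkContinuous (Real.sqrt C) hb
  obtain ⟨g, hg, hgn⟩ := exists_extension_norm_eq (LinearMap.range L) f
  refine ⟨(InnerProductSpace.toDual ℂ H).symm g, ?_, fun x => ?_⟩
  · rw [LinearIsometryEquiv.norm_map, hgn]
    have : ‖f‖ ≤ Real.sqrt C := LinearMap.mkContinuous_norm_le _ (Real.sqrt_nonneg _) _
    calc ‖f‖ ^ 2 ≤ (Real.sqrt C) ^ 2 := by gcongr
      _ = C := Real.sq_sqrt hC
  · rw [InnerProductSpace.toDual_symm_apply]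
    have := hg ⟨L x, LinearMap.mem_range_self L x⟩
    simp only at this
    rw [this]
    exact (hl0 x _).symm

namespace Sheets

variable {n N : ℕ} {S : Sheets n N}

/-! ### Supports -/

theorem Supp.addH {X Y : (Fin n → ℂ) × ℂ → ℂ} (hX : S.Supp X) (hY : S.Supp Y) :
    S.Supp (fun q => X q + Y q) := by
  obtain ⟨C, hC, hCV, h⟩ := hX
  obtain ⟨C', hC', hCV', h'⟩ := hY
  refine ⟨C ∪ C', hC.union hC', Set.union_subset hCV hCV', fun q hq => ?_⟩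
  rw [Set.mem_union, not_or] at hq
  simp [h q hq.1, h' q hq.2]

theorem Supp.of_zeroH {X Y : (Fin n → ℂ) × ℂ → ℂ} (hX : S.Supp X)
    (h0 : ∀ q, X q = 0 → Y q = 0) : S.Supp Y := by
  obtain ⟨C, hC, hCV, h⟩ := hX
  exact ⟨C, hC, hCV, fun q hq => h0 q (h q hq)⟩

theorem Supp.DH {X : (Fin n → ℂ) × ℂ → ℂ} (hX : S.Supp X) (j : Fin n) : S.Supp (S.D j X) := by
  obtain ⟨C, hC, hCV, h⟩ := hX
  refine ⟨C, hC, hCV, fun q hq => ?_⟩
  have h1 : (fun z => X (z, S.sec q z)) =ᶠ[𝓝 q.1] fun _ => 0 := by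
    filter_upwards [hC.isClosed.isOpen_compl.mem_nhds hq] with z hz
    exact h _ hz
  show dz j (fun z => X (z, S.sec q z)) q.1 = 0
  rw [dz_congr h1, dz_const]

theorem Supp.sumH {ι : Type*} (t : Finset ι) {X : ι → (Fin n → ℂ) × ℂ → ℂ}
    (hX : ∀ i ∈ t, S.Supp (X i)) : S.Supp (fun q => ∑ i ∈ t, X i q) := by
  classical
  induction t using Finset.induction_on with
  | empty =>
    exact ⟨∅, isCompact_empty, Set.empty_subset _, fun q _ => by simp⟩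
  | insert a t ha ih =>
    have h1 := (hX a (Finset.mem_insert_self a t)).addH
      (ih fun i hi => hX i (Finset.mem_insert_of_mem hi))
    simpa [Finset.sum_insert ha] using h1

theorem integrable_realH {f : (Fin n → ℂ) × ℂ → ℝ} (hf : S.CD 0 (fun q => (f q : ℂ)))
    (hs : S.Supp (fun q => (f q : ℂ))) : Integrable f S.μ := by
  simpa using (integrable_of_supp hf hs).re

theorem IsTest.addH {X Y : (Fin n → ℂ) × ℂ → ℂ} (hX : S.IsTest X) (hY : S.IsTest Y) :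
    S.IsTest (fun q => X q + Y q) := ⟨hX.1.add hY.1, hX.2.addH hY.2⟩

theorem IsTest.smulH {X : (Fin n → ℂ) × ℂ → ℂ} (hX : S.IsTest X) (c : ℂ) :
    S.IsTest (fun q => c * X q) :=
  ⟨(CD.const c).mul hX.1, hX.2.of_zeroH fun q hq => by simp [hq]⟩

theorem IsTest.zeroH : S.IsTest (fun _ => 0) :=
  ⟨CD.const 0, ∅, isCompact_empty, Set.empty_subset _, fun _ _ => rfl⟩

theorem IsTest.conjH {X : (Fin n → ℂ) × ℂ → ℂ} (hX : S.IsTest X) :
    S.IsTest (fun q => conj (X q)) :=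
  ⟨hX.1.conj, hX.2.of_zeroH fun q hq => by simp [hq]⟩

variable (S) in
/-- Tuples of test functions. -/
def TT : Submodule ℂ (Fin n → (Fin n → ℂ) × ℂ → ℂ) where
  carrier := {γ | ∀ j, S.IsTest (γ j)}
  add_mem' := fun ha hb j => (ha j).addH (hb j)
  zero_mem' := fun _ => IsTest.zeroH
  smul_mem' := fun c _ hγ j => (hγ j).smulH c

variable (S) in
/-- Divergence along the sheets. -/
noncomputable def dvH (γ : Fin n → (Fin n → ℂ) × ℂ → ℂ) (q : (Fin n → ℂ) × ℂ) : ℂ :=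
  ∑ j, S.D j (γ j) q

theorem dvH_add {γ γ' : Fin n → (Fin n → ℂ) × ℂ → ℂ} (h : ∀ j, S.IsTest (γ j))
    (h' : ∀ j, S.IsTest (γ' j)) {q : (Fin n → ℂ) × ℂ} (hq : q ∈ S.M) :
    S.dvH (γ + γ') q = S.dvH γ q + S.dvH γ' q := by
  rw [dvH, dvH, dvH, ← Finset.sum_add_distrib]
  refine Finset.sum_congr rfl fun j _ => ?_
  exact D_add ((h j).1.mono (by norm_num)) ((h' j).1.mono (by norm_num)) hq

theorem dvH_smul {γ : Fin n → (Fin n → ℂ) × ℂ → ℂ} (h : ∀ j, S.IsTest (γ j)) (c : ℂ)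
    {q : (Fin n → ℂ) × ℂ} (hq : q ∈ S.M) : S.dvH (c • γ) q = c * S.dvH γ q := by
  rw [dvH, dvH, Finset.mul_sum]
  refine Finset.sum_congr rfl fun j _ => ?_
  have := D_mul (S := S) (j := j) (CD.const c) ((h j).1.mono (m' := 1) (by norm_num)) hq
  have h2 : S.D j (fun _ => c) q = 0 := dz_const c
  rw [h2, zero_mul, zero_add] at this
  exact this

theorem dvH_CD {γ : Fin n → (Fin n → ℂ) × ℂ → ℂ} (h : ∀ j, S.IsTest (γ j)) : S.CD 0 (S.dvH γ) :=
  CD.sum _ fun j _ => ((h j).1.D.mono (m' := 0) (by norm_num))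

theorem dvH_supp {γ : Fin n → (Fin n → ℂ) × ℂ → ℂ} (h : ∀ j, S.IsTest (γ j)) :
    S.Supp (S.dvH γ) := Supp.sumH _ fun j _ => (h j).2.DH j

theorem memLpH {X : (Fin n → ℂ) × ℂ → ℂ} (hX : S.CD 0 X) (hs : S.Supp X) : MemLp X 2 S.μ := by
  rw [memLp_two_iff_integrable_sq_norm (aestronglyMeasurable_of_CD hX)]
  have h1 : S.CD 0 (fun q => ((‖X q‖ ^ 2 : ℝ) : ℂ)) :=
    (hX.mul hX.conj).congr fun q _ => by rw [Complex.mul_conj, Complex.normSq_eq_norm_sq]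
  exact integrable_realH h1 (hs.of_zeroH fun q hq => by simp [hq])

/-- `e ^ {Φ / 2}`. -/
theorem expH_CD {Φ : (Fin n → ℂ) × ℂ → ℝ} (hΦ : S.CD 2 (fun q => (Φ q : ℂ))) (c : ℝ) :
    S.CD 0 (fun q => ((Real.exp (c * Φ q) : ℝ) : ℂ)) :=
  CD.comp_real (φ := fun x => Real.exp (c * x)) (by fun_prop) (hΦ.mono (m' := 0) (by norm_num))

theorem divH_CD {Φ : (Fin n → ℂ) × ℂ → ℝ} (hΦ : S.CD 2 (fun q => (Φ q : ℂ)))
    {γ : Fin n → (Fin n → ℂ) × ℂ → ℂ} (h : ∀ j, S.IsTest (γ j)) :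
    S.CD 0 (fun q => ((Real.exp (1 / 2 * Φ q) : ℝ) : ℂ) * S.dvH γ q) :=
  (expH_CD hΦ _).mul (dvH_CD h)

theorem divH_supp {Φ : (Fin n → ℂ) × ℂ → ℝ}
    {γ : Fin n → (Fin n → ℂ) × ℂ → ℂ} (h : ∀ j, S.IsTest (γ j)) :
    S.Supp (fun q => ((Real.exp (1 / 2 * Φ q) : ℝ) : ℂ) * S.dvH γ q) :=
  (dvH_supp h).of_zeroH fun q hq => by simp [hq]

/-- The operator `γ ↦ e ^ {Φ / 2} ∑ D_j γ_j`. -/
noncomputable def LH {Φ : (Fin n → ℂ) × ℂ → ℝ} (hΦ : S.CD 2 (fun q => (Φ q : ℂ))) :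
    TT S →ₗ[ℂ] Lp ℂ 2 S.μ where
  toFun γ := (memLpH (divH_CD hΦ γ.2) (divH_supp γ.2)).toLp _
  map_add' γ γ' := by
    rw [← MemLp.toLp_add]
    refine MemLp.toLp_congr _ _ ?_
    filter_upwards [ae_mem_M (S := S)] with q hq
    simp only [Pi.add_apply]
    rw [Submodule.coe_add, dvH_add γ.2 γ'.2 hq, mul_add]
  map_smul' c γ := by
    rw [RingHom.id_apply, ← MemLp.toLp_const_smul]
    refine MemLp.toLp_congr _ _ ?_
    filter_upwards [ae_mem_M (S := S)] with q hq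
    simp only [Pi.smul_apply, smul_eq_mul]
    rw [Submodule.coe_smul, dvH_smul γ.2 c hq]
    ring

theorem coe_LH {Φ : (Fin n → ℂ) × ℂ → ℝ} (hΦ : S.CD 2 (fun q => (Φ q : ℂ))) (γ : TT S) :
    LH hΦ γ =ᵐ[S.μ] fun q => ((Real.exp (1 / 2 * Φ q) : ℝ) : ℂ) * S.dvH γ q :=
  MemLp.coeFn_toLp (memLpH (divH_CD hΦ γ.2) (divH_supp γ.2))

theorem norm_sq_Lp (F : Lp ℂ 2 S.μ) : ‖F‖ ^ 2 = ∫ q, ‖F q‖ ^ 2 ∂S.μ := by
  have h1 := inner_self_eq_norm_sq (𝕜 := ℂ) F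
  rw [L2.inner_def] at h1
  rw [← h1]
  have h2 : (∫ q, inner ℂ (F q) (F q) ∂S.μ : ℂ) = ((∫ q, ‖F q‖ ^ 2 ∂S.μ : ℝ) : ℂ) := by
    rw [← integral_complex_ofReal]
    refine integral_congr_ae (Eventually.of_forall fun q => ?_)
    simp only
    rw [inner_self_eq_norm_sq_to_K]
    norm_cast
  rw [h2]
  simp

theorem norm_sq_LH {Φ : (Fin n → ℂ) × ℂ → ℝ} (hΦ : S.CD 2 (fun q => (Φ q : ℂ))) (γ : TT S) :
    ‖LH hΦ γ‖ ^ 2 = ∫ q, ‖S.dvH γ q‖ ^ 2 * Real.exp (Φ q) ∂S.μ := by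
  rw [norm_sq_Lp]
  refine integral_congr_ae ?_
  filter_upwards [coe_LH hΦ γ] with q hq
  rw [hq, norm_mul, Complex.norm_real, Real.norm_eq_abs, abs_of_pos (Real.exp_pos _), mul_pow,
    ← Real.exp_nat_mul]
  rw [mul_comm]
  congr 2
  push_cast
  ring

/-- The pairing with `α`. -/
theorem pairH_CD {α : Fin n → (Fin n → ℂ) × ℂ → ℂ} (hα : ∀ j, S.CD 1 (α j))
    {γ : Fin n → (Fin n → ℂ) × ℂ → ℂ} (h : ∀ j, S.IsTest (γ j)) :
    S.CD 0 (fun q => ∑ j, conj (α j q) * γ j q) :=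
  CD.sum _ fun j _ => ((hα j).mono (m' := 0) (by norm_num)).conj.mul
    ((h j).1.mono (m' := 0) (by norm_num))

theorem pairH_supp {α : Fin n → (Fin n → ℂ) × ℂ → ℂ}
    {γ : Fin n → (Fin n → ℂ) × ℂ → ℂ} (h : ∀ j, S.IsTest (γ j)) :
    S.Supp (fun q => ∑ j, conj (α j q) * γ j q) :=
  Supp.sumH _ fun j _ => (h j).2.of_zeroH fun q hq => by simp [hq]

/-- The functional `γ ↦ ∫ ∑ conj(α_j) γ_j`. -/
noncomputable def lH {α : Fin n → (Fin n → ℂ) × ℂ → ℂ} (hα : ∀ j, S.CD 1 (α j)) :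
    TT S →ₗ[ℂ] ℂ where
  toFun γ := ∫ q, ∑ j, conj (α j q) * (γ : Fin n → (Fin n → ℂ) × ℂ → ℂ) j q ∂S.μ
  map_add' γ γ' := by
    rw [← integral_add (integrable_of_supp (pairH_CD hα γ.2) (pairH_supp γ.2))
      (integrable_of_supp (pairH_CD hα γ'.2) (pairH_supp γ'.2))]
    congr 1
    funext q
    rw [← Finset.sum_add_distrib]
    refine Finset.sum_congr rfl fun j _ => ?_
    rw [Submodule.coe_add, Pi.add_apply, Pi.add_apply, mul_add]
  map_smul' c γ := by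
    rw [RingHom.id_apply, smul_eq_mul, ← integral_const_mul]
    congr 1
    funext q
    rw [Finset.mul_sum]
    refine Finset.sum_congr rfl fun j _ => ?_
    rw [Submodule.coe_smul, Pi.smul_apply, Pi.smul_apply, smul_eq_mul]
    ring

theorem lH_eq {α : Fin n → (Fin n → ℂ) × ℂ → ℂ} (hα : ∀ j, S.CD 1 (α j)) (γ : TT S) :
    lH hα γ = conj (∫ q, ∑ j, α j q * conj ((γ : Fin n → (Fin n → ℂ) × ℂ → ℂ) j q) ∂S.μ) := by
  rw [← integral_conj]
  show ∫ q, ∑ j, conj (α j q) * (γ : Fin n → (Fin n → ℂ) × ℂ → ℂ) j q ∂S.μ = _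
  congr 1
  funext q
  rw [map_sum]
  refine Finset.sum_congr rfl fun j _ => ?_
  rw [map_mul, Complex.conj_conj]

/-! ### The weights -/

/-- `(1 + x) ^ m e ^ {-c (1 + x)}` is bounded by a multiple of `(1 + x) ^ {-r}`. -/
theorem exists_polyExp (m r : ℕ) {c : ℝ} (hc : 0 < c) : ∃ K : ℝ, 0 ≤ K ∧ ∀ x : ℝ, 0 ≤ x →
    (1 + x) ^ m * Real.exp (-(c * (1 + x))) ≤ K * ((1 + x) ^ r)⁻¹ := by
  refine ⟨(m + r).factorial / c ^ (m + r), by positivity, fun x hx => ?_⟩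
  have h1 : 0 < 1 + x := by linarith
  have h2 := Real.pow_div_factorial_le_exp (c * (1 + x)) (by positivity) (m + r)
  rw [Real.exp_neg, ← div_eq_mul_inv, ← div_eq_mul_inv, div_le_div_iff₀ (Real.exp_pos _)
    (by positivity), ← pow_add, div_mul_eq_mul_div, le_div_iff₀ (by positivity)]
  rw [div_le_iff₀ (by positivity), mul_pow] at h2
  linarith only [h2]

/-- Integrability of `(1 + |z|) ^ {- 2 (n + 1)}` over `M`. -/
theorem lintegral_decay (K : ℝ) :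
    ∫⁻ q, ENNReal.ofReal (K * ((1 + ‖q.1‖) ^ (2 * (n + 1)))⁻¹) ∂S.μ < ⊤ := by
  have hm : Measurable fun q : (Fin n → ℂ) × ℂ =>
      ENNReal.ofReal (K * ((1 + ‖q.1‖) ^ (2 * (n + 1)))⁻¹) := by fun_prop
  rw [lintegral_μ hm]
  have hI : Integrable (fun z : Fin n → ℂ => (K * ((1 + ‖z‖) ^ (2 * (n + 1)))⁻¹)) := by
    refine Integrable.const_mul ?_ _
    have h1 : (Module.finrank ℝ (Fin n → ℂ) : ℝ) < (2 * (n + 1) : ℕ) := by
      rw [finrank_real_of_complex, Module.finrank_fin_fun]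
      exact_mod_cast (by omega)
    have h2 := integrable_one_add_norm (μ := (volume : Measure (Fin n → ℂ))) h1
    refine h2.congr (Eventually.of_forall fun z => ?_)
    simp only
    rw [Real.rpow_neg (by positivity), Real.rpow_natCast]
  calc ∫⁻ z in S.V, ∑ w ∈ S.fib z, ENNReal.ofReal (K * ((1 + ‖z‖) ^ (2 * (n + 1)))⁻¹)
      = ∫⁻ z in S.V, (N : ℝ≥0∞) * ENNReal.ofReal (K * ((1 + ‖z‖) ^ (2 * (n + 1)))⁻¹) := by
        refine setLIntegral_congr_fun S.isOpen.measurableSet fun z hz => ?_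
        simp only [Finset.sum_const, card_fib hz, nsmul_eq_mul]
    _ = (N : ℝ≥0∞) * ∫⁻ z in S.V, ENNReal.ofReal (K * ((1 + ‖z‖) ^ (2 * (n + 1)))⁻¹) := by
        rw [lintegral_const_mul]
        fun_prop
    _ < ⊤ := by
        refine ENNReal.mul_lt_top (ENNReal.natCast_lt_top N) ?_
        refine lt_of_le_of_lt (setLIntegral_le_lintegral _ _) hI.lintegral_lt_top

theorem alpha_finite {p : (Fin n → ℂ) → ℝ} {C : ℝ} {k0 : ℕ} (hp : Exh S.V p C k0)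
    {Φ ψ χ : (Fin n → ℂ) × ℂ → ℝ} (hΦb : ∃ c : ℝ, ∀ q ∈ S.M, c ≤ Φ q)
    {α : (Fin n → ℂ) × ℂ → ℂ} (hαb : ∃ (c : ℝ) (k : ℕ), ∀ q ∈ S.M, ‖α q‖ ≤ c * (1 + p q.1) ^ k)
    {c2 : ℝ} (hc2 : 0 < c2) (hχ : ∀ q, χ q = c2 * (1 + p q.1) ^ (k0 + 1))
    (hχψ : ∀ q ∈ S.M, 2 * ψ q ≤ χ q) :
    ∫⁻ q, ENNReal.ofReal (‖α q‖ ^ 2 * Real.exp (-(Φ q + χ q - ψ q))) ∂S.μ < ⊤ := by
  obtain ⟨cΦ, hΦb⟩ := hΦb
  obtain ⟨cα, k, hαb⟩ := hαb
  obtain ⟨K, hK0, hK⟩ := exists_polyExp (2 * k) (n + 1) (c := c2 / 2) (by positivity)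
  refine lt_of_le_of_lt (lintegral_mono_ae ?_)
    (lintegral_decay (S := S) (cα ^ 2 * Real.exp (-cΦ) * K * 2 ^ (n + 1)))
  filter_upwards [ae_mem_M (S := S)] with q hq
  refine ENNReal.ofReal_le_ofReal ?_
  have hqV : q.1 ∈ S.V := hq.1
  have hp1 := hp.norm_sq_le q.1 hqV
  have hp0 : 0 ≤ p q.1 := le_trans (by positivity) hp1
  have h1 : ‖α q‖ ^ 2 ≤ cα ^ 2 * (1 + p q.1) ^ (2 * k) := by
    calc ‖α q‖ ^ 2 ≤ (cα * (1 + p q.1) ^ k) ^ 2 := by
          exact pow_le_pow_left₀ (norm_nonneg _) (hαb q hq) 2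
      _ = cα ^ 2 * (1 + p q.1) ^ (2 * k) := by ring
  have h2 : c2 / 2 * (1 + p q.1) ≤ χ q - ψ q := by
    have h3 := hχψ q hq
    have h4 : (1 + p q.1) ≤ (1 + p q.1) ^ (k0 + 1) := by
      have : (1 : ℝ) ≤ 1 + p q.1 := by linarith
      exact le_self_pow₀ this (by omega)
    have h5 : c2 * (1 + p q.1) ≤ χ q := by
      rw [hχ]
      gcongr
    linarith
  have h3 : Real.exp (-(Φ q + χ q - ψ q)) ≤ Real.exp (-cΦ) * Real.exp (-(c2 / 2 * (1 + p q.1))) := by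
    rw [← Real.exp_add]
    refine Real.exp_le_exp.2 ?_
    have := hΦb q hq
    linarith
  have h4 := hK (p q.1) hp0
  have h5 : ((1 + p q.1) ^ (n + 1))⁻¹ ≤ 2 ^ (n + 1) * ((1 + ‖q.1‖) ^ (2 * (n + 1)))⁻¹ := by
    rw [← div_eq_mul_inv, inv_eq_one_div, div_le_div_iff₀ (by positivity) (by positivity), one_mul,
      pow_mul, ← mul_pow]
    refine pow_le_pow_left₀ (by positivity) ?_ _
    linarith only [sq_nonneg (1 - ‖q.1‖), hp1]
  calc ‖α q‖ ^ 2 * Real.exp (-(Φ q + χ q - ψ q))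
      ≤ (cα ^ 2 * (1 + p q.1) ^ (2 * k)) *
          (Real.exp (-cΦ) * Real.exp (-(c2 / 2 * (1 + p q.1)))) := by gcongr
    _ = cα ^ 2 * Real.exp (-cΦ) * ((1 + p q.1) ^ (2 * k) * Real.exp (-(c2 / 2 * (1 + p q.1)))) := by
        ring
    _ ≤ cα ^ 2 * Real.exp (-cΦ) * (K * ((1 + p q.1) ^ (n + 1))⁻¹) := by gcongr
    _ ≤ cα ^ 2 * Real.exp (-cΦ) * (K * (2 ^ (n + 1) * ((1 + ‖q.1‖) ^ (2 * (n + 1)))⁻¹)) := by gcongr
    _ = cα ^ 2 * Real.exp (-cΦ) * K * 2 ^ (n + 1) * ((1 + ‖q.1‖) ^ (2 * (n + 1)))⁻¹ := by ring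

theorem integrable_expH {u : (Fin n → ℂ) × ℂ → ℝ} (hu : S.CD 2 (fun q => (u q : ℂ)))
    {γ : Fin n → (Fin n → ℂ) × ℂ → ℂ} (h : ∀ j, S.IsTest (γ j)) :
    Integrable (fun q => ‖S.dvH γ q‖ ^ 2 * Real.exp (u q)) S.μ := by
  have h1 : S.CD 0 (fun q => ((‖S.dvH γ q‖ ^ 2 * Real.exp (u q) : ℝ) : ℂ)) := by
    have h2 : S.CD 0 (fun q => ((Real.exp (1 * u q) : ℝ) : ℂ)) := expH_CD hu 1
    refine (((dvH_CD h).mul (dvH_CD h).conj).mul h2).congr fun q _ => ?_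
    rw [Complex.mul_conj, Complex.normSq_eq_norm_sq, one_mul]
    push_cast
    rfl
  exact integrable_realH h1 ((dvH_supp h).of_zeroH fun q hq => by simp [hq])

theorem ψH_CD {p : (Fin n → ℂ) → ℝ} {C : ℝ} {k0 : ℕ} (hp : Exh S.V p C k0) (k1 : ℕ) {τ : ℝ}
    (hτ : 0 < τ) : S.CD 2 (fun q => ((k1 * Real.log (1 + τ * p q.1) : ℝ) : ℂ)) := by
  refine CD.fst (f := fun z => ((k1 * Real.log (1 + τ * p z) : ℝ) : ℂ)) ?_
  have hp2 : ContDiffOn ℝ 2 p S.V := hp.smooth.of_le (by norm_num)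
  refine Complex.ofRealCLM.contDiff.comp_contDiffOn (contDiffOn_const.mul
    ((contDiffOn_const.add (contDiffOn_const.mul hp2)).log fun z hz => ?_))
  have h0 : 0 ≤ p z := le_trans (by positivity) (hp.norm_sq_le z hz)
  positivity

theorem χH_CD {p : (Fin n → ℂ) → ℝ} {C : ℝ} {k0 : ℕ} (hp : Exh S.V p C k0) (c : ℝ) :
    S.CD 2 (fun q => ((c * (1 + p q.1) ^ (k0 + 1) : ℝ) : ℂ)) := by
  refine CD.fst (f := fun z => ((c * (1 + p z) ^ (k0 + 1) : ℝ) : ℂ)) ?_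
  have hp2 : ContDiffOn ℝ 2 p S.V := hp.smooth.of_le (by norm_num)
  exact Complex.ofRealCLM.contDiff.comp_contDiffOn (contDiffOn_const.mul
    ((contDiffOn_const.add hp2).pow _))

/-- The estimate of the pairing. -/
theorem main_est {p : (Fin n → ℂ) → ℝ} {C : ℝ} {k0 : ℕ} (hp : Exh S.V p C k0)
    {Φ : (Fin n → ℂ) × ℂ → ℝ} (hΦ : S.CD 2 (fun q => (Φ q : ℂ)))
    (hΦb : ∃ c : ℝ, ∀ q ∈ S.M, c ≤ Φ q)
    (hlevi : ∀ q ∈ S.M, ∀ β : Fin n → ℂ, 0 ≤ S.levi Φ β q)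
    (α : Fin n → (Fin n → ℂ) × ℂ → ℂ) (hα : ∀ j, S.CD 1 (α j))
    (hcl : ∀ q ∈ S.M, ∀ j k, S.Db j (α k) q = S.Db k (α j) q)
    (hαb : ∃ (c : ℝ) (k : ℕ), ∀ q ∈ S.M, ∀ j, ‖α j q‖ ≤ c * (1 + p q.1) ^ k)
    (a : (Fin n → ℂ) × ℂ → ℝ) (ha : ∀ q, 0 ≤ a q) (ham : AEMeasurable a S.μ)
    (hab : ∀ q ∈ S.M, ∀ β : Fin n → ℂ, ‖∑ j, α j q * conj (β j)‖ ^ 2 ≤ a q * S.levi Φ β q)
    {A : ℝ} (hA0 : 0 ≤ A)
    (hA : ∫⁻ q, ENNReal.ofReal (a q * Real.exp (-Φ q)) ∂S.μ ≤ ENNReal.ofReal A)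
    (γ : Fin n → (Fin n → ℂ) × ℂ → ℂ) (hγ : ∀ j, S.IsTest (γ j)) :
    ‖∫ q, ∑ j, α j q * conj (γ j q) ∂S.μ‖ ^ 2 ≤
      2 * A * ∫ q, ‖S.dvH γ q‖ ^ 2 * Real.exp (Φ q) ∂S.μ := by
  obtain ⟨k1, C2, hC2, hw⟩ := exists_weights hp
  set τ : ℕ → ℝ := fun m => 1 / ((m : ℝ) + 1) with hτdef
  have hτ0 : ∀ m, 0 < τ m := fun m => by positivity
  have hτ1 : ∀ m, τ m ≤ 1 := fun m => by
    rw [hτdef]
    simp only
    rw [div_le_one (by positivity)]
    have : (0 : ℝ) ≤ m := m.cast_nonneg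
    linarith
  have hτlim : Tendsto τ atTop (𝓝 0) := tendsto_one_div_add_atTop_nhds_zero_nat
  have key : ∀ m, ‖∫ q, ∑ j, α j q * conj (γ j q) ∂S.μ‖ ^ 2 ≤
      2 * A * ∫ q, ‖S.dvH γ q‖ ^ 2 * Real.exp (Φ q + C2 * τ m * (1 + p q.1) ^ (k0 + 1) -
        2 * (k1 * Real.log (1 + τ m * p q.1))) ∂S.μ := by
    intro m
    obtain ⟨h1, h2, h3⟩ := hw (τ m) (hτ0 m) (hτ1 m)
    refine twisted_estimate (ψ := fun q => k1 * Real.log (1 + τ m * p q.1))
      (χ := fun q => C2 * τ m * (1 + p q.1) ^ (k0 + 1)) hΦ (ψH_CD hp k1 (hτ0 m)) (χH_CD hp _) h2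
      (fun q hq => h1 q.1 hq.1) hlevi h3 α hα hcl (fun j => ?_) a ha ham hab hA0 hA γ hγ
    obtain ⟨c, k, hc⟩ := hαb
    exact alpha_finite hp hΦb ⟨c, k, fun q hq => hc q hq j⟩ (c2 := C2 * τ m)
      (mul_pos hC2 (hτ0 m)) (fun q => rfl) (fun q hq => h1 q.1 hq.1)
  have lim : Tendsto (fun m => ∫ q, ‖S.dvH γ q‖ ^ 2 *
      Real.exp (Φ q + C2 * τ m * (1 + p q.1) ^ (k0 + 1) -
        2 * (k1 * Real.log (1 + τ m * p q.1))) ∂S.μ) atTop
      (𝓝 (∫ q, ‖S.dvH γ q‖ ^ 2 * Real.exp (Φ q) ∂S.μ)) := by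
    refine tendsto_integral_of_dominated_convergence
      (fun q => ‖S.dvH γ q‖ ^ 2 * Real.exp (Φ q + C2 * (1 + p q.1) ^ (k0 + 1))) (fun m => ?_) ?_
      (fun m => ?_) ?_
    · refine (integrable_expH ?_ hγ).aestronglyMeasurable
      have h1 := (hΦ.add (χH_CD hp (C2 * τ m))).add
        ((CD.const (-2 : ℂ)).mul (ψH_CD hp k1 (hτ0 m)))
      refine h1.congr fun q _ => ?_
      push_cast
      ring
    · refine integrable_expH ?_ hγ
      refine (hΦ.add (χH_CD hp C2)).congr fun q _ => ?_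
      push_cast
      ring
    · filter_upwards [ae_mem_M (S := S)] with q hq
      have hp0 : 0 ≤ p q.1 := le_trans (by positivity) (hp.norm_sq_le q.1 hq.1)
      rw [Real.norm_of_nonneg (by positivity)]
      have hlog : 0 ≤ Real.log (1 + τ m * p q.1) := by
        refine Real.log_nonneg ?_
        have := mul_nonneg (hτ0 m).le hp0
        linarith
      have h4 : C2 * τ m * (1 + p q.1) ^ (k0 + 1) ≤ C2 * (1 + p q.1) ^ (k0 + 1) := by
        have : C2 * τ m ≤ C2 * 1 := by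
          gcongr
          exact hτ1 m
        rw [mul_one] at this
        gcongr
      gcongr
      have h5 : (0 : ℝ) ≤ k1 * Real.log (1 + τ m * p q.1) := by positivity
      linarith
    · filter_upwards [ae_mem_M (S := S)] with q hq
      refine Tendsto.const_mul _ ((Real.continuous_exp.tendsto _).comp ?_)
      have h6 : Tendsto (fun m => Φ q + C2 * τ m * (1 + p q.1) ^ (k0 + 1) -
          2 * (k1 * Real.log (1 + τ m * p q.1))) atTop
          (𝓝 (Φ q + C2 * 0 * (1 + p q.1) ^ (k0 + 1) - 2 * (k1 * Real.log (1 + 0 * p q.1)))) := by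
        refine Tendsto.sub (Tendsto.const_add _ ((hτlim.const_mul _).mul_const _)) ?_
        refine Tendsto.const_mul _ (Tendsto.const_mul _ ?_)
        refine Tendsto.log ((hτlim.mul_const _).const_add _) ?_
        norm_num
      simpa using h6
  exact ge_of_tendsto' (lim.const_mul _) key

/-- Hörmander's theorem on `M`. -/
theorem hormander {p : (Fin n → ℂ) → ℝ} {C : ℝ} {k0 : ℕ} (hp : Exh S.V p C k0)
    {Φ : (Fin n → ℂ) × ℂ → ℝ} (hΦ : S.CD 2 (fun q => (Φ q : ℂ)))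
    (hΦb : ∃ c : ℝ, ∀ q ∈ S.M, c ≤ Φ q)
    (hlevi : ∀ q ∈ S.M, ∀ β : Fin n → ℂ, 0 ≤ S.levi Φ β q)
    (α : Fin n → (Fin n → ℂ) × ℂ → ℂ) (hα : ∀ j, S.CD 1 (α j))
    (hcl : ∀ q ∈ S.M, ∀ j k, S.Db j (α k) q = S.Db k (α j) q)
    (hαb : ∃ (c : ℝ) (k : ℕ), ∀ q ∈ S.M, ∀ j, ‖α j q‖ ≤ c * (1 + p q.1) ^ k)
    (a : (Fin n → ℂ) × ℂ → ℝ) (ha : ∀ q, 0 ≤ a q) (ham : AEMeasurable a S.μ)
    (hab : ∀ q ∈ S.M, ∀ β : Fin n → ℂ, ‖∑ j, α j q * conj (β j)‖ ^ 2 ≤ a q * S.levi Φ β q)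
    {A : ℝ} (hA0 : 0 ≤ A)
    (hA : ∫⁻ q, ENNReal.ofReal (a q * Real.exp (-Φ q)) ∂S.μ ≤ ENNReal.ofReal A) :
    ∃ u : (Fin n → ℂ) × ℂ → ℂ, AEStronglyMeasurable u S.μ ∧
      ∫⁻ q, ENNReal.ofReal (‖u q‖ ^ 2 * Real.exp (-Φ q)) ∂S.μ ≤ ENNReal.ofReal (2 * A) ∧
      ∀ κ, S.IsTest κ → ∀ j, ∫ q, u q * S.Db j κ q ∂S.μ = - ∫ q, α j q * κ q ∂S.μ := by
  obtain ⟨U, hU, hUl⟩ := exists_riesz (LH hΦ) (lH hα) (C := 2 * A) (by positivity) (by
    intro γ
    rw [lH_eq, RCLike.norm_conj, norm_sq_LH]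
    exact main_est hp hΦ hΦb hlevi α hα hcl hαb a ha ham hab hA0 hA γ γ.2)
  have hexp : AEStronglyMeasurable (fun q => ((Real.exp (1 / 2 * Φ q) : ℝ) : ℂ)) S.μ :=
    aestronglyMeasurable_of_CD (expH_CD hΦ _)
  refine ⟨fun q => -(U q * ((Real.exp (1 / 2 * Φ q) : ℝ) : ℂ)),
    ((Lp.aestronglyMeasurable U).mul hexp).neg, ?_, fun κ hκ j => ?_⟩
  · have h1 : ∀ q, ‖-(U q * ((Real.exp (1 / 2 * Φ q) : ℝ) : ℂ))‖ ^ 2 * Real.exp (-Φ q) =
        ‖U q‖ ^ 2 := by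
      intro q
      rw [norm_neg, norm_mul, Complex.norm_real, Real.norm_eq_abs, abs_of_pos (Real.exp_pos _),
        mul_pow, ← Real.exp_nat_mul, mul_assoc, ← Real.exp_add]
      have : ((2 : ℕ) : ℝ) * (1 / 2 * Φ q) + -Φ q = 0 := by
        push_cast
        ring
      rw [this, Real.exp_zero, mul_one]
    simp_rw [h1]
    have hI : Integrable (fun q => ‖U q‖ ^ 2) S.μ :=
      (memLp_two_iff_integrable_sq_norm (Lp.aestronglyMeasurable U)).1 (Lp.memLp U)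
    rw [← ofReal_integral_eq_lintegral_ofReal hI (Eventually.of_forall fun q => by positivity),
      ← norm_sq_Lp]
    exact ENNReal.ofReal_le_ofReal hU
  · set γ : Fin n → (Fin n → ℂ) × ℂ → ℂ := fun i => if i = j then (fun q => conj (κ q)) else
      (fun _ => 0) with hγdef
    have hγ : ∀ i, S.IsTest (γ i) := by
      intro i
      by_cases h : i = j
      · simp only [hγdef, h, if_true]
        exact hκ.conjH
      · simp only [hγdef, h, if_false]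
        exact IsTest.zeroH
    have hγj : γ j = fun q => conj (κ q) := by simp [hγdef]
    have h1 := hUl ⟨γ, hγ⟩
    rw [lH_eq, L2.inner_def] at h1
    have h2 : ∀ q, ∑ i, α i q * conj (γ i q) = α j q * κ q := by
      intro q
      rw [Finset.sum_eq_single j]
      · rw [hγj, Complex.conj_conj]
      · intro i _ hij
        simp [hγdef, hij]
      · simp
    have h3 : ∀ q, S.dvH γ q = conj (S.Db j κ q) := by
      intro q
      rw [dvH, Finset.sum_eq_single j]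
      · rw [hγj, D_conj]
      · intro i _ hij
        have : γ i = fun _ => 0 := by simp [hγdef, hij]
        rw [this]
        exact dz_const 0
      · simp
    have h4 : (∫ q, inner ℂ (U q) ((LH hΦ ⟨γ, hγ⟩ : Lp ℂ 2 S.μ) q) ∂S.μ : ℂ) =
        conj (∫ q, U q * ((Real.exp (1 / 2 * Φ q) : ℝ) : ℂ) * S.Db j κ q ∂S.μ) := by
      rw [← integral_conj]
      refine integral_congr_ae ?_
      filter_upwards [coe_LH hΦ ⟨γ, hγ⟩] with q hq
      rw [hq, RCLike.inner_apply', h3, map_mul, map_mul, Complex.conj_ofReal]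
      ring
    rw [h4] at h1
    have h5 := congrArg (starRingEnd ℂ) h1
    rw [Complex.conj_conj, Complex.conj_conj] at h5
    simp only [h2] at h5
    rw [h5, ← integral_neg]
    congr 1
    funext q
    ring

end Sheets

end Vale.Agent.P282.L2
end
namespace AFastdbfe4ax548b
@[reducible] def a0 {x1 : ℕ} {x2 : ℕ} {x3 : Vale.Agent.P282.L2.Sheets x1 x2} : SMulZeroClass ℂ ↥x3.TT := inferInstance
@[reducible] def a1 {x1 : ℕ} {x2 : ℕ} {x3 : Vale.Agent.P282.L2.Sheets x1 x2} : DistribSMul ℂ ↥x3.TT := inferInstance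
@[reducible] def a2 {x1 : ℕ} {x2 : ℕ} {x3 : Vale.Agent.P282.L2.Sheets x1 x2} : AddZero ↥x3.TT := inferInstance
@[reducible] def a3 {x1 : ℕ} {x2 : ℕ} {x3 : Vale.Agent.P282.L2.Sheets x1 x2} : AddZeroClass ↥x3.TT := inferInstance
@[reducible] def a4 {x1 : ℕ} {x2 : ℕ} {x3 : Vale.Agent.P282.L2.Sheets x1 x2} : AddMonoid ↥x3.TT := inferInstance
@[reducible] def a5 {x1 : ℕ} {x2 : ℕ} {x3 : Vale.Agent.P282.L2.Sheets x1 x2} : DistribMulAction ℂ ↥x3.TT := inferInstance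
end AFastdbfe4ax548b
attribute [local instance] AFastdbfe4ax548b.a0 AFastdbfe4ax548b.a1 AFastdbfe4ax548b.a2
  AFastdbfe4ax548b.a3 AFastdbfe4ax548b.a4 AFastdbfe4ax548b.a5

section

open MeasureTheory Filter Topology
open scoped ENNReal NNReal ComplexConjugate

namespace Vale.Agent.P282.L2

/-- A smooth cutoff: `0` on `(-∞, 4]`, `1` on `[16, ∞)`. -/
noncomputable def nsChi (t : ℝ) : ℝ := Real.smoothTransition ((t - 4) / 12)

theorem nsChi_contDiff (m : ℕ) : ContDiff ℝ m nsChi := by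
  unfold nsChi
  exact Real.smoothTransition.contDiff.comp (by fun_prop)

theorem nsChi_nonneg (t : ℝ) : 0 ≤ nsChi t := Real.smoothTransition.nonneg _

theorem nsChi_le_one (t : ℝ) : nsChi t ≤ 1 := Real.smoothTransition.le_one _

theorem nsChi_zero {t : ℝ} (h : t ≤ 4) : nsChi t = 0 :=
  Real.smoothTransition.zero_of_nonpos (by linarith)

theorem nsChi_one {t : ℝ} (h : 16 ≤ t) : nsChi t = 1 :=
  Real.smoothTransition.one_of_one_le (by linarith)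

theorem deriv_nsChi_left {t : ℝ} (h : t < 4) : deriv nsChi t = 0 := by
  have : nsChi =ᶠ[𝓝 t] fun _ => (0 : ℝ) := by
    filter_upwards [Iio_mem_nhds h] with x hx using nsChi_zero (le_of_lt hx)
  rw [this.deriv_eq]; simp

theorem deriv_nsChi_right {t : ℝ} (h : 16 < t) : deriv nsChi t = 0 := by
  have : nsChi =ᶠ[𝓝 t] fun _ => (1 : ℝ) := by
    filter_upwards [Ioi_mem_nhds h] with x hx using nsChi_one (le_of_lt hx)
  rw [this.deriv_eq]; simp

theorem exists_nsChi_bound : ∃ C₀ : ℝ, 0 ≤ C₀ ∧ ∀ t, |deriv nsChi t| ≤ C₀ := by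
  have hc : Continuous (deriv nsChi) := (nsChi_contDiff 1).continuous_deriv (by norm_num)
  obtain ⟨C, hC⟩ := (isCompact_Icc (a := (4 : ℝ)) (b := 16)).exists_bound_of_continuousOn
    hc.continuousOn
  refine ⟨max C 0, le_max_right _ _, fun t => ?_⟩
  by_cases h1 : t < 4
  · rw [deriv_nsChi_left h1]; simp
  by_cases h2 : 16 < t
  · rw [deriv_nsChi_right h2]; simp
  · exact le_trans (hC t ⟨by linarith, by linarith⟩) (le_max_left _ _)

namespace Sheets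

variable {n N r : ℕ} {S : Sheets n N}

theorem supp_Db {κ : (Fin n → ℂ) × ℂ → ℂ} (h : S.Supp κ) (j : Fin n) : S.Supp (S.Db j κ) := by
  obtain ⟨C, hC, hCV, h0⟩ := h
  refine ⟨C, hC, hCV, fun q hq => ?_⟩
  have h1 : (fun z => κ (z, S.sec q z)) =ᶠ[𝓝 q.1] fun _ => (0 : ℂ) := by
    filter_upwards [hC.isClosed.isOpen_compl.mem_nhds hq] with z hz
    exact h0 _ hz
  rw [Db, dzb_congr h1, dzb_const]

theorem supp_mul_left {κ X : (Fin n → ℂ) × ℂ → ℂ} (h : S.Supp κ) :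
    S.Supp (fun q => X q * κ q) := by
  obtain ⟨C, hC, hCV, h0⟩ := h
  exact ⟨C, hC, hCV, fun q hq => by simp [h0 q hq]⟩

/-- Uniform polynomial bounds for finitely many functions. -/
theorem pg_unif {ι : Type*} [Fintype ι] {p : (Fin n → ℂ) → ℝ} (hp : ∀ z ∈ S.V, 0 ≤ p z)
    {X : ι → (Fin n → ℂ) × ℂ → ℂ}
    (h : ∀ i, ∃ (c : ℝ) (k : ℕ), ∀ q ∈ S.M, ‖X i q‖ ≤ c * (1 + p q.1) ^ k) :
    ∃ (c : ℝ) (k : ℕ), 0 ≤ c ∧ ∀ q ∈ S.M, ∀ i, ‖X i q‖ ≤ c * (1 + p q.1) ^ k := by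
  choose c k hck using h
  refine ⟨∑ i, |c i|, ∑ i, k i, Finset.sum_nonneg fun i _ => abs_nonneg _, fun q hq i => ?_⟩
  have hp1 : 1 ≤ 1 + p q.1 := by linarith [hp q.1 hq.1]
  calc ‖X i q‖ ≤ c i * (1 + p q.1) ^ k i := hck i q hq
    _ ≤ |c i| * (1 + p q.1) ^ (∑ i, k i) := by
        apply mul_le_mul (le_abs_self _) _ (by positivity) (abs_nonneg _)
        exact pow_le_pow_right₀ hp1 (Finset.single_le_sum (fun _ _ => Nat.zero_le _)
          (Finset.mem_univ i))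
    _ ≤ (∑ i, |c i|) * (1 + p q.1) ^ (∑ i, k i) := by
        apply mul_le_mul_of_nonneg_right _ (by positivity)
        exact Finset.single_le_sum (f := fun i => |c i|) (fun _ _ => abs_nonneg _)
          (Finset.mem_univ i)

/-- The functions at scale `ε`. -/
noncomputable def nsPhi (G F : Fin r → (Fin n → ℂ) × ℂ → ℂ) (ν e₁ s ε : ℝ)
    (q : (Fin n → ℂ) × ℂ) : ℝ :=
  ν * Real.log (s + ∑ j, ‖G j q‖ ^ 2) + e₁ * Real.log (ε ^ 2 + ∑ j, ‖F j q‖ ^ 2)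

/-- The cutoff at scale `ε`. -/
noncomputable def nsCut (F : Fin r → (Fin n → ℂ) × ℂ → ℂ) (ε : ℝ) (q : (Fin n → ℂ) × ℂ) : ℝ :=
  nsChi ((∑ j, ‖F j q‖ ^ 2) / ε ^ 2)

theorem CD_normSq {F : Fin r → (Fin n → ℂ) × ℂ → ℂ} (hF : ∀ j, S.Holo (F j)) (k : ℕ) :
    S.CD k (fun q => ((∑ j, ‖F j q‖ ^ 2 : ℝ) : ℂ)) := by
  have := CD.normSq_sum hF k 0
  refine this.congr fun q _ => ?_
  simp

theorem CD_nsPhi {G F : Fin r → (Fin n → ℂ) × ℂ → ℂ} (hF : ∀ j, S.Holo (F j))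
    (hG : ∀ j, S.Holo (G j)) (k : ℕ) {ν e₁ s ε : ℝ} (hs : 0 < s) (hε : 0 < ε) :
    S.CD k (fun q => (nsPhi G F ν e₁ s ε q : ℂ)) := by
  have h1 := (CD.const (S := S) (m := k) (ν : ℂ)).mul (CD.log_normSq_sum hG k hs)
  have h2 := (CD.const (S := S) (m := k) (e₁ : ℂ)).mul
    (CD.log_normSq_sum hF k (by positivity : (0 : ℝ) < ε ^ 2))
  refine (h1.add h2).congr fun q _ => ?_
  simp only [nsPhi]
  push_cast
  ring

theorem CD_nsCut {F : Fin r → (Fin n → ℂ) × ℂ → ℂ} (hF : ∀ j, S.Holo (F j)) (k : ℕ) (ε : ℝ) :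
    S.CD k (fun q => (nsCut F ε q : ℂ)) := by
  have h : ContDiff ℝ k (fun t : ℝ => nsChi (t / ε ^ 2)) :=
    (nsChi_contDiff k).comp (by fun_prop)
  exact CD.comp_real h (CD_normSq hF k)

theorem Db_nsCut {F : Fin r → (Fin n → ℂ) × ℂ → ℂ} (hF : ∀ j, S.Holo (F j)) (ε : ℝ)
    {q : (Fin n → ℂ) × ℂ} (hq : q ∈ S.M) (j : Fin n) :
    S.Db j (fun q => (nsCut F ε q : ℂ)) q =
      ((deriv nsChi ((∑ j, ‖F j q‖ ^ 2) / ε ^ 2) / ε ^ 2 : ℝ) : ℂ) *
        ∑ i, F i q * conj (S.D j (F i) q) := by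
  have hd : DifferentiableAt ℝ nsChi ((∑ j, ‖F j q‖ ^ 2) / ε ^ 2) :=
    ((nsChi_contDiff 1).differentiable (by norm_num)).differentiableAt
  have h1 : HasDerivAt (fun t : ℝ => nsChi (t / ε ^ 2))
      (deriv nsChi ((∑ j, ‖F j q‖ ^ 2) / ε ^ 2) * (1 / ε ^ 2)) (∑ j, ‖F j q‖ ^ 2) := by
    have h2 : HasDerivAt (fun t : ℝ => t / ε ^ 2) (1 / ε ^ 2) (∑ j, ‖F j q‖ ^ 2) := by
      simpa using (hasDerivAt_id (∑ j, ‖F j q‖ ^ 2)).div_const (ε ^ 2)
    have h3 := HasDerivAt.comp (h₂ := nsChi) (h := fun t : ℝ => t / ε ^ 2) (∑ j, ‖F j q‖ ^ 2)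
      hd.hasDerivAt h2
    exact h3
  have h3 := Db_comp_real (S := S) (j := j) (φ := fun t : ℝ => nsChi (t / ε ^ 2))
    (CD_normSq hF 1) hq h1.differentiableAt
  have h4 : S.Db j (fun q => ((∑ j, ‖F j q‖ ^ 2 : ℝ) : ℂ)) q =
      ∑ i, F i q * conj (S.D j (F i) q) := by
    have h5 := Db_normSq_sum hF 0 hq j
    rw [← h5]
    exact Db_congr (fun q _ => by simp) hq
  rw [h4, h1.deriv] at h3
  rw [mul_one_div] at h3
  exact h3

theorem levi_nsPhi_ge {G F : Fin r → (Fin n → ℂ) × ℂ → ℂ} (hF : ∀ j, S.Holo (F j))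
    (hG : ∀ j, S.Holo (G j)) {ν e₁ s ε : ℝ} (hν : 0 ≤ ν) (he : 0 ≤ e₁) (hs : 0 < s) (hε : 0 < ε)
    {q : (Fin n → ℂ) × ℂ} (hq : q ∈ S.M) (β : Fin n → ℂ) :
    e₁ * (ε ^ 2 * (∑ j, ‖∑ k, S.D k (F j) q * β k‖ ^ 2) / (ε ^ 2 + ∑ j, ‖F j q‖ ^ 2) ^ 2) ≤
      S.levi (nsPhi G F ν e₁ s ε) β q := by
  have hε2 : (0 : ℝ) < ε ^ 2 := by positivity
  have h1 := levi_lin (CD.log_normSq_sum hG 2 hs) (CD.log_normSq_sum hF 2 hε2) ν e₁ hq β
  have h2 := levi_log_ge hG hs hq β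
  have h3 := levi_log_ge hF hε2 hq β
  have h4 : 0 ≤ s * (∑ j, ‖∑ k, S.D k (G j) q * β k‖ ^ 2) / (s + ∑ j, ‖G j q‖ ^ 2) ^ 2 := by
    (clear * - hs; positivity)
  have h5 : S.levi (nsPhi G F ν e₁ s ε) β q =
      ν * S.levi (fun q => Real.log (s + ∑ j, ‖G j q‖ ^ 2)) β q +
        e₁ * S.levi (fun q => Real.log (ε ^ 2 + ∑ j, ‖F j q‖ ^ 2)) β q := h1
  rw [h5]
  have h6 := mul_nonneg hν (h4.trans h2)
  have h7 := mul_le_mul_of_nonneg_left h3 he
  linarith only [h7, h6]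

theorem ns_hab {gJ : (Fin n → ℂ) × ℂ → ℂ} {G F : Fin r → (Fin n → ℂ) × ℂ → ℂ}
    (hF : ∀ j, S.Holo (F j)) (hG : ∀ j, S.Holo (G j)) {ν e₁ s ε C₀ : ℝ}
    (hC₀ : ∀ t, |deriv nsChi t| ≤ C₀) (hν : 0 ≤ ν) (he : 0 < e₁) (hs : 0 < s) (hε : 0 < ε)
    {q : (Fin n → ℂ) × ℂ} (hq : q ∈ S.M) (β : Fin n → ℂ) :
    ‖∑ j, (gJ q * S.Db j (fun q => (nsCut F ε q : ℂ)) q) * conj (β j)‖ ^ 2 ≤
      Set.indicator {q | 4 * ε ^ 2 ≤ ∑ j, ‖F j q‖ ^ 2 ∧ ∑ j, ‖F j q‖ ^ 2 ≤ 16 * ε ^ 2}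
        (fun q => 4624 * C₀ ^ 2 / e₁ * ‖gJ q‖ ^ 2) q * S.levi (nsPhi G F ν e₁ s ε) β q := by
  have hε2 : (0 : ℝ) < ε ^ 2 := by positivity
  have hL := levi_nsPhi_ge hF hG hν he.le hs hε hq β
  set f : ℝ := ∑ j, ‖F j q‖ ^ 2 with hf
  have hf0 : 0 ≤ f := by positivity
  set B : ℝ := ∑ j, ‖∑ k, S.D k (F j) q * β k‖ ^ 2 with hB
  have hB0 : 0 ≤ B := by positivity
  set δ : ℝ := deriv nsChi (f / ε ^ 2) with hδ
  have h1 : ∑ j, (gJ q * S.Db j (fun q => (nsCut F ε q : ℂ)) q) * conj (β j) =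
      gJ q * ((δ / ε ^ 2 : ℝ) : ℂ) * ∑ i, F i q * conj (∑ k, S.D k (F i) q * β k) := by
    simp only [Db_nsCut hF ε hq, map_sum, map_mul, Finset.mul_sum, Finset.sum_mul]
    rw [Finset.sum_comm]
    refine Finset.sum_congr rfl fun i _ => Finset.sum_congr rfl fun j _ => ?_
    ring
  have h2 : ‖∑ i, F i q * conj (∑ k, S.D k (F i) q * β k)‖ ^ 2 ≤ f * B := by
    have h3 : ‖∑ i, F i q * conj (∑ k, S.D k (F i) q * β k)‖ ≤
        ∑ i, ‖F i q‖ * ‖∑ k, S.D k (F i) q * β k‖ := by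
      refine (norm_sum_le _ _).trans (le_of_eq (Finset.sum_congr rfl fun i _ => ?_))
      rw [norm_mul, RCLike.norm_conj]
    calc _ ≤ (∑ i, ‖F i q‖ * ‖∑ k, S.D k (F i) q * β k‖) ^ 2 :=
          pow_le_pow_left₀ (norm_nonneg _) h3 2
      _ ≤ f * B := Finset.sum_mul_sq_le_sq_mul_sq _ _ _
  have h4 : ‖∑ j, (gJ q * S.Db j (fun q => (nsCut F ε q : ℂ)) q) * conj (β j)‖ ^ 2 ≤
      ‖gJ q‖ ^ 2 * (δ / ε ^ 2) ^ 2 * (f * B) := by
    rw [h1, norm_mul, norm_mul, mul_pow, mul_pow, Complex.norm_real, Real.norm_eq_abs, sq_abs]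
    exact mul_le_mul_of_nonneg_left h2 (by (clear * -; positivity))
  refine h4.trans ?_
  by_cases hq2 : 4 * ε ^ 2 ≤ f ∧ f ≤ 16 * ε ^ 2
  · rw [Set.indicator_of_mem (by exact hq2)]
    have hδ2 : δ ^ 2 ≤ C₀ ^ 2 := by
      rw [← sq_abs δ]
      exact pow_le_pow_left₀ (abs_nonneg _) (hC₀ _) 2
    have h5 : f * (ε ^ 2 + f) ^ 2 ≤ 4624 * ε ^ 6 := by
      have h6 : (ε ^ 2 + f) ^ 2 ≤ (17 * ε ^ 2) ^ 2 :=
        pow_le_pow_left₀ (by (clear * - hε; positivity)) (by linarith [hq2.2]) 2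
      calc f * (ε ^ 2 + f) ^ 2 ≤ (16 * ε ^ 2) * (17 * ε ^ 2) ^ 2 :=
            mul_le_mul hq2.2 h6 (by positivity) (by positivity)
        _ = 4624 * ε ^ 6 := by ring
    have h7 : 4624 * C₀ ^ 2 / e₁ * ‖gJ q‖ ^ 2 * (e₁ * (ε ^ 2 * B / (ε ^ 2 + f) ^ 2)) ≤
        4624 * C₀ ^ 2 / e₁ * ‖gJ q‖ ^ 2 * S.levi (nsPhi G F ν e₁ s ε) β q :=
      mul_le_mul_of_nonneg_left hL (by (clear * - he; positivity))
    refine le_trans ?_ h7
    have h8 : 4624 * C₀ ^ 2 / e₁ * ‖gJ q‖ ^ 2 * (e₁ * (ε ^ 2 * B / (ε ^ 2 + f) ^ 2)) =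
        ‖gJ q‖ ^ 2 * B * C₀ ^ 2 * (4624 * ε ^ 2 / (ε ^ 2 + f) ^ 2) := by
      field_simp
    rw [h8]
    have h9 : f / ε ^ 4 ≤ 4624 * ε ^ 2 / (ε ^ 2 + f) ^ 2 := by
      rw [div_le_div_iff₀ (by positivity) (by (clear * - hε; positivity))]
      calc f * (ε ^ 2 + f) ^ 2 ≤ 4624 * ε ^ 6 := h5
        _ = 4624 * ε ^ 2 * ε ^ 4 := by ring
    calc ‖gJ q‖ ^ 2 * (δ / ε ^ 2) ^ 2 * (f * B)
        = ‖gJ q‖ ^ 2 * B * δ ^ 2 * (f / ε ^ 4) := by field_simp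
      _ ≤ ‖gJ q‖ ^ 2 * B * C₀ ^ 2 * (4624 * ε ^ 2 / (ε ^ 2 + f) ^ 2) := by
          apply mul_le_mul _ h9 (by (clear * - hε; positivity)) (by (clear * -; positivity))
          exact mul_le_mul_of_nonneg_left hδ2 (by (clear * -; positivity))
  · rw [Set.indicator_of_notMem (by exact hq2)]
    have : δ = 0 := by
      by_cases h5 : 4 * ε ^ 2 ≤ f
      · have h6 : 16 * ε ^ 2 < f := by
          by_contra h7
          exact hq2 ⟨h5, not_lt.mp h7⟩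
        exact deriv_nsChi_right (by rw [lt_div_iff₀ hε2]; exact h6)
      · exact deriv_nsChi_left (by rw [div_lt_iff₀ hε2]; exact not_le.mp h5)
    rw [this]
    simp

theorem ns_hαb {p : (Fin n → ℂ) → ℝ} (hp : ∀ z ∈ S.V, 0 ≤ p z)
    {gJ : (Fin n → ℂ) × ℂ → ℂ} {F : Fin r → (Fin n → ℂ) × ℂ → ℂ}
    (hF : ∀ j, S.Holo (F j)) {ε C₀ : ℝ} (hC₀ : ∀ t, |deriv nsChi t| ≤ C₀)
    (hgp : ∃ (c : ℝ) (k : ℕ), ∀ q ∈ S.M, ‖gJ q‖ ≤ c * (1 + p q.1) ^ k)
    (hFp : ∀ i, ∃ (c : ℝ) (k : ℕ), ∀ q ∈ S.M, ‖F i q‖ ≤ c * (1 + p q.1) ^ k)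
    (hDp : ∀ i j, ∃ (c : ℝ) (k : ℕ), ∀ q ∈ S.M, ‖S.D j (F i) q‖ ≤ c * (1 + p q.1) ^ k) :
    ∃ (c : ℝ) (k : ℕ), ∀ q ∈ S.M, ∀ j,
      ‖gJ q * S.Db j (fun q => (nsCut F ε q : ℂ)) q‖ ≤ c * (1 + p q.1) ^ k := by
  obtain ⟨c1, k1, h1⟩ := hgp
  obtain ⟨c2, k2, hc2, h2⟩ := pg_unif (S := S) hp hFp
  obtain ⟨c3, k3, hc3, h3⟩ := pg_unif (S := S) (ι := Fin r × Fin n) (X := fun i => S.D i.2 (F i.1))
    hp (fun i => hDp i.1 i.2)
  refine ⟨c1 * (C₀ / ε ^ 2 * (r * (c2 * c3))), k1 + (k2 + k3), fun q hq j => ?_⟩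
  have hp1 : 0 ≤ 1 + p q.1 := by linarith [hp q.1 hq.1]
  have h4 : ‖∑ i, F i q * conj (S.D j (F i) q)‖ ≤ r * (c2 * c3) * (1 + p q.1) ^ (k2 + k3) := by
    refine (norm_sum_le _ _).trans ?_
    have h5 : ∀ i ∈ (Finset.univ : Finset (Fin r)), ‖F i q * conj (S.D j (F i) q)‖ ≤
        (c2 * c3) * (1 + p q.1) ^ (k2 + k3) := fun i _ => by
      rw [norm_mul, RCLike.norm_conj]
      calc ‖F i q‖ * ‖S.D j (F i) q‖ ≤ (c2 * (1 + p q.1) ^ k2) * (c3 * (1 + p q.1) ^ k3) :=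
            mul_le_mul (h2 q hq i) (h3 q hq (i, j)) (norm_nonneg _) (by positivity)
        _ = (c2 * c3) * (1 + p q.1) ^ (k2 + k3) := by ring
    refine (Finset.sum_le_sum h5).trans (le_of_eq ?_)
    rw [Finset.sum_const, Finset.card_univ, Fintype.card_fin, nsmul_eq_mul]
    ring
  rw [norm_mul, Db_nsCut hF ε hq, norm_mul, Complex.norm_real, Real.norm_eq_abs, abs_div,
    abs_of_nonneg (by positivity : (0 : ℝ) ≤ ε ^ 2)]
  have hC₀0 : 0 ≤ C₀ := (abs_nonneg _).trans (hC₀ 0)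
  calc ‖gJ q‖ * (|deriv nsChi ((∑ j, ‖F j q‖ ^ 2) / ε ^ 2)| / ε ^ 2 *
        ‖∑ i, F i q * conj (S.D j (F i) q)‖)
      ≤ (c1 * (1 + p q.1) ^ k1) * (C₀ / ε ^ 2 * (r * (c2 * c3) * (1 + p q.1) ^ (k2 + k3))) := by
        apply mul_le_mul (h1 q hq) _ (by positivity) ((norm_nonneg _).trans (h1 q hq))
        apply mul_le_mul _ h4 (norm_nonneg _) (by positivity)
        exact div_le_div_of_nonneg_right (hC₀ _) (by positivity)
    _ = c1 * (C₀ / ε ^ 2 * (r * (c2 * c3))) * (1 + p q.1) ^ (k1 + (k2 + k3)) := by ring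

theorem aem_of_CD {u : (Fin n → ℂ) × ℂ → ℝ} (hu : S.CD 0 (fun q => (u q : ℂ))) :
    AEMeasurable u S.μ := by
  have h := (aestronglyMeasurable_of_CD hu).aemeasurable
  have h2 : AEMeasurable (fun q => ((u q : ℂ)).re) S.μ := Complex.measurable_re.comp_aemeasurable h
  simpa using h2

theorem integrable_mul_test {u : (Fin n → ℂ) × ℂ → ℂ} (hu : AEStronglyMeasurable u S.μ)
    {Φ : (Fin n → ℂ) × ℂ → ℝ} (hΦ : S.CD 0 (fun q => (Φ q : ℂ)))
    (hfin : ∫⁻ q, ENNReal.ofReal (‖u q‖ ^ 2 * Real.exp (-Φ q)) ∂S.μ < ⊤)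
    {Y : (Fin n → ℂ) × ℂ → ℂ} (hY : S.CD 0 Y) (hs : S.Supp Y) :
    Integrable (fun q => u q * Y q) S.μ := by
  have hΦm : AEMeasurable Φ S.μ := aem_of_CD hΦ
  have hYm := aestronglyMeasurable_of_CD hY
  have h1 : Integrable (fun q => ‖u q‖ ^ 2 * Real.exp (-Φ q)) S.μ := by
    refine ⟨?_, ?_⟩
    · exact ((hu.norm.aemeasurable.pow_const 2).mul
        (Real.measurable_exp.comp_aemeasurable hΦm.neg)).aestronglyMeasurable
    · rw [hasFiniteIntegral_iff_ofReal (Eventually.of_forall fun q => by positivity)]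
      exact hfin
  have h2 : Integrable (fun q => ((Real.exp (Φ q) : ℝ) : ℂ) * (Y q * conj (Y q))) S.μ := by
    have hexp : S.CD 0 (fun q => ((Real.exp (Φ q) : ℝ) : ℂ)) :=
      CD.comp_real (m := 0) (Real.contDiff_exp) hΦ
    refine integrable_of_supp (hexp.mul (hY.mul hY.conj)) ?_
    obtain ⟨C, hC, hCV, h0⟩ := hs
    exact ⟨C, hC, hCV, fun q hq => by simp [h0 q hq]⟩
  have h3 : Integrable (fun q => Real.exp (Φ q) * ‖Y q‖ ^ 2) S.μ := by
    refine h2.norm.congr (Eventually.of_forall fun q => ?_)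
    simp only [norm_mul, RCLike.norm_conj, Complex.norm_real, Real.norm_eq_abs, Real.abs_exp]
    ring
  refine (h1.add h3).mono' (hu.mul hYm) (Eventually.of_forall fun q => ?_)
  simp only [norm_mul, Pi.add_apply]
  have h4 : Real.exp (-Φ q) * Real.exp (Φ q) = 1 := by rw [← Real.exp_add]; simp
  have h5 : 0 < Real.exp (-Φ q / 2) := Real.exp_pos _
  have h6 : Real.exp (-Φ q) = Real.exp (-Φ q / 2) ^ 2 := by
    rw [← Real.exp_nat_mul]; congr 1; push_cast; ring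
  have h7 : Real.exp (Φ q) = (Real.exp (-Φ q / 2) ^ 2)⁻¹ := by
    rw [← h6, Real.exp_neg, inv_inv]
  rw [h6, h7]
  set e := Real.exp (-Φ q / 2)
  have h8 : ‖u q‖ * ‖Y q‖ = (‖u q‖ * e) * (‖Y q‖ * e⁻¹) := by
    field_simp
  rw [h8]
  have h9 : ‖u q‖ ^ 2 * e ^ 2 + (e ^ 2)⁻¹ * ‖Y q‖ ^ 2 = (‖u q‖ * e) ^ 2 + (‖Y q‖ * e⁻¹) ^ 2 := by
    rw [mul_pow, mul_pow, inv_pow]; ring
  rw [h9]
  linarith only [sq_nonneg (‖Y q‖ * e⁻¹), sq_nonneg (‖u q‖ * e), sq_nonneg (‖u q‖ * e - ‖Y q‖ * e⁻¹)]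

theorem ns_nullMeas {F : Fin r → (Fin n → ℂ) × ℂ → ℂ} (hF : ∀ j, S.Holo (F j)) (a b : ℝ) :
    NullMeasurableSet {q | a ≤ ∑ j, ‖F j q‖ ^ 2 ∧ ∑ j, ‖F j q‖ ^ 2 ≤ b} S.μ := by
  have hm : AEMeasurable (fun q => ∑ j, ‖F j q‖ ^ 2) S.μ := aem_of_CD (CD_normSq hF 0)
  exact (nullMeasurableSet_le aemeasurable_const hm).inter
    (nullMeasurableSet_le hm aemeasurable_const)

/-- The solution of the equation with the cutoff at scale `ε`. -/
theorem solve_scale {p : (Fin n → ℂ) → ℝ} {C : ℝ} {k0 : ℕ} (hp : Exh S.V p C k0)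
    {gJ : (Fin n → ℂ) × ℂ → ℂ} {G F : Fin r → (Fin n → ℂ) × ℂ → ℂ} (hg : S.Holo gJ)
    (hF : ∀ j, S.Holo (F j)) (hG : ∀ j, S.Holo (G j)) {ν e₁ s ε C₀ : ℝ}
    (hC₀ : ∀ t, |deriv nsChi t| ≤ C₀) (hν : 0 ≤ ν) (he : 0 < e₁) (hs : 0 < s) (hε : 0 < ε)
    (hgp : ∃ (c : ℝ) (k : ℕ), ∀ q ∈ S.M, ‖gJ q‖ ≤ c * (1 + p q.1) ^ k)
    (hFp : ∀ i, ∃ (c : ℝ) (k : ℕ), ∀ q ∈ S.M, ‖F i q‖ ≤ c * (1 + p q.1) ^ k)
    (hDp : ∀ i j, ∃ (c : ℝ) (k : ℕ), ∀ q ∈ S.M, ‖S.D j (F i) q‖ ≤ c * (1 + p q.1) ^ k)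
    {A : ℝ} (hA0 : 0 ≤ A)
    (hA : ∫⁻ q in {q | 4 * ε ^ 2 ≤ ∑ j, ‖F j q‖ ^ 2 ∧ ∑ j, ‖F j q‖ ^ 2 ≤ 16 * ε ^ 2},
      ENNReal.ofReal (4624 * C₀ ^ 2 / e₁ * ‖gJ q‖ ^ 2 *
        Real.exp (-(nsPhi G F ν e₁ s ε q))) ∂S.μ ≤ ENNReal.ofReal A) :
    ∃ u : (Fin n → ℂ) × ℂ → ℂ, AEStronglyMeasurable u S.μ ∧
      ∫⁻ q, ENNReal.ofReal (‖u q‖ ^ 2 * Real.exp (-(nsPhi G F ν e₁ s ε q))) ∂S.μ ≤
        ENNReal.ofReal (2 * A) ∧
      ∀ κ, S.IsTest κ → ∀ j,
        ∫ q, ((1 - (nsCut F ε q : ℂ)) * gJ q + u q) * S.Db j κ q ∂S.μ = 0 := by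
  have hε2 : (0 : ℝ) < ε ^ 2 := by positivity
  set Φ := nsPhi G F ν e₁ s ε with hΦdef
  have hΦ2 : ∀ k : ℕ, S.CD k (fun q => (Φ q : ℂ)) := fun k => CD_nsPhi hF hG k hs hε
  have hp0 : ∀ z ∈ S.V, 0 ≤ p z := fun z hz => le_trans (by positivity) (hp.norm_sq_le z hz)
  set T : Set ((Fin n → ℂ) × ℂ) :=
    {q | 4 * ε ^ 2 ≤ ∑ j, ‖F j q‖ ^ 2 ∧ ∑ j, ‖F j q‖ ^ 2 ≤ 16 * ε ^ 2} with hT
  have hTm : NullMeasurableSet T S.μ := ns_nullMeas hF _ _
  set χ : (Fin n → ℂ) × ℂ → ℂ := fun q => (nsCut F ε q : ℂ) with hχ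
  have hχ2 : ∀ k : ℕ, S.CD k χ := fun k => CD_nsCut hF k ε
  set a : (Fin n → ℂ) × ℂ → ℝ := T.indicator (fun q => 4624 * C₀ ^ 2 / e₁ * ‖gJ q‖ ^ 2) with ha
  have hgm : AEStronglyMeasurable gJ S.μ := aestronglyMeasurable_of_CD (hg.CD 0)
  have ha0 : ∀ q, 0 ≤ a q := fun q => Set.indicator_nonneg (fun q _ => by (clear * - he; positivity)) q
  have ham : AEMeasurable a S.μ :=
    (((hgm.norm.aemeasurable.pow_const 2).const_mul _).indicator₀ hTm)
  have hΦb : ∃ c : ℝ, ∀ q ∈ S.M, c ≤ Φ q := by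
    refine ⟨ν * Real.log s + e₁ * Real.log (ε ^ 2), fun q _ => ?_⟩
    have h1 : Real.log s ≤ Real.log (s + ∑ j, ‖G j q‖ ^ 2) :=
      Real.log_le_log hs (by linarith only [show 0 ≤ ∑ j, ‖G j q‖ ^ 2 by positivity])
    have h2 : Real.log (ε ^ 2) ≤ Real.log (ε ^ 2 + ∑ j, ‖F j q‖ ^ 2) :=
      Real.log_le_log hε2 (by linarith only [show 0 ≤ ∑ j, ‖F j q‖ ^ 2 by positivity])
    exact add_le_add (mul_le_mul_of_nonneg_left h1 hν) (mul_le_mul_of_nonneg_left h2 he.le)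
  have hlevi : ∀ q ∈ S.M, ∀ β : Fin n → ℂ, 0 ≤ S.levi Φ β q := fun q hq β =>
    le_trans (by (clear * - he hε; positivity)) (levi_nsPhi_ge hF hG hν he.le hs hε hq β)
  set α : Fin n → (Fin n → ℂ) × ℂ → ℂ := fun j q => gJ q * S.Db j χ q with hα
  have hα1 : ∀ j, S.CD 1 (α j) := fun j => (hg.CD 1).mul (CD.Db (hχ2 2))
  have hcl : ∀ q ∈ S.M, ∀ j k, S.Db j (α k) q = S.Db k (α j) q := by
    intro q hq j k
    have e1 : S.Db j (α k) q = gJ q * S.Db j (S.Db k χ) q := by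
      rw [show α k = fun q => gJ q * S.Db k χ q from rfl,
        Db_mul (hg.CD 1) (CD.Db (m := 1) (hχ2 2)) hq, hg.Db hq]
      ring
    have e2 : S.Db k (α j) q = gJ q * S.Db k (S.Db j χ) q := by
      rw [show α j = fun q => gJ q * S.Db j χ q from rfl,
        Db_mul (hg.CD 1) (CD.Db (m := 1) (hχ2 2)) hq, hg.Db hq]
      ring
    rw [e1, e2, Db_Db_comm (hχ2 2) hq]
  have hαb := ns_hαb (S := S) (ε := ε) hp0 hF hC₀ hgp hFp hDp
  have hab : ∀ q ∈ S.M, ∀ β : Fin n → ℂ, ‖∑ j, α j q * conj (β j)‖ ^ 2 ≤ a q * S.levi Φ β q :=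
    fun q hq β => ns_hab hF hG hC₀ hν he hs hε hq β
  have hA' : ∫⁻ q, ENNReal.ofReal (a q * Real.exp (-Φ q)) ∂S.μ ≤ ENNReal.ofReal A := by
    refine le_trans (le_of_eq ?_) hA
    rw [← lintegral_indicator₀ hTm]
    refine lintegral_congr fun q => ?_
    by_cases hq : q ∈ T
    · rw [ha, Set.indicator_of_mem hq, Set.indicator_of_mem hq]
    · rw [ha, Set.indicator_of_notMem hq, Set.indicator_of_notMem hq]
      simp
  obtain ⟨u, hum, hub, hu⟩ := hormander hp (hΦ2 2) hΦb hlevi α hα1 hcl hαb a ha0 ham hab hA0 hA'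
  refine ⟨u, hum, hub, fun κ hκ j => ?_⟩
  have hκ1 : S.CD 1 κ := hκ.1.mono (by norm_num)
  have hDκ : S.CD 0 (S.Db j κ) := CD.Db (m := 0) hκ1
  have hDs : S.Supp (S.Db j κ) := supp_Db hκ.2 j
  have hX1 : S.CD 1 (fun q => (1 - χ q) * gJ q) := by
    have h1 : S.CD 1 (fun q => ((-1 : ℂ) * χ q + 1) * gJ q) :=
      (((CD.const (-1)).mul (hχ2 1)).add (CD.const 1)).mul (hg.CD 1)
    refine h1.congr fun q _ => ?_
    ring
  have hI1 : Integrable (fun q => (1 - χ q) * gJ q * S.Db j κ q) S.μ :=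
    integrable_of_supp ((hX1.mono (by norm_num)).mul hDκ) (supp_mul_left hDs)
  have hI2 : Integrable (fun q => u q * S.Db j κ q) S.μ :=
    integrable_mul_test hum (hΦ2 0) (lt_of_le_of_lt hub ENNReal.ofReal_lt_top) hDκ hDs
  have h1 : ∫ q, (1 - χ q) * gJ q * S.Db j κ q ∂S.μ = ∫ q, α j q * κ q ∂S.μ := by
    rw [integral_mul_Db hX1 hκ1 hκ.2, ← integral_neg]
    refine integral_congr_ae ?_
    filter_upwards [ae_mem_M (S := S)] with q hq
    have h2 : S.Db j (fun q => (1 - χ q) * gJ q) q = - α j q := by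
      have h3 : S.CD 1 (fun q => (-1 : ℂ) * χ q) := (CD.const (-1)).mul (hχ2 1)
      have h4 : S.CD 1 (fun q => (-1 : ℂ) * χ q + 1) := h3.add (CD.const 1)
      have h5 : S.Db j (fun q => (1 - χ q) * gJ q) q =
          S.Db j (fun q => ((-1 : ℂ) * χ q + 1) * gJ q) q :=
        Db_congr (fun q _ => by ring) hq
      rw [h5, Db_mul h4 (hg.CD 1) hq, hg.Db hq, Db_add h3 (CD.const 1) hq,
        Db_mul (CD.const (-1)) (hχ2 1) hq, (Holo.const (-1)).Db hq, (Holo.const 1).Db hq]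
      simp only [hα]
      ring
    simp only [h2]
    ring
  calc ∫ q, ((1 - χ q) * gJ q + u q) * S.Db j κ q ∂S.μ
      = ∫ q, ((1 - χ q) * gJ q * S.Db j κ q + u q * S.Db j κ q) ∂S.μ := by
        refine integral_congr_ae (Eventually.of_forall fun q => ?_)
        simp only
        ring
    _ = ∫ q, (1 - χ q) * gJ q * S.Db j κ q ∂S.μ + ∫ q, u q * S.Db j κ q ∂S.μ :=
        integral_add hI1 hI2
    _ = 0 := by rw [h1, hu κ hκ j]; ring

end Sheets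

section real

variable {f gg s ε ν e₁ e₂ : ℝ}

theorem ns_real1 (hs : 0 < s) (hε : 0 < ε) (hν : 0 ≤ ν) (he₁ : 0 ≤ e₁) (he₂ : e₁ ≤ e₂)
    (h1 : 4 * ε ^ 2 ≤ f) (h2 : f ≤ 16 * ε ^ 2) (hg : f / 4 ≤ gg) :
    (s + gg) ^ (-ν) * (ε ^ 2 + f) ^ (-e₁) ≤
      (4 : ℝ) ^ ν * (16 : ℝ) ^ (e₂ - e₁) * (ε ^ (e₂ - e₁)) ^ 2 * f ^ (-(ν + e₂)) := by
  have hε2 : (0 : ℝ) < ε ^ 2 := by positivity
  have hf : 0 < f := by linarith
  have a1 : (s + gg) ^ (-ν) ≤ (f / 4) ^ (-ν) :=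
    Real.rpow_le_rpow_of_nonpos (by positivity) (by linarith) (by linarith)
  have a2 : (f / 4) ^ (-ν) = (4 : ℝ) ^ ν * f ^ (-ν) := by
    rw [Real.div_rpow hf.le (by norm_num), Real.rpow_neg (by norm_num : (0 : ℝ) ≤ 4), div_inv_eq_mul]
    ring
  have a3 : (ε ^ 2 + f) ^ (-e₁) ≤ f ^ (-e₁) :=
    Real.rpow_le_rpow_of_nonpos hf (by linarith) (by linarith)
  have a4 : f ^ (-e₁) = f ^ (-e₂) * f ^ (e₂ - e₁) := by
    rw [← Real.rpow_add hf]; congr 1; ring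
  have a5 : f ^ (e₂ - e₁) ≤ (16 * ε ^ 2) ^ (e₂ - e₁) :=
    Real.rpow_le_rpow hf.le h2 (by linarith)
  have a6 : (16 * ε ^ 2) ^ (e₂ - e₁) = (16 : ℝ) ^ (e₂ - e₁) * (ε ^ (e₂ - e₁)) ^ 2 := by
    rw [Real.mul_rpow (by norm_num) hε2.le, ← Real.rpow_natCast ε 2, ← Real.rpow_natCast _ 2,
      ← Real.rpow_mul hε.le, ← Real.rpow_mul hε.le]
    congr 2
    ring
  have a7 : f ^ (-(ν + e₂)) = f ^ (-ν) * f ^ (-e₂) := by
    rw [← Real.rpow_add hf]; congr 1; ring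
  have p1 : 0 ≤ f ^ (-ν) := by positivity
  have p2 : 0 ≤ f ^ (-e₂) := by positivity
  calc (s + gg) ^ (-ν) * (ε ^ 2 + f) ^ (-e₁)
      ≤ ((4 : ℝ) ^ ν * f ^ (-ν)) * (f ^ (-e₂) * ((16 : ℝ) ^ (e₂ - e₁) * (ε ^ (e₂ - e₁)) ^ 2)) := by
        apply mul_le_mul (a1.trans a2.le) _ (by positivity) (by positivity)
        refine a3.trans ?_
        rw [a4]
        exact mul_le_mul_of_nonneg_left (a5.trans a6.le) p2
    _ = _ := by rw [a7]; ring

theorem ns_real2 (hε : 0 < ε) (hε1 : ε ≤ 1) (hν : 0 ≤ ν) (he₁ : 0 ≤ e₁) (he₂ : e₁ ≤ e₂)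
    (h1 : 0 < f) (h2 : f ≤ 16 * ε ^ 2) :
    1 ≤ (16 : ℝ) ^ (ν + e₂) * (ε ^ (e₂ - e₁)) ^ 2 * f ^ (-(ν + e₂)) := by
  have hε2 : (0 : ℝ) < ε ^ 2 := by positivity
  have a1 : f ^ (ν + e₂) ≤ (16 * ε ^ 2) ^ (ν + e₂) := Real.rpow_le_rpow h1.le h2 (by linarith)
  have a2 : (16 * ε ^ 2) ^ (ν + e₂) = (16 : ℝ) ^ (ν + e₂) * (ε ^ 2) ^ (ν + e₂) :=
    Real.mul_rpow (by norm_num) hε2.le
  have a3 : (ε ^ 2) ^ (ν + e₂) ≤ (ε ^ 2) ^ (e₂ - e₁) :=
    Real.rpow_le_rpow_of_exponent_ge hε2 (by (by_contra nlg; linarith only [nlg, mul_nonneg (sub_nonneg.2 hε1) (le_of_lt (sub_pos.2 hε2)), mul_nonneg (le_of_lt (sub_pos.2 hε)) (sub_nonneg.2 hε1), mul_pos (sub_pos.2 (not_le.1 nlg)) (sub_pos.2 hε)])) (by linarith)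
  have a4 : (ε ^ 2) ^ (e₂ - e₁) = (ε ^ (e₂ - e₁)) ^ 2 := by
    rw [← Real.rpow_natCast ε 2, ← Real.rpow_natCast _ 2, ← Real.rpow_mul hε.le,
      ← Real.rpow_mul hε.le]
    congr 1
    ring
  have a5 : 0 < f ^ (ν + e₂) := Real.rpow_pos_of_pos h1 _
  rw [Real.rpow_neg h1.le, ← div_eq_mul_inv, one_le_div a5]
  calc f ^ (ν + e₂) ≤ (16 : ℝ) ^ (ν + e₂) * (ε ^ 2) ^ (ν + e₂) := a1.trans a2.le
    _ ≤ (16 : ℝ) ^ (ν + e₂) * (ε ^ (e₂ - e₁)) ^ 2 :=
        mul_le_mul_of_nonneg_left (a3.trans a4.le) (by positivity)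

theorem ns_real3 (hs : 0 < s) (hs1 : s ≤ 1) (hε : 0 < ε) (hε1 : ε ≤ 1) (hν : 0 ≤ ν)
    (he₁ : 0 ≤ e₁) {t a b : ℝ} {ka kb k : ℕ} (ht : 0 ≤ t) (hgg : 0 ≤ gg) (hf : 0 ≤ f)
    (ha : 0 ≤ a) (hb : 0 ≤ b)
    (h1 : gg ≤ a * (1 + t) ^ ka) (h2 : f ≤ b * (1 + t) ^ kb) (hk : ka * ν + kb * e₁ ≤ k) :
    ((1 + t) ^ k)⁻¹ ≤ (1 + a) ^ ν * (1 + b) ^ e₁ * ((s + gg) ^ (-ν) * (ε ^ 2 + f) ^ (-e₁)) := by
  have hε2 : (0 : ℝ) < ε ^ 2 := by positivity
  have hε21 : ε ^ 2 ≤ 1 := by (by_contra nlg; linarith only [nlg, mul_nonneg (sub_nonneg.2 hε1) (le_of_lt (sub_pos.2 hε2)), mul_nonneg (le_of_lt (sub_pos.2 hε)) (sub_nonneg.2 hε1), mul_pos (sub_pos.2 (not_le.1 nlg)) (sub_pos.2 hε)])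
  have ht1 : 1 ≤ 1 + t := by linarith
  have key : ∀ (x σ c : ℝ) (j : ℕ) (y : ℝ), 0 < σ → σ ≤ 1 → 0 ≤ x → 0 ≤ c → 0 ≤ y →
      x ≤ c * (1 + t) ^ j → (σ + x) ^ y ≤ (1 + c) ^ y * (1 + t) ^ ((j : ℝ) * y) := by
    intro x σ c j y hσ hσ1 hx hc hy hxc
    have b1 : 1 ≤ (1 + t) ^ j := one_le_pow₀ ht1
    have b2 : σ + x ≤ (1 + c) * (1 + t) ^ j := by linarith only [b1, hxc, hσ1]
    have b3 : (σ + x) ^ y ≤ ((1 + c) * (1 + t) ^ j) ^ y :=
      Real.rpow_le_rpow (by positivity) b2 hy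
    have b4 : ((1 + c) * (1 + t) ^ j) ^ y = (1 + c) ^ y * (1 + t) ^ ((j : ℝ) * y) := by
      rw [Real.mul_rpow (by positivity) (by positivity), ← Real.rpow_natCast (1 + t) j,
        ← Real.rpow_mul (by positivity)]
    exact b3.trans b4.le
  have c1 := key gg s a ka ν hs hs1 hgg ha hν h1
  have c2 := key f (ε ^ 2) b kb e₁ hε2 hε21 hf hb he₁ h2
  have d1 : 0 < (s + gg) ^ ν := Real.rpow_pos_of_pos (by linarith) _
  have d2 : 0 < (ε ^ 2 + f) ^ e₁ := Real.rpow_pos_of_pos (by linarith) _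
  have c3 : (1 + t) ^ ((ka : ℝ) * ν) * (1 + t) ^ ((kb : ℝ) * e₁) ≤ (1 + t) ^ k := by
    rw [← Real.rpow_add (by linarith), ← Real.rpow_natCast (1 + t) k]
    exact Real.rpow_le_rpow_of_exponent_le ht1 hk
  have c4 : (s + gg) ^ ν * (ε ^ 2 + f) ^ e₁ ≤ (1 + a) ^ ν * (1 + b) ^ e₁ * (1 + t) ^ k := by
    calc (s + gg) ^ ν * (ε ^ 2 + f) ^ e₁
        ≤ ((1 + a) ^ ν * (1 + t) ^ ((ka : ℝ) * ν)) * ((1 + b) ^ e₁ * (1 + t) ^ ((kb : ℝ) * e₁)) :=
          mul_le_mul c1 c2 d2.le (by positivity)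
      _ = (1 + a) ^ ν * (1 + b) ^ e₁ * ((1 + t) ^ ((ka : ℝ) * ν) * (1 + t) ^ ((kb : ℝ) * e₁)) := by
          ring
      _ ≤ (1 + a) ^ ν * (1 + b) ^ e₁ * (1 + t) ^ k := mul_le_mul_of_nonneg_left c3 (by positivity)
  rw [Real.rpow_neg (by linarith), Real.rpow_neg (by linarith), ← mul_inv, ← div_eq_mul_inv,
    le_div_iff₀ (by positivity), inv_mul_le_iff₀ (by positivity)]
  linarith

end real

theorem ns_exp {n r : ℕ} {G F : Fin r → (Fin n → ℂ) × ℂ → ℂ} {ν e₁ s ε : ℝ} (hs : 0 < s)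
    (hε : 0 < ε) (q : (Fin n → ℂ) × ℂ) :
    Real.exp (-(Sheets.nsPhi G F ν e₁ s ε q)) =
      (s + ∑ j, ‖G j q‖ ^ 2) ^ (-ν) * (ε ^ 2 + ∑ j, ‖F j q‖ ^ 2) ^ (-e₁) := by
  have h1 : 0 < s + ∑ j, ‖G j q‖ ^ 2 := by positivity
  have h2 : 0 < ε ^ 2 + ∑ j, ‖F j q‖ ^ 2 := by positivity
  rw [Real.rpow_def_of_pos h1, Real.rpow_def_of_pos h2, ← Real.exp_add]
  congr 1
  unfold Sheets.nsPhi
  ring

namespace Sheets

section scale

variable {n N r : ℕ} {S : Sheets n N} {F G : Fin r → (Fin n → ℂ) × ℂ → ℂ}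
  {g Ji : (Fin n → ℂ) × ℂ → ℂ} {ν e₁ e₂ s ε I₀ C' : ℝ} {W₀ : Set ((Fin n → ℂ) × ℂ)}

/-- The integrand of the hypothesis. -/
noncomputable def nsInt (F : Fin r → (Fin n → ℂ) × ℂ → ℂ) (g Ji : (Fin n → ℂ) × ℂ → ℂ)
    (ν e₂ : ℝ) (q : (Fin n → ℂ) × ℂ) : ℝ :=
  ‖g q‖ ^ 2 * (∑ j, ‖F j q‖ ^ 2) ^ (-(ν + e₂)) * ‖Ji q‖ ^ 2

theorem nsInt_nonneg (q : (Fin n → ℂ) × ℂ) : 0 ≤ nsInt F g Ji ν e₂ q := by
  unfold nsInt; positivity

theorem ns_A (hF : ∀ j, S.Holo (F j)) (hν : 0 ≤ ν) (he₁ : 0 < e₁) (he₂ : e₁ < e₂) (hs : 0 < s)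
    (hε : 0 < ε) (hC' : 0 ≤ C')
    (hGF : ∀ q ∈ S.M, 4 * ε ^ 2 ≤ ∑ j, ‖F j q‖ ^ 2 → ∑ j, ‖F j q‖ ^ 2 ≤ 16 * ε ^ 2 →
      (∑ j, ‖F j q‖ ^ 2) / 4 ≤ ∑ j, ‖G j q‖ ^ 2)
    (hloc : ∀ q ∈ S.M, ∑ j, ‖F j q‖ ^ 2 ≤ 16 * ε ^ 2 → q ∈ W₀)
    (hI : ∫⁻ q in W₀, ENNReal.ofReal (nsInt F g Ji ν e₂ q) ∂S.μ = ENNReal.ofReal I₀) :
    ∫⁻ q in {q | 4 * ε ^ 2 ≤ ∑ j, ‖F j q‖ ^ 2 ∧ ∑ j, ‖F j q‖ ^ 2 ≤ 16 * ε ^ 2},
      ENNReal.ofReal (C' * ‖g q * Ji q‖ ^ 2 * Real.exp (-(nsPhi G F ν e₁ s ε q))) ∂S.μ ≤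
        ENNReal.ofReal (C' * ((4 : ℝ) ^ ν * (16 : ℝ) ^ (e₂ - e₁)) * I₀ * (ε ^ (e₂ - e₁)) ^ 2) := by
  have hTm := ns_nullMeas (S := S) hF (4 * ε ^ 2) (16 * ε ^ 2)
  set C2 : ℝ := C' * ((4 : ℝ) ^ ν * (16 : ℝ) ^ (e₂ - e₁)) with hC2
  have hC20 : 0 ≤ C2 := by positivity
  set η : ℝ := ε ^ (e₂ - e₁) with hη
  have h1 : ∀ᵐ q ∂(S.μ.restrict
      {q | 4 * ε ^ 2 ≤ ∑ j, ‖F j q‖ ^ 2 ∧ ∑ j, ‖F j q‖ ^ 2 ≤ 16 * ε ^ 2}),
      ENNReal.ofReal (C' * ‖g q * Ji q‖ ^ 2 * Real.exp (-(nsPhi G F ν e₁ s ε q))) ≤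
      ENNReal.ofReal (C2 * η ^ 2) * ENNReal.ofReal (nsInt F g Ji ν e₂ q) := by
    filter_upwards [ae_restrict_of_ae (ae_mem_M (S := S)), ae_restrict_mem₀ hTm]
      with q hq hqT
    rw [← ENNReal.ofReal_mul (by positivity)]
    refine ENNReal.ofReal_le_ofReal ?_
    rw [ns_exp hs hε, norm_mul, mul_pow]
    have h2 := ns_real1 hs hε hν he₁.le he₂.le hqT.1 hqT.2 (hGF q hq hqT.1 hqT.2)
    have h3 := mul_le_mul_of_nonneg_left h2 (by (clear * - hC'; positivity) : 0 ≤ C' * (‖g q‖ ^ 2 * ‖Ji q‖ ^ 2))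
    refine h3.trans (le_of_eq ?_)
    rw [hC2, nsInt]
    ring
  calc _ ≤ ∫⁻ q in {q | 4 * ε ^ 2 ≤ ∑ j, ‖F j q‖ ^ 2 ∧ ∑ j, ‖F j q‖ ^ 2 ≤ 16 * ε ^ 2},
        ENNReal.ofReal (C2 * η ^ 2) * ENNReal.ofReal (nsInt F g Ji ν e₂ q) ∂S.μ :=
        lintegral_mono_ae h1
    _ ≤ ∫⁻ q in W₀, ENNReal.ofReal (C2 * η ^ 2) * ENNReal.ofReal (nsInt F g Ji ν e₂ q) ∂S.μ := by
        refine lintegral_mono_set' ?_
        filter_upwards [ae_mem_M (S := S)] with q hq hqT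
        exact hloc q hq hqT.2
    _ = ENNReal.ofReal (C2 * η ^ 2) * ENNReal.ofReal I₀ := by
        rw [lintegral_const_mul' _ _ ENNReal.ofReal_ne_top, hI]
    _ = ENNReal.ofReal (C2 * I₀ * η ^ 2) := by
        rw [← ENNReal.ofReal_mul (by positivity)]; congr 1; ring

theorem norm_one_sub_nsCut_le (F : Fin r → (Fin n → ℂ) × ℂ → ℂ) (ε : ℝ) (q : (Fin n → ℂ) × ℂ) :
    ‖(1 : ℂ) - (nsCut F ε q : ℂ)‖ ≤ 1 := by
  have h7 : (1 : ℂ) - (nsCut F ε q : ℂ) = ((1 - nsCut F ε q : ℝ) : ℂ) := by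
    push_cast; ring
  rw [h7, Complex.norm_real, Real.norm_eq_abs, abs_le]
  have h8 := nsChi_nonneg ((∑ j, ‖F j q‖ ^ 2) / ε ^ 2)
  have h9 := nsChi_le_one ((∑ j, ‖F j q‖ ^ 2) / ε ^ 2)
  unfold nsCut
  constructor <;> linarith

/-- The pointwise bound. -/
theorem ns_pt (hν : 0 ≤ ν) (he₁ : 0 < e₁) (he₂ : e₁ < e₂) (hε : 0 < ε) (hε1 : ε ≤ 1)
    {u : (Fin n → ℂ) × ℂ → ℂ} {Φ : (Fin n → ℂ) × ℂ → ℝ} {C3 w : ℝ} {q : (Fin n → ℂ) × ℂ}
    (hC3 : 0 ≤ C3) (hq0 : 0 < ∑ j, ‖F j q‖ ^ 2) (hw0 : 0 ≤ w) (hw1 : w ≤ 1)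
    (h3 : w ≤ C3 * Real.exp (-Φ q)) :
    ENNReal.ofReal (‖(1 - (nsCut F ε q : ℂ)) * (g q * Ji q) + u q‖ ^ 2 * w) ≤
      Set.indicator {q | 0 ≤ ∑ j, ‖F j q‖ ^ 2 ∧ ∑ j, ‖F j q‖ ^ 2 ≤ 16 * ε ^ 2}
        (fun q => ENNReal.ofReal (2 * (16 : ℝ) ^ (ν + e₂) * (ε ^ (e₂ - e₁)) ^ 2) *
          ENNReal.ofReal (nsInt F g Ji ν e₂ q)) q +
      ENNReal.ofReal (2 * C3) * ENNReal.ofReal (‖u q‖ ^ 2 * Real.exp (-Φ q)) := by
  set T : Set ((Fin n → ℂ) × ℂ) :=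
    {q | 0 ≤ ∑ j, ‖F j q‖ ^ 2 ∧ ∑ j, ‖F j q‖ ^ 2 ≤ 16 * ε ^ 2} with hT
  set η : ℝ := ε ^ (e₂ - e₁) with hη
  have hη0 : 0 ≤ η := by positivity
  set X : ℂ := (1 - (nsCut F ε q : ℂ)) * (g q * Ji q) with hX
  have h4 : ‖X + u q‖ ^ 2 ≤ 2 * ‖X‖ ^ 2 + 2 * ‖u q‖ ^ 2 := by
    have h5 := norm_add_le X (u q)
    (by_contra nlg; linarith only [nlg, mul_nonneg (sub_nonneg.2 h5) (sub_nonneg.2 (norm_nonneg (u q))), mul_nonneg (sub_nonneg.2 h5) (sub_nonneg.2 (norm_nonneg X)), mul_nonneg (sub_nonneg.2 h5) (sub_nonneg.2 (norm_nonneg (X + u q))), mul_nonneg (sub_nonneg.2 hw1) (sq_nonneg (‖X‖ - ‖u q‖)), mul_nonneg (sub_nonneg.2 hw0) (sq_nonneg (‖X‖ - ‖u q‖)), mul_nonneg (le_of_lt (sub_pos.2 (not_le.1 nlg))) (sub_nonneg.2 hε1), mul_pos (sub_pos.2 (not_le.1 nlg)) (sub_pos.2 hε)])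
  have h6 : 2 * ‖u q‖ ^ 2 * w ≤ (2 * C3) * (‖u q‖ ^ 2 * Real.exp (-Φ q)) := by
    have := mul_le_mul_of_nonneg_left h3 (by positivity : 0 ≤ 2 * ‖u q‖ ^ 2)
    linarith
  by_cases hqT : q ∈ T
  · have h7 : 2 * ‖X‖ ^ 2 * w ≤ 2 * (16 : ℝ) ^ (ν + e₂) * η ^ 2 * nsInt F g Ji ν e₂ q := by
      have h8 : ‖X‖ ^ 2 ≤ ‖g q‖ ^ 2 * ‖Ji q‖ ^ 2 := by
        rw [hX, norm_mul, norm_mul, mul_pow, mul_pow]
        have h81 : ‖(1 : ℂ) - (nsCut F ε q : ℂ)‖ ^ 2 ≤ 1 :=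
          pow_le_one₀ (norm_nonneg _) (norm_one_sub_nsCut_le F ε q)
        have h82 : 0 ≤ ‖g q‖ ^ 2 * ‖Ji q‖ ^ 2 := by positivity
        (by_contra nlg; linarith only [nlg, mul_nonneg (sub_nonneg.2 h81) (sub_nonneg.2 h82), mul_nonneg (le_of_lt (sub_pos.2 (not_le.1 nlg))) (sub_nonneg.2 hε1), mul_pos (sub_pos.2 (not_le.1 nlg)) (sub_pos.2 hε)])
      have h9 := ns_real2 hε hε1 hν he₁.le he₂.le hq0 hqT.2
      have h10 : ‖g q‖ ^ 2 * ‖Ji q‖ ^ 2 ≤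
          (16 : ℝ) ^ (ν + e₂) * η ^ 2 * nsInt F g Ji ν e₂ q := by
        have := mul_le_mul_of_nonneg_left h9
          (by positivity : 0 ≤ ‖g q‖ ^ 2 * ‖Ji q‖ ^ 2)
        rw [mul_one] at this
        refine this.trans (le_of_eq ?_)
        rw [nsInt]; ring
      have h11 : 2 * ‖X‖ ^ 2 * w ≤ 2 * ‖X‖ ^ 2 * 1 :=
        mul_le_mul_of_nonneg_left hw1 (by positivity)
      linarith [h8.trans h10]
    have hn := nsInt_nonneg (F := F) (g := g) (Ji := Ji) (ν := ν) (e₂ := e₂) q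
    rw [Set.indicator_of_mem hqT, ← ENNReal.ofReal_mul (by positivity),
      ← ENNReal.ofReal_mul (by positivity), ← ENNReal.ofReal_add (by positivity) (by positivity)]
    refine ENNReal.ofReal_le_ofReal ?_
    have h12 : ‖X + u q‖ ^ 2 * w ≤ (2 * ‖X‖ ^ 2 + 2 * ‖u q‖ ^ 2) * w :=
      mul_le_mul_of_nonneg_right h4 hw0
    linarith
  · rw [Set.indicator_of_notMem hqT, zero_add, ← ENNReal.ofReal_mul (by positivity)]
    refine ENNReal.ofReal_le_ofReal ?_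
    have h7 : 16 * ε ^ 2 < ∑ j, ‖F j q‖ ^ 2 := by
      by_contra h8
      exact hqT ⟨hq0.le, not_lt.mp h8⟩
    have h8 : nsCut F ε q = 1 := by
      unfold nsCut
      exact nsChi_one (by rw [le_div_iff₀ (by positivity)]; exact h7.le)
    have h9 : X = 0 := by rw [hX, h8]; simp
    rw [h9, zero_add]
    have h10 : 0 ≤ ‖u q‖ ^ 2 * w := by positivity
    linarith

theorem ns_L2 (hF : ∀ j, S.Holo (F j)) (hG : ∀ j, S.Holo (G j)) (hν : 0 ≤ ν) (he₁ : 0 < e₁)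
    (he₂ : e₁ < e₂) (hs : 0 < s) (hε : 0 < ε) (hε1 : ε ≤ 1) (hI₀0 : 0 ≤ I₀)
    (hloc : ∀ q ∈ S.M, ∑ j, ‖F j q‖ ^ 2 ≤ 16 * ε ^ 2 → q ∈ W₀)
    (hI : ∫⁻ q in W₀, ENNReal.ofReal (nsInt F g Ji ν e₂ q) ∂S.μ = ENNReal.ofReal I₀)
    (hF0 : ∀ᵐ q ∂S.μ, 0 < ∑ j, ‖F j q‖ ^ 2)
    {u : (Fin n → ℂ) × ℂ → ℂ} {C3 A : ℝ} {k : ℕ} (hA0 : 0 ≤ A)
    (hum : AEStronglyMeasurable u S.μ)
    (hub : ∫⁻ q, ENNReal.ofReal (‖u q‖ ^ 2 * Real.exp (-(nsPhi G F ν e₁ s ε q))) ∂S.μ ≤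
      ENNReal.ofReal A) (hC3 : 0 ≤ C3)
    (h3 : ∀ q ∈ S.M, ((1 + ‖q.1‖) ^ k)⁻¹ ≤ C3 * Real.exp (-(nsPhi G F ν e₁ s ε q))) :
    ∫⁻ q, ENNReal.ofReal (‖(1 - (nsCut F ε q : ℂ)) * (g q * Ji q) + u q‖ ^ 2 *
      ((1 + ‖q.1‖) ^ k)⁻¹) ∂S.μ ≤
      ENNReal.ofReal (2 * (16 : ℝ) ^ (ν + e₂) * (ε ^ (e₂ - e₁)) ^ 2 * I₀ + 2 * C3 * A) := by
  have hΦm : AEMeasurable (nsPhi G F ν e₁ s ε) S.μ := aem_of_CD (CD_nsPhi hF hG 0 hs hε)
  have hTm := ns_nullMeas (S := S) hF 0 (16 * ε ^ 2)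
  have hpt : ∀ᵐ q ∂S.μ, ENNReal.ofReal
      (‖(1 - (nsCut F ε q : ℂ)) * (g q * Ji q) + u q‖ ^ 2 * ((1 + ‖q.1‖) ^ k)⁻¹) ≤
      Set.indicator {q | 0 ≤ ∑ j, ‖F j q‖ ^ 2 ∧ ∑ j, ‖F j q‖ ^ 2 ≤ 16 * ε ^ 2}
        (fun q => ENNReal.ofReal (2 * (16 : ℝ) ^ (ν + e₂) * (ε ^ (e₂ - e₁)) ^ 2) *
          ENNReal.ofReal (nsInt F g Ji ν e₂ q)) q +
      ENNReal.ofReal (2 * C3) * ENNReal.ofReal (‖u q‖ ^ 2 *
        Real.exp (-(nsPhi G F ν e₁ s ε q))) := by
    filter_upwards [ae_mem_M (S := S), hF0] with q hq hq0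
    exact ns_pt hν he₁ he₂ hε hε1 hC3 hq0 (by positivity)
      (inv_le_one_of_one_le₀ (one_le_pow₀ (by linarith [norm_nonneg q.1]))) (h3 q hq)
  have hm2 : AEMeasurable (fun q => ENNReal.ofReal (2 * C3) * ENNReal.ofReal (‖u q‖ ^ 2 *
      Real.exp (-(nsPhi G F ν e₁ s ε q)))) S.μ :=
    ((hum.norm.aemeasurable.pow_const 2).mul
      (Real.measurable_exp.comp_aemeasurable hΦm.neg)).ennreal_ofReal.const_mul _
  refine (lintegral_mono_ae hpt).trans ?_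
  rw [lintegral_add_right' _ hm2, ENNReal.ofReal_add (by positivity) (by positivity)]
  refine add_le_add ?_ ?_
  · rw [lintegral_indicator₀ hTm]
    calc _ ≤ ∫⁻ q in W₀, ENNReal.ofReal (2 * (16 : ℝ) ^ (ν + e₂) * (ε ^ (e₂ - e₁)) ^ 2) *
          ENNReal.ofReal (nsInt F g Ji ν e₂ q) ∂S.μ := by
          refine lintegral_mono_set' ?_
          filter_upwards [ae_mem_M (S := S)] with q hq hqT
          exact hloc q hq hqT.2
      _ = _ := by
          rw [lintegral_const_mul' _ _ ENNReal.ofReal_ne_top, hI,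
            ← ENNReal.ofReal_mul (by positivity)]
  · have h5 : ENNReal.ofReal (2 * C3 * A) = ENNReal.ofReal (2 * C3) * ENNReal.ofReal A :=
      ENNReal.ofReal_mul (by positivity)
    rw [lintegral_const_mul' _ _ ENNReal.ofReal_ne_top, h5]
    exact mul_le_mul_right hub _

theorem ns_last {J u : (Fin n → ℂ) × ℂ → ℂ} (hF : ∀ j, S.Holo (F j))
    (hJ : ∀ q ∈ S.M, J q * Ji q = 1) (hs : 0 < s) (hε : 0 < ε) :
    ∫⁻ q in {q | ∑ j, ‖F j q‖ ^ 2 ≤ (2 * ε) ^ 2},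
      ENNReal.ofReal (‖g q - J q * ((1 - (nsCut F ε q : ℂ)) * (g q * Ji q) + u q)‖ ^ 2 *
        ‖Ji q‖ ^ 2 * (s + ∑ j, ‖G j q‖ ^ 2) ^ (-ν) *
        (ε ^ 2 + ∑ j, ‖F j q‖ ^ 2) ^ (-e₁)) ∂S.μ ≤
    ∫⁻ q, ENNReal.ofReal (‖u q‖ ^ 2 * Real.exp (-(nsPhi G F ν e₁ s ε q))) ∂S.μ := by
  have hTm2 : NullMeasurableSet {q | ∑ j, ‖F j q‖ ^ 2 ≤ (2 * ε) ^ 2} S.μ := by
    have := ns_nullMeas (S := S) hF 0 ((2 * ε) ^ 2)
    refine this.congr (Eventually.of_forall fun q => ?_)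
    apply propext
    constructor
    · exact fun h => h.2
    · exact fun h => ⟨by positivity, h⟩
  calc _ ≤ ∫⁻ q in {q | ∑ j, ‖F j q‖ ^ 2 ≤ (2 * ε) ^ 2},
        ENNReal.ofReal (‖u q‖ ^ 2 * Real.exp (-(nsPhi G F ν e₁ s ε q))) ∂S.μ := by
        refine lintegral_mono_ae ?_
        filter_upwards [ae_restrict_of_ae (ae_mem_M (S := S)), ae_restrict_mem₀ hTm2]
          with q hq hqT
        refine ENNReal.ofReal_le_ofReal (le_of_eq ?_)
        have h1 : nsCut F ε q = 0 := by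
          unfold nsCut
          refine nsChi_zero ?_
          rw [div_le_iff₀ (by positivity)]
          have : ∑ j, ‖F j q‖ ^ 2 ≤ (2 * ε) ^ 2 := hqT
          linarith
        have h2 : g q - J q * ((1 - (nsCut F ε q : ℂ)) * (g q * Ji q) + u q) = - (J q * u q) := by
          rw [h1]
          simp only [Complex.ofReal_zero, sub_zero, one_mul]
          linear_combination (- g q) * hJ q hq
        have h3 : ‖J q‖ * ‖Ji q‖ = 1 := by rw [← norm_mul, hJ q hq, norm_one]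
        rw [ns_exp hs hε, h2, norm_neg, norm_mul, mul_pow]
        have h4 : ‖J q‖ ^ 2 * ‖Ji q‖ ^ 2 = 1 := by rw [← mul_pow, h3, one_pow]
        calc _ = (‖J q‖ ^ 2 * ‖Ji q‖ ^ 2) * (‖u q‖ ^ 2 *
              ((s + ∑ j, ‖G j q‖ ^ 2) ^ (-ν) * (ε ^ 2 + ∑ j, ‖F j q‖ ^ 2) ^ (-e₁))) := by ring
          _ = _ := by rw [h4, one_mul]
    _ ≤ _ := setLIntegral_le_lintegral _ _

end scale

end Sheets

variable {n N : ℕ} {K : Type} [Field K] [Algebra ℂ K] [Algebra (Pol n) K]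
  [IsScalarTower ℂ (Pol n) K] [FaithfulSMul (Pol n) K]

namespace Prim

variable {E : Prim n K} {S : Sheets n N} {x : Pt n K}

theorem ns_F_pos (hS : E.IsSheets S) (hn : 0 < n) {m r : ℕ} (F : Fin r → IB n K)
    (hz : ∀ i : Fin n, ∃ j, F j = algebraMap (Pol n) (IB n K) (MvPolynomial.X i) ^ m) :
    ∀ᵐ q ∂S.μ, 0 < ∑ j, ‖E.ev (F j : K) q‖ ^ 2 := by
  obtain ⟨j0, hj0⟩ := hz ⟨0, hn⟩
  have hne : (F j0 : K) ≠ 0 := by
    rw [hj0]
    have h1 : ((algebraMap (Pol n) (IB n K) (MvPolynomial.X ⟨0, hn⟩) ^ m : IB n K) : K) =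
        (algebraMap (Pol n) K (MvPolynomial.X ⟨0, hn⟩)) ^ m := rfl
    rw [h1]
    refine pow_ne_zero _ ?_
    rw [Ne, FaithfulSMul.algebraMap_eq_zero_iff]
    exact MvPolynomial.X_ne_zero _
  filter_upwards [ae_ev_ne_zero hS (isReg_ib (E := E) (F j0)) hne] with q hq
  have h1 : 0 < ‖E.ev (F j0 : K) q‖ ^ 2 := by
    have : 0 < ‖E.ev (F j0 : K) q‖ := norm_pos_iff.mpr hq
    positivity
  exact lt_of_lt_of_le h1 (Finset.single_le_sum (f := fun j => ‖E.ev (F j : K) q‖ ^ 2)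
    (fun _ _ => by positivity) (Finset.mem_univ j0))

theorem ns_sum_growth {r : ℕ} {X : Fin r → (Fin n → ℂ) × ℂ → ℂ} {c : ℝ} {k : ℕ}
    (h : ∀ q ∈ S.M, ∀ j, ‖X j q‖ ≤ c * (1 + ‖q.1‖) ^ k) :
    ∀ q ∈ S.M, ∑ j, ‖X j q‖ ^ 2 ≤ (r * c ^ 2) * (1 + ‖q.1‖) ^ (2 * k) := by
  intro q hq
  calc ∑ j, ‖X j q‖ ^ 2 ≤ ∑ _j : Fin r, (c * (1 + ‖q.1‖) ^ k) ^ 2 :=
        Finset.sum_le_sum fun j _ => pow_le_pow_left₀ (norm_nonneg _) (h q hq j) 2
    _ = (r * c ^ 2) * (1 + ‖q.1‖) ^ (2 * k) := by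
        rw [Finset.sum_const, Finset.card_univ, Fintype.card_fin, nsmul_eq_mul]; ring

theorem ns_GF {r : ℕ} {a b : Fin r → ℂ} {ε : ℝ} (h1 : 4 * ε ^ 2 ≤ ∑ j, ‖a j‖ ^ 2)
    (h3 : ∑ j, ‖b j - a j‖ ^ 2 ≤ ε ^ 2) : (∑ j, ‖a j‖ ^ 2) / 4 ≤ ∑ j, ‖b j‖ ^ 2 := by
  have h4 : ∑ j, ‖a j‖ ^ 2 ≤ ∑ j, (2 * ‖b j‖ ^ 2 + 2 * ‖b j - a j‖ ^ 2) := by
    refine Finset.sum_le_sum fun j _ => ?_
    have h5 : ‖a j‖ ≤ ‖b j‖ + ‖b j - a j‖ := by
      have := norm_sub_le (b j) (b j - a j)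
      simpa using this
    linarith only [mul_nonneg (sub_nonneg.2 h5) (sub_nonneg.2 (norm_nonneg (b j - a j))), mul_nonneg (sub_nonneg.2 h5) (sub_nonneg.2 (norm_nonneg (b j))), mul_nonneg (sub_nonneg.2 h5) (sub_nonneg.2 (norm_nonneg (a j))), sq_nonneg (‖b j‖ - ‖b j - a j‖)]
  rw [Finset.sum_add_distrib, ← Finset.mul_sum, ← Finset.mul_sum] at h4
  linarith

variable [Algebra (FractionRing (Pol n)) K] [IsScalarTower (Pol n) (FractionRing (Pol n)) K]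
  [FiniteDimensional (FractionRing (Pol n)) K]

/-- The solution of the `∂̄`-equation at scale `ε`. -/
theorem scale_solution (hS : E.IsSheets S) {d : Fin n → Derivation ℂ K K} (hd : IsPartials d)
    (hn : 0 < n) {J : K} (hJ0 : J ≠ 0) (hJ : IsIntegral (Pol n) J)
    (hJr : E.IsReg J⁻¹) {m r : ℕ} (hm : 0 < m) (F : Fin r → IB n K)
    (hz : ∀ i : Fin n, ∃ j, F j = algebraMap (Pol n) (IB n K) (MvPolynomial.X i) ^ m)
    (hloc : ∀ W ∈ E.nhd S x, ∃ ε > 0, ∀ q ∈ S.M, ∑ j, ‖E.ev (F j : K) q‖ ^ 2 ≤ ε → q ∈ W)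
    (g : IB n K) {e₁ e₂ : ℝ} (he₁ : 0 < e₁) (he₂ : e₁ < e₂) {W₀ : Set ((Fin n → ℂ) × ℂ)}
    (hW₀ : W₀ ∈ E.nhd S x)
    (hfin : ∫⁻ q in W₀, ENNReal.ofReal (‖E.ev (g : K) q‖ ^ 2 *
      (∑ j, ‖E.ev (F j : K) q‖ ^ 2) ^ (-((n : ℝ) / m + e₂)) * ‖E.ev J⁻¹ q‖ ^ 2) ∂S.μ < ⊤)
    (C₁ : ℝ) (k₁ : ℕ) :
    ∃ (k : ℕ) (C ε₀ : ℝ), 0 < ε₀ ∧ 0 ≤ C ∧ ∀ ε : ℝ, 0 < ε → ε ≤ ε₀ → ∀ G : Fin r → IB n K,
      (∀ q ∈ S.M, ‖q.1‖ ≤ 1 → ∑ j, ‖E.ev (G j : K) q - E.ev (F j : K) q‖ ^ 2 ≤ ε ^ 2) →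
      (∀ q ∈ S.M, ∀ j, ‖E.ev (G j : K) q‖ ≤ C₁ * (1 + ‖q.1‖) ^ k₁) →
      ∀ s : ℝ, 0 < s → s ≤ 1 → ∃ τ : (Fin n → ℂ) × ℂ → ℂ, AEStronglyMeasurable τ S.μ ∧
        (∀ κ, S.IsTest κ → ∀ j, ∫ q, τ q * S.Db j κ q ∂S.μ = 0) ∧
        ∫⁻ q, ENNReal.ofReal (‖τ q‖ ^ 2 * ((1 + ‖q.1‖) ^ k)⁻¹) ∂S.μ ≤
          ENNReal.ofReal ((C * ε ^ (e₂ - e₁)) ^ 2) ∧
        ∫⁻ q in {q | ∑ j, ‖E.ev (F j : K) q‖ ^ 2 ≤ (2 * ε) ^ 2},
          ENNReal.ofReal (‖E.ev (g : K) q - E.ev J q * τ q‖ ^ 2 * ‖E.ev J⁻¹ q‖ ^ 2 *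
            (s + ∑ j, ‖E.ev (G j : K) q‖ ^ 2) ^ (-((n : ℝ) / m)) *
            (ε ^ 2 + ∑ j, ‖E.ev (F j : K) q‖ ^ 2) ^ (-e₁)) ∂S.μ ≤ ENNReal.ofReal C := by
  obtain ⟨C₀, hC₀0, hC₀⟩ := exists_nsChi_bound
  obtain ⟨p, Cp, k0, hp, hreg⟩ := exists_exh hS
  set ν : ℝ := (n : ℝ) / m with hνdef
  have hν : 0 ≤ ν := by positivity
  have hJreg : E.IsReg J := isReg_of_integral hJ
  have hFreg : ∀ j, E.IsReg (F j : K) := fun j => isReg_ib _
  have hgreg : E.IsReg (g : K) := isReg_ib _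
  have hFh : ∀ j, S.Holo (E.ev (F j : K)) := fun j => holo_ev hS (hFreg j)
  have hgh : S.Holo (fun q => E.ev (g : K) q * E.ev J⁻¹ q) :=
    (holo_ev hS hgreg).mul (holo_ev hS hJr)
  -- growth in terms of `p`
  have hgp : ∃ (c : ℝ) (k : ℕ), ∀ q ∈ S.M,
      ‖E.ev (g : K) q * E.ev J⁻¹ q‖ ≤ c * (1 + p q.1) ^ k := by
    obtain ⟨c, k, h⟩ := hreg _ (hgreg.mul hJr)
    refine ⟨c, k, fun q hq => ?_⟩
    have := h q hq
    rwa [ev_mul hS hq hgreg hJr] at this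
  have hDp : ∀ i j, ∃ (c : ℝ) (k : ℕ), ∀ q ∈ S.M,
      ‖S.D j (E.ev (F i : K)) q‖ ≤ c * (1 + p q.1) ^ k := by
    intro i j
    obtain ⟨c, k, h⟩ := hreg _ (IsReg.d hd (hFreg i) j)
    refine ⟨c, k, fun q hq => ?_⟩
    rw [D_ev hS hd (hFreg i) hq j]
    exact h q hq
  -- growth of `F` in terms of `z`
  obtain ⟨cF, kF, hcF, hFz⟩ := Sheets.pg_unif (S := S) (p := fun z => ‖z‖)
    (X := fun j => E.ev (F j : K))
    (fun z _ => norm_nonneg z) (fun i => by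
      obtain ⟨c, k, _, h⟩ := ev_growth hS (F i)
      exact ⟨c, k, h⟩)
  have hFz2 := ns_sum_growth (S := S) hFz
  -- the neighbourhood
  have hW1 : {q : (Fin n → ℂ) × ℂ | ‖q.1‖ < 1} ∈ E.nhd S x := by
    have := tendsto_fst_nhd hS x (Metric.ball_mem_nhds (0 : Fin n → ℂ) one_pos)
    refine Filter.mem_of_superset this fun q hq => ?_
    simpa using hq
  obtain ⟨ε', hε', hloc'⟩ := hloc _ (Filter.inter_mem hW₀ hW1)
  have hF0 := ns_F_pos hS hn F hz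
  -- the finite integral
  set I₀ : ℝ := (∫⁻ q in W₀, ENNReal.ofReal (Sheets.nsInt (fun j => E.ev (F j : K)) (E.ev (g : K))
    (E.ev J⁻¹) ν e₂ q) ∂S.μ).toReal with hI₀
  have hI₀0 : 0 ≤ I₀ := ENNReal.toReal_nonneg
  have hI : ∫⁻ q in W₀, ENNReal.ofReal (Sheets.nsInt (fun j => E.ev (F j : K)) (E.ev (g : K))
    (E.ev J⁻¹) ν e₂ q) ∂S.μ = ENNReal.ofReal I₀ := (ENNReal.ofReal_toReal hfin.ne).symm
  -- constants
  set C' : ℝ := 4624 * C₀ ^ 2 / e₁ with hC'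
  have hC'0 : 0 ≤ C' := by (clear * - he₁; positivity)
  set C2 : ℝ := C' * ((4 : ℝ) ^ ν * (16 : ℝ) ^ (e₂ - e₁)) with hC2
  have hC20 : 0 ≤ C2 := by (clear * - he₁; positivity)
  set C3 : ℝ := (1 + r * C₁ ^ 2) ^ ν * (1 + r * cF ^ 2) ^ e₁ with hC3
  have hC30 : 0 ≤ C3 := by (clear * -; positivity)
  set C4 : ℝ := 2 * (16 : ℝ) ^ (ν + e₂) with hC4
  have hC40 : 0 ≤ C4 := by positivity
  set Q : ℝ := C4 * I₀ + 4 * C3 * (C2 * I₀) with hQ
  have hQ0 : 0 ≤ Q := by (clear * - he₁; positivity)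
  refine ⟨⌈((2 * k₁ : ℕ) : ℝ) * ν + ((2 * kF : ℕ) : ℝ) * e₁⌉₊, 1 + Q + 2 * (C2 * I₀),
    min 1 (Real.sqrt ε' / 4), lt_min one_pos (by positivity), by (clear * - he₁; positivity), ?_⟩
  intro ε hε hεle G hG1 hG2 s hs hs1
  have hε1 : ε ≤ 1 := hεle.trans (min_le_left _ _)
  have hε16 : 16 * ε ^ 2 ≤ ε' := by
    have h1 : ε ≤ Real.sqrt ε' / 4 := hεle.trans (min_le_right _ _)
    have h2 : (4 * ε) ^ 2 ≤ (Real.sqrt ε') ^ 2 :=
      pow_le_pow_left₀ (by positivity) (by linarith) 2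
    rw [Real.sq_sqrt hε'.le] at h2
    linarith
  have hloc2 : ∀ q ∈ S.M, ∑ j, ‖E.ev (F j : K) q‖ ^ 2 ≤ 16 * ε ^ 2 → q ∈ W₀ ∧ ‖q.1‖ < 1 :=
    fun q hq h => hloc' q hq (h.trans hε16)
  have hGh : ∀ j, S.Holo (E.ev (G j : K)) := fun j => holo_ev hS (isReg_ib _)
  set η : ℝ := ε ^ (e₂ - e₁) with hη
  have hη0 : 0 ≤ η := by positivity
  have hη1 : η ≤ 1 := Real.rpow_le_one hε.le hε1 (by linarith)
  have hA := Sheets.ns_A (S := S) (F := fun j => E.ev (F j : K)) (G := fun j => E.ev (G j : K))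
    (g := E.ev (g : K)) (Ji := E.ev J⁻¹) hFh hν he₁ he₂ hs hε hC'0
    (fun q hq h1 h2 => ns_GF h1 (hG1 q hq (hloc2 q hq h2).2.le))
    (fun q hq h => (hloc2 q hq h).1) hI
  obtain ⟨u, hum, hub, hu⟩ := Sheets.solve_scale hp hgh hFh hGh hC₀ hν he₁ hs hε hgp
    (fun i => hreg _ (hFreg i)) hDp (by (clear * - he₁ hε; positivity)) hA
  have hX0 : S.CD 0 (fun q => (1 - (Sheets.nsCut (fun j => E.ev (F j : K)) ε q : ℂ)) *
      (E.ev (g : K) q * E.ev J⁻¹ q)) := by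
    have h1 := (((Sheets.CD.const (S := S) (m := 0) (-1)).mul (Sheets.CD_nsCut hFh 0 ε)).add
      (Sheets.CD.const 1)).mul (hgh.CD 0)
    refine h1.congr fun q _ => ?_
    ring
  refine ⟨_, (Sheets.aestronglyMeasurable_of_CD hX0).add hum, hu, ?_, ?_⟩
  · have h3 : ∀ q ∈ S.M, ((1 + ‖q.1‖) ^ ⌈((2 * k₁ : ℕ) : ℝ) * ν + ((2 * kF : ℕ) : ℝ) * e₁⌉₊)⁻¹ ≤
        C3 * Real.exp (-(Sheets.nsPhi (fun j => E.ev (G j : K)) (fun j => E.ev (F j : K))
          ν e₁ s ε q)) := fun q hq => by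
      rw [ns_exp hs hε]
      exact ns_real3 hs hs1 hε hε1 hν he₁.le (norm_nonneg _) (by (clear * -; positivity)) (by (clear * -; positivity))
        (by (clear * -; positivity)) (by (clear * -; positivity)) (ns_sum_growth (S := S) hG2 q hq) (hFz2 q hq)
        (Nat.le_ceil _)
    have h4 := Sheets.ns_L2 (S := S) (g := E.ev (g : K)) (Ji := E.ev J⁻¹) hFh hGh hν he₁ he₂ hs
      hε hε1 hI₀0 (fun q hq h => (hloc2 q hq h).1) hI hF0 (by (clear * - he₁ hε; positivity)) hum hub hC30 h3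
    refine h4.trans (ENNReal.ofReal_le_ofReal ?_)
    have h5 : C4 * η ^ 2 * I₀ + 2 * C3 * (2 * (C2 * I₀ * η ^ 2)) = Q * η ^ 2 := by
      rw [hQ]; ring
    rw [h5, mul_pow]
    refine mul_le_mul_of_nonneg_right ?_ (by positivity)
    have h1 : 0 ≤ 2 * (C2 * I₀) := by (clear * - he₁; positivity)
    (by_contra nlg; linarith only [nlg, mul_nonneg (sub_nonneg.2 h1) (sub_nonneg.2 h1), mul_nonneg (sub_nonneg.2 hη1) (sub_nonneg.2 h1), mul_nonneg (sub_nonneg.2 hη0) (sub_nonneg.2 h1), mul_nonneg (sub_nonneg.2 hQ0) (sub_nonneg.2 h1), mul_nonneg (sub_nonneg.2 hQ0) (sub_nonneg.2 hη1), mul_nonneg (sub_nonneg.2 hQ0) (sub_nonneg.2 hη0), mul_nonneg (sub_nonneg.2 hQ0) (sub_nonneg.2 hQ0), mul_nonneg (le_of_lt (sub_pos.2 (not_le.1 nlg))) (sub_nonneg.2 hη1), mul_nonneg (le_of_lt (sub_pos.2 (not_le.1 nlg))) (sub_nonneg.2 hη0)])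
  · have hJ1 : ∀ q ∈ S.M, E.ev J q * E.ev J⁻¹ q = 1 := fun q hq => by
      rw [ev_inv hS hq hJreg hJr]
      exact mul_inv_cancel₀ (ev_ne_zero_of_inv hS hq hJ0 hJreg hJr)
    refine (Sheets.ns_last hFh hJ1 hs hε).trans (hub.trans (ENNReal.ofReal_le_ofReal ?_))
    have h1 : η ^ 2 ≤ 1 := pow_le_one₀ hη0 hη1
    have h2 : C2 * I₀ * η ^ 2 ≤ C2 * I₀ * 1 := mul_le_mul_of_nonneg_left h1 (by (clear * - he₁; positivity))
    linarith only [h2, hQ0]

end Prim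

end Vale.Agent.P282.L2
end

section

open MeasureTheory Filter Topology
open scoped ENNReal NNReal ComplexConjugate

namespace Vale.Agent.P282.L2

namespace Sheets

variable {n N : ℕ} {S : Sheets n N} {X : (Fin n → ℂ) × ℂ → ℂ}

theorem dsp_finrank (n : ℕ) : Module.finrank ℝ (Fin n → ℂ) = 2 * n := by
  rw [Module.finrank_pi_fintype]
  simp [Complex.finrank_real_complex, mul_comm]

theorem dsp_lintegral_weight (S : Sheets n N) :
    ∫⁻ q, ENNReal.ofReal (((1 + ‖q.1‖) ^ (2 * n + 1))⁻¹) ∂S.μ < ⊤ := by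
  have hm : Measurable fun z : Fin n → ℂ => ENNReal.ofReal (((1 + ‖z‖) ^ (2 * n + 1))⁻¹) := by
    fun_prop
  rw [lintegral_μ (S := S) (Ψ := fun q => ENNReal.ofReal (((1 + ‖q.1‖) ^ (2 * n + 1))⁻¹))
    (hm.comp measurable_fst)]
  have h1 : ∫⁻ z in S.V, ∑ w ∈ S.fib z, ENNReal.ofReal (((1 + ‖z‖) ^ (2 * n + 1))⁻¹) =
      ∫⁻ z in S.V, (N : ℝ≥0∞) * ENNReal.ofReal (((1 + ‖z‖) ^ (2 * n + 1))⁻¹) := by
    refine setLIntegral_congr_fun S.isOpen.measurableSet ?_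
    intro z hz
    simp only [Finset.sum_const, card_fib hz, nsmul_eq_mul]
  rw [h1]
  rw [lintegral_const_mul _ hm]
  refine ENNReal.mul_lt_top (by simp) ?_
  refine lt_of_le_of_lt (setLIntegral_le_lintegral _ _) ?_
  have h2 := finite_integral_one_add_norm (E := Fin n → ℂ) (μ := volume)
    (r := ((2 * n + 1 : ℕ) : ℝ)) (by rw [dsp_finrank]; push_cast; linarith)
  have h3 : ∀ z : Fin n → ℂ, ENNReal.ofReal ((1 + ‖z‖) ^ (-((2 * n + 1 : ℕ) : ℝ))) =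
      ENNReal.ofReal (((1 + ‖z‖) ^ (2 * n + 1))⁻¹) := by
    intro z
    rw [Real.rpow_neg (by positivity), Real.rpow_natCast]
  simp_rw [h3] at h2
  exact h2

/-- `X` times a rapidly decreasing weight is integrable. -/
theorem dsp_integrable (hX : AEStronglyMeasurable X S.μ) {k : ℕ}
    (hfin : ∫⁻ q, ENNReal.ofReal (‖X q‖ ^ 2 * ((1 + ‖q.1‖) ^ k)⁻¹) ∂S.μ < ⊤)
    {g : (Fin n → ℂ) → ℂ} (hg : Measurable g) {A : ℝ}
    (hA : ∀ z, ‖g z‖ ^ 2 * (1 + ‖z‖) ^ k ≤ A * ((1 + ‖z‖) ^ (2 * n + 1))⁻¹) :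
    Integrable (fun q => X q * g q.1) S.μ := by
  refine ⟨hX.mul (hg.comp measurable_fst).aestronglyMeasurable, ?_⟩
  have hle : ∀ q : (Fin n → ℂ) × ℂ, ‖X q * g q.1‖ₑ ≤
      ENNReal.ofReal (‖X q‖ ^ 2 * ((1 + ‖q.1‖) ^ k)⁻¹) +
        ENNReal.ofReal (A * ((1 + ‖q.1‖) ^ (2 * n + 1))⁻¹) := by
    intro q
    have hA0 : 0 ≤ A * ((1 + ‖q.1‖) ^ (2 * n + 1))⁻¹ := le_trans (by positivity) (hA q.1)
    rw [← ENNReal.ofReal_add (by positivity) hA0, ← ofReal_norm]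
    refine ENNReal.ofReal_le_ofReal ?_
    rw [norm_mul]
    have hp : 0 < (1 + ‖q.1‖) ^ k := by positivity
    have h1 : ‖X q‖ * ‖g q.1‖ ≤ ‖X q‖ ^ 2 * ((1 + ‖q.1‖) ^ k)⁻¹ + ‖g q.1‖ ^ 2 * (1 + ‖q.1‖) ^ k := by
      have h2 : (‖X q‖ ^ 2 * ((1 + ‖q.1‖) ^ k)⁻¹) * (‖g q.1‖ ^ 2 * (1 + ‖q.1‖) ^ k) =
          (‖X q‖ * ‖g q.1‖) ^ 2 := by
        field_simp
      have h3 : 0 ≤ ‖X q‖ ^ 2 * ((1 + ‖q.1‖) ^ k)⁻¹ := by positivity
      have h4 : 0 ≤ ‖g q.1‖ ^ 2 * (1 + ‖q.1‖) ^ k := by positivity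
      have h5 : 0 ≤ ‖X q‖ * ‖g q.1‖ := by positivity
      refine abs_le_of_sq_le_sq' (a := ‖X q‖ * ‖g q.1‖) ?_ (by positivity) |>.2
      linarith only [mul_nonneg (sub_nonneg.2 h4) (sub_nonneg.2 h4), mul_nonneg (sub_nonneg.2 h3) (sub_nonneg.2 h4), mul_nonneg (sub_nonneg.2 h3) (sub_nonneg.2 h3), h2]
    exact h1.trans (by linarith [hA q.1])
  refine lt_of_le_of_lt (lintegral_mono hle) ?_
  have hm : Measurable fun q : (Fin n → ℂ) × ℂ =>
      ENNReal.ofReal (A * ((1 + ‖q.1‖) ^ (2 * n + 1))⁻¹) := by fun_prop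
  rw [lintegral_add_right _ hm]
  refine ENNReal.add_lt_top.2 ⟨hfin, ?_⟩
  have hw := dsp_lintegral_weight S
  have hA' : ∀ q : (Fin n → ℂ) × ℂ, ENNReal.ofReal (A * ((1 + ‖q.1‖) ^ (2 * n + 1))⁻¹) =
      ENNReal.ofReal A * ENNReal.ofReal (((1 + ‖q.1‖) ^ (2 * n + 1))⁻¹) := by
    intro q
    rw [ENNReal.ofReal_mul' (by positivity)]
  simp_rw [hA']
  rw [lintegral_const_mul _ (by fun_prop)]
  exact ENNReal.mul_lt_top (by simp) hw

/-- Fiber sums of weighted square integrable functions are measurable. -/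
theorem dsp_aesm_fsum (hX : AEStronglyMeasurable X S.μ) {k : ℕ}
    (hfin : ∫⁻ q, ENNReal.ofReal (‖X q‖ ^ 2 * ((1 + ‖q.1‖) ^ k)⁻¹) ∂S.μ < ⊤) :
    AEStronglyMeasurable (S.fsum X) (volume.restrict S.V) := by
  set r : ℕ := k + (2 * n + 1) with hr
  have hg : Measurable fun z : Fin n → ℂ => ((((1 + ‖z‖) ^ r)⁻¹ : ℝ) : ℂ) := by fun_prop
  have hi := dsp_integrable hX hfin hg (A := 1) (by
    intro z
    have h1 : 1 ≤ 1 + ‖z‖ := by linarith [norm_nonneg z]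
    rw [Complex.norm_real, Real.norm_of_nonneg (by positivity), one_mul]
    have h2 : (((1 + ‖z‖) ^ r)⁻¹) ^ 2 * (1 + ‖z‖) ^ k = ((1 + ‖z‖) ^ (r + (2 * n + 1)))⁻¹ := by
      rw [hr]
      field_simp
      ring
    rw [h2]
    exact inv_anti₀ (by positivity) (pow_le_pow_right₀ h1 (by omega)))
  have h1 := (integrable_fsum hi).aestronglyMeasurable
  have h2 : AEStronglyMeasurable (fun z : Fin n → ℂ => ((((1 + ‖z‖) ^ r) : ℝ) : ℂ))
      (volume.restrict S.V) := by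
    have : Measurable (fun z : Fin n → ℂ => ((((1 + ‖z‖) ^ r) : ℝ) : ℂ)) := by fun_prop
    exact this.aestronglyMeasurable
  refine (h1.mul h2).congr (Eventually.of_forall fun z => ?_)
  simp only [Pi.mul_apply, fsum, ← Finset.sum_mul]
  rw [mul_assoc, ← Complex.ofReal_mul, inv_mul_cancel₀ (by positivity), Complex.ofReal_one, mul_one]

/-- Cauchy-Schwarz on the fibers. -/
theorem dsp_fsum_sq (X : (Fin n → ℂ) × ℂ → ℂ) {z : Fin n → ℂ} (hz : z ∈ S.V) :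
    ‖S.fsum X z‖ ^ 2 ≤ N * ∑ w ∈ S.fib z, ‖X (z, w)‖ ^ 2 := by
  have h1 : ‖S.fsum X z‖ ≤ ∑ w ∈ S.fib z, ‖X (z, w)‖ := norm_sum_le _ _
  have h2 := sq_sum_le_card_mul_sum_sq (s := S.fib z) (f := fun w => ‖X (z, w)‖)
  rw [card_fib hz] at h2
  exact (pow_le_pow_left₀ (norm_nonneg _) h1 2).trans h2

theorem dsp_lintegral_fsum (hX : AEStronglyMeasurable X S.μ) (k : ℕ) :
    ∫⁻ z in S.V, ENNReal.ofReal (‖S.fsum X z‖ ^ 2 * ((1 + ‖z‖) ^ k)⁻¹) ≤
      N * ∫⁻ q, ENNReal.ofReal (‖X q‖ ^ 2 * ((1 + ‖q.1‖) ^ k)⁻¹) ∂S.μ := by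
  have hm : AEMeasurable (fun q : (Fin n → ℂ) × ℂ =>
      ENNReal.ofReal (‖X q‖ ^ 2 * ((1 + ‖q.1‖) ^ k)⁻¹)) S.μ := by
    refine AEMeasurable.ennreal_ofReal ?_
    refine (hX.aemeasurable.norm.pow_const 2).mul ?_
    have : Measurable fun q : (Fin n → ℂ) × ℂ => ((1 + ‖q.1‖) ^ k)⁻¹ := by fun_prop
    exact this.aemeasurable
  rw [lintegral_μ' hm]
  rw [← lintegral_const_mul' _ _ (by simp)]
  refine setLIntegral_mono' S.isOpen.measurableSet ?_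
  intro z hz
  have h1 := dsp_fsum_sq X hz
  have h2 : ‖S.fsum X z‖ ^ 2 * ((1 + ‖z‖) ^ k)⁻¹ ≤
      (N : ℝ) * ∑ w ∈ S.fib z, ‖X (z, w)‖ ^ 2 * ((1 + ‖z‖) ^ k)⁻¹ := by
    rw [← Finset.sum_mul, ← mul_assoc]
    exact mul_le_mul_of_nonneg_right h1 (by positivity)
  refine (ENNReal.ofReal_le_ofReal h2).trans ?_
  rw [ENNReal.ofReal_mul (by positivity), ENNReal.ofReal_natCast,
    ENNReal.ofReal_sum_of_nonneg (fun w _ => by positivity)]

/-- Fiber sums of weakly holomorphic functions are weakly holomorphic. -/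
theorem dsp_weak (hX : AEStronglyMeasurable X S.μ) {k : ℕ}
    (hfin : ∫⁻ q, ENNReal.ofReal (‖X q‖ ^ 2 * ((1 + ‖q.1‖) ^ k)⁻¹) ∂S.μ < ⊤)
    (hw : ∀ κ, S.IsTest κ → ∀ j, ∫ q, X q * S.Db j κ q ∂S.μ = 0)
    {κ : (Fin n → ℂ) → ℂ} (hκ : ContDiff ℝ 2 κ) (hκ' : HasCompactSupport κ)
    (hκV : tsupport κ ⊆ S.V) (j : Fin n) :
    ∫ z, S.V.indicator (S.fsum X) z * dzb j κ z = 0 := by
  have hcont : Continuous (dzb j κ) := by
    have h1 : ContDiffOn ℝ ((1 + 1 : ℕ) : WithTop ℕ∞) κ Set.univ := by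
      exact_mod_cast hκ.contDiffOn
    exact continuousOn_univ.1 (contDiffOn_dzb isOpen_univ (m := 1) h1).continuousOn
  have hout : ∀ z, z ∉ tsupport κ → dzb j κ z = 0 := by
    intro z hz
    have h1 : κ =ᶠ[𝓝 z] fun _ => (0 : ℂ) := notMem_tsupport_iff_eventuallyEq.1 hz
    rw [dzb_congr h1, dzb_const]
  have hcs : HasCompactSupport (fun z : Fin n → ℂ =>
      ‖dzb j κ z‖ ^ 2 * (1 + ‖z‖) ^ k * (1 + ‖z‖) ^ (2 * n + 1)) := by
    refine HasCompactSupport.intro hκ' ?_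
    intro z hz
    rw [hout z hz]
    simp
  obtain ⟨A, hA⟩ := hcs.exists_bound_of_continuous (by fun_prop)
  have hbd : ∀ z : Fin n → ℂ,
      ‖dzb j κ z‖ ^ 2 * (1 + ‖z‖) ^ k ≤ A * ((1 + ‖z‖) ^ (2 * n + 1))⁻¹ := by
    intro z
    rw [← div_eq_mul_inv, le_div_iff₀ (by positivity)]
    exact (le_abs_self _).trans (by simpa [Real.norm_eq_abs] using hA z)
  have hi := dsp_integrable hX hfin hcont.measurable hbd
  have h1 : ∫ z, S.V.indicator (S.fsum X) z * dzb j κ z =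
      ∫ z in S.V, S.fsum (fun q => X q * dzb j κ q.1) z := by
    rw [← integral_indicator S.isOpen.measurableSet]
    congr 1
    funext z
    by_cases hz : z ∈ S.V
    · rw [Set.indicator_of_mem hz, Set.indicator_of_mem hz]
      simp only [fsum, Finset.sum_mul]
    · rw [Set.indicator_of_notMem hz, Set.indicator_of_notMem hz, zero_mul]
  rw [h1, ← integral_μ hi]
  have htest : S.IsTest (fun q => κ q.1) := by
    refine ⟨CD.fst (by exact_mod_cast hκ.contDiffOn), tsupport κ, hκ', hκV, ?_⟩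
    intro q hq
    exact image_eq_zero_of_notMem_tsupport hq
  have h2 := hw _ htest j
  simp only [Db_fst] at h2
  exact h2

end Sheets

variable {n N : ℕ} {K : Type} [Field K] [Algebra ℂ K] [Algebra (Pol n) K]
  [IsScalarTower ℂ (Pol n) K] [FaithfulSMul (Pol n) K]

namespace Prim

variable {E : Prim n K} {S : Sheets n N}

theorem dsp_moment (hS : E.IsSheets S) {d : Fin n → Derivation ℂ K K} (hd : IsPartials d)
    (k : ℕ) (b : IB n K) : ∃ (D : ℕ) (C : ℝ), 0 ≤ C ∧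
    ∀ (τ : (Fin n → ℂ) × ℂ → ℂ) (δ : ℝ), 0 ≤ δ → AEStronglyMeasurable τ S.μ →
      ∫⁻ q, ENNReal.ofReal (‖τ q‖ ^ 2 * ((1 + ‖q.1‖) ^ k)⁻¹) ∂S.μ ≤ ENNReal.ofReal (δ ^ 2) →
      (∀ κ, S.IsTest κ → ∀ j, ∫ q, τ q * S.Db j κ q ∂S.μ = 0) →
      ∃ P : Pol n, (∀ m ∈ P.support, ∀ i, m i ≤ D) ∧
        (∀ m, ‖MvPolynomial.coeff m P‖ ≤ C * δ) ∧
        ∀ᵐ z ∂(volume.restrict S.V),
          S.fsum (fun q => τ q * E.ev (b : K) q) z = MvPolynomial.eval z P := by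
  obtain ⟨Cb, kb, hCb, hgrow⟩ := ev_growth hS b
  obtain ⟨D, C0, hC0, hpoly⟩ := exists_poly_of_weak n (k + 2 * kb)
  refine ⟨D, C0 * (Real.sqrt N * Cb), by positivity, ?_⟩
  intro τ δ hδ hτ hτ2 hw
  have hev : S.Holo (E.ev (b : K)) := holo_ev hS (isReg_ib b)
  have hX : AEStronglyMeasurable (fun q => τ q * E.ev (b : K) q) S.μ :=
    hτ.mul (Sheets.aestronglyMeasurable_of_CD (hev.CD 0))
  have hX2 : ∫⁻ q, ENNReal.ofReal (‖τ q * E.ev (b : K) q‖ ^ 2 *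
      ((1 + ‖q.1‖) ^ (k + 2 * kb))⁻¹) ∂S.μ ≤ ENNReal.ofReal (Cb ^ 2 * δ ^ 2) := by
    rw [ENNReal.ofReal_mul (by positivity)]
    refine le_trans ?_ (mul_le_mul_right hτ2 (ENNReal.ofReal (Cb ^ 2)))
    rw [← lintegral_const_mul' _ _ (by simp)]
    refine lintegral_mono_ae ?_
    filter_upwards [Sheets.ae_mem_M (S := S)] with q hq
    rw [← ENNReal.ofReal_mul (by positivity)]
    refine ENNReal.ofReal_le_ofReal ?_
    have h1 := hgrow q hq
    have h2 : ‖E.ev (b : K) q‖ ^ 2 ≤ Cb ^ 2 * (1 + ‖q.1‖) ^ (2 * kb) := by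
      calc ‖E.ev (b : K) q‖ ^ 2 ≤ (Cb * (1 + ‖q.1‖) ^ kb) ^ 2 :=
            pow_le_pow_left₀ (norm_nonneg _) h1 2
        _ = Cb ^ 2 * (1 + ‖q.1‖) ^ (2 * kb) := by ring
    rw [norm_mul, mul_pow, pow_add, mul_inv]
    have h3 : ‖E.ev (b : K) q‖ ^ 2 * ((1 + ‖q.1‖) ^ (2 * kb))⁻¹ ≤ Cb ^ 2 := by
      rw [← div_eq_mul_inv, div_le_iff₀ (by positivity)]
      exact h2
    calc ‖τ q‖ ^ 2 * ‖E.ev (b : K) q‖ ^ 2 * (((1 + ‖q.1‖) ^ k)⁻¹ * ((1 + ‖q.1‖) ^ (2 * kb))⁻¹)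
        = (‖τ q‖ ^ 2 * ((1 + ‖q.1‖) ^ k)⁻¹) *
          (‖E.ev (b : K) q‖ ^ 2 * ((1 + ‖q.1‖) ^ (2 * kb))⁻¹) := by ring
      _ ≤ (‖τ q‖ ^ 2 * ((1 + ‖q.1‖) ^ k)⁻¹) * Cb ^ 2 :=
          mul_le_mul_of_nonneg_left h3 (by positivity)
      _ = Cb ^ 2 * (‖τ q‖ ^ 2 * ((1 + ‖q.1‖) ^ k)⁻¹) := by ring
  have hX3 : ∫⁻ q, ENNReal.ofReal (‖τ q * E.ev (b : K) q‖ ^ 2 *
      ((1 + ‖q.1‖) ^ (k + 2 * kb))⁻¹) ∂S.μ < ⊤ := lt_of_le_of_lt hX2 ENNReal.ofReal_lt_top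
  have hXw : ∀ κ, S.IsTest κ → ∀ j,
      ∫ q, (τ q * E.ev (b : K) q) * S.Db j κ q ∂S.μ = 0 := by
    intro κ hκ j
    have htest : S.IsTest (fun q => E.ev (b : K) q * κ q) := by
      refine ⟨(hev.CD 2).mul hκ.1, ?_⟩
      obtain ⟨c, h1, h2, h3⟩ := hκ.2
      refine ⟨c, h1, h2, ?_⟩
      intro q hq
      show E.ev (b : K) q * κ q = 0
      rw [h3 q hq, mul_zero]
    rw [← hw _ htest j]
    refine integral_congr_ae ?_
    filter_upwards [Sheets.ae_mem_M (S := S)] with q hq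
    rw [Sheets.Db_mul (hev.CD 1) (hκ.1.mono (by norm_num)) hq, hev.Db hq]
    ring
  have hf : AEStronglyMeasurable (S.V.indicator (S.fsum fun q => τ q * E.ev (b : K) q))
      volume :=
    (aestronglyMeasurable_indicator_iff S.isOpen.measurableSet).2 (Sheets.dsp_aesm_fsum hX hX3)
  have hf2 : ∫⁻ z, ENNReal.ofReal (‖S.V.indicator (S.fsum fun q => τ q * E.ev (b : K) q) z‖ ^ 2 *
      ((1 + ‖z‖) ^ (k + 2 * kb))⁻¹) ≤ ENNReal.ofReal ((Real.sqrt N * Cb * δ) ^ 2) := by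
    have h1 : ∀ z, ENNReal.ofReal (‖S.V.indicator (S.fsum fun q => τ q * E.ev (b : K) q) z‖ ^ 2 *
        ((1 + ‖z‖) ^ (k + 2 * kb))⁻¹) = S.V.indicator (fun z =>
          ENNReal.ofReal (‖S.fsum (fun q => τ q * E.ev (b : K) q) z‖ ^ 2 *
        ((1 + ‖z‖) ^ (k + 2 * kb))⁻¹)) z := by
      intro z
      by_cases hz : z ∈ S.V
      · rw [Set.indicator_of_mem hz, Set.indicator_of_mem hz]
      · rw [Set.indicator_of_notMem hz, Set.indicator_of_notMem hz]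
        simp
    simp_rw [h1]
    rw [lintegral_indicator S.isOpen.measurableSet]
    refine (Sheets.dsp_lintegral_fsum hX (k + 2 * kb)).trans ?_
    refine (mul_le_mul_right hX2 (N : ℝ≥0∞)).trans ?_
    rw [← ENNReal.ofReal_natCast, ← ENNReal.ofReal_mul (by positivity)]
    refine ENNReal.ofReal_le_ofReal (le_of_eq ?_)
    rw [mul_pow, mul_pow, Real.sq_sqrt (by positivity)]
    ring
  have hfw := fun (κ : (Fin n → ℂ) → ℂ) (h1 : ContDiff ℝ 2 κ) (h2 : HasCompactSupport κ)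
      (j : Fin n) => weak_extend hS hd hf (lt_of_le_of_lt hf2 ENNReal.ofReal_lt_top)
      (fun κ h1 h2 h3 j => Sheets.dsp_weak hX hX3 hXw h1 h2 h3 j) κ h1 h2 j
  obtain ⟨P, hP1, hP2, hP3⟩ := hpoly _ (Real.sqrt N * Cb * δ) (by positivity) hf hf2 hfw
  refine ⟨P, hP1, fun m => (hP2 m).trans (le_of_eq (by ring)), ?_⟩
  rw [ae_restrict_iff' S.isOpen.measurableSet]
  filter_upwards [hP3] with z hz hzV
  rw [← hz, Set.indicator_of_mem hzV]

/-- A multi-index in a box. -/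
noncomputable def dspIdx {D : ℕ} (m : Fin n → Fin (D + 1)) : Fin n →₀ ℕ :=
  Finsupp.equivFunOnFinite.symm fun i => (m i : ℕ)

theorem dsp_poly_eq {D : ℕ} (P : Pol n) (h : ∀ m ∈ P.support, ∀ i, m i ≤ D) :
    P = ∑ m : Fin n → Fin (D + 1),
      (MvPolynomial.coeff (dspIdx m) P) • (MvPolynomial.monomial (dspIdx m) (1 : ℂ)) := by
  classical
  ext m'
  rw [MvPolynomial.coeff_sum]
  simp only [MvPolynomial.coeff_smul, MvPolynomial.coeff_monomial, smul_eq_mul, mul_ite, mul_one,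
    mul_zero]
  by_cases hm : m' ∈ P.support
  · have hb := h m' hm
    let m0 : Fin n → Fin (D + 1) := fun i => ⟨m' i, by have := hb i; omega⟩
    have h0 : dspIdx m0 = m' := by
      ext i
      simp [dspIdx, m0]
    rw [Finset.sum_eq_single m0]
    · rw [if_pos h0, h0]
    · intro m1 _ hne
      rw [if_neg]
      intro h1
      apply hne
      funext i
      have h2 : (dspIdx m1) i = m' i := by rw [h1]
      ext
      simpa [dspIdx, m0] using h2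
    · intro h1
      exact absurd (Finset.mem_univ _) h1
  · rw [MvPolynomial.notMem_support_iff.1 hm]
    symm
    refine Finset.sum_eq_zero ?_
    intro m1 _
    split_ifs with h1
    · rw [h1]
      exact MvPolynomial.notMem_support_iff.1 hm
    · rfl

omit [IsScalarTower ℂ (Pol n) K] [FaithfulSMul (Pol n) K] in
/-- Polynomials which agree almost everywhere over `V` are equal. -/
theorem dsp_poly_ext (hS : E.IsSheets S) {P Q : Pol n}
    (h : ∀ᵐ z ∂(volume.restrict S.V), MvPolynomial.eval z P = MvPolynomial.eval z Q) : P = Q := by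
  by_contra hne
  have h1 : ∀ᵐ z : Fin n → ℂ, MvPolynomial.eval z (P - Q) ≠ 0 := by
    have := volume_zeros (sub_ne_zero.2 hne)
    rw [ae_iff]
    simpa using this
  have h2 : ∀ᵐ z : Fin n → ℂ, MvPolynomial.eval z E.h ≠ 0 := by
    have := volume_zeros E.h0
    rw [ae_iff]
    simpa using this
  rw [ae_restrict_iff' S.isOpen.measurableSet] at h
  have h3 : ∀ᵐ z : Fin n → ℂ, False := by
    filter_upwards [h, h1, h2] with z hz hz1 hz2
    apply hz1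
    rw [map_sub, hz ((hS.1 z).2 hz2), sub_self]
  exact h3.exists.elim fun _ h => h

variable [Algebra (FractionRing (Pol n)) K] [IsScalarTower (Pol n) (FractionRing (Pol n)) K]
  [FiniteDimensional (FractionRing (Pol n)) K]

omit [Algebra ℂ K] [IsScalarTower ℂ (Pol n) K] [FaithfulSMul (Pol n) K]
  [FiniteDimensional (FractionRing (Pol n)) K] in
theorem dsp_tr_alg (f : Pol n) (a : K) : tr (n := n) (algebraMap (Pol n) K f * a) =
    algebraMap (Pol n) (FractionRing (Pol n)) f * tr (n := n) a := by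
  rw [IsScalarTower.algebraMap_apply (Pol n) (FractionRing (Pol n)) K, ← Algebra.smul_def]
  exact (Algebra.trace (FractionRing (Pol n)) K).map_smul _ _

omit [Algebra (Pol n) K] [Algebra ℂ K] [IsScalarTower ℂ (Pol n) K] [FaithfulSMul (Pol n) K]
  [IsScalarTower (Pol n) (FractionRing (Pol n)) K] [FiniteDimensional (FractionRing (Pol n)) K] in
theorem dsp_tr_add (a b : K) : tr (n := n) (a + b) = tr (n := n) a + tr (n := n) b :=
  (Algebra.trace (FractionRing (Pol n)) K).map_add _ _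

omit [Algebra (Pol n) K] [Algebra ℂ K] [IsScalarTower ℂ (Pol n) K] [FaithfulSMul (Pol n) K]
  [IsScalarTower (Pol n) (FractionRing (Pol n)) K] [FiniteDimensional (FractionRing (Pol n)) K] in
theorem dsp_tr_zero : tr (n := n) (0 : K) = 0 :=
  (Algebra.trace (FractionRing (Pol n)) K).map_zero

omit [Algebra (Pol n) K] [Algebra ℂ K] [IsScalarTower ℂ (Pol n) K] [FaithfulSMul (Pol n) K]
  [IsScalarTower (Pol n) (FractionRing (Pol n)) K] [FiniteDimensional (FractionRing (Pol n)) K] in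
theorem dsp_tr_fsum {ι : Type*} (s : Finset ι) (a : ι → K) :
    tr (n := n) (∑ i ∈ s, a i) = ∑ i ∈ s, tr (n := n) (a i) :=
  map_sum (Algebra.trace (FractionRing (Pol n)) K) _ _

omit [FaithfulSMul (Pol n) K] [Algebra (FractionRing (Pol n)) K]
  [IsScalarTower (Pol n) (FractionRing (Pol n)) K]
  [FiniteDimensional (FractionRing (Pol n)) K] in
theorem dsp_smul (a : ℂ) (b : K) : a • b = algebraMap (Pol n) K (MvPolynomial.C a) * b := by
  rw [Algebra.smul_def, ← MvPolynomial.algebraMap_eq,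
    ← IsScalarTower.algebraMap_apply ℂ (Pol n) K]

/-- The elements with coefficient vector `x`. -/
noncomputable def dspPhi (D : ℕ) (c : Fin N → K) :
    ((Fin N × (Fin n → Fin (D + 1))) → ℂ) →ₗ[ℂ] K :=
  Fintype.linearCombination ℂ fun p =>
    algebraMap (Pol n) K (MvPolynomial.monomial (dspIdx p.2) (1 : ℂ)) * c p.1

/-- The vectors giving elements of the trace dual. -/
noncomputable def dspX (D : ℕ) (c : Fin N → K) :
    Submodule ℂ ((Fin N × (Fin n → Fin (D + 1))) → ℂ) where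
  carrier := {x | ∀ b : IB n K, ∃ t : Pol n,
    tr (n := n) (dspPhi D c x * (b : K)) = algebraMap (Pol n) (FractionRing (Pol n)) t}
  zero_mem' := by
    intro b
    exact ⟨0, by rw [map_zero, zero_mul, map_zero, dsp_tr_zero]⟩
  add_mem' := by
    intro x y hx hy b
    obtain ⟨t, ht⟩ := hx b
    obtain ⟨u, hu⟩ := hy b
    exact ⟨t + u, by rw [map_add, add_mul, dsp_tr_add, ht, hu, map_add]⟩
  smul_mem' := by
    intro a x hx b
    obtain ⟨t, ht⟩ := hx b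
    exact ⟨MvPolynomial.C a * t, by
      rw [map_smul, dsp_smul (n := n), mul_assoc, dsp_tr_alg, ht, map_mul]⟩

omit [FaithfulSMul (Pol n) K] [Algebra (FractionRing (Pol n)) K]
  [IsScalarTower (Pol n) (FractionRing (Pol n)) K] [FiniteDimensional (FractionRing (Pol n)) K] in
theorem dspPhi_apply (D : ℕ) (c : Fin N → K) (x : (Fin N × (Fin n → Fin (D + 1))) → ℂ) :
    dspPhi D c x = ∑ i, (∑ m, algebraMap (Pol n) K
      (x (i, m) • MvPolynomial.monomial (dspIdx m) (1 : ℂ))) * c i := by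
  rw [dspPhi, Fintype.linearCombination_apply, Fintype.sum_prod_type]
  refine Finset.sum_congr rfl fun i _ => ?_
  rw [Finset.sum_mul]
  refine Finset.sum_congr rfl fun m _ => ?_
  rw [dsp_smul (n := n), MvPolynomial.smul_eq_C_mul, map_mul, mul_assoc]

omit [IsScalarTower ℂ (Pol n) K] [FaithfulSMul (Pol n) K]
  [FiniteDimensional (FractionRing (Pol n)) K] in
/-- Duality. -/
theorem dsp_tr_sum {c : Fin N → K}
    (hc : ∀ i j : Fin N, tr (n := n) (c i * E.y ^ (j : ℕ)) = if i = j then 1 else 0)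
    (P : Fin N → Pol n) (j : Fin N) :
    tr (n := n) ((∑ i, algebraMap (Pol n) K (P i) * c i) * E.y ^ (j : ℕ)) =
      algebraMap (Pol n) (FractionRing (Pol n)) (P j) := by
  rw [Finset.sum_mul, dsp_tr_fsum]
  rw [Finset.sum_eq_single j]
  · rw [mul_assoc, dsp_tr_alg, hc, if_pos rfl, mul_one]
  · intro i _ hi
    rw [mul_assoc, dsp_tr_alg, hc, if_neg hi, mul_zero]
  · intro h
    exact absurd (Finset.mem_univ _) h

omit [Algebra (FractionRing (Pol n)) K] [IsScalarTower (Pol n) (FractionRing (Pol n)) K]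
  [FiniteDimensional (FractionRing (Pol n)) K] in
theorem dsp_ev_ypow (hS : E.IsSheets S) {q : (Fin n → ℂ) × ℂ} (hq : q ∈ S.M) (j : ℕ) :
    E.ev (E.y ^ j) q = q.2 ^ j := by
  rw [ev_pow hS hq isReg_y, ev_y hS hq]

/-- Reduction modulo the minimal polynomial. -/
theorem dsp_reduce (hS : E.IsSheets S) (b : IB n K) : ∃ g : Fin N → Pol n,
    algebraMap (Pol n) K E.h * (b : K) = ∑ j, algebraMap (Pol n) K (g j) * E.y ^ (j : ℕ) := by
  obtain ⟨f, hf⟩ := E.denom b b.2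
  have hmon : (minpoly (Pol n) E.y).Monic := minpoly.monic E.integral
  have hN := card_eq (E := E) hS
  have h1 : Polynomial.aeval E.y (f %ₘ minpoly (Pol n) E.y) = Polynomial.aeval E.y f :=
    Polynomial.aeval_modByMonic_eq_self_of_root (minpoly.aeval _ _)
  have h2 : (f %ₘ minpoly (Pol n) E.y).natDegree < N := by
    rw [hN]
    exact Polynomial.natDegree_modByMonic_lt _ hmon (minpoly.ne_one _ _)
  refine ⟨fun j => (f %ₘ minpoly (Pol n) E.y).coeff j, ?_⟩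
  rw [hf, ← h1, Polynomial.aeval_eq_sum_range' h2, Finset.sum_range]
  refine Finset.sum_congr rfl fun j _ => ?_
  rw [Algebra.smul_def]

theorem dsp_mem (hS : E.IsSheets S) {c : Fin N → K}
    (hc : ∀ i j : Fin N, tr (n := n) (c i * E.y ^ (j : ℕ)) = if i = j then 1 else 0)
    {τ : (Fin n → ℂ) × ℂ → ℂ} {P : Fin N → Pol n}
    (hP : ∀ i : Fin N, ∀ᵐ z ∂(volume.restrict S.V),
      S.fsum (fun q => τ q * q.2 ^ (i : ℕ)) z = MvPolynomial.eval z (P i))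
    (b : IB n K) {Q : Pol n}
    (hQ : ∀ᵐ z ∂(volume.restrict S.V),
      S.fsum (fun q => τ q * E.ev (b : K) q) z = MvPolynomial.eval z Q) :
    tr (n := n) ((∑ i, algebraMap (Pol n) K (P i) * c i) * (b : K)) =
      algebraMap (Pol n) (FractionRing (Pol n)) Q := by
  obtain ⟨g, hg⟩ := dsp_reduce hS b
  have h1 : algebraMap (Pol n) (FractionRing (Pol n)) E.h *
      tr (n := n) ((∑ i, algebraMap (Pol n) K (P i) * c i) * (b : K)) =
      algebraMap (Pol n) (FractionRing (Pol n)) (∑ j, g j * P j) := by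
    rw [← dsp_tr_alg]
    have h2 : algebraMap (Pol n) K E.h * ((∑ i, algebraMap (Pol n) K (P i) * c i) * (b : K)) =
        ∑ j, algebraMap (Pol n) K (g j) *
          ((∑ i, algebraMap (Pol n) K (P i) * c i) * E.y ^ (j : ℕ)) := by
      rw [mul_left_comm, hg, Finset.mul_sum]
      refine Finset.sum_congr rfl fun j _ => ?_
      ring
    rw [h2, dsp_tr_fsum, map_sum]
    refine Finset.sum_congr rfl fun j _ => ?_
    rw [dsp_tr_alg, dsp_tr_sum hc, map_mul]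
  have h3 : ∑ j, g j * P j = E.h * Q := by
    refine dsp_poly_ext hS ?_
    filter_upwards [ae_all_iff.2 hP, hQ, ae_restrict_mem S.isOpen.measurableSet] with z hz hzQ hzV
    rw [map_sum, map_mul, ← hzQ]
    simp only [map_mul, ← hz, Sheets.fsum, Finset.mul_sum]
    rw [Finset.sum_comm]
    refine Finset.sum_congr rfl fun w hw => ?_
    have hq : ((z, w) : (Fin n → ℂ) × ℂ) ∈ S.M := ⟨hzV, hw⟩
    have h4 : E.ev (algebraMap (Pol n) K E.h * (b : K)) (z, w) =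
        E.ev (∑ j, algebraMap (Pol n) K (g j) * E.y ^ (j : ℕ)) (z, w) := by rw [hg]
    rw [ev_mul hS hq (isReg_alg _) (isReg_ib _), ev_alg hS hq,
      ev_sum hS hq _ (fun j _ => (isReg_alg _).mul (isReg_y.pow _))] at h4
    have h5 : ∀ j : Fin N, E.ev (algebraMap (Pol n) K (g j) * E.y ^ (j : ℕ)) (z, w) =
        MvPolynomial.eval z (g j) * w ^ (j : ℕ) := by
      intro j
      rw [ev_mul hS hq (isReg_alg _) (isReg_y.pow _), ev_alg hS hq, dsp_ev_ypow hS hq]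
    simp only [h5] at h4
    rw [show MvPolynomial.eval z E.h * (τ (z, w) * E.ev (b : K) (z, w)) =
      τ (z, w) * (MvPolynomial.eval z E.h * E.ev (b : K) (z, w)) by ring, h4, Finset.mul_sum]
    refine Finset.sum_congr rfl fun j _ => ?_
    ring
  rw [h3, map_mul] at h1
  refine mul_left_cancel₀ ?_ h1
  intro h0
  exact E.h0 ((IsFractionRing.injective (Pol n) (FractionRing (Pol n)))
    (by rw [h0, map_zero]))

omit [Algebra (FractionRing (Pol n)) K] [IsScalarTower (Pol n) (FractionRing (Pol n)) K]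
  [FiniteDimensional (FractionRing (Pol n)) K] in
theorem dsp_isReg_phi {D : ℕ} {c : Fin N → K} (hc : ∀ i, E.IsReg (c i))
    (x : (Fin N × (Fin n → Fin (D + 1))) → ℂ) : E.IsReg (dspPhi D c x) := by
  rw [dspPhi_apply]
  refine IsReg.sum _ fun i _ => ?_
  exact (IsReg.sum _ fun m _ => isReg_alg _).mul (hc i)

/-- Coordinates in a finite dimensional space are bounded. -/
theorem dsp_coord {ι : Type} [Fintype ι] (W : Submodule ℂ (ι → ℂ)) :
    ∃ (L : ℕ) (v : Fin L → W) (C : ℝ), 0 ≤ C ∧ ∀ x ∈ W, ∃ c : Fin L → ℂ,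
      (∀ l, ‖c l‖ ≤ C * ‖x‖) ∧ x = ∑ l, c l • (v l : ι → ℂ) := by
  let B := Module.finBasis ℂ W
  let T : W →L[ℂ] (Fin (Module.finrank ℂ W) → ℂ) := LinearMap.toContinuousLinearMap
    (B.equivFun : W →ₗ[ℂ] (Fin (Module.finrank ℂ W) → ℂ))
  refine ⟨Module.finrank ℂ W, B, ‖T‖, norm_nonneg T, ?_⟩
  intro x hx
  refine ⟨B.equivFun ⟨x, hx⟩, ?_, ?_⟩
  · intro l
    refine (norm_le_pi_norm (B.equivFun ⟨x, hx⟩) l).trans ?_
    exact T.le_opNorm ⟨x, hx⟩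
  · have h1 := B.sum_equivFun ⟨x, hx⟩
    have h2 := congrArg (fun y : W => (y : ι → ℂ)) h1
    simp only [Submodule.coe_sum, Submodule.coe_smul] at h2
    exact h2.symm

/-- Weakly holomorphic functions on `M` of polynomial growth form a finite dimensional space of
elements of the trace dual of the integral closure. -/
theorem exists_dual_space (hS : E.IsSheets S) {d : Fin n → Derivation ℂ K K} (hd : IsPartials d)
    (k : ℕ) : ∃ (L : ℕ) (e : Fin L → K) (C : ℝ), 0 ≤ C ∧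
    (∀ l, E.IsReg (e l)) ∧
    (∀ l, ∀ b : IB n K, ∃ c : Pol n,
      tr (n := n) (e l * (b : K)) = algebraMap (Pol n) (FractionRing (Pol n)) c) ∧
    ∀ (τ : (Fin n → ℂ) × ℂ → ℂ) (δ : ℝ), 0 ≤ δ → AEStronglyMeasurable τ S.μ →
      ∫⁻ q, ENNReal.ofReal (‖τ q‖ ^ 2 * ((1 + ‖q.1‖) ^ k)⁻¹) ∂S.μ ≤ ENNReal.ofReal (δ ^ 2) →
      (∀ κ, S.IsTest κ → ∀ j, ∫ q, τ q * S.Db j κ q ∂S.μ = 0) →
      ∃ c : Fin L → ℂ, (∀ l, ‖c l‖ ≤ C * δ) ∧
        ∀ᵐ q ∂S.μ, τ q = ∑ l, c l * E.ev (e l) q := by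
  obtain ⟨c, hcreg, -, -, hctr, hcdual, -⟩ := exists_dual_basis (E := E) hS
  choose Dm Cm hCm hm using fun b : IB n K => dsp_moment hS hd k b
  let yb : Fin N → IB n K := fun i => (⟨E.y, E.integral⟩ : IB n K) ^ (i : ℕ)
  have hyb : ∀ i, ((yb i : IB n K) : K) = E.y ^ (i : ℕ) := fun i => by
    simp [yb]
  let D : ℕ := Finset.univ.sup fun i => Dm (yb i)
  let C1 : ℝ := ∑ i, Cm (yb i)
  have hC1 : 0 ≤ C1 := Finset.sum_nonneg fun i _ => hCm _
  obtain ⟨L, v, C2, hC2, hv⟩ := dsp_coord (dspX (n := n) D c)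
  let u : Fin L → (Fin N × (Fin n → Fin (D + 1))) → ℂ := fun l => (v l : _)
  refine ⟨L, fun l => dspPhi D c (u l), C2 * C1, by positivity,
    fun l => dsp_isReg_phi hcreg _, fun l b => (v l).2 b, ?_⟩
  intro τ δ hδ hτ hτ2 hw
  choose Q hQdeg hQco hQ using fun b : IB n K => hm b τ δ hδ hτ hτ2 hw
  let P : Fin N → Pol n := fun i => Q (yb i)
  have hPdeg : ∀ i, ∀ m ∈ (P i).support, ∀ l, m l ≤ D := fun i m hm' l =>
    (hQdeg (yb i) m hm' l).trans (Finset.le_sup (f := fun i => Dm (yb i)) (Finset.mem_univ i))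
  have hP : ∀ i : Fin N, ∀ᵐ z ∂(volume.restrict S.V),
      S.fsum (fun q => τ q * q.2 ^ (i : ℕ)) z = MvPolynomial.eval z (P i) := by
    intro i
    filter_upwards [hQ (yb i), ae_restrict_mem S.isOpen.measurableSet] with z hz hzV
    rw [← hz]
    refine Finset.sum_congr rfl fun w hw' => ?_
    simp only [hyb]
    rw [dsp_ev_ypow hS (show ((z, w) : (Fin n → ℂ) × ℂ) ∈ S.M from ⟨hzV, hw'⟩)]
  let x : (Fin N × (Fin n → Fin (D + 1))) → ℂ := fun p => MvPolynomial.coeff (dspIdx p.2) (P p.1)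
  have hx : dspPhi D c x = ∑ i, algebraMap (Pol n) K (P i) * c i := by
    rw [dspPhi_apply]
    refine Finset.sum_congr rfl fun i _ => ?_
    rw [← map_sum, ← dsp_poly_eq (P i) (hPdeg i)]
  have hxX : x ∈ dspX D c := by
    intro b
    refine ⟨Q b, ?_⟩
    rw [hx]
    exact dsp_mem hS hctr hP b (hQ b)
  obtain ⟨a, ha1, ha2⟩ := hv x hxX
  refine ⟨a, ?_, ?_⟩
  · intro l
    refine (ha1 l).trans ?_
    rw [mul_assoc]
    refine mul_le_mul_of_nonneg_left ?_ hC2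
    refine (pi_norm_le_iff_of_nonneg (by positivity)).2 fun p => ?_
    refine (hQco (yb p.1) _).trans ?_
    refine mul_le_mul_of_nonneg_right ?_ hδ
    exact Finset.single_le_sum (f := fun i => Cm (yb i)) (fun i _ => hCm _) (Finset.mem_univ p.1)
  · rw [Sheets.ae_μ_iff]
    filter_upwards [ae_all_iff.2 hP, ae_restrict_mem S.isOpen.measurableSet] with z hz hzV
    intro w hw'
    have hq : ((z, w) : (Fin n → ℂ) × ℂ) ∈ S.M := ⟨hzV, hw'⟩
    have h1 : ∑ l, a l * E.ev (dspPhi D c (u l)) (z, w) = E.ev (dspPhi D c x) (z, w) := by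
      have h3 : x = ∑ l, a l • u l := ha2
      rw [h3, map_sum]
      rw [ev_sum hS hq _ (fun l _ => dsp_isReg_phi hcreg _)]
      refine Finset.sum_congr rfl fun l _ => ?_
      rw [map_smul, Algebra.smul_def, ev_mul hS hq (isReg_const _) (dsp_isReg_phi hcreg _),
        ev_const hS hq]
    rw [h1, hx, ev_sum hS hq _ (fun i _ => (isReg_alg _).mul (hcreg i))]
    have h2 : ∀ i, E.ev (algebraMap (Pol n) K (P i) * c i) (z, w) =
        ∑ w' ∈ S.fib z, τ (z, w') * (E.ev (c i) (z, w) * w' ^ (i : ℕ)) := by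
      intro i
      rw [ev_mul hS hq (isReg_alg _) (hcreg i), ev_alg hS hq, ← hz i, Sheets.fsum, Finset.sum_mul]
      refine Finset.sum_congr rfl fun w' _ => ?_
      ring
    simp only [h2]
    rw [Finset.sum_comm]
    simp only [← Finset.mul_sum]
    rw [Finset.sum_congr rfl fun w' hw'' => by rw [hcdual z hzV w' hw'' w hw']]
    simp [hw']

end Prim

end Vale.Agent.P282.L2
end

section

open MeasureTheory Filter Topology
open scoped ENNReal NNReal ComplexConjugate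

namespace Vale.Agent.P282.L2

namespace Prim

section point

variable {n N : ℕ} {K : Type} [Field K] [Algebra ℂ K] [Algebra (Pol n) K]
  [IsScalarTower ℂ (Pol n) K] [FaithfulSMul (Pol n) K]

variable {E : Prim n K} {S : Sheets n N} {x : Pt n K}

theorem ne_aesm (hS : E.IsSheets S) {a : K} (ha : E.IsReg a) :
    AEStronglyMeasurable (E.ev a) S.μ :=
  Sheets.aestronglyMeasurable_of_CD ((holo_ev hS ha).CD 0)

theorem ne_aemeas (hS : E.IsSheets S) {a : K} (ha : E.IsReg a) :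
    AEMeasurable (fun q => ‖E.ev a q‖ ^ 2) S.μ :=
  ((ne_aesm hS ha).aemeasurable.norm).pow_const 2

/-- Integrals over a section are bounded by integrals over the total space. -/
theorem ne_section_le {W : Set (Fin n → ℂ)} {s : (Fin n → ℂ) → ℂ} (hs : S.IsSection W s)
    {Ψ : (Fin n → ℂ) × ℂ → ℝ≥0∞} (hΨ : AEMeasurable Ψ S.μ) {B : Set (Fin n → ℂ)} (hB : B ⊆ W)
    {A : Set ((Fin n → ℂ) × ℂ)} (hA : NullMeasurableSet A S.μ) (hBA : ∀ z ∈ B, (z, s z) ∈ A)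
    (hBm : MeasurableSet B) :
    ∫⁻ z in B, Ψ (z, s z) ≤ ∫⁻ q in A, Ψ q ∂S.μ := by
  classical
  rw [← lintegral_indicator₀ hA, Sheets.lintegral_μ' (hΨ.indicator₀ hA)]
  calc ∫⁻ z in B, Ψ (z, s z)
      ≤ ∫⁻ z in B, ∑ w ∈ S.fib z, A.indicator Ψ (z, w) := by
        refine setLIntegral_mono' hBm fun z hz => ?_
        have h1 : Ψ (z, s z) = A.indicator Ψ (z, s z) := by
          rw [Set.indicator_of_mem (hBA z hz)]
        rw [h1]
        exact Finset.single_le_sum (f := fun w => A.indicator Ψ (z, w)) (fun _ _ => zero_le)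
          (hs.mem z (hB hz))
    _ ≤ ∫⁻ z in S.V, ∑ w ∈ S.fib z, A.indicator Ψ (z, w) :=
        lintegral_mono_set (hB.trans hs.subset)

/-- The estimate at one point. -/
theorem ne_point (hS : E.IsSheets S) (hn : 0 < n) {J : K} (hJ0 : J ≠ 0) (hJr' : E.IsReg J)
    (hJr : E.IsReg J⁻¹) {m r : ℕ} (hm : 0 < m) (F G : Fin r → IB n K) {e₁ : ℝ} (he₁ : 0 < e₁)
    {C ε δ : ℝ} (hC : 0 ≤ C) (hε : 0 < ε) (hδ : 0 < δ) {q₀ : (Fin n → ℂ) × ℂ} (hq : q₀ ∈ S.M)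
    (hq1 : ‖q₀.1‖ < 1) (hV : ∀ j, E.Van m q₀ (G j))
    (hFG : ∀ q ∈ S.M, ‖q.1‖ ≤ 1 → ∑ j, ‖E.ev (G j : K) q - E.ev (F j : K) q‖ ^ 2 ≤ ε ^ 2) :
    ∃ s₀ > 0, ∀ s : ℝ, 0 < s → s ≤ s₀ → ∀ H : K, E.IsReg H →
      ∫⁻ q in {q | ∑ j, ‖E.ev (F j : K) q‖ ^ 2 ≤ (2 * ε) ^ 2},
          ENNReal.ofReal (‖E.ev H q‖ ^ 2 * ‖E.ev J⁻¹ q‖ ^ 2 *
            (s + ∑ j, ‖E.ev (G j : K) q‖ ^ 2) ^ (-((n : ℝ) / m)) *
            (ε ^ 2 + ∑ j, ‖E.ev (F j : K) q‖ ^ 2) ^ (-e₁)) ∂S.μ ≤ ENNReal.ofReal C →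
      ‖E.ev H q₀‖ ≤ δ := by
  classical
  obtain ⟨sq, W, hsec, hqW, hsq⟩ := Sheets.exists_section hq
  have hq0 : (q₀.1, sq q₀.1) = q₀ := Prod.ext rfl hsq
  -- continuity of the functions along the section
  have hcont : ∀ a : K, E.IsReg a → ContinuousOn (fun z => E.ev a (z, sq z)) W := fun a ha =>
    ((holo_ev hS ha) W sq hsec).continuousOn
  have hcat : ∀ a : K, E.IsReg a → ContinuousAt (fun z => E.ev a (z, sq z)) q₀.1 := fun a ha =>
    (hcont a ha).continuousAt (hsec.isOpen.mem_nhds hqW)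
  -- local bounds for `G`
  have hb : ∀ j, ∃ Cj rj : ℝ, 0 < rj ∧ Metric.ball q₀.1 rj ⊆ W ∧ ∀ z ∈ Metric.ball q₀.1 rj,
      ‖E.ev (G j : K) (z, sq z)‖ ≤ Cj * ‖z - q₀.1‖ ^ m := fun j =>
    Van.bound hS hq (hV j) hsec hqW hsq
  choose Cj rj hrj hrW hGb using hb
  have hGev : ∀ j, ∀ᶠ z in 𝓝 q₀.1, ‖E.ev (G j : K) (z, sq z)‖ ≤ Cj j * ‖z - q₀.1‖ ^ m := fun j =>
    Filter.eventually_of_mem (Metric.ball_mem_nhds _ (hrj j)) (hGb j)
  have hJne : E.ev J⁻¹ q₀ ≠ 0 := by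
    have h1 := ev_ne_zero_of_inv hS hq (inv_ne_zero hJ0) hJr (by rw [inv_inv]; exact hJr')
    exact h1
  set cJ : ℝ := ‖E.ev J⁻¹ q₀‖ ^ 2 / 2 with hcJ
  have hcJ0 : 0 < cJ := by
    have : 0 < ‖E.ev J⁻¹ q₀‖ := norm_pos_iff.2 hJne
    positivity
  have hJev : ∀ᶠ z in 𝓝 q₀.1, cJ < ‖E.ev J⁻¹ (z, sq z)‖ ^ 2 := by
    have h1 : ContinuousAt (fun z => ‖E.ev J⁻¹ (z, sq z)‖ ^ 2) q₀.1 := ((hcat _ hJr).norm).pow 2
    have h2 : cJ < ‖E.ev J⁻¹ (q₀.1, sq q₀.1)‖ ^ 2 := by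
      rw [hq0, hcJ]
      have : 0 < ‖E.ev J⁻¹ q₀‖ := norm_pos_iff.2 hJne
      have : 0 < ‖E.ev J⁻¹ q₀‖ ^ 2 := by positivity
      linarith
    exact h1.eventually (lt_mem_nhds h2)
  have hGq : ∀ j, E.ev (G j : K) q₀ = 0 := fun j => Van.ev_eq_zero hS hq hm (hV j)
  have hFq : ∑ j, ‖E.ev (F j : K) q₀‖ ^ 2 ≤ ε ^ 2 := by
    have h1 := hFG q₀ hq hq1.le
    refine le_trans (le_of_eq (Finset.sum_congr rfl fun j _ => ?_)) h1
    rw [hGq j, zero_sub, norm_neg]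
  have hFev : ∀ᶠ z in 𝓝 q₀.1, ∑ j, ‖E.ev (F j : K) (z, sq z)‖ ^ 2 < (2 * ε) ^ 2 := by
    have h1 : ContinuousAt (fun z => ∑ j, ‖E.ev (F j : K) (z, sq z)‖ ^ 2) q₀.1 :=
      tendsto_finsetSum _ fun j _ => ((hcat _ (isReg_ib (F j))).norm).pow 2
    have h2 : ∑ j, ‖E.ev (F j : K) (q₀.1, sq q₀.1)‖ ^ 2 < (2 * ε) ^ 2 := by
      rw [hq0]
      linarith only [mul_pos (sub_pos.2 hε) (sub_pos.2 hε), hFq]
    exact h1.eventually (gt_mem_nhds h2)
  -- a common ball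
  have hall : ∀ᶠ z in 𝓝 q₀.1, z ∈ W ∧ cJ < ‖E.ev J⁻¹ (z, sq z)‖ ^ 2 ∧
      ∑ j, ‖E.ev (F j : K) (z, sq z)‖ ^ 2 < (2 * ε) ^ 2 ∧
      ∀ j, ‖E.ev (G j : K) (z, sq z)‖ ≤ Cj j * ‖z - q₀.1‖ ^ m :=
    (Filter.eventually_of_mem (hsec.isOpen.mem_nhds hqW) fun _ h => h).and
      (hJev.and (hFev.and (Filter.eventually_all.2 hGev)))
  obtain ⟨ρ, hρ, hball⟩ := Metric.eventually_nhds_iff_ball.1 hall
  set Cq : ℝ := ∑ j, Cj j ^ 2 + 1 with hCq
  have hCq0 : 0 < Cq := by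
    have : 0 ≤ ∑ j, Cj j ^ 2 := Finset.sum_nonneg fun j _ => sq_nonneg _
    linarith
  have hGsum : ∀ z ∈ Metric.ball q₀.1 ρ,
      ∑ j, ‖E.ev (G j : K) (z, sq z)‖ ^ 2 ≤ Cq * ‖z - q₀.1‖ ^ (2 * m) := by
    intro z hz
    have h1 : ∀ j ∈ Finset.univ, ‖E.ev (G j : K) (z, sq z)‖ ^ 2 ≤
        Cj j ^ 2 * ‖z - q₀.1‖ ^ (2 * m) := by
      intro j _
      have h2 := (hball z hz).2.2.2 j
      calc ‖E.ev (G j : K) (z, sq z)‖ ^ 2 ≤ (Cj j * ‖z - q₀.1‖ ^ m) ^ 2 :=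
            pow_le_pow_left₀ (norm_nonneg _) h2 2
        _ = Cj j ^ 2 * ‖z - q₀.1‖ ^ (2 * m) := by ring
    refine (Finset.sum_le_sum h1).trans ?_
    rw [← Finset.sum_mul]
    refine mul_le_mul_of_nonneg_right ?_ (by positivity)
    rw [hCq]; linarith
  set κ : ℝ := cJ * (5 * ε ^ 2) ^ (-e₁) with hκ
  have h5 : 0 < 5 * ε ^ 2 := by positivity
  have hκ0 : 0 < κ := mul_pos hcJ0 (Real.rpow_pos_of_pos h5 _)
  have hnm : -((n : ℝ) / m) ≤ 0 := by
    have : 0 ≤ (n : ℝ) / m := by positivity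
    linarith
  obtain ⟨s₀, hs₀, hlarge⟩ := exists_s_large (n := n) hn hm hρ hCq0 (B := (C / κ + 1) / δ ^ 2)
  refine ⟨s₀, hs₀, fun s hs hss H hH hint => ?_⟩
  set w : (Fin n → ℂ) → ℝ≥0∞ := fun v =>
    ENNReal.ofReal ((s + Cq * ‖v‖ ^ (2 * m)) ^ (-((n : ℝ) / m))) with hw
  have hwm : Measurable w := by
    have h1 : Measurable fun v : Fin n → ℂ => (s + Cq * ‖v‖ ^ (2 * m)) ^ (-((n : ℝ) / m)) := by
      fun_prop
    exact h1.ennreal_ofReal
  have hwc : ∀ (c : ℂ) (v : Fin n → ℂ), ‖c‖ = 1 → w (c • v) = w v := by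
    intro c v hc
    simp only [hw, norm_smul, hc, one_mul]
  have hmv := mean_value hwm hwc hρ (z₀ := q₀.1) (G := fun z => E.ev H (z, sq z))
    (((holo_ev hS hH) W sq hsec).mono fun z hz => (hball z hz).1)
  simp only [hq0] at hmv
  -- comparison of the integrands
  set Ψ : (Fin n → ℂ) × ℂ → ℝ≥0∞ := fun q =>
    ENNReal.ofReal (‖E.ev H q‖ ^ 2 * ‖E.ev J⁻¹ q‖ ^ 2 *
      (s + ∑ j, ‖E.ev (G j : K) q‖ ^ 2) ^ (-((n : ℝ) / m)) *
      (ε ^ 2 + ∑ j, ‖E.ev (F j : K) q‖ ^ 2) ^ (-e₁)) with hΨ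
  have hsumF : AEMeasurable (fun q => ∑ j, ‖E.ev (F j : K) q‖ ^ 2) S.μ :=
    Finset.aemeasurable_fun_sum _ fun j _ => ne_aemeas hS (isReg_ib (F j))
  have hsumG : AEMeasurable (fun q => ∑ j, ‖E.ev (G j : K) q‖ ^ 2) S.μ :=
    Finset.aemeasurable_fun_sum _ fun j _ => ne_aemeas hS (isReg_ib (G j))
  have hΨm : AEMeasurable Ψ S.μ :=
    ((((ne_aemeas hS hH).mul (ne_aemeas hS hJr)).mul
      ((hsumG.const_add s).pow_const _)).mul ((hsumF.const_add (ε ^ 2)).pow_const _)).ennreal_ofReal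
  have hA : NullMeasurableSet {q | ∑ j, ‖E.ev (F j : K) q‖ ^ 2 ≤ (2 * ε) ^ 2} S.μ :=
    nullMeasurableSet_le hsumF aemeasurable_const
  have hle := ne_section_le hsec hΨm (B := Metric.ball q₀.1 ρ) (fun z hz => (hball z hz).1) hA
    (fun z hz => (hball z hz).2.2.1.le) Metric.isOpen_ball.measurableSet
  have hpt : ∀ z ∈ Metric.ball q₀.1 ρ, ENNReal.ofReal κ *
      (ENNReal.ofReal (‖E.ev H (z, sq z)‖ ^ 2) * w (z - q₀.1)) ≤ Ψ (z, sq z) := by
    intro z hz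
    obtain ⟨_, hJz, hFz, _⟩ := hball z hz
    have hGz := hGsum z hz
    have hFz0 : 0 ≤ ∑ j, ‖E.ev (F j : K) (z, sq z)‖ ^ 2 :=
      Finset.sum_nonneg fun j _ => sq_nonneg _
    have hGz0 : 0 ≤ ∑ j, ‖E.ev (G j : K) (z, sq z)‖ ^ 2 :=
      Finset.sum_nonneg fun j _ => sq_nonneg _
    have hb1 : (s + Cq * ‖z - q₀.1‖ ^ (2 * m)) ^ (-((n : ℝ) / m)) ≤
        (s + ∑ j, ‖E.ev (G j : K) (z, sq z)‖ ^ 2) ^ (-((n : ℝ) / m)) :=
      Real.rpow_le_rpow_of_nonpos (by linarith only [hGz0, hs]) (by linarith) hnm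
    have hb2 : (5 * ε ^ 2) ^ (-e₁) ≤
        (ε ^ 2 + ∑ j, ‖E.ev (F j : K) (z, sq z)‖ ^ 2) ^ (-e₁) := by
      refine Real.rpow_le_rpow_of_nonpos (by linarith only [hFz0, hFz]) ?_ (by linarith)
      linarith only [hFz]
    have hp1 : 0 ≤ (s + Cq * ‖z - q₀.1‖ ^ (2 * m)) ^ (-((n : ℝ) / m)) :=
      Real.rpow_nonneg (by (clear * - hs; positivity)) _
    have hp2 : 0 ≤ (5 * ε ^ 2) ^ (-e₁) := Real.rpow_nonneg h5.le _
    rw [hw, ← ENNReal.ofReal_mul (sq_nonneg _), ← ENNReal.ofReal_mul hκ0.le]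
    refine ENNReal.ofReal_le_ofReal ?_
    rw [hκ]
    calc cJ * (5 * ε ^ 2) ^ (-e₁) * (‖E.ev H (z, sq z)‖ ^ 2 *
          (s + Cq * ‖z - q₀.1‖ ^ (2 * m)) ^ (-((n : ℝ) / m)))
        = ‖E.ev H (z, sq z)‖ ^ 2 * cJ *
          (s + Cq * ‖z - q₀.1‖ ^ (2 * m)) ^ (-((n : ℝ) / m)) * (5 * ε ^ 2) ^ (-e₁) := by ring
      _ ≤ _ := mul_le_mul (mul_le_mul (mul_le_mul_of_nonneg_left hJz.le (sq_nonneg _)) hb1 hp1
        (mul_nonneg (sq_nonneg _) (sq_nonneg _))) hb2 hp2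
        (mul_nonneg (mul_nonneg (sq_nonneg _) (sq_nonneg _))
          (Real.rpow_nonneg (add_nonneg hs.le hGz0) _))
  have hint2 : ENNReal.ofReal κ *
      ∫⁻ v in Metric.ball (0 : Fin n → ℂ) ρ,
        ENNReal.ofReal (‖E.ev H (q₀.1 + v, sq (q₀.1 + v))‖ ^ 2) * w v ≤ ENNReal.ofReal C := by
    refine le_trans ?_ (hle.trans hint)
    have htr : ∫⁻ v in Metric.ball (0 : Fin n → ℂ) ρ,
        ENNReal.ofReal (‖E.ev H (q₀.1 + v, sq (q₀.1 + v))‖ ^ 2) * w v =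
        ∫⁻ z in Metric.ball q₀.1 ρ,
          ENNReal.ofReal (‖E.ev H (z, sq z)‖ ^ 2) * w (z - q₀.1) := by
      rw [← lintegral_indicator Metric.isOpen_ball.measurableSet,
        ← lintegral_indicator Metric.isOpen_ball.measurableSet,
        ← lintegral_sub_right_eq_self _ q₀.1]
      refine lintegral_congr fun z => ?_
      by_cases hz : z ∈ Metric.ball q₀.1 ρ
      · rw [Set.indicator_of_mem hz, Set.indicator_of_mem, add_sub_cancel]
        rw [mem_ball_zero_iff]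
        rwa [mem_ball_iff_norm] at hz
      · rw [Set.indicator_of_notMem hz, Set.indicator_of_notMem]
        rw [mem_ball_zero_iff]
        rwa [mem_ball_iff_norm] at hz
    rw [htr]
    refine (lintegral_const_mul_le _ _).trans ?_
    exact setLIntegral_mono' Metric.isOpen_ball.measurableSet hpt
  have hlg := hlarge s hs hss
  have hfin1 : ENNReal.ofReal κ * (ENNReal.ofReal (‖E.ev H q₀‖ ^ 2) *
      ENNReal.ofReal ((C / κ + 1) / δ ^ 2)) ≤ ENNReal.ofReal C :=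
    le_trans (mul_le_mul_right ((mul_le_mul_right hlg _).trans hmv) _) hint2
  rw [← ENNReal.ofReal_mul (sq_nonneg _), ← ENNReal.ofReal_mul hκ0.le,
    ENNReal.ofReal_le_ofReal_iff hC] at hfin1
  have hCκ : 0 ≤ C / κ := by positivity
  have h1 : ‖E.ev H q₀‖ ^ 2 * (C / κ + 1) ≤ δ ^ 2 * (C / κ) := by
    have h2 : κ * (‖E.ev H q₀‖ ^ 2 * ((C / κ + 1) / δ ^ 2)) =
        (‖E.ev H q₀‖ ^ 2 * (C / κ + 1)) * (κ / δ ^ 2) := by ring
    rw [h2] at hfin1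
    have h3 : 0 < κ / δ ^ 2 := by positivity
    have h4 : C = (δ ^ 2 * (C / κ)) * (κ / δ ^ 2) := by
      field_simp
    rw [h4] at hfin1
    exact le_of_mul_le_mul_right (by simpa [← h4] using hfin1) h3
  have h2 : ‖E.ev H q₀‖ ^ 2 ≤ δ ^ 2 := by
    by_contra hcon
    push Not at hcon
    linarith only [mul_nonneg (sub_nonneg.2 hCκ) (le_of_lt (sub_pos.2 hcon)), mul_pos (sub_pos.2 hδ) (sub_pos.2 hδ), mul_nonneg (mul_self_nonneg (1 : ℝ)) (le_of_lt (sub_pos.2 hcon)), mul_nonneg (mul_self_nonneg (1 : ℝ)) (sub_nonneg.2 h1)]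
  exact abs_le_of_sq_le_sq' h2 hδ.le |>.2

end point

variable {n N : ℕ} {K : Type} [Field K] [Algebra ℂ K] [Algebra (Pol n) K]
  [IsScalarTower ℂ (Pol n) K] [FaithfulSMul (Pol n) K]
  [Algebra (FractionRing (Pol n)) K] [IsScalarTower (Pol n) (FractionRing (Pol n)) K]
  [FiniteDimensional (FractionRing (Pol n)) K]

variable {E : Prim n K} {S : Sheets n N} {x : Pt n K}

/-- The main estimate at scale `ε`. -/
theorem scale_estimate (hS : E.IsSheets S) {d : Fin n → Derivation ℂ K K} (hd : IsPartials d)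
    (hn : 0 < n) {J : K} (hJ0 : J ≠ 0) (hJ : IsIntegral (Pol n) J)
    (hJr : E.IsReg J⁻¹) {m r : ℕ} (hm : 0 < m) (F : Fin r → IB n K)
    (hz : ∀ i : Fin n, ∃ j, F j = algebraMap (Pol n) (IB n K) (MvPolynomial.X i) ^ m)
    (hloc : ∀ W ∈ E.nhd S x, ∃ ε > 0, ∀ q ∈ S.M, ∑ j, ‖E.ev (F j : K) q‖ ^ 2 ≤ ε → q ∈ W)
    (g : IB n K) {e₁ e₂ : ℝ} (he₁ : 0 < e₁) (he₂ : e₁ < e₂) {W₀ : Set ((Fin n → ℂ) × ℂ)}
    (hW₀ : W₀ ∈ E.nhd S x)
    (hfin : ∫⁻ q in W₀, ENNReal.ofReal (‖E.ev (g : K) q‖ ^ 2 *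
      (∑ j, ‖E.ev (F j : K) q‖ ^ 2) ^ (-((n : ℝ) / m + e₂)) * ‖E.ev J⁻¹ q‖ ^ 2) ∂S.μ < ⊤)
    (C₁ : ℝ) (k₁ : ℕ) :
    ∃ (L : ℕ) (e : Fin L → K) (C ε₀ : ℝ), 0 < ε₀ ∧ 0 ≤ C ∧ (∀ l, E.IsReg (e l)) ∧
      (∀ l, ∀ b : IB n K, ∃ c : Pol n,
        tr (n := n) (e l * (b : K)) = algebraMap (Pol n) (FractionRing (Pol n)) c) ∧
      ∀ ε : ℝ, 0 < ε → ε ≤ ε₀ → ∀ (G : Fin r → IB n K) (q₁ q₂ : (Fin n → ℂ) × ℂ),
        q₁ ∈ S.M → q₂ ∈ S.M → ‖q₁.1‖ < 1 → ‖q₂.1‖ < 1 →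
        (∀ j, E.Van m q₁ (G j) ∧ E.Van m q₂ (G j)) →
        (∀ q ∈ S.M, ‖q.1‖ ≤ 1 → ∑ j, ‖E.ev (G j : K) q - E.ev (F j : K) q‖ ^ 2 ≤ ε ^ 2) →
        (∀ q ∈ S.M, ∀ j, ‖E.ev (G j : K) q‖ ≤ C₁ * (1 + ‖q.1‖) ^ k₁) →
        ∀ δ : ℝ, 0 < δ → ∃ c : Fin L → ℂ, (∀ l, ‖c l‖ ≤ C * ε ^ (e₂ - e₁)) ∧
          ‖E.ev (g : K) q₁ - ∑ l, c l * E.ev (J * e l) q₁‖ ≤ δ ∧
          ‖E.ev (g : K) q₂ - ∑ l, c l * E.ev (J * e l) q₂‖ ≤ δ := by
  obtain ⟨k, C, ε₀, hε₀, hC, hsol⟩ := scale_solution hS hd hn hJ0 hJ hJr hm F hz hloc g he₁ he₂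
    hW₀ hfin C₁ k₁
  obtain ⟨L, e, C', hC', hreg, htr, hdual⟩ := exists_dual_space hS hd k
  have hJr' : E.IsReg J := isReg_of_integral hJ
  refine ⟨L, e, C' * C, ε₀, hε₀, mul_nonneg hC' hC, hreg, htr, ?_⟩
  intro ε hε hεε G q₁ q₂ hq₁ hq₂ hn₁ hn₂ hV hFG hGb δ hδ
  obtain ⟨s₁, hs₁, hp₁⟩ := ne_point hS hn hJ0 hJr' hJr hm F G he₁ hC hε hδ hq₁ hn₁
    (fun j => (hV j).1) hFG
  obtain ⟨s₂, hs₂, hp₂⟩ := ne_point hS hn hJ0 hJr' hJr hm F G he₁ hC hε hδ hq₂ hn₂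
    (fun j => (hV j).2) hFG
  have hs : 0 < min 1 (min s₁ s₂) := lt_min one_pos (lt_min hs₁ hs₂)
  obtain ⟨τ, hτm, hτh, hτb, hτi⟩ := hsol ε hε hεε G hFG hGb (min 1 (min s₁ s₂)) hs
    (min_le_left _ _)
  have hnn : 0 ≤ C * ε ^ (e₂ - e₁) := mul_nonneg hC (Real.rpow_nonneg hε.le _)
  obtain ⟨c, hc, hcτ⟩ := hdual τ _ hnn hτm hτb hτh
  have hJe : ∀ l ∈ (Finset.univ : Finset (Fin L)), E.IsReg (algebraMap ℂ K (c l) * (J * e l)) :=
    fun l _ => (isReg_const _).mul (hJr'.mul (hreg l))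
  have hHr : E.IsReg ((g : K) - ∑ l, algebraMap ℂ K (c l) * (J * e l)) :=
    (isReg_ib g).sub (IsReg.sum _ hJe)
  have hHev : ∀ q ∈ S.M, E.ev ((g : K) - ∑ l, algebraMap ℂ K (c l) * (J * e l)) q =
      E.ev (g : K) q - ∑ l, c l * E.ev (J * e l) q := by
    intro q hq
    rw [ev_sub hS hq (isReg_ib g) (IsReg.sum _ hJe), ev_sum hS hq _ hJe]
    congr 1
    refine Finset.sum_congr rfl fun l _ => ?_
    rw [ev_mul hS hq (isReg_const _) (hJr'.mul (hreg l)), ev_const hS hq]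
  have hae : ∀ᵐ q ∂S.μ, E.ev ((g : K) - ∑ l, algebraMap ℂ K (c l) * (J * e l)) q =
      E.ev (g : K) q - E.ev J q * τ q := by
    filter_upwards [hcτ, Sheets.ae_mem_M (S := S)] with q hq hqM
    rw [hHev q hqM, hq, Finset.mul_sum]
    congr 1
    refine Finset.sum_congr rfl fun l _ => ?_
    rw [ev_mul hS hqM hJr' (hreg l)]
    ring
  have hint : ∫⁻ q in {q | ∑ j, ‖E.ev (F j : K) q‖ ^ 2 ≤ (2 * ε) ^ 2},
      ENNReal.ofReal (‖E.ev ((g : K) - ∑ l, algebraMap ℂ K (c l) * (J * e l)) q‖ ^ 2 *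
        ‖E.ev J⁻¹ q‖ ^ 2 *
        (min 1 (min s₁ s₂) + ∑ j, ‖E.ev (G j : K) q‖ ^ 2) ^ (-((n : ℝ) / m)) *
        (ε ^ 2 + ∑ j, ‖E.ev (F j : K) q‖ ^ 2) ^ (-e₁)) ∂S.μ ≤ ENNReal.ofReal C := by
    refine le_trans (le_of_eq ?_) hτi
    refine lintegral_congr_ae ?_
    filter_upwards [ae_restrict_of_ae hae] with q hq
    rw [hq]
  refine ⟨c, fun l => ?_, ?_, ?_⟩
  · have h1 := hc l
    rwa [← mul_assoc] at h1
  · rw [← hHev q₁ hq₁]
    exact hp₁ _ hs ((min_le_right _ _).trans (min_le_left _ _)) _ hHr hint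
  · rw [← hHev q₂ hq₂]
    exact hp₂ _ hs ((min_le_right _ _).trans (min_le_right _ _)) _ hHr hint

end Prim

end Vale.Agent.P282.L2
end

section

open MeasureTheory Filter Topology
open scoped ENNReal NNReal ComplexConjugate

namespace Vale.Agent.P282.L2

variable {n N : ℕ} {K : Type} [Field K] [Algebra ℂ K] [Algebra (Pol n) K]
  [IsScalarTower ℂ (Pol n) K] [FaithfulSMul (Pol n) K]

namespace LimAux

variable (n K) in
/-- Constants in the integral closure. -/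
noncomputable def kc : ℂ →+* IB n K := (algebraMap (Pol n) (IB n K)).comp MvPolynomial.C

omit [Algebra ℂ K] [IsScalarTower ℂ (Pol n) K] [FaithfulSMul (Pol n) K] in
theorem kc_def (c : ℂ) : kc n K c = algebraMap (Pol n) (IB n K) (MvPolynomial.C c) := rfl

variable {E : Prim n K} {S : Sheets n N} {x : Pt n K} {U : Ultrafilter (Pairs n)}
  {q : (Fin n → ℂ) × ℂ} {m l : ℕ} {b c : IB n K}

theorem ev_kc (hS : E.IsSheets S) (hq : q ∈ S.M) (a : ℂ) : E.ev ((kc n K a : IB n K) : K) q = a := by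
  have h : ((kc n K a : IB n K) : K) = algebraMap (Pol n) K (MvPolynomial.C a) := rfl
  rw [h, Prim.ev_alg hS hq, MvPolynomial.eval_C]

theorem ev_comb (hS : E.IsSheets S) (hq : q ∈ S.M) {ι : Type*} [Fintype ι] (a : ι → ℂ)
    (e : ι → IB n K) : E.ev ((∑ i, kc n K (a i) * e i : IB n K) : K) q =
      ∑ i, a i * E.ev (e i : K) q := by
  have h : ((∑ i, kc n K (a i) * e i : IB n K) : K)
      = ∑ i, ((kc n K (a i) : IB n K) : K) * (e i : K) := by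
    push_cast
    rfl
  rw [h, Prim.ev_sum hS hq _ (fun i _ => (Prim.isReg_ib _).mul (Prim.isReg_ib _))]
  refine Finset.sum_congr rfl fun i _ => ?_
  rw [Prim.ev_mul hS hq (Prim.isReg_ib _) (Prim.isReg_ib _), ev_kc hS hq]

theorem van_zero (hS : E.IsSheets S) (hq : q ∈ S.M) : E.Van m q 0 := by
  refine ⟨1, ?_, by simp⟩
  have h : ((1 : IB n K) : K) = 1 := rfl
  rw [h, Prim.ev_one hS hq]
  exact one_ne_zero

theorem ev_mul_ne (hS : E.IsSheets S) (hq : q ∈ S.M) {e f : IB n K} (he : E.ev (e : K) q ≠ 0)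
    (hf : E.ev (f : K) q ≠ 0) : E.ev ((e * f : IB n K) : K) q ≠ 0 := by
  have h : ((e * f : IB n K) : K) = (e : K) * (f : K) := rfl
  rw [h, Prim.ev_mul hS hq (Prim.isReg_ib _) (Prim.isReg_ib _)]
  exact mul_ne_zero he hf

theorem van_add (hS : E.IsSheets S) (hq : q ∈ S.M) (hb : E.Van m q b) (hc : E.Van m q c) :
    E.Van m q (b + c) := by
  obtain ⟨e, he, h⟩ := hb
  obtain ⟨f, hf, h'⟩ := hc
  refine ⟨e * f, ev_mul_ne hS hq he hf, ?_⟩
  have : e * f * (b + c) = f * (e * b) + e * (f * c) := by ring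
  rw [this]
  exact Ideal.add_mem _ (Ideal.mul_mem_left _ _ h) (Ideal.mul_mem_left _ _ h')

omit [IsScalarTower ℂ (Pol n) K] [FaithfulSMul (Pol n) K] in
theorem van_mul_left (a : IB n K) (hb : E.Van m q b) : E.Van m q (a * b) := by
  obtain ⟨e, he, h⟩ := hb
  refine ⟨e, he, ?_⟩
  have : e * (a * b) = a * (e * b) := by ring
  rw [this]
  exact Ideal.mul_mem_left _ _ h

omit [IsScalarTower ℂ (Pol n) K] [FaithfulSMul (Pol n) K] in
theorem van_mono (hm : l ≤ m) (hb : E.Van m q b) : E.Van l q b := by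
  obtain ⟨e, he, h⟩ := hb
  exact ⟨e, he, Ideal.pow_le_pow_right hm h⟩

theorem van_mul (hS : E.IsSheets S) (hq : q ∈ S.M) (hb : E.Van m q b) (hc : E.Van l q c) :
    E.Van (m + l) q (b * c) := by
  obtain ⟨e, he, h⟩ := hb
  obtain ⟨f, hf, h'⟩ := hc
  refine ⟨e * f, ev_mul_ne hS hq he hf, ?_⟩
  have : e * f * (b * c) = (e * b) * (f * c) := by ring
  rw [this, pow_add]
  exact Ideal.mul_mem_mul h h'

theorem van_pow (hS : E.IsSheets S) (hq : q ∈ S.M) (hb : E.ev (b : K) q = 0) (m : ℕ) :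
    E.Van m q (b ^ m) := by
  obtain ⟨e, he, h⟩ := Prim.exists_unram hS hq
  refine ⟨e ^ m, ?_, ?_⟩
  · have h' : ((e ^ m : IB n K) : K) = (e : K) ^ m := rfl
    rw [h', Prim.ev_pow hS hq (Prim.isReg_ib _)]
    exact pow_ne_zero _ he
  · rw [← mul_pow]
    exact Ideal.pow_mem_pow (h b hb) m

theorem ev_fst (hU : E.IsPairs S x U) : ∀ᶠ u in (U : Filter (Pairs n)), u.1 ∈ S.M :=
  hU.fst (Prim.M_mem_nhd E S x)

theorem ev_snd (hU : E.IsPairs S x U) : ∀ᶠ u in (U : Filter (Pairs n)), u.2 ∈ S.M :=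
  hU.snd (Prim.M_mem_nhd E S x)

omit [IsScalarTower ℂ (Pol n) K] [FaithfulSMul (Pol n) K] in
theorem of_fintype {ι : Type*} [Fintype ι] (e : ι → IB n K) (c : Pairs n → ι → ℂ) (c₀ : ι → ℂ)
    (ht : ∀ i, Tendsto (fun u => c u i) (U : Filter (Pairs n)) (𝓝 (c₀ i)))
    (hb : b = ∑ i, kc n K (c₀ i) * e i)
    (hv : ∀ᶠ u in (U : Filter (Pairs n)), E.Van m u.1 (∑ i, kc n K (c u i) * e i) ∧
      E.Van m u.2 (∑ i, kc n K (c u i) * e i)) : E.Lim U m b := by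
  have hs : ∀ a : ι → ℂ, ∑ l, algebraMap (Pol n) (IB n K)
      (MvPolynomial.C (a ((Fintype.equivFin ι).symm l))) * e ((Fintype.equivFin ι).symm l)
      = ∑ i, kc n K (a i) * e i := fun a =>
    Equiv.sum_comp (Fintype.equivFin ι).symm (fun i => kc n K (a i) * e i)
  refine ⟨Fintype.card ι, fun l => e ((Fintype.equivFin ι).symm l),
    fun u l => c u ((Fintype.equivFin ι).symm l), fun l => c₀ ((Fintype.equivFin ι).symm l),
    ?_, ?_, ?_⟩
  · rw [tendsto_pi_nhds]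
    exact fun l => ht _
  · rw [hs, hb]
  · filter_upwards [hv] with u hu
    rw [hs]
    exact hu

omit [IsScalarTower ℂ (Pol n) K] [FaithfulSMul (Pol n) K] in
theorem of_poly (d : ℕ) (P : Pairs n → Polynomial ℂ) (P₀ : Polynomial ℂ)
    (hd : ∀ u, (P u).natDegree < d) (hd0 : P₀.natDegree < d)
    (ht : ∀ k, Tendsto (fun u => (P u).coeff k) (U : Filter (Pairs n)) (𝓝 (P₀.coeff k)))
    (s : IB n K)
    (hv : ∀ᶠ u in (U : Filter (Pairs n)), E.Van m u.1 ((P u).eval₂ (kc n K) s) ∧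
      E.Van m u.2 ((P u).eval₂ (kc n K) s)) : E.Lim U m (P₀.eval₂ (kc n K) s) := by
  refine of_fintype (ι := Fin d) (fun i => s ^ (i : ℕ)) (fun u i => (P u).coeff i)
    (fun i => P₀.coeff i) (fun i => ht i) ?_ ?_
  · rw [Polynomial.eval₂_eq_sum_range' _ hd0, Finset.sum_range]
  · filter_upwards [hv] with u hu
    rw [Polynomial.eval₂_eq_sum_range' _ (hd u), Finset.sum_range] at hu
    exact hu

/-- Convergence of coefficients. -/
def CT (U : Filter (Pairs n)) (P : Pairs n → Polynomial ℂ) (P₀ : Polynomial ℂ) : Prop :=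
  ∀ k, Tendsto (fun u => (P u).coeff k) U (𝓝 (P₀.coeff k))

theorem CT.mul {U : Filter (Pairs n)} {P Q : Pairs n → Polynomial ℂ} {P₀ Q₀ : Polynomial ℂ}
    (hP : CT U P P₀) (hQ : CT U Q Q₀) : CT U (fun u => P u * Q u) (P₀ * Q₀) := by
  intro k
  simp only [Polynomial.coeff_mul]
  exact tendsto_finsetSum _ fun i _ => (hP _).mul (hQ _)

theorem CT.pow {U : Filter (Pairs n)} {P : Pairs n → Polynomial ℂ} {P₀ : Polynomial ℂ}
    (hP : CT U P P₀) (m : ℕ) : CT U (fun u => P u ^ m) (P₀ ^ m) := by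
  induction m with
  | zero =>
    intro k
    simp only [pow_zero]
    exact tendsto_const_nhds
  | succ m ih =>
    simp only [pow_succ]
    exact ih.mul hP

theorem CT.lin {U : Filter (Pairs n)} {a : Pairs n → ℂ} {a₀ : ℂ} (ha : Tendsto a U (𝓝 a₀)) :
    CT U (fun u => Polynomial.X - Polynomial.C (a u)) (Polynomial.X - Polynomial.C a₀) := by
  intro k
  simp only [Polynomial.coeff_sub, Polynomial.coeff_C]
  refine tendsto_const_nhds.sub ?_
  by_cases hk : k = 0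
  · simpa [hk] using ha
  · simpa [hk] using tendsto_const_nhds

theorem ev_sub_kc (hS : E.IsSheets S) (hq : q ∈ S.M) (s : IB n K) :
    E.ev ((s - kc n K (E.ev (s : K) q) : IB n K) : K) q = 0 := by
  have h : ((s - kc n K (E.ev (s : K) q) : IB n K) : K)
      = (s : K) - ((kc n K (E.ev (s : K) q) : IB n K) : K) := rfl
  rw [h, Prim.ev_sub hS hq (Prim.isReg_ib _) (Prim.isReg_ib _), ev_kc hS hq, sub_self]

end LimAux

namespace Prim

open LimAux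

variable {E : Prim n K} {S : Sheets n N} {x : Pt n K} {U : Ultrafilter (Pairs n)}

section Lim

theorem lim_zero (hS : E.IsSheets S) (hU : E.IsPairs S x U) (m : ℕ) : E.Lim U m 0 := by
  refine of_fintype (ι := Empty) (fun i => i.elim) (fun _ i => i.elim) (fun i => i.elim)
    (fun i => i.elim) (by simp) ?_
  filter_upwards [ev_fst hU, ev_snd hU] with u h1 h2
  simp only [Finset.univ_eq_empty, Finset.sum_empty]
  exact ⟨LimAux.van_zero hS h1, LimAux.van_zero hS h2⟩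

theorem Lim.add (hS : E.IsSheets S) (hU : E.IsPairs S x U) {m : ℕ} {b c : IB n K}
    (hb : E.Lim U m b) (hc : E.Lim U m c) : E.Lim U m (b + c) := by
  obtain ⟨r, e, a, a₀, ha, rfl, hv⟩ := hb
  obtain ⟨r', e', a', a₀', ha', rfl, hv'⟩ := hc
  rw [tendsto_pi_nhds] at ha ha'
  refine of_fintype (ι := Fin r ⊕ Fin r') (Sum.elim e e') (fun u => Sum.elim (a u) (a' u))
    (Sum.elim a₀ a₀') ?_ ?_ ?_
  · rintro (i | i)
    · exact ha i
    · exact ha' i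
  · rw [Fintype.sum_sum_type]
    rfl
  · filter_upwards [hv, hv', ev_fst hU, ev_snd hU] with u h h' h1 h2
    rw [Fintype.sum_sum_type]
    exact ⟨van_add hS h1 h.1 h'.1, van_add hS h2 h.2 h'.2⟩

theorem Lim.mul_left {m : ℕ} {b : IB n K} (c : IB n K) (hb : E.Lim U m b) :
    E.Lim U m (c * b) := by
  obtain ⟨r, e, a, a₀, ha, rfl, hv⟩ := hb
  rw [tendsto_pi_nhds] at ha
  have hs : ∀ a : Fin r → ℂ, ∑ i, kc n K (a i) * (c * e i)
      = c * ∑ l, algebraMap (Pol n) (IB n K) (MvPolynomial.C (a l)) * e l := by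
    intro a
    rw [Finset.mul_sum]
    refine Finset.sum_congr rfl fun i _ => ?_
    rw [kc_def]
    ring
  refine of_fintype (ι := Fin r) (fun i => c * e i) a a₀ ha ?_ ?_
  · rw [hs]
  · filter_upwards [hv] with u h
    rw [hs]
    exact ⟨van_mul_left c h.1, van_mul_left c h.2⟩

theorem Lim.mono {m m' : ℕ} (h : m ≤ m') {b : IB n K} (hb : E.Lim U m' b) : E.Lim U m b := by
  obtain ⟨r, e, a, a₀, ha, hb, hv⟩ := hb
  refine ⟨r, e, a, a₀, ha, hb, ?_⟩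
  filter_upwards [hv] with u hu
  exact ⟨van_mono h hu.1, van_mono h hu.2⟩

theorem Lim.mul (hS : E.IsSheets S) (hU : E.IsPairs S x U) {m l : ℕ} {b c : IB n K}
    (hb : E.Lim U m b) (hc : E.Lim U l c) : E.Lim U (m + l) (b * c) := by
  obtain ⟨r, e, a, a₀, ha, rfl, hv⟩ := hb
  obtain ⟨r', e', a', a₀', ha', rfl, hv'⟩ := hc
  rw [tendsto_pi_nhds] at ha ha'
  have hs : ∀ (a : Fin r → ℂ) (a' : Fin r' → ℂ),
      ∑ i : Fin r × Fin r', kc n K (a i.1 * a' i.2) * (e i.1 * e' i.2)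
      = (∑ l, algebraMap (Pol n) (IB n K) (MvPolynomial.C (a l)) * e l)
        * ∑ l, algebraMap (Pol n) (IB n K) (MvPolynomial.C (a' l)) * e' l := by
    intro a a'
    rw [Finset.sum_mul_sum, Fintype.sum_prod_type]
    refine Finset.sum_congr rfl fun i _ => Finset.sum_congr rfl fun j _ => ?_
    rw [map_mul, kc_def, kc_def]
    ring
  refine of_fintype (ι := Fin r × Fin r') (fun i => e i.1 * e' i.2)
    (fun u i => a u i.1 * a' u i.2) (fun i => a₀ i.1 * a₀' i.2) (fun i => (ha _).mul (ha' _))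
    ?_ ?_
  · rw [hs]
  · filter_upwards [hv, hv', ev_fst hU, ev_snd hU] with u h h' h1 h2
    rw [hs]
    exact ⟨van_mul hS h1 h.1 h'.1, van_mul hS h2 h.2 h'.2⟩

theorem IsPairs.lim_z (hS : E.IsSheets S) (hU : E.IsPairs S x U) (m : ℕ) (i : Fin n) :
    E.Lim U m (algebraMap (Pol n) (IB n K) (MvPolynomial.X i) ^ m) := by
  set z : IB n K := algebraMap (Pol n) (IB n K) (MvPolynomial.X i) with hz
  have hev : ∀ q ∈ S.M, E.ev (z : K) q = q.1 i := by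
    intro q hq
    have h : (z : K) = algebraMap (Pol n) K (MvPolynomial.X i) := rfl
    rw [h, ev_alg hS hq, MvPolynomial.eval_X]
  have ht : Tendsto (fun u : Pairs n => u.1.1 i) (U : Filter (Pairs n)) (𝓝 0) := by
    have h1 := (tendsto_fst_nhd hS x).comp hU.fst
    rw [tendsto_pi_nhds] at h1
    exact h1 i
  have key := of_poly (E := E) (U := U) (m := m) (m + 1)
    (fun u => (Polynomial.X - Polynomial.C (u.1.1 i)) ^ m)
    ((Polynomial.X - Polynomial.C 0) ^ m) (fun u => by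
      rw [Polynomial.natDegree_pow, Polynomial.natDegree_X_sub_C]; omega) (by
      rw [Polynomial.natDegree_pow, Polynomial.natDegree_X_sub_C]; omega)
    ((CT.lin ht).pow m) z ?_
  · simpa [Polynomial.eval₂_pow] using key
  · filter_upwards [hU.ne, ev_fst hU, ev_snd hU] with u hu h1 h2
    have e : ((Polynomial.X - Polynomial.C (u.1.1 i)) ^ m).eval₂ (kc n K) z
        = (z - kc n K (u.1.1 i)) ^ m := by
      simp [Polynomial.eval₂_pow, Polynomial.eval₂_sub]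
    rw [e]
    constructor
    · have := van_pow hS h1 (ev_sub_kc hS h1 z) m
      rwa [hev _ h1] at this
    · have := van_pow hS h2 (ev_sub_kc hS h2 z) m
      rwa [hev _ h2, ← hu.1] at this

theorem IsPairs.lim_pow (hS : E.IsSheets S) (hU : E.IsPairs S x U) (m : ℕ) {s : IB n K}
    (hs : x.toFun s = 0) : E.Lim U m (s ^ (2 * m)) := by
  have ht1 : Tendsto (fun u : Pairs n => E.ev (s : K) u.1) (U : Filter (Pairs n)) (𝓝 0) := by
    have h1 := (tendsto_ev_nhd E S x s).comp hU.fst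
    rwa [hs] at h1
  have ht2 : Tendsto (fun u : Pairs n => E.ev (s : K) u.2) (U : Filter (Pairs n)) (𝓝 0) := by
    have h1 := (tendsto_ev_nhd E S x s).comp hU.snd
    rwa [hs] at h1
  have key := of_poly (E := E) (U := U) (m := m) (2 * m + 1)
    (fun u => ((Polynomial.X - Polynomial.C (E.ev (s : K) u.1)) *
      (Polynomial.X - Polynomial.C (E.ev (s : K) u.2))) ^ m)
    (((Polynomial.X - Polynomial.C 0) * (Polynomial.X - Polynomial.C 0)) ^ m) (fun u => by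
      rw [Polynomial.natDegree_pow, Polynomial.natDegree_mul (Polynomial.X_sub_C_ne_zero _)
        (Polynomial.X_sub_C_ne_zero _), Polynomial.natDegree_X_sub_C,
        Polynomial.natDegree_X_sub_C]; omega) (by
      rw [Polynomial.natDegree_pow, Polynomial.natDegree_mul (Polynomial.X_sub_C_ne_zero _)
        (Polynomial.X_sub_C_ne_zero _), Polynomial.natDegree_X_sub_C]; omega)
    (((CT.lin ht1).mul (CT.lin ht2)).pow m) s ?_
  · have e : (((Polynomial.X - Polynomial.C (0 : ℂ)) * (Polynomial.X - Polynomial.C 0)) ^ m).eval₂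
        (kc n K) s = s ^ (2 * m) := by
      rw [Polynomial.eval₂_pow, Polynomial.eval₂_mul]
      simp only [map_zero, sub_zero, Polynomial.eval₂_X]
      rw [pow_mul, sq]
    rwa [e] at key
  · filter_upwards [ev_fst hU, ev_snd hU] with u h1 h2
    have e : (((Polynomial.X - Polynomial.C (E.ev (s : K) u.1)) *
        (Polynomial.X - Polynomial.C (E.ev (s : K) u.2))) ^ m).eval₂ (kc n K) s
        = (s - kc n K (E.ev (s : K) u.1)) ^ m * (s - kc n K (E.ev (s : K) u.2)) ^ m := by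
      rw [Polynomial.eval₂_pow, Polynomial.eval₂_mul, mul_pow]
      simp [Polynomial.eval₂_sub]
    rw [e]
    constructor
    · rw [mul_comm]
      exact van_mul_left _ (van_pow hS h1 (ev_sub_kc hS h1 s) m)
    · exact van_mul_left _ (van_pow hS h2 (ev_sub_kc hS h2 s) m)

theorem IsPairs.lim_colength (hS : E.IsSheets S) (hU : E.IsPairs S x U) {m D : ℕ}
    (hD : 2 * Nat.choose (n + m - 1) n < D) (f : Fin D → IB n K) :
    ∃ c : Fin D → ℂ, c ≠ 0 ∧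
      E.Lim U m (∑ l, algebraMap (Pol n) (IB n K) (MvPolynomial.C (c l)) * f l) := by
  classical
  have hD0 : 0 < D := by omega
  have : Nonempty (Fin D) := ⟨⟨0, hD0⟩⟩
  have hex : ∀ u : Pairs n, ∃ c : Fin D → ℂ, ‖c‖ = 1 ∧ (u.1 ∈ S.M → u.2 ∈ S.M →
      E.Van m u.1 (∑ l, algebraMap (Pol n) (IB n K) (MvPolynomial.C (c l)) * f l) ∧
      E.Van m u.2 (∑ l, algebraMap (Pol n) (IB n K) (MvPolynomial.C (c l)) * f l)) := by
    intro u
    by_cases h : u.1 ∈ S.M ∧ u.2 ∈ S.M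
    · obtain ⟨c, hc, h1, h2⟩ := exists_van_comb hS hD h.1 h.2 f
      have hn : ‖c‖ ≠ 0 := norm_ne_zero_iff.mpr hc
      refine ⟨((‖c‖⁻¹ : ℝ) : ℂ) • c, ?_, fun _ _ => ?_⟩
      · rw [norm_smul, Complex.norm_real, norm_inv, norm_norm, inv_mul_cancel₀ hn]
      · have e : ∑ l, algebraMap (Pol n) (IB n K)
            (MvPolynomial.C ((((‖c‖⁻¹ : ℝ) : ℂ) • c) l)) * f l
            = kc n K ((‖c‖⁻¹ : ℝ) : ℂ) *
              ∑ l, algebraMap (Pol n) (IB n K) (MvPolynomial.C (c l)) * f l := by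
          rw [Finset.mul_sum]
          refine Finset.sum_congr rfl fun l _ => ?_
          rw [Pi.smul_apply, smul_eq_mul, map_mul, map_mul, kc_def]
          ring
        rw [e]
        exact ⟨van_mul_left _ h1, van_mul_left _ h2⟩
    · refine ⟨fun _ => 1, ?_, fun h1 h2 => absurd ⟨h1, h2⟩ h⟩
      simp
  choose c hc hv using hex
  have hle : ((U.map c : Ultrafilter (Fin D → ℂ)) : Filter (Fin D → ℂ)) ≤
      𝓟 (Metric.sphere (0 : Fin D → ℂ) 1) := by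
    rw [le_principal_iff, Ultrafilter.mem_coe, Ultrafilter.mem_map]
    have : c ⁻¹' Metric.sphere (0 : Fin D → ℂ) 1 = Set.univ := by
      ext u
      simp [hc u]
    rw [this]
    exact Filter.univ_mem
  obtain ⟨c₀, hc₀, hlim⟩ := (isCompact_sphere (0 : Fin D → ℂ) 1).ultrafilter_le_nhds _ hle
  refine ⟨c₀, ?_, D, f, c, c₀, hlim, rfl, ?_⟩
  · rintro rfl
    simp at hc₀
  · filter_upwards [ev_fst hU, ev_snd hU] with u h1 h2
    exact hv u h1 h2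

/-- Simultaneous approximation of finitely many elements of the limit ideal. -/
theorem Lim.exists_approx (hS : E.IsSheets S) (hU : E.IsPairs S x U) {m r : ℕ} {F : Fin r → IB n K}
    (hF : ∀ j, E.Lim U m (F j)) :
    ∃ (G : Pairs n → Fin r → IB n K) (ε : Pairs n → ℝ) (C : ℝ) (k : ℕ),
      Tendsto ε U (𝓝 0) ∧ (∀ u, 0 < ε u) ∧
      (∀ᶠ u in (U : Filter (Pairs n)), ∀ j, E.Van m u.1 (G u j) ∧ E.Van m u.2 (G u j)) ∧
      (∀ᶠ u in (U : Filter (Pairs n)), ∀ q ∈ S.M, ‖q.1‖ ≤ 1 →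
        ∑ j, ‖E.ev (G u j : K) q - E.ev (F j : K) q‖ ^ 2 ≤ ε u ^ 2) ∧
      ∀ᶠ u in (U : Filter (Pairs n)), ∀ q ∈ S.M, ∀ j, ‖E.ev (G u j : K) q‖ ≤
        C * (1 + ‖q.1‖) ^ k := by
  classical
  choose R e c c₀ hc hb hv using hF
  choose A κ hA0 hA using fun (j : Fin r) (l : Fin (R j)) => ev_growth hS (e j l)
  have hcl : ∀ j l, Tendsto (fun u => c j u l) (U : Filter (Pairs n)) (𝓝 (c₀ j l)) := by
    intro j
    have := hc j
    rw [tendsto_pi_nhds] at this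
    exact this
  set k : ℕ := ∑ j, ∑ l, κ j l with hk
  have hκ : ∀ j l, κ j l ≤ k := by
    intro j l
    calc κ j l ≤ ∑ l, κ j l := Finset.single_le_sum (fun _ _ => Nat.zero_le _) (Finset.mem_univ l)
      _ ≤ k := Finset.single_le_sum (f := fun j => ∑ l, κ j l) (fun _ _ => Nat.zero_le _)
        (Finset.mem_univ j)
  have hev : ∀ j (l : Fin (R j)), ∀ q ∈ S.M, ‖E.ev (e j l : K) q‖ ≤ A j l * (1 + ‖q.1‖) ^ k := by
    intro j l q hq
    refine (hA j l q hq).trans ?_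
    have h1 : (1 : ℝ) ≤ 1 + ‖q.1‖ := by linarith [norm_nonneg q.1]
    exact mul_le_mul_of_nonneg_left (pow_le_pow_right₀ h1 (hκ j l)) (hA0 j l)
  -- the error
  set δ : Pairs n → Fin r → ℝ := fun u j => ∑ l, ‖c j u l - c₀ j l‖ * (A j l * 2 ^ k) with hδ
  have hδ0 : ∀ u j, 0 ≤ δ u j := fun u j => Finset.sum_nonneg fun l _ =>
    mul_nonneg (norm_nonneg _) (mul_nonneg (hA0 j l) (by positivity))
  have hδt : ∀ j, Tendsto (fun u => δ u j) (U : Filter (Pairs n)) (𝓝 0) := by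
    intro j
    have : (0 : ℝ) = ∑ l : Fin (R j), 0 * (A j l * 2 ^ k) := by simp
    rw [this]
    refine tendsto_finsetSum _ fun l _ => Tendsto.mul_const _ ?_
    have := ((hcl j l).sub_const (c₀ j l)).norm
    simpa using this
  set ν : Pairs n → ℝ := fun u => if u.1.2 = u.2.2 then 1 else ‖u.1.2 - u.2.2‖ with hν
  have hν0 : ∀ u, 0 < ν u := by
    intro u
    simp only [hν]
    split_ifs with h
    · exact one_pos
    · exact norm_pos_iff.mpr (sub_ne_zero.mpr h)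
  have hνt : Tendsto ν (U : Filter (Pairs n)) (𝓝 0) := by
    set y : IB n K := ⟨E.y, E.integral⟩ with hy
    have h1 : Tendsto (fun u : Pairs n => E.ev (y : K) u.1) (U : Filter (Pairs n))
        (𝓝 (x.toFun y)) := (tendsto_ev_nhd E S x y).comp hU.fst
    have h2 : Tendsto (fun u : Pairs n => E.ev (y : K) u.2) (U : Filter (Pairs n))
        (𝓝 (x.toFun y)) := (tendsto_ev_nhd E S x y).comp hU.snd
    have h3 := (h1.sub h2).norm
    rw [sub_self, norm_zero] at h3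
    refine h3.congr' ?_
    filter_upwards [hU.ne, ev_fst hU, ev_snd hU] with u hu m1 m2
    have hne : u.1.2 ≠ u.2.2 := fun h => hu.2 (Prod.ext hu.1 h)
    simp only [hν, if_neg hne]
    have hyy : (y : K) = E.y := rfl
    rw [hyy, ev_y hS m1, ev_y hS m2]
  refine ⟨fun u j => ∑ l, kc n K (c j u l) * e j l, fun u => ∑ j, δ u j + ν u,
    ∑ j, ∑ l, (‖c₀ j l‖ + 1) * A j l, k, ?_, ?_, ?_, ?_, ?_⟩
  · have : (0 : ℝ) = ∑ j : Fin r, (0 : ℝ) + 0 := by simp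
    rw [this]
    exact (tendsto_finsetSum _ fun j _ => hδt j).add hνt
  · intro u
    have := hν0 u
    have := Finset.sum_nonneg fun j (_ : j ∈ Finset.univ) => hδ0 u j
    positivity
  · rw [eventually_all]
    intro j
    exact hv j
  · refine Eventually.of_forall fun u q hq hq1 => ?_
    have h1 : ∀ j, ‖E.ev ((∑ l, kc n K (c j u l) * e j l : IB n K) : K) q - E.ev (F j : K) q‖
        ≤ δ u j := by
      intro j
      have hFj : F j = ∑ l, kc n K (c₀ j l) * e j l := hb j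
      rw [hFj, ev_comb hS hq, ev_comb hS hq, ← Finset.sum_sub_distrib]
      refine (norm_sum_le _ _).trans (Finset.sum_le_sum fun l _ => ?_)
      rw [← sub_mul, norm_mul]
      refine mul_le_mul_of_nonneg_left ((hev j l q hq).trans ?_) (norm_nonneg _)
      refine mul_le_mul_of_nonneg_left ?_ (hA0 j l)
      exact pow_le_pow_left₀ (by positivity) (by linarith) k
    calc ∑ j, ‖E.ev ((∑ l, kc n K (c j u l) * e j l : IB n K) : K) q - E.ev (F j : K) q‖ ^ 2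
        ≤ ∑ j, δ u j ^ 2 := Finset.sum_le_sum fun j _ => pow_le_pow_left₀ (norm_nonneg _) (h1 j) 2
      _ ≤ (∑ j, δ u j) ^ 2 := by
        rw [sq, Finset.sum_mul]
        refine Finset.sum_le_sum fun j _ => ?_
        rw [sq]
        exact mul_le_mul_of_nonneg_left (Finset.single_le_sum (fun j _ => hδ0 u j)
          (Finset.mem_univ j)) (hδ0 u j)
      _ ≤ (∑ j, δ u j + ν u) ^ 2 := by
        refine pow_le_pow_left₀ (Finset.sum_nonneg fun j _ => hδ0 u j) ?_ 2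
        linarith [hν0 u]
  · have hbd : ∀ᶠ u in (U : Filter (Pairs n)), ∀ j l, ‖c j u l‖ ≤ ‖c₀ j l‖ + 1 := by
      rw [eventually_all]
      intro j
      rw [eventually_all]
      intro l
      exact ((hcl j l).norm.eventually_lt_const (lt_add_one _)).mono fun u h => h.le
    filter_upwards [hbd] with u hu q hq j
    rw [ev_comb hS hq]
    calc ‖∑ l, c j u l * E.ev (e j l : K) q‖
        ≤ ∑ l, (‖c₀ j l‖ + 1) * A j l * (1 + ‖q.1‖) ^ k := by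
          refine (norm_sum_le _ _).trans (Finset.sum_le_sum fun l _ => ?_)
          rw [norm_mul, mul_assoc]
          exact mul_le_mul (hu j l) (hev j l q hq) (norm_nonneg _) (by positivity)
      _ = (∑ l, (‖c₀ j l‖ + 1) * A j l) * (1 + ‖q.1‖) ^ k := by rw [Finset.sum_mul]
      _ ≤ (∑ j, ∑ l, (‖c₀ j l‖ + 1) * A j l) * (1 + ‖q.1‖) ^ k := by
          refine mul_le_mul_of_nonneg_right ?_ (by positivity)
          exact Finset.single_le_sum (f := fun j => ∑ l, (‖c₀ j l‖ + 1) * A j l)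
            (fun j _ => Finset.sum_nonneg fun l _ => mul_nonneg (by positivity) (hA0 j l))
            (Finset.mem_univ j)

end Lim

end Prim

end Vale.Agent.P282.L2
end

section

open MeasureTheory Filter Topology
open scoped ENNReal NNReal ComplexConjugate

namespace Vale.Agent.P282.L2

variable {n N : ℕ} {K : Type} [Field K] [Algebra ℂ K] [Algebra (Pol n) K]
  [IsScalarTower ℂ (Pol n) K] [FaithfulSMul (Pol n) K]
  [Algebra (FractionRing (Pol n)) K] [IsScalarTower (Pol n) (FractionRing (Pol n)) K]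
  [FiniteDimensional (FractionRing (Pol n)) K]

/-- `J` times the trace dual of the integral closure is contained in the local ring of `x`. -/
def Canon (x : Pt n K) (J : K) : Prop :=
  ∀ e : K, (∀ b : IB n K, ∃ c : Pol n,
    tr (n := n) (e * (b : K)) = algebraMap (Pol n) (FractionRing (Pol n)) c) →
    ∃ s : IB n K, x.toFun s ≠ 0 ∧ IsIntegral (Pol n) ((s : K) * (J * e))

namespace Prim

variable {E : Prim n K} {S : Sheets n N} {x : Pt n K} {U : Ultrafilter (Pairs n)}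

/-- Theorem N. -/
theorem non_integrable (hS : E.IsSheets S) {d : Fin n → Derivation ℂ K K} (hd : IsPartials d)
    (hn : 0 < n) {J : K} (hJ0 : J ≠ 0) (hJ : IsIntegral (Pol n) J)
    (hJr : E.IsReg J⁻¹) (hcan : Canon x J) (hU : E.IsPairs S x U)
    {ψ : IB n K → ℂ} {s : Pairs n → ℝ} (hs : ∀ᶠ u in (U : Filter (Pairs n)), 0 < s u)
    (hψ : ∀ b : IB n K, Tendsto
      (fun u : Pairs n => (E.ev (b : K) u.1 - E.ev (b : K) u.2) / (s u : ℂ)) U (𝓝 (ψ b)))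
    {m r : ℕ} (hm : 0 < m) (F : Fin r → IB n K) (hF : ∀ j, E.Lim U m (F j))
    (hz : ∀ i : Fin n, ∃ j, F j = algebraMap (Pol n) (IB n K) (MvPolynomial.X i) ^ m)
    (hloc : ∀ W ∈ E.nhd S x, ∃ ε > 0, ∀ q ∈ S.M, ∑ j, ‖E.ev (F j : K) q‖ ^ 2 ≤ ε → q ∈ W)
    {g : IB n K} (hg : ψ g ≠ 0) {e₂ : ℝ} (he₂ : 0 < e₂) {W : Set ((Fin n → ℂ) × ℂ)}
    (hW : W ∈ E.nhd S x) :
    ∫⁻ q in W, ENNReal.ofReal (‖E.ev (g : K) q‖ ^ 2 *
      (∑ j, ‖E.ev (F j : K) q‖ ^ 2) ^ (-((n : ℝ) / m + e₂)) * ‖E.ev J⁻¹ q‖ ^ 2) ∂S.μ = ⊤ := by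
  by_contra hfin
  replace hfin := lt_top_iff_ne_top.2 hfin
  obtain ⟨G, ε, C₁, k₁, hε, hεpos, hVan, hApp, hGr⟩ := Lim.exists_approx hS hU hF
  obtain ⟨L, e, C, ε₀, hε₀, hC, hreg, htr, hest⟩ := scale_estimate hS hd hn hJ0 hJ hJr hm F hz hloc g
    (half_pos he₂) (half_lt_self he₂) hW hfin C₁ k₁
  have hM1 : ∀ᶠ u in (U : Filter (Pairs n)), u.1 ∈ S.M := hU.fst (M_mem_nhd E S x)
  have hM2 : ∀ᶠ u in (U : Filter (Pairs n)), u.2 ∈ S.M := hU.snd (M_mem_nhd E S x)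
  have hball : ∀ᶠ q in E.nhd S x, ‖q.1‖ < 1 := by
    have h1 := (tendsto_fst_nhd hS x).norm
    rw [norm_zero] at h1
    exact h1.eventually_lt_const one_pos
  have hB1 : ∀ᶠ u in (U : Filter (Pairs n)), ‖u.1.1‖ < 1 := hU.fst.eventually hball
  have hB2 : ∀ᶠ u in (U : Filter (Pairs n)), ‖u.2.1‖ < 1 := hU.snd.eventually hball
  have hsmall : ∀ᶠ u in (U : Filter (Pairs n)), ε u ≤ ε₀ := hε.eventually_le_const hε₀
  have hch : ∀ᶠ u in (U : Filter (Pairs n)), ∃ c : Fin L → ℂ,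
      (∀ l, ‖c l‖ ≤ C * ε u ^ (e₂ - e₂ / 2)) ∧
        ‖E.ev (g : K) u.1 - ∑ l, c l * E.ev (J * e l) u.1‖ ≤ ε u * s u ∧
        ‖E.ev (g : K) u.2 - ∑ l, c l * E.ev (J * e l) u.2‖ ≤ ε u * s u := by
    filter_upwards [hM1, hM2, hB1, hB2, hsmall, hVan, hApp, hGr, hs] with u h1 h2 h3 h4 h5 h6 h7 h8 h9
    exact hest (ε u) (hεpos u) h5 (G u) u.1 u.2 h1 h2 h3 h4 h6 h7 h8 (ε u * s u)
      (mul_pos (hεpos u) h9)
  obtain ⟨c, hc⟩ := hch.choice
  -- the values of `J e_l`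
  have hcan' : ∀ l, ∃ t : IB n K, x.toFun t ≠ 0 ∧ IsIntegral (Pol n) ((t : K) * (J * e l)) :=
    fun l => hcan (e l) (htr l)
  choose t ht0 htint using hcan'
  have hregJ : ∀ l, E.IsReg (J * e l) := fun l => (isReg_of_integral hJ).mul (hreg l)
  have hlim : ∀ l, Tendsto (fun u : Pairs n => (E.ev (J * e l) u.1 - E.ev (J * e l) u.2) / (s u : ℂ))
      U (𝓝 ((ψ ⟨(t l : K) * (J * e l), htint l⟩ * x.toFun (t l) -
        x.toFun ⟨(t l : K) * (J * e l), htint l⟩ * ψ (t l)) / (x.toFun (t l) * x.toFun (t l)))) := by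
    intro l
    set b : IB n K := ⟨(t l : K) * (J * e l), htint l⟩ with hb
    have hbq : ∀ q ∈ S.M, E.ev (b : K) q = E.ev (t l : K) q * E.ev (J * e l) q :=
      fun q hq => ev_mul hS hq (isReg_ib (t l)) (hregJ l)
    have ht1 : Tendsto (fun u : Pairs n => E.ev (t l : K) u.1) U (𝓝 (x.toFun (t l))) :=
      (tendsto_ev_nhd E S x (t l)).comp hU.fst
    have ht2 : Tendsto (fun u : Pairs n => E.ev (t l : K) u.2) U (𝓝 (x.toFun (t l))) :=
      (tendsto_ev_nhd E S x (t l)).comp hU.snd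
    have hb2 : Tendsto (fun u : Pairs n => E.ev (b : K) u.2) U (𝓝 (x.toFun b)) :=
      (tendsto_ev_nhd E S x b).comp hU.snd
    have key := (((hψ b).mul ht2).sub (hb2.mul (hψ (t l)))).div (ht1.mul ht2)
      (mul_ne_zero (ht0 l) (ht0 l))
    refine key.congr' ?_
    filter_upwards [hM1, hM2, hs, ht1.eventually_ne (ht0 l), ht2.eventually_ne (ht0 l)]
      with u h1 h2 h3 h4 h5
    have h6 : (s u : ℂ) ≠ 0 := by exact_mod_cast h3.ne'
    simp only [Pi.div_apply]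
    rw [hbq u.1 h1, hbq u.2 h2]
    field_simp
    ring
  have hc0 : ∀ l, Tendsto (fun u => c u l) U (𝓝 0) := by
    intro l
    have h1 : Tendsto (fun u => C * ε u ^ (e₂ - e₂ / 2)) U (𝓝 0) := by
      have hp : 0 < e₂ - e₂ / 2 := by linarith
      have h2 := (hε.rpow_const (p := e₂ - e₂ / 2) (Or.inr hp.le)).const_mul C
      rwa [Real.zero_rpow hp.ne', mul_zero] at h2
    refine squeeze_zero_norm' ?_ h1
    filter_upwards [hc] with u hu using hu.1 l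
  have hsum : Tendsto (fun u => ∑ l, c u l * ((E.ev (J * e l) u.1 - E.ev (J * e l) u.2) / (s u : ℂ)))
      U (𝓝 0) := by
    have h1 := tendsto_finsetSum Finset.univ fun l _ => (hc0 l).mul (hlim l)
    simpa using h1
  have hrem : Tendsto (fun u => ((E.ev (g : K) u.1 - ∑ l, c u l * E.ev (J * e l) u.1) -
      (E.ev (g : K) u.2 - ∑ l, c u l * E.ev (J * e l) u.2)) / (s u : ℂ)) U (𝓝 0) := by
    have h1 : Tendsto (fun u => 2 * ε u) U (𝓝 0) := by simpa using hε.const_mul 2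
    refine squeeze_zero_norm' ?_ h1
    filter_upwards [hc, hs] with u hu hsu
    rw [norm_div, Complex.norm_real, Real.norm_of_nonneg hsu.le, div_le_iff₀ hsu]
    refine (norm_sub_le _ _).trans ?_
    linarith [hu.2.1, hu.2.2]
  have hzero : Tendsto (fun u : Pairs n => (E.ev (g : K) u.1 - E.ev (g : K) u.2) / (s u : ℂ)) U
      (𝓝 0) := by
    have h1 := hrem.add hsum
    rw [add_zero] at h1
    refine h1.congr fun u => ?_
    rw [← Finset.sum_congr rfl fun l _ => mul_div_assoc (c u l) _ _, ← Finset.sum_div, ← add_div]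
    congr 1
    simp only [mul_sub, Finset.sum_sub_distrib]
    ring
  exact hg (tendsto_nhds_unique (hψ g) hzero)

end Prim

end Vale.Agent.P282.L2
end

section

open scoped NNReal ENNReal Nat WithZero
open IsLocalRing

namespace Vale.Agent.P282.Full

open Vale.Agent.P282.L2

set_option linter.unusedSectionVars false
set_option linter.unusedVariables false

variable {n r : ℕ} {R K : Type} [CommRing R] [IsDomain R] [IsLocalRing R] [Algebra ℂ R]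
  [Field K] [Algebra ℂ K] [Algebra R K] [IsScalarTower ℂ R K] [IsFractionRing R K]

section basic

omit [IsDomain R] [IsLocalRing R] [Algebra ℂ R] [Algebra ℂ K] [IsScalarTower ℂ R K]
  [IsFractionRing R K] in
theorem val_span_le {v : Valuation K ℝ≥0} (hv : ∀ f : R, v (algebraMap R K f) ≤ 1) {s : Set R}
    {a : ℝ≥0} (h : ∀ f ∈ s, v (algebraMap R K f) ≤ a) :
    ∀ f ∈ Ideal.span s, v (algebraMap R K f) ≤ a := by
  intro f hf
  refine Submodule.span_induction (p := fun f _ => v (algebraMap R K f) ≤ a) h (by simp) ?_ ?_ hf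
  · intro x y _ _ hx hy
    rw [map_add]
    exact (v.map_add _ _).trans (max_le hx hy)
  · intro c x _ hx
    rw [smul_eq_mul, map_mul, map_mul]
    calc v (algebraMap R K c) * v (algebraMap R K x) ≤ 1 * a := mul_le_mul' (hv c) hx
      _ = a := one_mul a

omit [IsDomain R] [IsLocalRing R] [Algebra ℂ R] [Algebra ℂ K] [IsScalarTower ℂ R K]
  [IsFractionRing R K] in
theorem val_mul_le {v : Valuation K ℝ≥0} {I J : Ideal R} {a b : ℝ≥0}
    (hI : ∀ f ∈ I, v (algebraMap R K f) ≤ a) (hJ : ∀ f ∈ J, v (algebraMap R K f) ≤ b) :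
    ∀ f ∈ I * J, v (algebraMap R K f) ≤ a * b := by
  intro f hf
  refine Submodule.mul_induction_on hf (fun i hi j hj => ?_) fun x y hx hy => ?_
  · rw [map_mul, map_mul]
    exact mul_le_mul' (hI i hi) (hJ j hj)
  · rw [map_add]
    exact (v.map_add _ _).trans (max_le hx hy)

omit [IsDomain R] [IsLocalRing R] [Algebra ℂ R] [Algebra ℂ K] [IsScalarTower ℂ R K]
  [IsFractionRing R K] in
theorem val_pow_le {v : Valuation K ℝ≥0} (hv : ∀ f : R, v (algebraMap R K f) ≤ 1) {I : Ideal R}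
    {a : ℝ≥0} (hI : ∀ f ∈ I, v (algebraMap R K f) ≤ a) (k : ℕ) :
    ∀ f ∈ I ^ k, v (algebraMap R K f) ≤ a ^ k := by
  induction k with
  | zero => intro f _; simpa using hv f
  | succ k ih => rw [pow_succ, pow_succ]; exact val_mul_le ih hI

end basic

/-- If `z` generates a reduction of the maximal ideal then `v(𝔪) = v(z)`. -/
theorem exists_le_of_reduction {v : Valuation K ℝ≥0} (hv : ∀ f : R, v (algebraMap R K f) ≤ 1)
    {x : Fin n → R} {k : ℕ}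
    (hk : maximalIdeal R ^ (k + 1) ≤ Ideal.span (Set.range x) * maximalIdeal R ^ k)
    [IsNoetherianRing R] (y : R) (hy : y ∈ maximalIdeal R) :
    y = 0 ∨ ∃ i, v (algebraMap R K y) ≤ v (algebraMap R K (x i)) := by
  classical
  by_cases hy0 : y = 0
  · exact Or.inl hy0
  refine Or.inr ?_
  obtain ⟨s, hs⟩ := (IsNoetherian.noetherian (maximalIdeal R) : (maximalIdeal R).FG)
  have hsne : s.Nonempty := by
    rw [Finset.nonempty_iff_ne_empty]
    rintro rfl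
    rw [Finset.coe_empty, Submodule.span_empty] at hs
    rw [← hs] at hy
    exact hy0 ((Submodule.mem_bot R).mp hy)
  obtain ⟨g, hgs, hg⟩ := s.exists_max_image (fun f => v (algebraMap R K f)) hsne
  have hgm : g ∈ maximalIdeal R := by rw [← hs]; exact Submodule.subset_span hgs
  have hm : ∀ f ∈ maximalIdeal R, v (algebraMap R K f) ≤ v (algebraMap R K g) := by
    intro f hf
    rw [← hs] at hf
    exact val_span_le hv (fun f hf => hg f hf) f hf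
  have hyv : v (algebraMap R K y) ≠ 0 := by
    rw [Valuation.ne_zero_iff]
    exact fun h => hy0 ((IsFractionRing.injective R K) (by rw [h, map_zero]))
  have hgv : 0 < v (algebraMap R K g) := lt_of_lt_of_le (pos_iff_ne_zero.mpr hyv) (hm y hy)
  have hgk := hk (Ideal.pow_mem_pow hgm (k + 1))
  rcases Nat.eq_zero_or_pos n with rfl | hn
  · have h0 : Ideal.span (Set.range x) = ⊥ := by
      rw [Set.range_eq_empty, Ideal.span_empty]
    rw [h0, Submodule.bot_mul] at hgk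
    have h1 : g = 0 := eq_zero_of_pow_eq_zero ((Submodule.mem_bot R).mp hgk)
    rw [h1, map_zero, map_zero] at hgv
    exact absurd hgv (lt_irrefl _)
  · have : Nonempty (Fin n) := ⟨⟨0, hn⟩⟩
    obtain ⟨i, -, hi⟩ := (Finset.univ : Finset (Fin n)).exists_max_image
      (fun i => v (algebraMap R K (x i))) Finset.univ_nonempty
    refine ⟨i, (hm y hy).trans ?_⟩
    have h2 := val_mul_le (val_span_le hv (s := Set.range x) (a := v (algebraMap R K (x i)))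
      (by rintro _ ⟨j, rfl⟩; exact hi j (Finset.mem_univ _))) (val_pow_le hv hm k) _ hgk
    rw [map_pow, map_pow, pow_succ'] at h2
    exact le_of_mul_le_mul_right h2 (pow_pos hgv k)

omit [IsDomain R] [IsLocalRing R] in
theorem pt_aeval {m : ℕ} [Algebra (Pol m) R] [IsScalarTower ℂ (Pol m) R] (p : Pol m) :
    MvPolynomial.aeval (fun i : Fin m => algebraMap (Pol m) R (MvPolynomial.X i)) p =
      algebraMap (Pol m) R p := by
  have h1 : MvPolynomial.aeval (fun i : Fin m => algebraMap (Pol m) R (MvPolynomial.X i)) =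
      IsScalarTower.toAlgHom ℂ (Pol m) R := by
    apply MvPolynomial.algHom_ext
    intro i
    simp
  rw [h1]; rfl

omit [IsLocalRing R] in
theorem pt_isAlgebraic {m : ℕ} [Algebra (Pol m) R] [IsScalarTower ℂ (Pol m) R]
    (hzmt : ∀ r : R, ∃ s : R, IsUnit s ∧ IsIntegral (Pol m) s ∧ IsIntegral (Pol m) (s * r)) :
    Algebra.IsAlgebraic (Algebra.adjoin ℂ
      (Set.range fun i : Fin m => algebraMap (Pol m) R (MvPolynomial.X i))) R := by
  set par := fun i : Fin m => algebraMap (Pol m) R (MvPolynomial.X i) with hpar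
  have hint : ∀ r : R, IsIntegral (Pol m) r → IsIntegral (Algebra.adjoin ℂ (Set.range par)) r := by
    rintro r ⟨p, hp, hpr⟩
    let f : Pol m →+* Algebra.adjoin ℂ (Set.range par) :=
      ((MvPolynomial.aeval par).codRestrict (Algebra.adjoin ℂ (Set.range par))
        (fun p => by rw [Algebra.adjoin_range_eq_range_aeval]; exact ⟨p, rfl⟩)).toRingHom
    refine ⟨p.map f, hp.map f, ?_⟩
    rw [Polynomial.eval₂_map]
    have h1 : (algebraMap (Algebra.adjoin ℂ (Set.range par)) R).comp f =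
        algebraMap (Pol m) R := by
      apply RingHom.ext
      intro q
      exact pt_aeval q
    rw [h1]; exact hpr
  constructor
  intro r
  obtain ⟨s, hs1, hs2, hs3⟩ := hzmt r
  exact IsAlgebraic.of_mul (y := s) (hs1.mem_nonZeroDivisors) (hint s hs2).isAlgebraic
    (hint _ hs3).isAlgebraic

/-- Parameters bound the transcendence degree. -/
theorem trdeg_le_of_pow_le (hres : Function.Surjective (algebraMap ℂ (ResidueField R)))
    (hess : Algebra.EssFiniteType ℂ R) {m : ℕ} (y : Fin m → R) (hy : ∀ i, y i ∈ maximalIdeal R)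
    (hk : ∃ k : ℕ, maximalIdeal R ^ k ≤ Ideal.span (Set.range y)) :
    Algebra.trdeg ℂ R ≤ m := by
  let _ : Algebra (Pol m) R := (MvPolynomial.aeval y).toAlgebra
  have : IsScalarTower ℂ (Pol m) R := IsScalarTower.of_algebraMap_eq fun c => by
    change algebraMap ℂ R c = MvPolynomial.aeval y (algebraMap ℂ (Pol m) c)
    rw [AlgHom.commutes]
  have hX : ∀ i : Fin m, algebraMap (Pol m) R (MvPolynomial.X i) = y i := fun i => by
    change MvPolynomial.aeval y (MvPolynomial.X i) = y i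
    rw [MvPolynomial.aeval_X]
  have hz := zmt (n := m) (R := R) hres (fun i => by rw [hX]; exact hy i)
    (by simpa only [hX] using hk)
  have h1 := pt_isAlgebraic hz
  have h2 := Algebra.IsAlgebraic.trdeg_le_cardinalMk (R := ℂ) (A := R)
    (Set.range fun i : Fin m => algebraMap (Pol m) R (MvPolynomial.X i))
  refine h2.trans ?_
  refine Cardinal.mk_range_le.trans ?_
  simp

/-- A germ which is not regular: the maximal ideal is not generated by `n` elements. -/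
theorem span_ne_maximal (hres : Function.Surjective (algebraMap ℂ (ResidueField R)))
    (hess : Algebra.EssFiniteType ℂ R) (hdim : Algebra.trdeg ℂ R = n)
    (hreg : ¬ IsRegularLocalRing R) (x : Fin n → R) (hx : ∀ i, x i ∈ maximalIdeal R) :
    Ideal.span (Set.range x) ≠ maximalIdeal R := by
  classical
  intro h
  have hnoeth : IsNoetherianRing R := Algebra.EssFiniteType.isNoetherianRing ℂ R
  refine hreg (IsRegularLocalRing.of_spanFinrank_maximalIdeal_le R ?_)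
  obtain ⟨s, hs, hcard⟩ := Ideal.exists_finset_card_eq_height_of_isNoetherianRing (maximalIdeal R)
  have h1 : (maximalIdeal R).spanFinrank ≤ n := by
    rw [← h]
    refine (Submodule.spanFinrank_span_le_ncard_of_finite (Set.finite_range x)).trans ?_
    rw [Set.ncard_eq_toFinset_card', Set.toFinset_range]
    exact Finset.card_image_le.trans (by simp)
  have hrad : (Ideal.span (s : Set R)).radical = maximalIdeal R := by
    apply le_antisymm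
    · refine (Ideal.IsPrime.radical_le_iff inferInstance).mpr hs.1.2
    · rw [Ideal.radical_eq_sInf]
      refine le_sInf fun P hP => ?_
      have h2 := hs.2 ⟨hP.2, hP.1⟩ (IsLocalRing.le_maximalIdeal hP.2.ne_top)
      exact h2
  obtain ⟨k, hk⟩ := Ideal.exists_pow_le_of_le_radical_of_fg (I := maximalIdeal R)
    (J := Ideal.span (s : Set R)) hrad.ge (IsNoetherian.noetherian _)
  let e : Fin s.card ≃ s := s.equivFin.symm
  have hr : Set.range (fun i => ((e i : s) : R)) = (s : Set R) := by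
    ext a
    constructor
    · rintro ⟨i, rfl⟩
      exact (e i).2
    · intro ha
      exact ⟨e.symm ⟨a, ha⟩, by simp⟩
  have h3 := trdeg_le_of_pow_le hres hess (fun i => ((e i : s) : R))
    (fun i => hs.1.2 (Ideal.subset_span (e i).2)) ⟨k, by rw [hr]; exact hk⟩
  rw [hdim, Nat.cast_le] at h3
  rw [← IsLocalRing.maximalIdeal_height_eq_ringKrullDim, ← hcard]
  exact_mod_cast h1.trans h3

variable [Algebra (Pol n) R] [IsScalarTower ℂ (Pol n) R]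
  [Algebra (Pol n) K] [IsScalarTower (Pol n) R K] [IsScalarTower ℂ (Pol n) K]
  [FaithfulSMul (Pol n) K]

/-- The point of `Spec` of the integral closure of `ℂ[z]` determined by the local ring `R`. -/
theorem exists_point (hnorm : IsIntegrallyClosed R)
    (hres : Function.Surjective (algebraMap ℂ (ResidueField R)))
    (hx : ∀ i : Fin n, algebraMap (Pol n) R (MvPolynomial.X i) ∈ maximalIdeal R) :
    ∃ x : Pt n K, ∀ b : IB n K, ∃ a : R, algebraMap R K a = (b : K) ∧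
      (x.toFun b = 0 ↔ a ∈ maximalIdeal R) := by
  have hmem : ∀ b : IB n K, (b : K) ∈ (algebraMap R K).range := by
    intro b
    have h1 : IsIntegral R (b : K) := b.2.tower_top
    obtain ⟨a, ha⟩ := (IsIntegrallyClosed.isIntegral_iff (R := R) (K := K)).mp h1
    exact ⟨a, ha⟩
  have hinj : Function.Injective (algebraMap R K) := IsFractionRing.injective R K
  let e : R ≃+* (algebraMap R K).range :=
    RingEquiv.ofBijective (algebraMap R K).rangeRestrict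
      ⟨fun a b h => hinj (congrArg Subtype.val h), (algebraMap R K).rangeRestrict_surjective⟩
  let g0 : IB n K →+* R := (e.symm : (algebraMap R K).range →+* R).comp
    ((algebraMap (IB n K) K).codRestrict (algebraMap R K).range hmem)
  have hphi : ∀ b : IB n K, algebraMap R K (g0 b) = (b : K) := by
    intro b
    have h1 : e (g0 b) = ⟨(b : K), hmem b⟩ := e.apply_symm_apply _
    exact congrArg Subtype.val h1
  let rh : ℂ ≃+* ResidueField R := RingEquiv.ofBijective (algebraMap ℂ (ResidueField R))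
    ⟨(algebraMap ℂ (ResidueField R)).injective, hres⟩
  let g1 : IB n K →+* ℂ := ((rh.symm : ResidueField R →+* ℂ).comp (residue R)).comp g0
  have hpsi : ∀ b : IB n K, g1 b = 0 ↔ g0 b ∈ maximalIdeal R := by
    intro b
    rw [← residue_eq_zero_iff]
    change rh.symm (residue R (g0 b)) = 0 ↔ _
    rw [map_eq_zero_iff _ rh.symm.injective]
  have halg : ∀ f : Pol n, g0 (algebraMap (Pol n) (IB n K) f) = algebraMap (Pol n) R f := by
    intro f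
    apply hinj
    rw [hphi, ← IsScalarTower.algebraMap_apply (Pol n) R K]
    rfl
  refine ⟨⟨g1, ?_⟩, fun b => ⟨g0 b, hphi b, hpsi b⟩⟩
  have h2 : g1.comp (algebraMap (Pol n) (IB n K)) = MvPolynomial.eval 0 := by
    apply MvPolynomial.ringHom_ext
    · intro c
      rw [RingHom.comp_apply, MvPolynomial.eval_C]
      change rh.symm (residue R (g0 (algebraMap (Pol n) (IB n K) (MvPolynomial.C c)))) = c
      rw [halg, RingEquiv.symm_apply_eq]
      change residue R (algebraMap (Pol n) R (algebraMap ℂ (Pol n) c)) =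
        algebraMap ℂ (ResidueField R) c
      rw [← IsScalarTower.algebraMap_apply ℂ (Pol n) R,
        IsScalarTower.algebraMap_apply ℂ R (ResidueField R)]
      rfl
    · intro i
      rw [RingHom.comp_apply, MvPolynomial.eval_X]
      change g1 _ = 0
      rw [hpsi, halg]
      exact hx i
  intro f
  exact congrArg (fun g : Pol n →+* ℂ => g f) h2

omit [IsDomain R] [IsLocalRing R] [Algebra ℂ R] [Algebra ℂ K] [IsScalarTower ℂ R K]
  [IsFractionRing R K] [IsScalarTower ℂ (Pol n) R] [IsScalarTower ℂ (Pol n) K]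
  [FaithfulSMul (Pol n) K] in
/-- Integral elements of `R`, as elements of the integral closure. -/
theorem isIntegral_map {a : R} (h : IsIntegral (Pol n) a) : IsIntegral (Pol n) (algebraMap R K a) :=
  h.algebraMap

omit [IsDomain R] [Algebra ℂ R] [Algebra ℂ K] [IsScalarTower ℂ R K]
  [IsScalarTower ℂ (Pol n) R] [IsScalarTower ℂ (Pol n) K]
  [FaithfulSMul (Pol n) K] in
theorem pt_zero_iff {x : Pt n K} (hxR : ∀ b : IB n K, ∃ a : R, algebraMap R K a = (b : K) ∧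
      (x.toFun b = 0 ↔ a ∈ maximalIdeal R)) {a : R} (h : IsIntegral (Pol n) a) :
    x.toFun ⟨algebraMap R K a, isIntegral_map h⟩ = 0 ↔ a ∈ maximalIdeal R := by
  obtain ⟨a', h1, h2⟩ := hxR ⟨algebraMap R K a, isIntegral_map h⟩
  have h3 : a' = a := IsFractionRing.injective R K h1
  rw [h2, h3]

omit [IsDomain R] [Algebra ℂ R] [Algebra ℂ K] [IsScalarTower ℂ R K]
  [IsScalarTower ℂ (Pol n) R] [IsScalarTower ℂ (Pol n) K]
  [FaithfulSMul (Pol n) K] in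
theorem pt_unit {x : Pt n K} (hxR : ∀ b : IB n K, ∃ a : R, algebraMap R K a = (b : K) ∧
      (x.toFun b = 0 ↔ a ∈ maximalIdeal R)) {v : Valuation K ℝ≥0} (hv : Over x v) {s : R}
    (hs : IsUnit s) (h : IsIntegral (Pol n) s) : v (algebraMap R K s) = 1 := by
  refine hv.2 ⟨algebraMap R K s, isIntegral_map h⟩ ?_
  rw [Ne, pt_zero_iff hxR h]
  exact fun h => h hs

omit [IsDomain R] [Algebra ℂ R] [Algebra ℂ K] [IsScalarTower ℂ R K]
  [IsScalarTower ℂ (Pol n) R] [IsScalarTower ℂ (Pol n) K]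
  [FaithfulSMul (Pol n) K] in
theorem pt_le_one
    (hzmt : ∀ a : R, ∃ s : R, IsUnit s ∧ IsIntegral (Pol n) s ∧ IsIntegral (Pol n) (s * a))
    {x : Pt n K} (hxR : ∀ b : IB n K, ∃ a : R, algebraMap R K a = (b : K) ∧
      (x.toFun b = 0 ↔ a ∈ maximalIdeal R)) {v : Valuation K ℝ≥0} (hv : Over x v) (f : R) :
    v (algebraMap R K f) ≤ 1 := by
  obtain ⟨s, hs1, hs2, hs3⟩ := hzmt f
  have h1 := pt_unit hxR hv hs1 hs2
  have h2 : v (algebraMap R K (s * f)) ≤ 1 := hv.1 ⟨algebraMap R K (s * f), isIntegral_map hs3⟩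
  rwa [map_mul, map_mul, h1, one_mul] at h2

/-- Valuations over `x` have a center on `Spec R`. -/
theorem exists_center
    (hzmt : ∀ a : R, ∃ s : R, IsUnit s ∧ IsIntegral (Pol n) s ∧ IsIntegral (Pol n) (s * a))
    {x : Pt n K} (hxR : ∀ b : IB n K, ∃ a : R, algebraMap R K a = (b : K) ∧
      (x.toFun b = 0 ↔ a ∈ maximalIdeal R)) {v : Valuation K ℝ≥0} (hv : Over x v) :
    ∃ P : Ideal R, HasCenter R v P := by
  have h1 := pt_le_one hzmt hxR hv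
  let P : Ideal R :=
    { carrier := {f | v (algebraMap R K f) < 1}
      add_mem' := by
        intro a b ha hb
        change v (algebraMap R K (a + b)) < 1
        rw [map_add]
        exact lt_of_le_of_lt (v.map_add _ _) (max_lt ha hb)
      zero_mem' := by
        change v (algebraMap R K 0) < 1
        simp
      smul_mem' := by
        intro c a ha
        change v (algebraMap R K (c • a)) < 1
        rw [smul_eq_mul, map_mul, map_mul]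
        exact lt_of_le_of_lt (mul_le_mul' (h1 c) le_rfl) (by rw [one_mul]; exact ha) }
  exact ⟨P, fun f => ⟨h1 f, Iff.rfl⟩⟩

theorem hasCenter_maximal
    (hzmt : ∀ a : R, ∃ s : R, IsUnit s ∧ IsIntegral (Pol n) s ∧ IsIntegral (Pol n) (s * a))
    {x : Pt n K} (hxR : ∀ b : IB n K, ∃ a : R, algebraMap R K a = (b : K) ∧
      (x.toFun b = 0 ↔ a ∈ maximalIdeal R)) {v : Valuation K ℝ≥0} (hv : Centered x v) :
    HasCenter R v (maximalIdeal R) := by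
  intro f
  refine ⟨pt_le_one hzmt hxR hv.1 f, ?_⟩
  constructor
  · intro h hu
    obtain ⟨g, hg⟩ := hu.exists_right_inv
    have h1 := pt_le_one hzmt hxR hv.1 g
    have h2 : v (algebraMap R K f) * v (algebraMap R K g) = 1 := by
      rw [← map_mul, ← map_mul, hg, map_one, map_one]
    have h3 : v (algebraMap R K f) * v (algebraMap R K g) < 1 :=
      lt_of_le_of_lt (mul_le_mul' le_rfl h1) (by rw [mul_one]; exact h)
    exact absurd h2 h3.ne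
  · intro hf
    obtain ⟨s, hs1, hs2, hs3⟩ := hzmt f
    have h1 := pt_unit hxR hv.1 hs1 hs2
    have h2 : v (algebraMap R K (s * f)) < 1 := by
      refine hv.2 ⟨algebraMap R K (s * f), isIntegral_map hs3⟩ ?_
      rw [pt_zero_iff hxR hs3]
      exact Ideal.mul_mem_left _ _ hf
    rwa [map_mul, map_mul, h1, one_mul] at h2

omit [IsDomain R] [Algebra ℂ R] [Algebra ℂ K] [IsScalarTower ℂ R K]
  [IsScalarTower ℂ (Pol n) R] [IsScalarTower ℂ (Pol n) K]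
  [FaithfulSMul (Pol n) K] in
theorem pt_mem_span {x : Pt n K} (hxR : ∀ b : IB n K, ∃ a : R, algebraMap R K a = (b : K) ∧
      (x.toFun b = 0 ↔ a ∈ maximalIdeal R)) (b : IB n K) (hb : b ∈ zI n K) :
    ∃ a ∈ Ideal.span (Set.range fun i : Fin n => algebraMap (Pol n) R (MvPolynomial.X i)),
      algebraMap R K a = (b : K) := by
  refine Submodule.span_induction (p := fun (b : IB n K) _ =>
    ∃ a ∈ Ideal.span (Set.range fun i : Fin n => algebraMap (Pol n) R (MvPolynomial.X i)),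
      algebraMap R K a = (b : K)) ?_ ?_ ?_ ?_ hb
  · rintro _ ⟨i, rfl⟩
    refine ⟨_, Ideal.subset_span ⟨i, rfl⟩, ?_⟩
    rw [← IsScalarTower.algebraMap_apply (Pol n) R K]
    rfl
  · exact ⟨0, Ideal.zero_mem _, by simp⟩
  · rintro b c _ _ ⟨a, ha, h1⟩ ⟨a', ha', h2⟩
    refine ⟨a + a', Ideal.add_mem _ ha ha', ?_⟩
    rw [map_add, h1, h2]
    rfl
  · rintro c b _ ⟨a, ha, h1⟩
    obtain ⟨a', h2, -⟩ := hxR c
    refine ⟨a' * a, Ideal.mul_mem_left _ _ ha, ?_⟩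
    rw [map_mul, h1, h2]
    rfl

/-- The singularity hypothesis in terms of the integral closure. -/
theorem exists_sing
    (hzmt : ∀ a : R, ∃ s : R, IsUnit s ∧ IsIntegral (Pol n) s ∧ IsIntegral (Pol n) (s * a))
    {x : Pt n K} (hxR : ∀ b : IB n K, ∃ a : R, algebraMap R K a = (b : K) ∧
      (x.toFun b = 0 ↔ a ∈ maximalIdeal R))
    (hne : Ideal.span (Set.range fun i : Fin n => algebraMap (Pol n) R (MvPolynomial.X i)) ≠
      maximalIdeal R)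
    (hx : ∀ i : Fin n, algebraMap (Pol n) R (MvPolynomial.X i) ∈ maximalIdeal R) :
    ∃ f : IB n K, x.toFun f = 0 ∧ ∀ s : IB n K, x.toFun s ≠ 0 → s * f ∉ zI n K := by
  have hle : Ideal.span (Set.range fun i : Fin n => algebraMap (Pol n) R (MvPolynomial.X i)) ≤
      maximalIdeal R := by
    rw [Ideal.span_le]
    rintro _ ⟨i, rfl⟩
    exact hx i
  obtain ⟨a, ha, ha'⟩ := SetLike.exists_of_lt (lt_of_le_of_ne hle hne)
  obtain ⟨s, hs1, hs2, hs3⟩ := hzmt a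
  refine ⟨⟨algebraMap R K (s * a), isIntegral_map hs3⟩, ?_, ?_⟩
  · rw [pt_zero_iff hxR hs3]
    exact Ideal.mul_mem_left _ _ ha
  · intro t ht hmem
    obtain ⟨a', h1, h2⟩ := pt_mem_span hxR _ hmem
    obtain ⟨t', h3, h4⟩ := hxR t
    have h5 : a' = t' * (s * a) := by
      apply IsFractionRing.injective R K
      have h7 : algebraMap R K a' = (t : K) * algebraMap R K (s * a) := h2
      rw [h7, map_mul (algebraMap R K) t', h3]
    have h6 : IsUnit t' := by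
      by_contra h7
      exact ht (h4.mpr h7)
    rw [h5, ← mul_assoc] at h1
    exact ha' ((Ideal.unit_mul_mem_iff_mem _ (h6.mul hs1)).mp h1)

omit [IsDomain R] [IsLocalRing R] [Algebra (Pol n) R] [IsScalarTower ℂ (Pol n) R]  in
/-- The length over `R` is bounded by the dimension over `ℂ`. -/
theorem length_le_of_dep {Q : Type} [AddCommGroup Q] [Module R Q] [Module ℂ Q]
    [IsScalarTower ℂ R Q] {D : ℕ} (h : ∀ g : Fin (D + 1) → Q, ¬ LinearIndependent ℂ g) :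
    Module.length R Q ≤ D := by
  classical
  have h1 := Submodule.length_le_length_restrictScalars (R := R) ℂ (⊤ : Submodule R Q)
  have h2 : Module.length R (⊤ : Submodule R Q) = Module.length R Q := Module.length_top
  have h3 : Module.length ℂ ((⊤ : Submodule R Q).restrictScalars ℂ) = Module.length ℂ Q := by
    rw [Submodule.restrictScalars_top]
    exact Module.length_top
  rw [h2, h3, Module.length_eq_rank] at h1
  refine h1.trans ?_
  have h4 : Module.rank ℂ Q ≤ (D : Cardinal) := by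
    refine rank_le fun s hs => ?_
    by_contra hlt
    rw [not_le] at hlt
    have e : Fin (D + 1) ↪ s := (Fin.castLEEmb (n := D + 1) (m := s.card) hlt).trans
      s.equivFin.symm.toEmbedding
    exact h _ (hs.comp e e.injective)
  exact_mod_cast (Cardinal.toENat.monotone' h4).trans (by simp)

omit [IsLocalRing R] [Algebra ℂ R] [IsScalarTower ℂ R K] [Algebra ℂ K]
  [IsDomain R] [IsFractionRing R K] in
theorem mem_valIdeal {v : Valuation K ℝ≥0} (hv : ∀ f : R, v (algebraMap R K f) ≤ 1) {t : ℝ}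
    {f : R} : f ∈ valIdeal R v t ↔ (v (algebraMap R K f) : ℝ) ≤ Real.exp (-t) := by
  constructor
  · intro hf
    have h1 : v (algebraMap R K f) ≤ (Real.exp (-t)).toNNReal := by
      refine val_span_le hv (s := {f | (v (algebraMap R K f) : ℝ) ≤ Real.exp (-t)}) ?_ f hf
      intro g hg
      exact NNReal.le_toNNReal_of_coe_le hg
    have h2 := NNReal.coe_le_coe.mpr h1
    rwa [Real.coe_toNNReal _ (Real.exp_pos _).le] at h2
  · intro hf
    exact Ideal.subset_span hf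

/-- Bound of the colength of the valuation ideals. -/
theorem length_valIdeal_le
    (hzmt : ∀ a : R, ∃ s : R, IsUnit s ∧ IsIntegral (Pol n) s ∧ IsIntegral (Pol n) (s * a))
    {x : Pt n K} (hxR : ∀ b : IB n K, ∃ a : R, algebraMap R K a = (b : K) ∧
      (x.toFun b = 0 ↔ a ∈ maximalIdeal R)) {v : Valuation K ℝ≥0} (hv : Centered x v)
    {κ : ℝ} (hκ : 0 < κ)
    (hcomb : ∀ k D : ℕ, 2 * Nat.choose (n + k - 1) n < D → ∀ f : Fin D → IB n K,
        ∃ c : Fin D → ℂ, c ≠ 0 ∧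
          v (∑ l, algebraMap ℂ K (c l) * (f l : K)) ≤ (Real.exp (-(k * κ))).toNNReal) (t : ℝ) :
    Module.length R (R ⧸ valIdeal R v t) ≤ (2 * Nat.choose (n + ⌈t / κ⌉₊ - 1) n : ℕ) := by
  classical
  set k := ⌈t / κ⌉₊ with hkdef
  have hv1 : ∀ f : R, v (algebraMap R K f) ≤ 1 := fun f => (hasCenter_maximal hzmt hxR hv f).1
  refine length_le_of_dep fun g hg => ?_
  choose f hf using fun l => Ideal.Quotient.mk_surjective (g l)
  choose s hs1 hs2 hs3 using hzmt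
  set u : R := ∏ l, s (f l) with hu
  have huu : IsUnit u := by
    rw [hu]
    exact IsUnit.prod_univ_iff.mpr fun l => hs1 _
  have hui : IsIntegral (Pol n) u := IsIntegral.prod _ fun l _ => hs2 _
  have huf : ∀ l, IsIntegral (Pol n) (u * f l) := by
    intro l
    rw [hu, ← Finset.mul_prod_erase _ _ (Finset.mem_univ l)]
    have h1 : s (f l) * (∏ x ∈ Finset.univ.erase l, s (f x)) * f l =
        (∏ x ∈ Finset.univ.erase l, s (f x)) * (s (f l) * f l) := by ring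
    rw [h1]
    exact (IsIntegral.prod _ fun l _ => hs2 _).mul (hs3 _)
  obtain ⟨c, hc0, hc⟩ := hcomb k _ (Nat.lt_succ_self _)
    fun l => ⟨algebraMap R K (u * f l), isIntegral_map (huf l)⟩
  have h2 : ∑ l, algebraMap ℂ K (c l) * algebraMap R K (u * f l) =
      algebraMap R K u * algebraMap R K (∑ l, algebraMap ℂ R (c l) * f l) := by
    rw [map_sum, Finset.mul_sum]
    refine Finset.sum_congr rfl fun l _ => ?_
    rw [map_mul, map_mul, ← IsScalarTower.algebraMap_apply ℂ R K]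
    ring
  have h3 : v (∑ l, algebraMap ℂ K (c l) * algebraMap R K (u * f l)) =
      v (algebraMap R K (∑ l, algebraMap ℂ R (c l) * f l)) := by
    rw [h2, map_mul, pt_unit hxR hv.1 huu hui, one_mul]
  have h4 : v (algebraMap R K (∑ l, algebraMap ℂ R (c l) * f l)) ≤
      (Real.exp (-(k * κ))).toNNReal := by
    rw [← h3]; exact hc
  have h5 : (∑ l, algebraMap ℂ R (c l) * f l) ∈ valIdeal R v t := by
    rw [mem_valIdeal hv1]
    have h6 := NNReal.coe_le_coe.mpr h4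
    rw [Real.coe_toNNReal _ (Real.exp_pos _).le] at h6
    refine h6.trans (Real.exp_le_exp.mpr ?_)
    have h7 : t / κ ≤ k := Nat.le_ceil _
    rw [div_le_iff₀ hκ] at h7
    linarith only [h7]
  rw [Fintype.linearIndependent_iff] at hg
  have h6 : ∑ l, c l • g l = 0 := by
    rw [← Ideal.Quotient.eq_zero_iff_mem, map_sum] at h5
    rw [← h5]
    refine Finset.sum_congr rfl fun l _ => ?_
    rw [map_mul, hf, Algebra.smul_def]
    rfl
  exact hc0 (funext fun l => hg c h6 l)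

/-- The volume of a valuation whose valuation ideals have small colength. -/
theorem vol_le_of_comb [IsNoetherianRing R]
    (hzmt : ∀ a : R, ∃ s : R, IsUnit s ∧ IsIntegral (Pol n) s ∧ IsIntegral (Pol n) (s * a))
    (hres : Function.Surjective (algebraMap ℂ (ResidueField R)))
    {x : Pt n K} (hxR : ∀ b : IB n K, ∃ a : R, algebraMap R K a = (b : K) ∧
      (x.toFun b = 0 ↔ a ∈ maximalIdeal R)) {v : Valuation K ℝ≥0} (hv : Centered x v)
    (hn : 1 ≤ n) {κ : ℝ} (hκ : 0 < κ)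
    (hcomb : ∀ k D : ℕ, 2 * Nat.choose (n + k - 1) n < D → ∀ f : Fin D → IB n K,
        ∃ c : Fin D → ℂ, c ≠ 0 ∧
          v (∑ l, algebraMap ℂ K (c l) * (f l : K)) ≤ (Real.exp (-(k * κ))).toNNReal) :
    vol R n v ≤ ENNReal.ofReal (2 / κ ^ n) := by
  have hlim : Filter.Tendsto (fun t : ℕ => ENNReal.ofReal (2 * (1 / κ + n / (t : ℝ)) ^ n))
      Filter.atTop (nhds (ENNReal.ofReal (2 / κ ^ n))) := by
    refine ENNReal.tendsto_ofReal ?_
    have h1 : Filter.Tendsto (fun t : ℕ => 2 * (1 / κ + n / (t : ℝ)) ^ n) Filter.atTop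
        (nhds (2 * (1 / κ + 0) ^ n)) :=
      ((tendsto_const_nhds.add (tendsto_const_div_atTop_nhds_zero_nat (n : ℝ))).pow n).const_mul 2
    have h2 : 2 * (1 / κ + 0) ^ n = 2 / κ ^ n := by
      rw [add_zero, one_div, inv_pow]
      rfl
    rwa [h2] at h1
  unfold vol
  rw [← hlim.limsup_eq]
  refine Filter.limsup_le_limsup ?_
  filter_upwards [Filter.eventually_ge_atTop 1] with t ht
  have ht0 : (0 : ℝ) < t := by exact_mod_cast ht
  have h1 := length_valIdeal_le hzmt hxR hv hκ hcomb (t : ℝ)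
  set k := ⌈(t : ℝ) / κ⌉₊ with hk
  have h2 : (Module.length R (R ⧸ valIdeal R v (t : ℝ)) : ℝ≥0∞) ≤
      ((2 * Nat.choose (n + k - 1) n : ℕ) : ℝ≥0∞) := by
    have := ENat.toENNReal_le.mpr h1
    simpa using this
  have h3 : (n ! : ℝ≥0∞) * (Module.length R (R ⧸ valIdeal R v (t : ℝ)) : ℝ≥0∞) ≤
      ((2 * (n + k - 1) ^ n : ℕ) : ℝ≥0∞) := by
    refine (mul_le_mul_right h2 _).trans ?_
    rw [← Nat.cast_mul]
    refine Nat.cast_le.mpr ?_
    have h4 : n ! * (2 * Nat.choose (n + k - 1) n) = 2 * (n + k - 1).descFactorial n := by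
      rw [Nat.descFactorial_eq_factorial_mul_choose]; ring
    rw [h4]
    exact Nat.mul_le_mul_left _ (Nat.descFactorial_le_pow _ _)
  have h5 : ((2 * (n + k - 1) ^ n : ℕ) : ℝ) ≤ 2 * ((t : ℝ) / κ + n) ^ n := by
    have h6 : ((n + k - 1 : ℕ) : ℝ) ≤ (t : ℝ) / κ + n := by
      have h7 : (k : ℝ) < (t : ℝ) / κ + 1 := Nat.ceil_lt_add_one (by positivity)
      have h8 : 1 ≤ n + k := by omega
      rw [Nat.cast_sub h8]
      push_cast
      linarith only [h7]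
    push_cast
    have := pow_le_pow_left₀ (by positivity) h6 n
    linarith only [this]
  have h6 : ((2 * (n + k - 1) ^ n : ℕ) : ℝ≥0∞) / (t : ℝ≥0∞) ^ n ≤
      ENNReal.ofReal (2 * (1 / κ + n / (t : ℝ)) ^ n) := by
    have h7 : 2 * (1 / κ + n / (t : ℝ)) ^ n = (2 * ((t : ℝ) / κ + n) ^ n) / (t : ℝ) ^ n := by
      rw [mul_div_assoc, ← div_pow]
      congr 2
      field_simp
    rw [h7, ENNReal.ofReal_div_of_pos (by positivity), ENNReal.ofReal_pow ht0.le,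
      ENNReal.ofReal_natCast]
    refine ENNReal.div_le_div_right ?_ _
    rw [← ENNReal.ofReal_natCast]
    exact ENNReal.ofReal_le_ofReal h5
  exact (ENNReal.div_le_div_right h3 _).trans h6

end Vale.Agent.P282.Full
end

section

/-!
P282, equality case, arbitrary index: regular covers of dimension two.
-/

open scoped NNReal ENNReal Nat WithZero
open IsLocalRing

namespace Vale.Agent.P282.Full

open Vale.Agent.P282.L2

section conj

variable {K K' : Type} [Field K] [Algebra ℂ K] [Field K'] [Algebra ℂ K'] [Algebra K K']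
  [IsScalarTower ℂ K K']

/-- Conjugation of a derivation by an involution. -/
theorem ixr_conj {σ : K' ≃ₐ[K] K'} (hσ2 : ∀ a, σ (σ a) = a) (D : Derivation ℂ K' K') :
    ∃ D' : Derivation ℂ K' K', ∀ a, D' a = σ (D (σ a)) := by
  refine ⟨Derivation.mk' ((σ.toLinearMap.restrictScalars ℂ) ∘ₗ (D : K' →ₗ[ℂ] K') ∘ₗ
    (σ.toLinearMap.restrictScalars ℂ)) ?_, fun a => rfl⟩
  intro a b
  change σ (D (σ (a * b))) = a • σ (D (σ b)) + b • σ (D (σ a))
  rw [map_mul, D.leibniz, map_add, smul_eq_mul, smul_eq_mul, map_mul, map_mul, hσ2, hσ2,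
    smul_eq_mul, smul_eq_mul]

variable [Algebra (Pol 2) K'] [IsScalarTower ℂ (Pol 2) K'] [FaithfulSMul (Pol 2) K']
  [Algebra (FractionRing (Pol 2)) K'] [IsScalarTower (Pol 2) (FractionRing (Pol 2)) K']
  [FiniteDimensional (FractionRing (Pol 2)) K']

/-- The Jacobian of invariant functions with respect to eigencoordinates. -/
theorem ixr_jac {σ : K' ≃ₐ[K] K'} (hσ2 : ∀ a, σ (σ a) = a) {d : Fin 2 → Derivation ℂ K' K'}
    (hd : IsPartials d) {e : Fin 2 → K'} (he : ∀ i, e i = 1 ∨ e i = -1) (he1 : e 0 * e 1 = 1)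
    (hσx : ∀ i, σ (algebraMap (Pol 2) K' (MvPolynomial.X i)) =
      e i * algebraMap (Pol 2) K' (MvPolynomial.X i)) (b : Fin 2 → K) :
    σ (Matrix.det (Matrix.of fun i j => d i (algebraMap K K' (b j)))) =
      Matrix.det (Matrix.of fun i j => d i (algebraMap K K' (b j))) := by
  choose D' hD' using fun i => ixr_conj hσ2 (d i)
  have h1 := forms_det hd D' (fun j => algebraMap K K' (b j))
  have h2 : Matrix.det (Matrix.of fun i j => D' i (algebraMap K K' (b j))) =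
      σ (Matrix.det (Matrix.of fun i j => d i (algebraMap K K' (b j)))) := by
    rw [Matrix.det_fin_two, Matrix.det_fin_two]
    simp only [Matrix.of_apply]
    rw [hD', hD', hD', hD']
    simp only [AlgEquiv.commutes, map_sub, map_mul]
  have h3 : ∀ i j, D' i (algebraMap (Pol 2) K' (MvPolynomial.X j)) =
      e j * if i = j then 1 else 0 := by
    intro i j
    have h4 : D' i (algebraMap (Pol 2) K' (MvPolynomial.X j)) =
        σ (e j * if i = j then 1 else 0) := by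
      rw [hD', hσx]
      congr 1
      rcases he j with h | h
      · rw [h, one_mul, one_mul, hd]
      · rw [h, neg_one_mul, map_neg, hd, neg_one_mul]
    rw [h4]
    rcases he j with h | h <;> rw [h] <;> split_ifs <;> simp
  have h5 : Matrix.det (Matrix.of fun i j => D' i (algebraMap (Pol 2) K' (MvPolynomial.X j))) =
      1 := by
    rw [Matrix.det_fin_two]
    simp only [Matrix.of_apply, h3]
    simpa using he1
  rw [h2, h5, one_mul] at h1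
  exact h1

end conj

variable {r : ℕ} {R K R' K' : Type} [CommRing R] [IsDomain R] [IsLocalRing R] [Algebra ℂ R]
  [Field K] [Algebra ℂ K] [Algebra R K] [IsScalarTower ℂ R K] [IsFractionRing R K]
  [CommRing R'] [IsDomain R'] [IsLocalRing R'] [Algebra ℂ R']
  [Field K'] [Algebra ℂ K'] [Algebra R' K'] [IsScalarTower ℂ R' K'] [IsFractionRing R' K']
  [Algebra K K'] [IsScalarTower ℂ K K'] [Algebra R R'] [Algebra R K'] [IsScalarTower R R' K']
  [IsScalarTower R K K'] [IsScalarTower ℂ R R']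

/-- The involution acts on `ε` by `-1`. -/
theorem ixr_eps {g : K} {ε : K'} (hg : g ≠ 0) (hr : 0 < r)
    (hpow : ε ^ r = algebraMap K K' g) (hadj : Algebra.adjoin K {ε} = ⊤)
    {σ : K' ≃ₐ[K] K'} (hσ1 : σ ≠ 1) (hσ2 : ∀ a, σ (σ a) = a) : σ ε = -ε := by
  have hε0 : ε ≠ 0 := by
    intro h
    rw [h, zero_pow hr.ne'] at hpow
    exact hg ((map_eq_zero _).mp hpow.symm)
  have h1 : (σ ε / ε) ^ r = 1 := by
    rw [div_pow, ← map_pow, hpow, AlgEquiv.commutes]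
    exact div_self ((map_ne_zero _).mpr hg)
  have hprim : IsPrimitiveRoot (Complex.exp (2 * Real.pi * Complex.I / r)) r :=
    Complex.isPrimitiveRoot_exp r hr.ne'
  have hprim' := hprim.map_of_injective (f := algebraMap ℂ K') (algebraMap ℂ K').injective
  have : NeZero r := ⟨hr.ne'⟩
  obtain ⟨i, -, hi⟩ := hprim'.eq_pow_of_pow_eq_one h1
  rw [← map_pow] at hi
  set z : ℂ := Complex.exp (2 * Real.pi * Complex.I / r) ^ i with hz
  have hσz : σ ε = algebraMap ℂ K' z * ε := by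
    rw [hi, div_mul_cancel₀ _ hε0]
  have hcomm : σ (algebraMap ℂ K' z) = algebraMap ℂ K' z := by
    rw [IsScalarTower.algebraMap_apply ℂ K K', AlgEquiv.commutes]
  have h2 : ε = algebraMap ℂ K' z * (algebraMap ℂ K' z * ε) := by
    have h3 := hσ2 ε
    rw [hσz, map_mul, hcomm, hσz] at h3
    exact h3.symm
  have h3 : (algebraMap ℂ K' z - 1) * (algebraMap ℂ K' z + 1) = 0 := by
    apply mul_right_cancel₀ hε0
    rw [zero_mul]
    linear_combination -h2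
  rcases mul_eq_zero.1 h3 with h | h
  · exfalso
    apply hσ1
    have h4 : (σ : K' →ₐ[K] K') = AlgHom.id K K' := by
      refine AlgHom.ext_of_adjoin_eq_top hadj ?_
      intro x hx
      rw [Set.mem_singleton_iff] at hx
      rw [hx]
      change σ ε = ε
      rw [hσz, sub_eq_zero.1 h, one_mul]
    exact AlgEquiv.ext fun x => DFunLike.congr_fun h4 x
  · rw [hσz]
    have h4 : algebraMap ℂ K' z = -1 := by linear_combination h
    rw [h4, neg_one_mul]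

end Vale.Agent.P282.Full
end

section

/-!
P282-EQ-3a: point derivations and approximation for general pairs.
-/

open MeasureTheory Filter Topology
open scoped ENNReal NNReal ComplexConjugate

namespace Vale.Agent.P282.EQ

open Vale.Agent.P282.L2

variable {n N : ℕ} {K : Type} [Field K] [Algebra ℂ K] [Algebra (Pol n) K]
  [IsScalarTower ℂ (Pol n) K] [FaithfulSMul (Pol n) K]
  [Algebra (FractionRing (Pol n)) K] [IsScalarTower (Pol n) (FractionRing (Pol n)) K]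
  [FiniteDimensional (FractionRing (Pol n)) K]

variable {E : Prim n K} {S : Sheets n N} {x : Pt n K} {U : Ultrafilter (Pairs n)}

/-- The point derivation (copy of `IsPairs.exists_psi`; the scale `s u` also contains
`‖u.1.1 - u.2.1‖`). -/
theorem GPairs.exists_psi (hS : E.IsSheets S) (hU : GPairs E S x U) :
    ∃ (ψ : IB n K → ℂ) (s : Pairs n → ℝ) (g : IB n K),
      IsPsi E U ψ s ∧ x.toFun g = 0 ∧ ψ g ≠ 0 := by
  classical
  have hfin : Module.Finite (Pol n) (IB n K) := ib_finite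
  obtain ⟨T₀, hT₀⟩ := hfin.fg_top
  have hM1 : ∀ᶠ u in (U : Filter (Pairs n)), u.1 ∈ S.M := hU.fst (Prim.M_mem_nhd E S x)
  have hM2 : ∀ᶠ u in (U : Filter (Pairs n)), u.2 ∈ S.M := hU.snd (Prim.M_mem_nhd E S x)
  -- expansion of elements
  have hexp : ∀ b : IB n K, ∃ P : IB n K → Pol n, ∀ q ∈ S.M,
      E.ev (b : K) q = ∑ c ∈ T₀, MvPolynomial.eval q.1 (P c) * E.ev (c : K) q := by
    intro b
    have h1 : b ∈ Submodule.span (Pol n) (T₀ : Set (IB n K)) := by rw [hT₀]; trivial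
    obtain ⟨P, -, hP⟩ := Submodule.mem_span_finset.1 h1
    refine ⟨P, fun q hq => ?_⟩
    have h2 : (b : K) = ∑ c ∈ T₀, algebraMap (Pol n) K (P c) * (c : K) := by
      rw [← hP]
      push_cast
      refine Finset.sum_congr rfl fun c _ => ?_
      rw [Algebra.smul_def]
    rw [h2, Prim.ev_sum hS hq _ (fun c _ => (Prim.isReg_alg _).mul (Prim.isReg_ib c))]
    refine Finset.sum_congr rfl fun c _ => ?_
    rw [Prim.ev_mul hS hq (Prim.isReg_alg _) (Prim.isReg_ib c), Prim.ev_alg hS hq]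
  have halg : ∀ (P : Pol n) (q : (Fin n → ℂ) × ℂ), q ∈ S.M →
      E.ev ((algebraMap (Pol n) (IB n K) P : IB n K) : K) q = MvPolynomial.eval q.1 P := by
    intro P q hq
    have h : ((algebraMap (Pol n) (IB n K) P : IB n K) : K) = algebraMap (Pol n) K P := rfl
    rw [h, Prim.ev_alg hS hq]
  obtain ⟨Z, hZ⟩ : ∃ Z : Finset (IB n K), Z = Finset.univ.image
    (fun i : Fin n => algebraMap (Pol n) (IB n K) (MvPolynomial.X i)) := ⟨_, rfl⟩
  obtain ⟨T, hT⟩ : ∃ T : Finset (IB n K), T = T₀ ∪ Z := ⟨_, rfl⟩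
  have hTT : ∀ c ∈ T₀, c ∈ T := fun c hc => by
    rw [hT]; exact Finset.mem_union_left _ hc
  have hXT : ∀ i : Fin n, algebraMap (Pol n) (IB n K) (MvPolynomial.X i) ∈ T := fun i => by
    rw [hT, hZ]
    exact Finset.mem_union_right _ (Finset.mem_image_of_mem _ (Finset.mem_univ i))
  obtain ⟨s, hs⟩ : ∃ s : Pairs n → ℝ,
    s = fun u => ∑ c ∈ T, ‖E.ev (c : K) u.1 - E.ev (c : K) u.2‖ := ⟨_, rfl⟩
  have hs0 : ∀ u, 0 ≤ s u := fun u => by
    rw [hs]; exact Finset.sum_nonneg fun _ _ => norm_nonneg _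
  have hspos : ∀ᶠ u in (U : Filter (Pairs n)), 0 < s u := by
    filter_upwards [hM1, hM2, hU.ne] with u h1 h2 h3
    refine lt_of_le_of_ne (hs0 u) fun h => h3 ?_
    have h4 : ∀ c ∈ T, E.ev (c : K) u.1 = E.ev (c : K) u.2 := by
      intro c hc
      have h5 : ∑ c ∈ T, ‖E.ev (c : K) u.1 - E.ev (c : K) u.2‖ = 0 := by
        rw [hs] at h; exact h.symm
      rw [Finset.sum_eq_zero_iff_of_nonneg fun _ _ => norm_nonneg _] at h5
      exact sub_eq_zero.1 (norm_eq_zero.1 (h5 c hc))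
    have h7 : u.1.1 = u.2.1 := by
      funext i
      have h8 := h4 _ (hXT i)
      rwa [halg _ _ h1, halg _ _ h2, MvPolynomial.eval_X, MvPolynomial.eval_X] at h8
    obtain ⟨P, hP⟩ := hexp ⟨E.y, E.integral⟩
    have h6 : E.ev E.y u.1 = E.ev E.y u.2 := by
      have e1 := hP u.1 h1
      have e2 := hP u.2 h2
      simp only at e1 e2
      rw [e1, e2]
      refine Finset.sum_congr rfl fun c hc => ?_
      rw [h4 c (hTT c hc), h7]
    rw [Prim.ev_y hS h1, Prim.ev_y hS h2] at h6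
    exact Prod.ext h7 h6
  have hlimT : ∀ c ∈ T, ∃ l : ℂ, Tendsto (fun u : Pairs n =>
      (E.ev (c : K) u.1 - E.ev (c : K) u.2) / (s u : ℂ)) U (𝓝 l) := by
    intro c hc
    have h1 : ((U.map fun u : Pairs n => (E.ev (c : K) u.1 - E.ev (c : K) u.2) / (s u : ℂ) :
        Ultrafilter ℂ) : Filter ℂ) ≤ 𝓟 (Metric.closedBall (0 : ℂ) 1) := by
      rw [le_principal_iff]
      change _ ∈ (U : Filter (Pairs n))
      filter_upwards with u
      rw [Set.mem_preimage, mem_closedBall_zero_iff, norm_div, Complex.norm_real,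
        Real.norm_of_nonneg (hs0 u)]
      apply div_le_one_of_le₀ _ (hs0 u)
      rw [hs]
      exact Finset.single_le_sum (f := fun c : IB n K => ‖E.ev (c : K) u.1 - E.ev (c : K) u.2‖)
        (fun _ _ => norm_nonneg _) hc
    obtain ⟨l, -, hl⟩ := (isCompact_closedBall (0 : ℂ) 1).ultrafilter_le_nhds _ h1
    exact ⟨l, hl⟩
  -- the set of `b` with a limit is a subalgebra
  have hadd : ∀ a b : IB n K, (∃ l : ℂ, Tendsto (fun u : Pairs n =>
      (E.ev (a : K) u.1 - E.ev (a : K) u.2) / (s u : ℂ)) U (𝓝 l)) →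
      (∃ l : ℂ, Tendsto (fun u : Pairs n =>
      (E.ev (b : K) u.1 - E.ev (b : K) u.2) / (s u : ℂ)) U (𝓝 l)) →
      ∃ l : ℂ, Tendsto (fun u : Pairs n => (E.ev ((a + b : IB n K) : K) u.1
        - E.ev ((a + b : IB n K) : K) u.2) / (s u : ℂ)) U (𝓝 l) := by
    rintro a b ⟨l, hl⟩ ⟨l', hl'⟩
    refine ⟨l + l', (hl.add hl').congr' ?_⟩
    filter_upwards [hM1, hM2] with u h1 h2
    have e1 : ((a + b : IB n K) : K) = (a : K) + (b : K) := rfl
    rw [e1, Prim.ev_add hS h1 (Prim.isReg_ib a) (Prim.isReg_ib b),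
      Prim.ev_add hS h2 (Prim.isReg_ib a) (Prim.isReg_ib b)]
    ring
  have hmul : ∀ a b : IB n K, (∃ l : ℂ, Tendsto (fun u : Pairs n =>
      (E.ev (a : K) u.1 - E.ev (a : K) u.2) / (s u : ℂ)) U (𝓝 l)) →
      (∃ l : ℂ, Tendsto (fun u : Pairs n =>
      (E.ev (b : K) u.1 - E.ev (b : K) u.2) / (s u : ℂ)) U (𝓝 l)) →
      ∃ l : ℂ, Tendsto (fun u : Pairs n => (E.ev ((a * b : IB n K) : K) u.1
        - E.ev ((a * b : IB n K) : K) u.2) / (s u : ℂ)) U (𝓝 l) := by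
    rintro a b ⟨l, hl⟩ ⟨l', hl'⟩
    have ha : Tendsto (fun u : Pairs n => E.ev (a : K) u.1) (U : Filter (Pairs n))
      (𝓝 (x.toFun a)) := (Prim.tendsto_ev_nhd E S x a).comp hU.fst
    have hb : Tendsto (fun u : Pairs n => E.ev (b : K) u.2) (U : Filter (Pairs n))
      (𝓝 (x.toFun b)) := (Prim.tendsto_ev_nhd E S x b).comp hU.snd
    refine ⟨x.toFun a * l' + x.toFun b * l, ((ha.mul hl').add (hb.mul hl)).congr' ?_⟩
    filter_upwards [hM1, hM2] with u h1 h2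
    have e1 : ((a * b : IB n K) : K) = (a : K) * (b : K) := rfl
    rw [e1, Prim.ev_mul hS h1 (Prim.isReg_ib a) (Prim.isReg_ib b),
      Prim.ev_mul hS h2 (Prim.isReg_ib a) (Prim.isReg_ib b)]
    ring
  have hpol : ∀ P : Pol n, ∃ l : ℂ, Tendsto (fun u : Pairs n =>
      (E.ev ((algebraMap (Pol n) (IB n K) P : IB n K) : K) u.1
        - E.ev ((algebraMap (Pol n) (IB n K) P : IB n K) : K) u.2) / (s u : ℂ)) U (𝓝 l) := by
    intro P
    induction P using MvPolynomial.induction_on with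
    | C a =>
      refine ⟨0, tendsto_const_nhds.congr' ?_⟩
      filter_upwards [hM1, hM2] with u h1 h2
      rw [halg _ _ h1, halg _ _ h2, MvPolynomial.eval_C, MvPolynomial.eval_C, sub_self, zero_div]
    | add p q hp hq =>
      rw [map_add]
      exact hadd _ _ hp hq
    | mul_X p i hp =>
      rw [map_mul]
      exact hmul _ _ hp (hlimT _ (hXT i))
  have hlim : ∀ b : IB n K, ∃ l : ℂ, Tendsto (fun u : Pairs n =>
      (E.ev (b : K) u.1 - E.ev (b : K) u.2) / (s u : ℂ)) U (𝓝 l) := by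
    intro b
    have h1 : b ∈ Submodule.span (Pol n) (T₀ : Set (IB n K)) := by rw [hT₀]; trivial
    induction h1 using Submodule.span_induction with
    | mem c hc => exact hlimT c (hTT c hc)
    | zero =>
      have := hpol 0
      rwa [map_zero] at this
    | add a b _ _ ha hb => exact hadd a b ha hb
    | smul P a _ ha =>
      rw [Algebra.smul_def]
      exact hmul _ _ (hpol P) ha
  choose ψ hψ using hlim
  have hsum : ∑ c ∈ T, ‖ψ c‖ = 1 := by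
    have h1 : Tendsto (fun u : Pairs n => ∑ c ∈ T,
        ‖(E.ev (c : K) u.1 - E.ev (c : K) u.2) / (s u : ℂ)‖) U (𝓝 (∑ c ∈ T, ‖ψ c‖)) :=
      tendsto_finsetSum _ fun c _ => (hψ c).norm
    have h2 : Tendsto (fun u : Pairs n => ∑ c ∈ T,
        ‖(E.ev (c : K) u.1 - E.ev (c : K) u.2) / (s u : ℂ)‖) U (𝓝 1) := by
      refine tendsto_const_nhds.congr' ?_
      filter_upwards [hspos] with u hu
      have h3 : ∀ c : IB n K, ‖(E.ev (c : K) u.1 - E.ev (c : K) u.2) / (s u : ℂ)‖ =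
          ‖E.ev (c : K) u.1 - E.ev (c : K) u.2‖ / s u := fun c => by
        rw [norm_div, Complex.norm_real, Real.norm_of_nonneg hu.le]
      simp only [h3]
      rw [← Finset.sum_div]
      have h4 : ∑ c ∈ T, ‖E.ev (c : K) u.1 - E.ev (c : K) u.2‖ = s u := by rw [hs]
      rw [h4, div_self hu.ne']
    exact tendsto_nhds_unique h1 h2
  obtain ⟨b, hbT, hb⟩ : ∃ b ∈ T, ψ b ≠ 0 := by
    by_contra h
    push Not at h
    rw [Finset.sum_eq_zero fun c hc => by rw [h c hc, norm_zero]] at hsum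
    exact zero_ne_one hsum
  refine ⟨ψ, s, b - algebraMap (Pol n) (IB n K) (MvPolynomial.C (x.toFun b)), ⟨hspos, hψ⟩,
    ?_, ?_⟩
  · rw [map_sub, x.map_alg, MvPolynomial.eval_C, sub_self]
  · have h1 : Tendsto (fun u : Pairs n => (E.ev (b : K) u.1 - E.ev (b : K) u.2) / (s u : ℂ)) U
        (𝓝 (ψ (b - algebraMap (Pol n) (IB n K) (MvPolynomial.C (x.toFun b))))) := by
      refine (hψ _).congr' ?_
      filter_upwards [hM1, hM2] with u h1 h2
      have e1 : ((b - algebraMap (Pol n) (IB n K) (MvPolynomial.C (x.toFun b)) : IB n K) : K) =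
          (b : K) - algebraMap (Pol n) K (MvPolynomial.C (x.toFun b)) := rfl
      rw [e1, Prim.ev_sub hS h1 (Prim.isReg_ib b) (Prim.isReg_alg _),
        Prim.ev_sub hS h2 (Prim.isReg_ib b) (Prim.isReg_alg _),
        Prim.ev_alg hS h1, Prim.ev_alg hS h2, MvPolynomial.eval_C, MvPolynomial.eval_C]
      congr 1
      ring
    rw [tendsto_nhds_unique h1 (hψ b)]
    exact hb

/-- Simultaneous approximation (copy of `Lim.exists_approx`). -/
theorem GPairs.exists_approx (hS : E.IsSheets S) (hU : GPairs E S x U) {m r : ℕ}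
    {F : Fin r → IB n K} (hF : ∀ j, E.Lim U m (F j)) :
    ∃ (G : Pairs n → Fin r → IB n K) (ε : Pairs n → ℝ) (C : ℝ) (k : ℕ),
      Tendsto ε U (𝓝 0) ∧ (∀ u, 0 < ε u) ∧
      (∀ᶠ u in (U : Filter (Pairs n)), ∀ j, E.Van m u.1 (G u j) ∧ E.Van m u.2 (G u j)) ∧
      (∀ᶠ u in (U : Filter (Pairs n)), ∀ q ∈ S.M, ‖q.1‖ ≤ 1 →
        ∑ j, ‖E.ev (G u j : K) q - E.ev (F j : K) q‖ ^ 2 ≤ ε u ^ 2) ∧
      ∀ᶠ u in (U : Filter (Pairs n)), ∀ q ∈ S.M, ∀ j, ‖E.ev (G u j : K) q‖ ≤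
        C * (1 + ‖q.1‖) ^ k := by
  classical
  choose R e c c₀ hc hb hv using hF
  choose A κ hA0 hA using fun (j : Fin r) (l : Fin (R j)) => Prim.ev_growth hS (e j l)
  have hcl : ∀ j l, Tendsto (fun u => c j u l) (U : Filter (Pairs n)) (𝓝 (c₀ j l)) := by
    intro j
    have := hc j
    rw [tendsto_pi_nhds] at this
    exact this
  set k : ℕ := ∑ j, ∑ l, κ j l with hk
  have hκ : ∀ j l, κ j l ≤ k := by
    intro j l
    calc κ j l ≤ ∑ l, κ j l := Finset.single_le_sum (fun _ _ => Nat.zero_le _) (Finset.mem_univ l)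
      _ ≤ k := Finset.single_le_sum (f := fun j => ∑ l, κ j l) (fun _ _ => Nat.zero_le _)
        (Finset.mem_univ j)
  have hev : ∀ j (l : Fin (R j)), ∀ q ∈ S.M, ‖E.ev (e j l : K) q‖ ≤ A j l * (1 + ‖q.1‖) ^ k := by
    intro j l q hq
    refine (hA j l q hq).trans ?_
    have h1 : (1 : ℝ) ≤ 1 + ‖q.1‖ := by linarith [norm_nonneg q.1]
    exact mul_le_mul_of_nonneg_left (pow_le_pow_right₀ h1 (hκ j l)) (hA0 j l)
  -- the error
  set δ : Pairs n → Fin r → ℝ := fun u j => ∑ l, ‖c j u l - c₀ j l‖ * (A j l * 2 ^ k) with hδ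
  have hδ0 : ∀ u j, 0 ≤ δ u j := fun u j => Finset.sum_nonneg fun l _ =>
    mul_nonneg (norm_nonneg _) (mul_nonneg (hA0 j l) (by positivity))
  have hδt : ∀ j, Tendsto (fun u => δ u j) (U : Filter (Pairs n)) (𝓝 0) := by
    intro j
    have : (0 : ℝ) = ∑ l : Fin (R j), 0 * (A j l * 2 ^ k) := by simp
    rw [this]
    refine tendsto_finsetSum _ fun l _ => Tendsto.mul_const _ ?_
    have := ((hcl j l).sub_const (c₀ j l)).norm
    simpa using this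
  set ν : Pairs n → ℝ := fun u =>
    if u.1 = u.2 then 1 else ‖u.1.1 - u.2.1‖ + ‖u.1.2 - u.2.2‖ with hν
  have hν0 : ∀ u, 0 < ν u := by
    intro u
    simp only [hν]
    split_ifs with h
    · exact one_pos
    · by_cases h1 : u.1.1 = u.2.1
      · have h2 : u.1.2 ≠ u.2.2 := fun h2 => h (Prod.ext h1 h2)
        have := norm_pos_iff.mpr (sub_ne_zero.mpr h2)
        have := norm_nonneg (u.1.1 - u.2.1)
        linarith
      · have := norm_pos_iff.mpr (sub_ne_zero.mpr h1)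
        have := norm_nonneg (u.1.2 - u.2.2)
        linarith
  have hM1 : ∀ᶠ u in (U : Filter (Pairs n)), u.1 ∈ S.M := hU.fst (Prim.M_mem_nhd E S x)
  have hM2 : ∀ᶠ u in (U : Filter (Pairs n)), u.2 ∈ S.M := hU.snd (Prim.M_mem_nhd E S x)
  have hνt : Tendsto ν (U : Filter (Pairs n)) (𝓝 0) := by
    set y : IB n K := ⟨E.y, E.integral⟩ with hy
    have h1 : Tendsto (fun u : Pairs n => E.ev (y : K) u.1) (U : Filter (Pairs n))
        (𝓝 (x.toFun y)) := (Prim.tendsto_ev_nhd E S x y).comp hU.fst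
    have h2 : Tendsto (fun u : Pairs n => E.ev (y : K) u.2) (U : Filter (Pairs n))
        (𝓝 (x.toFun y)) := (Prim.tendsto_ev_nhd E S x y).comp hU.snd
    have h3 := (h1.sub h2).norm
    rw [sub_self, norm_zero] at h3
    have h4 := (((Prim.tendsto_fst_nhd hS x).comp hU.fst).sub
      ((Prim.tendsto_fst_nhd hS x).comp hU.snd)).norm
    rw [sub_self, norm_zero] at h4
    have h5 := h4.add h3
    rw [add_zero] at h5
    refine h5.congr' ?_
    filter_upwards [hU.ne, hM1, hM2] with u hu m1 m2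
    simp only [hν, if_neg hu, Function.comp]
    have hyy : (y : K) = E.y := rfl
    rw [hyy, Prim.ev_y hS m1, Prim.ev_y hS m2]
  refine ⟨fun u j => ∑ l, LimAux.kc n K (c j u l) * e j l, fun u => ∑ j, δ u j + ν u,
    ∑ j, ∑ l, (‖c₀ j l‖ + 1) * A j l, k, ?_, ?_, ?_, ?_, ?_⟩
  · have : (0 : ℝ) = ∑ j : Fin r, (0 : ℝ) + 0 := by simp
    rw [this]
    exact (tendsto_finsetSum _ fun j _ => hδt j).add hνt
  · intro u
    have := hν0 u
    have := Finset.sum_nonneg fun j (_ : j ∈ Finset.univ) => hδ0 u j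
    positivity
  · rw [eventually_all]
    intro j
    exact hv j
  · refine Eventually.of_forall fun u q hq hq1 => ?_
    have h1 : ∀ j, ‖E.ev ((∑ l, LimAux.kc n K (c j u l) * e j l : IB n K) : K) q - E.ev (F j : K) q‖
        ≤ δ u j := by
      intro j
      have hFj : F j = ∑ l, LimAux.kc n K (c₀ j l) * e j l := hb j
      rw [hFj, LimAux.ev_comb hS hq, LimAux.ev_comb hS hq, ← Finset.sum_sub_distrib]
      refine (norm_sum_le _ _).trans (Finset.sum_le_sum fun l _ => ?_)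
      rw [← sub_mul, norm_mul]
      refine mul_le_mul_of_nonneg_left ((hev j l q hq).trans ?_) (norm_nonneg _)
      refine mul_le_mul_of_nonneg_left ?_ (hA0 j l)
      exact pow_le_pow_left₀ (by positivity) (by linarith) k
    calc ∑ j, ‖E.ev ((∑ l, LimAux.kc n K (c j u l) * e j l : IB n K) : K) q - E.ev (F j : K) q‖ ^ 2
        ≤ ∑ j, δ u j ^ 2 := Finset.sum_le_sum fun j _ => pow_le_pow_left₀ (norm_nonneg _) (h1 j) 2
      _ ≤ (∑ j, δ u j) ^ 2 := by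
        rw [sq, Finset.sum_mul]
        refine Finset.sum_le_sum fun j _ => ?_
        rw [sq]
        exact mul_le_mul_of_nonneg_left (Finset.single_le_sum (fun j _ => hδ0 u j)
          (Finset.mem_univ j)) (hδ0 u j)
      _ ≤ (∑ j, δ u j + ν u) ^ 2 := by
        refine pow_le_pow_left₀ (Finset.sum_nonneg fun j _ => hδ0 u j) ?_ 2
        linarith [hν0 u]
  · have hbd : ∀ᶠ u in (U : Filter (Pairs n)), ∀ j l, ‖c j u l‖ ≤ ‖c₀ j l‖ + 1 := by
      rw [eventually_all]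
      intro j
      rw [eventually_all]
      intro l
      exact ((hcl j l).norm.eventually_lt_const (lt_add_one _)).mono fun u h => h.le
    filter_upwards [hbd] with u hu q hq j
    rw [LimAux.ev_comb hS hq]
    calc ‖∑ l, c j u l * E.ev (e j l : K) q‖
        ≤ ∑ l, (‖c₀ j l‖ + 1) * A j l * (1 + ‖q.1‖) ^ k := by
          refine (norm_sum_le _ _).trans (Finset.sum_le_sum fun l _ => ?_)
          rw [norm_mul, mul_assoc]
          exact mul_le_mul (hu j l) (hev j l q hq) (norm_nonneg _) (by positivity)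
      _ = (∑ l, (‖c₀ j l‖ + 1) * A j l) * (1 + ‖q.1‖) ^ k := by rw [Finset.sum_mul]
      _ ≤ (∑ j, ∑ l, (‖c₀ j l‖ + 1) * A j l) * (1 + ‖q.1‖) ^ k := by
          refine mul_le_mul_of_nonneg_right ?_ (by positivity)
          exact Finset.single_le_sum (f := fun j => ∑ l, (‖c₀ j l‖ + 1) * A j l)
            (fun j _ => Finset.sum_nonneg fun l _ => mul_nonneg (by positivity) (hA0 j l))
            (Finset.mem_univ j)

end Vale.Agent.P282.EQ
end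

section

/-!
P282-EQ-3b: copies of `scale_solution` and `scale_estimate` with an arbitrary exponent of the
coordinates.
-/

set_option linter.all false

open MeasureTheory Filter Topology
open scoped ENNReal NNReal ComplexConjugate

namespace Vale.Agent.P282.L2

namespace Prim

variable {n N : ℕ} {K : Type} [Field K] [Algebra ℂ K] [Algebra (Pol n) K]
  [IsScalarTower ℂ (Pol n) K] [FaithfulSMul (Pol n) K]
  [Algebra (FractionRing (Pol n)) K] [IsScalarTower (Pol n) (FractionRing (Pol n)) K]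
  [FiniteDimensional (FractionRing (Pol n)) K]

variable {E : Prim n K} {S : Sheets n N} {x : Pt n K}

/-- The solution of the `∂̄`-equation at scale `ε`. -/
theorem ngen_solution (hS : E.IsSheets S) {d : Fin n → Derivation ℂ K K} (hd : IsPartials d)
    (hn : 0 < n) {J : K} (hJ0 : J ≠ 0) (hJ : IsIntegral (Pol n) J)
    (hJr : E.IsReg J⁻¹) {m r : ℕ} (hm : 0 < m) (F : Fin r → IB n K) {M : ℕ}
    (hz : ∀ i : Fin n, ∃ j, F j = algebraMap (Pol n) (IB n K) (MvPolynomial.X i) ^ M)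
    (hloc : ∀ W ∈ E.nhd S x, ∃ ε > 0, ∀ q ∈ S.M, ∑ j, ‖E.ev (F j : K) q‖ ^ 2 ≤ ε → q ∈ W)
    (g : IB n K) {e₁ e₂ : ℝ} (he₁ : 0 < e₁) (he₂ : e₁ < e₂) {W₀ : Set ((Fin n → ℂ) × ℂ)}
    (hW₀ : W₀ ∈ E.nhd S x)
    (hfin : ∫⁻ q in W₀, ENNReal.ofReal (‖E.ev (g : K) q‖ ^ 2 *
      (∑ j, ‖E.ev (F j : K) q‖ ^ 2) ^ (-((n : ℝ) / m + e₂)) * ‖E.ev J⁻¹ q‖ ^ 2) ∂S.μ < ⊤)
    (C₁ : ℝ) (k₁ : ℕ) :
    ∃ (k : ℕ) (C ε₀ : ℝ), 0 < ε₀ ∧ 0 ≤ C ∧ ∀ ε : ℝ, 0 < ε → ε ≤ ε₀ → ∀ G : Fin r → IB n K,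
      (∀ q ∈ S.M, ‖q.1‖ ≤ 1 → ∑ j, ‖E.ev (G j : K) q - E.ev (F j : K) q‖ ^ 2 ≤ ε ^ 2) →
      (∀ q ∈ S.M, ∀ j, ‖E.ev (G j : K) q‖ ≤ C₁ * (1 + ‖q.1‖) ^ k₁) →
      ∀ s : ℝ, 0 < s → s ≤ 1 → ∃ τ : (Fin n → ℂ) × ℂ → ℂ, AEStronglyMeasurable τ S.μ ∧
        (∀ κ, S.IsTest κ → ∀ j, ∫ q, τ q * S.Db j κ q ∂S.μ = 0) ∧
        ∫⁻ q, ENNReal.ofReal (‖τ q‖ ^ 2 * ((1 + ‖q.1‖) ^ k)⁻¹) ∂S.μ ≤
          ENNReal.ofReal ((C * ε ^ (e₂ - e₁)) ^ 2) ∧
        ∫⁻ q in {q | ∑ j, ‖E.ev (F j : K) q‖ ^ 2 ≤ (2 * ε) ^ 2},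
          ENNReal.ofReal (‖E.ev (g : K) q - E.ev J q * τ q‖ ^ 2 * ‖E.ev J⁻¹ q‖ ^ 2 *
            (s + ∑ j, ‖E.ev (G j : K) q‖ ^ 2) ^ (-((n : ℝ) / m)) *
            (ε ^ 2 + ∑ j, ‖E.ev (F j : K) q‖ ^ 2) ^ (-e₁)) ∂S.μ ≤ ENNReal.ofReal C := by
  obtain ⟨C₀, hC₀0, hC₀⟩ := exists_nsChi_bound
  obtain ⟨p, Cp, k0, hp, hreg⟩ := exists_exh hS
  set ν : ℝ := (n : ℝ) / m with hνdef
  have hν : 0 ≤ ν := by positivity
  have hJreg : E.IsReg J := isReg_of_integral hJ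
  have hFreg : ∀ j, E.IsReg (F j : K) := fun j => isReg_ib _
  have hgreg : E.IsReg (g : K) := isReg_ib _
  have hFh : ∀ j, S.Holo (E.ev (F j : K)) := fun j => holo_ev hS (hFreg j)
  have hgh : S.Holo (fun q => E.ev (g : K) q * E.ev J⁻¹ q) :=
    (holo_ev hS hgreg).mul (holo_ev hS hJr)
  -- growth in terms of `p`
  have hgp : ∃ (c : ℝ) (k : ℕ), ∀ q ∈ S.M,
      ‖E.ev (g : K) q * E.ev J⁻¹ q‖ ≤ c * (1 + p q.1) ^ k := by
    obtain ⟨c, k, h⟩ := hreg _ (hgreg.mul hJr)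
    refine ⟨c, k, fun q hq => ?_⟩
    have := h q hq
    rwa [ev_mul hS hq hgreg hJr] at this
  have hDp : ∀ i j, ∃ (c : ℝ) (k : ℕ), ∀ q ∈ S.M,
      ‖S.D j (E.ev (F i : K)) q‖ ≤ c * (1 + p q.1) ^ k := by
    intro i j
    obtain ⟨c, k, h⟩ := hreg _ (IsReg.d hd (hFreg i) j)
    refine ⟨c, k, fun q hq => ?_⟩
    rw [D_ev hS hd (hFreg i) hq j]
    exact h q hq
  -- growth of `F` in terms of `z`
  obtain ⟨cF, kF, hcF, hFz⟩ := Sheets.pg_unif (S := S) (p := fun z => ‖z‖)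
    (X := fun j => E.ev (F j : K))
    (fun z _ => norm_nonneg z) (fun i => by
      obtain ⟨c, k, _, h⟩ := ev_growth hS (F i)
      exact ⟨c, k, h⟩)
  have hFz2 := ns_sum_growth (S := S) hFz
  -- the neighbourhood
  have hW1 : {q : (Fin n → ℂ) × ℂ | ‖q.1‖ < 1} ∈ E.nhd S x := by
    have := tendsto_fst_nhd hS x (Metric.ball_mem_nhds (0 : Fin n → ℂ) one_pos)
    refine Filter.mem_of_superset this fun q hq => ?_
    simpa using hq
  obtain ⟨ε', hε', hloc'⟩ := hloc _ (Filter.inter_mem hW₀ hW1)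
  have hF0 := ns_F_pos hS hn F hz
  -- the finite integral
  set I₀ : ℝ := (∫⁻ q in W₀, ENNReal.ofReal (Sheets.nsInt (fun j => E.ev (F j : K)) (E.ev (g : K))
    (E.ev J⁻¹) ν e₂ q) ∂S.μ).toReal with hI₀
  have hI₀0 : 0 ≤ I₀ := ENNReal.toReal_nonneg
  have hI : ∫⁻ q in W₀, ENNReal.ofReal (Sheets.nsInt (fun j => E.ev (F j : K)) (E.ev (g : K))
    (E.ev J⁻¹) ν e₂ q) ∂S.μ = ENNReal.ofReal I₀ := (ENNReal.ofReal_toReal hfin.ne).symm
  -- constants
  set C' : ℝ := 4624 * C₀ ^ 2 / e₁ with hC'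
  have hC'0 : 0 ≤ C' := by (clear * - he₁; positivity)
  set C2 : ℝ := C' * ((4 : ℝ) ^ ν * (16 : ℝ) ^ (e₂ - e₁)) with hC2
  have hC20 : 0 ≤ C2 := by (clear * - he₁; positivity)
  set C3 : ℝ := (1 + r * C₁ ^ 2) ^ ν * (1 + r * cF ^ 2) ^ e₁ with hC3
  have hC30 : 0 ≤ C3 := by (clear * -; positivity)
  set C4 : ℝ := 2 * (16 : ℝ) ^ (ν + e₂) with hC4
  have hC40 : 0 ≤ C4 := by positivity
  set Q : ℝ := C4 * I₀ + 4 * C3 * (C2 * I₀) with hQ
  have hQ0 : 0 ≤ Q := by (clear * - he₁; positivity)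
  refine ⟨⌈((2 * k₁ : ℕ) : ℝ) * ν + ((2 * kF : ℕ) : ℝ) * e₁⌉₊, 1 + Q + 2 * (C2 * I₀),
    min 1 (Real.sqrt ε' / 4), lt_min one_pos (by positivity), by (clear * - he₁; positivity), ?_⟩
  intro ε hε hεle G hG1 hG2 s hs hs1
  have hε1 : ε ≤ 1 := hεle.trans (min_le_left _ _)
  have hε16 : 16 * ε ^ 2 ≤ ε' := by
    have h1 : ε ≤ Real.sqrt ε' / 4 := hεle.trans (min_le_right _ _)
    have h2 : (4 * ε) ^ 2 ≤ (Real.sqrt ε') ^ 2 :=
      pow_le_pow_left₀ (by positivity) (by linarith only [h1]) 2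
    rw [Real.sq_sqrt hε'.le] at h2
    linarith only [h2]
  have hloc2 : ∀ q ∈ S.M, ∑ j, ‖E.ev (F j : K) q‖ ^ 2 ≤ 16 * ε ^ 2 → q ∈ W₀ ∧ ‖q.1‖ < 1 :=
    fun q hq h => hloc' q hq (h.trans hε16)
  have hGh : ∀ j, S.Holo (E.ev (G j : K)) := fun j => holo_ev hS (isReg_ib _)
  set η : ℝ := ε ^ (e₂ - e₁) with hη
  have hη0 : 0 ≤ η := by positivity
  have hη1 : η ≤ 1 := Real.rpow_le_one hε.le hε1 (by linarith)
  have hA := Sheets.ns_A (S := S) (F := fun j => E.ev (F j : K)) (G := fun j => E.ev (G j : K))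
    (g := E.ev (g : K)) (Ji := E.ev J⁻¹) hFh hν he₁ he₂ hs hε hC'0
    (fun q hq h1 h2 => ns_GF h1 (hG1 q hq (hloc2 q hq h2).2.le))
    (fun q hq h => (hloc2 q hq h).1) hI
  obtain ⟨u, hum, hub, hu⟩ := Sheets.solve_scale hp hgh hFh hGh hC₀ hν he₁ hs hε hgp
    (fun i => hreg _ (hFreg i)) hDp (by (clear * - he₁ hε; positivity)) hA
  have hX0 : S.CD 0 (fun q => (1 - (Sheets.nsCut (fun j => E.ev (F j : K)) ε q : ℂ)) *
      (E.ev (g : K) q * E.ev J⁻¹ q)) := by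
    have h1 := (((Sheets.CD.const (S := S) (m := 0) (-1)).mul (Sheets.CD_nsCut hFh 0 ε)).add
      (Sheets.CD.const 1)).mul (hgh.CD 0)
    refine h1.congr fun q _ => ?_
    ring
  refine ⟨_, (Sheets.aestronglyMeasurable_of_CD hX0).add hum, hu, ?_, ?_⟩
  · have h3 : ∀ q ∈ S.M, ((1 + ‖q.1‖) ^ ⌈((2 * k₁ : ℕ) : ℝ) * ν + ((2 * kF : ℕ) : ℝ) * e₁⌉₊)⁻¹ ≤
        C3 * Real.exp (-(Sheets.nsPhi (fun j => E.ev (G j : K)) (fun j => E.ev (F j : K))
          ν e₁ s ε q)) := fun q hq => by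
      rw [ns_exp hs hε]
      exact ns_real3 hs hs1 hε hε1 hν he₁.le (norm_nonneg _) (by (clear * -; positivity)) (by (clear * -; positivity))
        (by (clear * -; positivity)) (by (clear * -; positivity)) (ns_sum_growth (S := S) hG2 q hq) (hFz2 q hq)
        (Nat.le_ceil _)
    have h4 := Sheets.ns_L2 (S := S) (g := E.ev (g : K)) (Ji := E.ev J⁻¹) hFh hGh hν he₁ he₂ hs
      hε hε1 hI₀0 (fun q hq h => (hloc2 q hq h).1) hI hF0 (by (clear * - he₁ hε; positivity)) hum hub hC30 h3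
    refine h4.trans (ENNReal.ofReal_le_ofReal ?_)
    have h5 : C4 * η ^ 2 * I₀ + 2 * C3 * (2 * (C2 * I₀ * η ^ 2)) = Q * η ^ 2 := by
      rw [hQ]; ring
    rw [h5, mul_pow]
    refine mul_le_mul_of_nonneg_right ?_ (by positivity)
    have h1 : 0 ≤ 2 * (C2 * I₀) := by (clear * - he₁; positivity)
    (by_contra nlg; linarith only [nlg, mul_nonneg (sub_nonneg.2 h1) (sub_nonneg.2 h1), mul_nonneg (sub_nonneg.2 hη1) (sub_nonneg.2 h1), mul_nonneg (sub_nonneg.2 hη0) (sub_nonneg.2 h1), mul_nonneg (sub_nonneg.2 hQ0) (sub_nonneg.2 h1), mul_nonneg (sub_nonneg.2 hQ0) (sub_nonneg.2 hη1), mul_nonneg (sub_nonneg.2 hQ0) (sub_nonneg.2 hη0), mul_nonneg (sub_nonneg.2 hQ0) (sub_nonneg.2 hQ0), mul_nonneg (le_of_lt (sub_pos.2 (not_le.1 nlg))) (sub_nonneg.2 hη1), mul_nonneg (le_of_lt (sub_pos.2 (not_le.1 nlg))) (sub_nonneg.2 hη0)])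
  · have hJ1 : ∀ q ∈ S.M, E.ev J q * E.ev J⁻¹ q = 1 := fun q hq => by
      rw [ev_inv hS hq hJreg hJr]
      exact mul_inv_cancel₀ (ev_ne_zero_of_inv hS hq hJ0 hJreg hJr)
    refine (Sheets.ns_last hFh hJ1 hs hε).trans (hub.trans (ENNReal.ofReal_le_ofReal ?_))
    have h1 : η ^ 2 ≤ 1 := pow_le_one₀ hη0 hη1
    have h2 : C2 * I₀ * η ^ 2 ≤ C2 * I₀ * 1 := mul_le_mul_of_nonneg_left h1 (by (clear * - he₁; positivity))
    linarith


/-- The main estimate at scale `ε`. -/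
theorem ngen_estimate (hS : E.IsSheets S) {d : Fin n → Derivation ℂ K K} (hd : IsPartials d)
    (hn : 0 < n) {J : K} (hJ0 : J ≠ 0) (hJ : IsIntegral (Pol n) J)
    (hJr : E.IsReg J⁻¹) {m r : ℕ} (hm : 0 < m) (F : Fin r → IB n K) {M : ℕ}
    (hz : ∀ i : Fin n, ∃ j, F j = algebraMap (Pol n) (IB n K) (MvPolynomial.X i) ^ M)
    (hloc : ∀ W ∈ E.nhd S x, ∃ ε > 0, ∀ q ∈ S.M, ∑ j, ‖E.ev (F j : K) q‖ ^ 2 ≤ ε → q ∈ W)
    (g : IB n K) {e₁ e₂ : ℝ} (he₁ : 0 < e₁) (he₂ : e₁ < e₂) {W₀ : Set ((Fin n → ℂ) × ℂ)}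
    (hW₀ : W₀ ∈ E.nhd S x)
    (hfin : ∫⁻ q in W₀, ENNReal.ofReal (‖E.ev (g : K) q‖ ^ 2 *
      (∑ j, ‖E.ev (F j : K) q‖ ^ 2) ^ (-((n : ℝ) / m + e₂)) * ‖E.ev J⁻¹ q‖ ^ 2) ∂S.μ < ⊤)
    (C₁ : ℝ) (k₁ : ℕ) :
    ∃ (L : ℕ) (e : Fin L → K) (C ε₀ : ℝ), 0 < ε₀ ∧ 0 ≤ C ∧ (∀ l, E.IsReg (e l)) ∧
      (∀ l, ∀ b : IB n K, ∃ c : Pol n,
        tr (n := n) (e l * (b : K)) = algebraMap (Pol n) (FractionRing (Pol n)) c) ∧
      ∀ ε : ℝ, 0 < ε → ε ≤ ε₀ → ∀ (G : Fin r → IB n K) (q₁ q₂ : (Fin n → ℂ) × ℂ),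
        q₁ ∈ S.M → q₂ ∈ S.M → ‖q₁.1‖ < 1 → ‖q₂.1‖ < 1 →
        (∀ j, E.Van m q₁ (G j) ∧ E.Van m q₂ (G j)) →
        (∀ q ∈ S.M, ‖q.1‖ ≤ 1 → ∑ j, ‖E.ev (G j : K) q - E.ev (F j : K) q‖ ^ 2 ≤ ε ^ 2) →
        (∀ q ∈ S.M, ∀ j, ‖E.ev (G j : K) q‖ ≤ C₁ * (1 + ‖q.1‖) ^ k₁) →
        ∀ δ : ℝ, 0 < δ → ∃ c : Fin L → ℂ, (∀ l, ‖c l‖ ≤ C * ε ^ (e₂ - e₁)) ∧
          ‖E.ev (g : K) q₁ - ∑ l, c l * E.ev (J * e l) q₁‖ ≤ δ ∧
          ‖E.ev (g : K) q₂ - ∑ l, c l * E.ev (J * e l) q₂‖ ≤ δ := by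
  obtain ⟨k, C, ε₀, hε₀, hC, hsol⟩ := ngen_solution hS hd hn hJ0 hJ hJr hm F hz hloc g he₁ he₂
    hW₀ hfin C₁ k₁
  obtain ⟨L, e, C', hC', hreg, htr, hdual⟩ := exists_dual_space hS hd k
  have hJr' : E.IsReg J := isReg_of_integral hJ
  refine ⟨L, e, C' * C, ε₀, hε₀, mul_nonneg hC' hC, hreg, htr, ?_⟩
  intro ε hε hεε G q₁ q₂ hq₁ hq₂ hn₁ hn₂ hV hFG hGb δ hδ
  obtain ⟨s₁, hs₁, hp₁⟩ := ne_point hS hn hJ0 hJr' hJr hm F G he₁ hC hε hδ hq₁ hn₁
    (fun j => (hV j).1) hFG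
  obtain ⟨s₂, hs₂, hp₂⟩ := ne_point hS hn hJ0 hJr' hJr hm F G he₁ hC hε hδ hq₂ hn₂
    (fun j => (hV j).2) hFG
  have hs : 0 < min 1 (min s₁ s₂) := lt_min one_pos (lt_min hs₁ hs₂)
  obtain ⟨τ, hτm, hτh, hτb, hτi⟩ := hsol ε hε hεε G hFG hGb (min 1 (min s₁ s₂)) hs
    (min_le_left _ _)
  have hnn : 0 ≤ C * ε ^ (e₂ - e₁) := mul_nonneg hC (Real.rpow_nonneg hε.le _)
  obtain ⟨c, hc, hcτ⟩ := hdual τ _ hnn hτm hτb hτh
  have hJe : ∀ l ∈ (Finset.univ : Finset (Fin L)), E.IsReg (algebraMap ℂ K (c l) * (J * e l)) :=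
    fun l _ => (isReg_const _).mul (hJr'.mul (hreg l))
  have hHr : E.IsReg ((g : K) - ∑ l, algebraMap ℂ K (c l) * (J * e l)) :=
    (isReg_ib g).sub (IsReg.sum _ hJe)
  have hHev : ∀ q ∈ S.M, E.ev ((g : K) - ∑ l, algebraMap ℂ K (c l) * (J * e l)) q =
      E.ev (g : K) q - ∑ l, c l * E.ev (J * e l) q := by
    intro q hq
    rw [ev_sub hS hq (isReg_ib g) (IsReg.sum _ hJe), ev_sum hS hq _ hJe]
    congr 1
    refine Finset.sum_congr rfl fun l _ => ?_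
    rw [ev_mul hS hq (isReg_const _) (hJr'.mul (hreg l)), ev_const hS hq]
  have hae : ∀ᵐ q ∂S.μ, E.ev ((g : K) - ∑ l, algebraMap ℂ K (c l) * (J * e l)) q =
      E.ev (g : K) q - E.ev J q * τ q := by
    filter_upwards [hcτ, Sheets.ae_mem_M (S := S)] with q hq hqM
    rw [hHev q hqM, hq, Finset.mul_sum]
    congr 1
    refine Finset.sum_congr rfl fun l _ => ?_
    rw [ev_mul hS hqM hJr' (hreg l)]
    ring
  have hint : ∫⁻ q in {q | ∑ j, ‖E.ev (F j : K) q‖ ^ 2 ≤ (2 * ε) ^ 2},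
      ENNReal.ofReal (‖E.ev ((g : K) - ∑ l, algebraMap ℂ K (c l) * (J * e l)) q‖ ^ 2 *
        ‖E.ev J⁻¹ q‖ ^ 2 *
        (min 1 (min s₁ s₂) + ∑ j, ‖E.ev (G j : K) q‖ ^ 2) ^ (-((n : ℝ) / m)) *
        (ε ^ 2 + ∑ j, ‖E.ev (F j : K) q‖ ^ 2) ^ (-e₁)) ∂S.μ ≤ ENNReal.ofReal C := by
    refine le_trans (le_of_eq ?_) hτi
    refine lintegral_congr_ae ?_
    filter_upwards [ae_restrict_of_ae hae] with q hq
    rw [hq]
  refine ⟨c, fun l => ?_, ?_, ?_⟩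
  · have h1 := hc l
    rwa [← mul_assoc] at h1
  · rw [← hHev q₁ hq₁]
    exact hp₁ _ hs ((min_le_right _ _).trans (min_le_left _ _)) _ hHr hint
  · rw [← hHev q₂ hq₂]
    exact hp₂ _ hs ((min_le_right _ _).trans (min_le_right _ _)) _ hHr hint

end Prim

end Vale.Agent.P282.L2
end

section

/-!
P282-EQ-3b: Theorem N for pairs which are not over the same `z`.
-/

open MeasureTheory Filter Topology
open scoped ENNReal NNReal ComplexConjugate

set_option linter.all false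

namespace Vale.Agent.P282.EQ

open Vale.Agent.P282.L2 Vale.Agent.P282.L2.Prim

variable {n N : ℕ} {K : Type} [Field K] [Algebra ℂ K] [Algebra (Pol n) K]
  [IsScalarTower ℂ (Pol n) K] [FaithfulSMul (Pol n) K]
  [Algebra (FractionRing (Pol n)) K] [IsScalarTower (Pol n) (FractionRing (Pol n)) K]
  [FiniteDimensional (FractionRing (Pol n)) K]

variable {E : Prim n K} {S : Sheets n N} {x : Pt n K} {U : Ultrafilter (Pairs n)}

/-- Copy of `Prim.scale_estimate` with `HLoc` and positivity instead of `hz` (the hypothesis `hz`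
is only used in `ns_F_pos`); here the exponent `M` of the coordinates in `F` is arbitrary. -/
theorem scale_estimate' (hS : E.IsSheets S) {d : Fin n → Derivation ℂ K K} (hd : IsPartials d)
    (hn : 0 < n) {J : K} (hJ0 : J ≠ 0) (hJ : IsIntegral (Pol n) J)
    (hJr : E.IsReg J⁻¹) {m r : ℕ} (hm : 0 < m) (F : Fin r → IB n K) {M : ℕ} (hM : 0 < M)
    (hz : ∀ i : Fin n, ∃ j, F j = algebraMap (Pol n) (IB n K) (MvPolynomial.X i) ^ M)
    (hloc : HLoc E S x F)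
    (g : IB n K) {e₁ e₂ : ℝ} (he₁ : 0 < e₁) (he₂ : e₁ < e₂) {W₀ : Set ((Fin n → ℂ) × ℂ)}
    (hW₀ : W₀ ∈ E.nhd S x)
    (hfin : ∫⁻ q in W₀, ENNReal.ofReal (‖E.ev (g : K) q‖ ^ 2 *
      (∑ j, ‖E.ev (F j : K) q‖ ^ 2) ^ (-((n : ℝ) / m + e₂)) * ‖E.ev J⁻¹ q‖ ^ 2) ∂S.μ < ⊤)
    (C₁ : ℝ) (k₁ : ℕ) :
    ∃ (L : ℕ) (e : Fin L → K) (C ε₀ : ℝ), 0 < ε₀ ∧ 0 ≤ C ∧ (∀ l, E.IsReg (e l)) ∧
      (∀ l, ∀ b : IB n K, ∃ c : Pol n,
        tr (n := n) (e l * (b : K)) = algebraMap (Pol n) (FractionRing (Pol n)) c) ∧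
      ∀ ε : ℝ, 0 < ε → ε ≤ ε₀ → ∀ (G : Fin r → IB n K) (q₁ q₂ : (Fin n → ℂ) × ℂ),
        q₁ ∈ S.M → q₂ ∈ S.M → ‖q₁.1‖ < 1 → ‖q₂.1‖ < 1 →
        (∀ j, E.Van m q₁ (G j) ∧ E.Van m q₂ (G j)) →
        (∀ q ∈ S.M, ‖q.1‖ ≤ 1 → ∑ j, ‖E.ev (G j : K) q - E.ev (F j : K) q‖ ^ 2 ≤ ε ^ 2) →
        (∀ q ∈ S.M, ∀ j, ‖E.ev (G j : K) q‖ ≤ C₁ * (1 + ‖q.1‖) ^ k₁) →
        ∀ δ : ℝ, 0 < δ → ∃ c : Fin L → ℂ, (∀ l, ‖c l‖ ≤ C * ε ^ (e₂ - e₁)) ∧
          ‖E.ev (g : K) q₁ - ∑ l, c l * E.ev (J * e l) q₁‖ ≤ δ ∧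
          ‖E.ev (g : K) q₂ - ∑ l, c l * E.ev (J * e l) q₂‖ ≤ δ := by
  exact Prim.ngen_estimate hS hd hn hJ0 hJ hJr hm F hz hloc g he₁ he₂ hW₀ hfin C₁ k₁

/-- Theorem N for general pairs (copy of `Prim.non_integrable`). -/
theorem GPairs.non_integrable (hS : E.IsSheets S) {d : Fin n → Derivation ℂ K K}
    (hd : IsPartials d) (hn : 0 < n) {J : K} (hJ0 : J ≠ 0) (hJ : IsIntegral (Pol n) J)
    (hJr : E.IsReg J⁻¹) (hcan : Canon x J) (hU : GPairs E S x U)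
    {ψ : IB n K → ℂ} {s : Pairs n → ℝ} (hψ : IsPsi E U ψ s)
    {m r : ℕ} (hm : 0 < m) (F : Fin r → IB n K) (hF : ∀ j, E.Lim U m (F j))
    {M : ℕ} (hM : 0 < M)
    (hz : ∀ i : Fin n, ∃ j, F j = algebraMap (Pol n) (IB n K) (MvPolynomial.X i) ^ M)
    (hloc : HLoc E S x F) {g : IB n K} (hg : ψ g ≠ 0) {e₂ : ℝ} (he₂ : 0 < e₂)
    {W : Set ((Fin n → ℂ) × ℂ)} (hW : W ∈ E.nhd S x) :
    ∫⁻ q in W, ENNReal.ofReal (‖E.ev (g : K) q‖ ^ 2 *
      (∑ j, ‖E.ev (F j : K) q‖ ^ 2) ^ (-((n : ℝ) / m + e₂)) * ‖E.ev J⁻¹ q‖ ^ 2) ∂S.μ = ⊤ := by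
  have hs : ∀ᶠ u in (U : Filter (Pairs n)), 0 < s u := hψ.pos
  by_contra hfin
  replace hfin := lt_top_iff_ne_top.2 hfin
  obtain ⟨G, ε, C₁, k₁, hε, hεpos, hVan, hApp, hGr⟩ := GPairs.exists_approx hS hU hF
  obtain ⟨L, e, C, ε₀, hε₀, hC, hreg, htr, hest⟩ := scale_estimate' hS hd hn hJ0 hJ hJr hm F hM hz hloc g
    (half_pos he₂) (half_lt_self he₂) hW hfin C₁ k₁
  have hM1 : ∀ᶠ u in (U : Filter (Pairs n)), u.1 ∈ S.M := hU.fst (M_mem_nhd E S x)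
  have hM2 : ∀ᶠ u in (U : Filter (Pairs n)), u.2 ∈ S.M := hU.snd (M_mem_nhd E S x)
  have hball : ∀ᶠ q in E.nhd S x, ‖q.1‖ < 1 := by
    have h1 := (tendsto_fst_nhd hS x).norm
    rw [norm_zero] at h1
    exact h1.eventually_lt_const one_pos
  have hB1 : ∀ᶠ u in (U : Filter (Pairs n)), ‖u.1.1‖ < 1 := hU.fst.eventually hball
  have hB2 : ∀ᶠ u in (U : Filter (Pairs n)), ‖u.2.1‖ < 1 := hU.snd.eventually hball
  have hsmall : ∀ᶠ u in (U : Filter (Pairs n)), ε u ≤ ε₀ := hε.eventually_le_const hε₀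
  have hch : ∀ᶠ u in (U : Filter (Pairs n)), ∃ c : Fin L → ℂ,
      (∀ l, ‖c l‖ ≤ C * ε u ^ (e₂ - e₂ / 2)) ∧
        ‖E.ev (g : K) u.1 - ∑ l, c l * E.ev (J * e l) u.1‖ ≤ ε u * s u ∧
        ‖E.ev (g : K) u.2 - ∑ l, c l * E.ev (J * e l) u.2‖ ≤ ε u * s u := by
    filter_upwards [hM1, hM2, hB1, hB2, hsmall, hVan, hApp, hGr, hs] with u h1 h2 h3 h4 h5 h6 h7 h8 h9
    exact hest (ε u) (hεpos u) h5 (G u) u.1 u.2 h1 h2 h3 h4 h6 h7 h8 (ε u * s u)
      (mul_pos (hεpos u) h9)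
  obtain ⟨c, hc⟩ := hch.choice
  -- the values of `J e_l`
  have hcan' : ∀ l, ∃ t : IB n K, x.toFun t ≠ 0 ∧ IsIntegral (Pol n) ((t : K) * (J * e l)) :=
    fun l => hcan (e l) (htr l)
  choose t ht0 htint using hcan'
  have hregJ : ∀ l, E.IsReg (J * e l) := fun l => (isReg_of_integral hJ).mul (hreg l)
  have hlim : ∀ l, Tendsto (fun u : Pairs n => (E.ev (J * e l) u.1 - E.ev (J * e l) u.2) / (s u : ℂ))
      U (𝓝 ((ψ ⟨(t l : K) * (J * e l), htint l⟩ * x.toFun (t l) -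
        x.toFun ⟨(t l : K) * (J * e l), htint l⟩ * ψ (t l)) / (x.toFun (t l) * x.toFun (t l)))) := by
    intro l
    set b : IB n K := ⟨(t l : K) * (J * e l), htint l⟩ with hb
    have hbq : ∀ q ∈ S.M, E.ev (b : K) q = E.ev (t l : K) q * E.ev (J * e l) q :=
      fun q hq => ev_mul hS hq (isReg_ib (t l)) (hregJ l)
    have ht1 : Tendsto (fun u : Pairs n => E.ev (t l : K) u.1) U (𝓝 (x.toFun (t l))) :=
      (tendsto_ev_nhd E S x (t l)).comp hU.fst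
    have ht2 : Tendsto (fun u : Pairs n => E.ev (t l : K) u.2) U (𝓝 (x.toFun (t l))) :=
      (tendsto_ev_nhd E S x (t l)).comp hU.snd
    have hb2 : Tendsto (fun u : Pairs n => E.ev (b : K) u.2) U (𝓝 (x.toFun b)) :=
      (tendsto_ev_nhd E S x b).comp hU.snd
    have key := (((hψ.lim b).mul ht2).sub (hb2.mul (hψ.lim (t l)))).div (ht1.mul ht2)
      (mul_ne_zero (ht0 l) (ht0 l))
    refine key.congr' ?_
    filter_upwards [hM1, hM2, hs, ht1.eventually_ne (ht0 l), ht2.eventually_ne (ht0 l)]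
      with u h1 h2 h3 h4 h5
    have h6 : (s u : ℂ) ≠ 0 := by exact_mod_cast h3.ne'
    simp only [Pi.div_apply]
    rw [hbq u.1 h1, hbq u.2 h2]
    field_simp
    ring
  have hc0 : ∀ l, Tendsto (fun u => c u l) U (𝓝 0) := by
    intro l
    have h1 : Tendsto (fun u => C * ε u ^ (e₂ - e₂ / 2)) U (𝓝 0) := by
      have hp : 0 < e₂ - e₂ / 2 := by linarith
      have h2 := (hε.rpow_const (p := e₂ - e₂ / 2) (Or.inr hp.le)).const_mul C
      rwa [Real.zero_rpow hp.ne', mul_zero] at h2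
    refine squeeze_zero_norm' ?_ h1
    filter_upwards [hc] with u hu using hu.1 l
  have hsum : Tendsto (fun u => ∑ l, c u l * ((E.ev (J * e l) u.1 - E.ev (J * e l) u.2) / (s u : ℂ)))
      U (𝓝 0) := by
    have h1 := tendsto_finsetSum Finset.univ fun l _ => (hc0 l).mul (hlim l)
    simpa using h1
  have hrem : Tendsto (fun u => ((E.ev (g : K) u.1 - ∑ l, c u l * E.ev (J * e l) u.1) -
      (E.ev (g : K) u.2 - ∑ l, c u l * E.ev (J * e l) u.2)) / (s u : ℂ)) U (𝓝 0) := by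
    have h1 : Tendsto (fun u => 2 * ε u) U (𝓝 0) := by simpa using hε.const_mul 2
    refine squeeze_zero_norm' ?_ h1
    filter_upwards [hc, hs] with u hu hsu
    rw [norm_div, Complex.norm_real, Real.norm_of_nonneg hsu.le, div_le_iff₀ hsu]
    refine (norm_sub_le _ _).trans ?_
    linarith [hu.2.1, hu.2.2]
  have hzero : Tendsto (fun u : Pairs n => (E.ev (g : K) u.1 - E.ev (g : K) u.2) / (s u : ℂ)) U
      (𝓝 0) := by
    have h1 := hrem.add hsum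
    rw [add_zero] at h1
    refine h1.congr fun u => ?_
    rw [← Finset.sum_congr rfl fun l _ => mul_div_assoc (c u l) _ _, ← Finset.sum_div, ← add_div]
    congr 1
    simp only [mul_sub, Finset.sum_sub_distrib]
    ring
  exact hg (tendsto_nhds_unique (hψ.lim g) hzero)

end Vale.Agent.P282.EQ
end

section

/-!
P282, equality case: from the Lipschitz property to the condition F1.
-/

open MeasureTheory Filter Topology

namespace Vale.Agent.P282.EQ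

open Vale.Agent.P282.L2

variable {n N : ℕ} {K : Type} [Field K] [Algebra ℂ K] [Algebra (Pol n) K]
  [IsScalarTower ℂ (Pol n) K] [FaithfulSMul (Pol n) K]
  [Algebra (FractionRing (Pol n)) K] [IsScalarTower (Pol n) (FractionRing (Pol n)) K]
  [FiniteDimensional (FractionRing (Pol n)) K]

/-- Differences of all functions are dominated by differences of `g`, along `U`. -/
def Dom (E : Prim n K) (U : Ultrafilter (Pairs n)) (g : IB n K) : Prop :=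
  ∀ b : IB n K, ∃ C : ℝ, ∀ᶠ u in (U : Filter (Pairs n)),
    ‖E.ev (b : K) u.1 - E.ev (b : K) u.2‖ ≤ C * ‖E.ev (g : K) u.1 - E.ev (g : K) u.2‖

omit [Algebra (FractionRing (Pol n)) K] [IsScalarTower (Pol n) (FractionRing (Pol n)) K]
  [FiniteDimensional (FractionRing (Pol n)) K] in
/-- A complex point of the integral closure outside of `h = 0` is a point of `M`. -/
theorem fo_point {E : Prim n K} {S : Sheets n N} (hS : E.IsSheets S) (φ : IB n K →+* ℂ)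
    (z : Fin n → ℂ) (hφ : ∀ f : Pol n, φ (algebraMap (Pol n) (IB n K) f) = MvPolynomial.eval z f)
    (hz : MvPolynomial.eval z E.h ≠ 0) :
    (z, φ ⟨E.y, E.integral⟩) ∈ S.M ∧ ∀ b : IB n K, E.ev (b : K) (z, φ ⟨E.y, E.integral⟩) = φ b := by
  have hcoe : ∀ f : Polynomial (Pol n),
      ((Polynomial.aeval (⟨E.y, E.integral⟩ : IB n K) f : IB n K) : K) =
        Polynomial.aeval E.y f := by
    intro f
    exact (Polynomial.aeval_algHom_apply (integralClosure (Pol n) K).val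
      (⟨E.y, E.integral⟩ : IB n K) f).symm
  have hpev : ∀ f : Polynomial (Pol n), φ (Polynomial.aeval (⟨E.y, E.integral⟩ : IB n K) f) =
      pev f (z, φ ⟨E.y, E.integral⟩) := by
    intro f
    have h1 : φ.comp (algebraMap (Pol n) (IB n K)) = MvPolynomial.eval z := RingHom.ext hφ
    rw [Polynomial.aeval_def, Polynomial.hom_eval₂, h1, pev, Polynomial.eval_map]
  have hM : (z, φ ⟨E.y, E.integral⟩) ∈ S.M := by
    refine ⟨(hS.1 z).2 hz, (hS.2 _ _).2 ?_⟩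
    have h1 := hpev (minpoly (Pol n) E.y)
    have h2 : Polynomial.aeval (⟨E.y, E.integral⟩ : IB n K) (minpoly (Pol n) E.y) = 0 := by
      apply Subtype.ext
      rw [hcoe, minpoly.aeval]
      rfl
    rw [h2, map_zero] at h1
    exact h1.symm
  refine ⟨hM, fun b => ?_⟩
  obtain ⟨f, hf⟩ := E.denom b b.2
  rw [Prim.ev_eq hS hM (f := f) (k := 1) (by rw [pow_one, hf]), pow_one, ← hpev]
  have h3 : Polynomial.aeval (⟨E.y, E.integral⟩ : IB n K) f =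
      algebraMap (Pol n) (IB n K) E.h * b := by
    apply Subtype.ext
    rw [hcoe, ← hf]
    rfl
  rw [h3, map_mul, hφ]
  show _ / MvPolynomial.eval z E.h = _
  rw [mul_div_cancel_left₀ _ hz]

omit [Algebra (FractionRing (Pol n)) K] [IsScalarTower (Pol n) (FractionRing (Pol n)) K]
  [FiniteDimensional (FractionRing (Pol n)) K] in
theorem fo_tendsto {E : Prim n K} {S : Sheets n N} (x : Pt n K) {ι : Type*} {l : Filter ι}
    {T : ι → (Fin n → ℂ) × ℂ} (hT : ∀ᶠ i in l, T i ∈ S.M)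
    (h : ∀ b : IB n K, Tendsto (fun i => E.ev (b : K) (T i)) l (𝓝 (x.toFun b))) :
    Tendsto T l (E.nhd S x) := by
  rw [Prim.nhd, tendsto_inf, tendsto_principal, tendsto_iInf]
  refine ⟨hT, fun b => ?_⟩
  rw [tendsto_comap_iff]
  exact h b

/-- The condition F1 for two embeddings of the integral closure. -/
theorem f1_pair {E : Prim n K} {S : Sheets n N} (hS : E.IsSheets S) {x : Pt n K} {y : IB n K}
    (hxy : x.toFun y = 0) (hsep : ∀ x' : Pt n K, x'.toFun y = 0 → x'.toFun = x.toFun)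
    (hL : ∀ U : Ultrafilter (Pairs n), E.IsPairs S x U → Dom E U y)
    {L : Type} [Field L] [Algebra ℂ L] [Algebra (Pol n) L]
    [IsScalarTower ℂ (Pol n) L] [FaithfulSMul (Pol n) L]
    [Algebra (FractionRing (Pol n)) L] [IsScalarTower (Pol n) (FractionRing (Pol n)) L]
    [FiniteDimensional (FractionRing (Pol n)) L]
    (X : Pt n L) (i₀ i₁ : IB n K →ₐ[Pol n] IB n L) (hi₀ : Function.Injective i₀)
    (hi₁ : Function.Injective i₁) (h₀ : ∀ b, X.toFun (i₀ b) = x.toFun b)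
    (h₁ : X.toFun (i₁ y) = 0) (b : IB n K) :
    ∃ s, X.toFun s ≠ 0 ∧ i₁ y - i₀ y ∣ s * (i₁ b - i₀ b) := by
  classical
  by_contra hcon
  -- the ring `IB n L`
  have hfin : Module.Finite (Pol n) (IB n L) := ib_finite
  have hft : Algebra.FiniteType ℂ (IB n L) :=
    Algebra.FiniteType.trans (S := Pol n) inferInstance inferInstance
  have hic : IsIntegrallyClosed (IB n L) :=
    integralClosure.isIntegrallyClosedOfFiniteExtension (FractionRing (Pol n))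
  have hXc : ∀ c : ℂ, X.toFun (algebraMap ℂ (IB n L) c) = c := by
    intro c
    rw [IsScalarTower.algebraMap_apply ℂ (Pol n) (IB n L), X.map_alg]
    exact MvPolynomial.eval_C c
  let p : IB n L →ₐ[ℂ] ℂ := { X.toFun with commutes' := hXc }
  have hp : ∀ c, p c = X.toFun c := fun _ => rfl
  have hiX : X.toFun.comp (i₁ : IB n K →+* IB n L) = x.toFun := by
    let x₁ : Pt n K :=
      { toFun := X.toFun.comp (i₁ : IB n K →+* IB n L)
        map_alg := fun f => by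
          show X.toFun (i₁ (algebraMap (Pol n) (IB n K) f)) = _
          rw [AlgHom.commutes, X.map_alg] }
    exact hsep x₁ h₁
  have h₁' : ∀ b, X.toFun (i₁ b) = x.toFun b := fun b => by rw [← hiX]; rfl
  have hh0 : algebraMap (Pol n) (IB n L) E.h ≠ 0 := by
    intro h
    apply E.h0
    apply FaithfulSMul.algebraMap_injective (Pol n) L
    rw [map_zero]
    exact congrArg (Subtype.val) h
  -- the set of points
  obtain ⟨U, hUne, hUp, hU1, hU2⟩ : ∃ U : Filter (IB n L →ₐ[ℂ] ℂ), U.NeBot ∧ U ≤ ptNhd p ∧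
      (∀ᶠ π in U, π (algebraMap (Pol n) (IB n L) E.h) ≠ 0 ∧ π (i₁ b - i₀ b) ≠ 0) ∧
      Tendsto (fun π => π (i₁ y - i₀ y) / π (i₁ b - i₀ b)) U (𝓝 0) := by
    by_cases hd : i₁ y - i₀ y = 0
    · have hx0 : i₁ b - i₀ b ≠ 0 := by
        intro h
        apply hcon
        refine ⟨1, ?_, ?_⟩
        · rw [map_one]
          exact one_ne_zero
        · rw [h, mul_zero]
          exact dvd_zero _
      have hne := dense_points p (mul_ne_zero hh0 hx0)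
      refine ⟨_, hne, inf_le_left, ?_, ?_⟩
      · apply Filter.Eventually.filter_mono inf_le_right
        rw [eventually_principal]
        intro π hπ
        have hπ' : π (algebraMap (Pol n) (IB n L) E.h * (i₁ b - i₀ b)) ≠ 0 := hπ
        rw [map_mul] at hπ'
        exact ⟨left_ne_zero_of_mul hπ', right_ne_zero_of_mul hπ'⟩
      · simp only [hd, map_zero, zero_div]
        exact tendsto_const_nhds
    · obtain ⟨U, h1, h2, h3, h4⟩ := exists_ratio_tendsto_zero p hd hh0 (x := i₁ b - i₀ b) hcon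
      exact ⟨U, h1, h2, h3.mono fun π hπ => ⟨hπ.1, hπ.2.2⟩, h4⟩
  -- the points of `M`
  let z : (IB n L →ₐ[ℂ] ℂ) → (Fin n → ℂ) := fun π k =>
    π (algebraMap (Pol n) (IB n L) (MvPolynomial.X k))
  have hz : ∀ π : IB n L →ₐ[ℂ] ℂ, ∀ f : Pol n,
      π (algebraMap (Pol n) (IB n L) f) = MvPolynomial.eval (z π) f := by
    intro π f
    have h1 : (π : IB n L →+* ℂ).comp (algebraMap (Pol n) (IB n L)) =
        MvPolynomial.eval (z π) := by
      apply MvPolynomial.ringHom_ext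
      · intro r
        rw [MvPolynomial.eval_C]
        have h2 : algebraMap (Pol n) (IB n L) (MvPolynomial.C r) = algebraMap ℂ (IB n L) r := by
          rw [IsScalarTower.algebraMap_apply ℂ (Pol n) (IB n L)]
          rfl
        show π (algebraMap (Pol n) (IB n L) (MvPolynomial.C r)) = r
        rw [h2, AlgHom.commutes]
        rfl
      · intro k
        rw [MvPolynomial.eval_X]
        rfl
    exact congrArg (fun φ : Pol n →+* ℂ => φ f) h1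
  let T : (IB n K →ₐ[Pol n] IB n L) → (IB n L →ₐ[ℂ] ℂ) → (Fin n → ℂ) × ℂ := fun i π =>
    (z π, π (i ⟨E.y, E.integral⟩))
  have hT : ∀ i : IB n K →ₐ[Pol n] IB n L, ∀ π : IB n L →ₐ[ℂ] ℂ,
      π (algebraMap (Pol n) (IB n L) E.h) ≠ 0 →
      T i π ∈ S.M ∧ ∀ b : IB n K, E.ev (b : K) (T i π) = π (i b) := by
    intro i π hπ
    refine fo_point hS ((π : IB n L →+* ℂ).comp (i : IB n K →+* IB n L)) (z π) (fun f => ?_) ?_
    · show π (i (algebraMap (Pol n) (IB n K) f)) = _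
      rw [AlgHom.commutes, hz]
    · rw [← hz]
      exact hπ
  have hlim : ∀ s, Tendsto (fun π : IB n L →ₐ[ℂ] ℂ => π s) U (𝓝 (X.toFun s)) := fun s =>
    ((tendsto_ptNhd_iff.1 (tendsto_id (x := ptNhd p))) s).mono_left hUp
  let W : Ultrafilter (IB n L →ₐ[ℂ] ℂ) := Ultrafilter.of U
  have hWU : (W : Filter (IB n L →ₐ[ℂ] ℂ)) ≤ U := Ultrafilter.of_le U
  have hTx : ∀ i : IB n K →ₐ[Pol n] IB n L, (∀ b, X.toFun (i b) = x.toFun b) →
      Tendsto (T i) (W : Filter (IB n L →ₐ[ℂ] ℂ)) (E.nhd S x) := by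
    intro i hi
    apply fo_tendsto
    · exact (hU1.filter_mono hWU).mono fun π hπ => (hT i π hπ.1).1
    · intro b
      rw [← hi b]
      refine ((hlim (i b)).mono_left hWU).congr' ?_
      filter_upwards [hU1.filter_mono hWU] with π hπ
      exact ((hT i π hπ.1).2 b).symm
  let V : Ultrafilter (Pairs n) := W.map fun π => (T i₀ π, T i₁ π)
  have hV : E.IsPairs S x V := by
    refine ⟨?_, ?_, ?_⟩
    · exact hTx i₀ h₀
    · exact hTx i₁ h₁'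
    · show ∀ᶠ π in (W : Filter (IB n L →ₐ[ℂ] ℂ)), (T i₀ π).1 = (T i₁ π).1 ∧ T i₀ π ≠ T i₁ π
      filter_upwards [hU1.filter_mono hWU] with π hπ
      refine ⟨rfl, fun h => hπ.2 ?_⟩
      rw [map_sub, ← (hT i₀ π hπ.1).2 b, ← (hT i₁ π hπ.1).2 b, h, sub_self]
  obtain ⟨c, hc⟩ := hL V hV b
  have hc' : ∀ᶠ π in (W : Filter (IB n L →ₐ[ℂ] ℂ)),
      ‖E.ev (b : K) (T i₀ π) - E.ev (b : K) (T i₁ π)‖ ≤
        c * ‖E.ev (y : K) (T i₀ π) - E.ev (y : K) (T i₁ π)‖ := hc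
  have h5 : ∀ᶠ π in (W : Filter (IB n L →ₐ[ℂ] ℂ)),
      ‖π (i₁ y - i₀ y) / π (i₁ b - i₀ b)‖ < (|c| + 1)⁻¹ := by
    have h6 := (hU2.mono_left hWU).norm
    rw [norm_zero] at h6
    exact h6.eventually_lt_const (by (clear * -; positivity))
  obtain ⟨π, h7, h8, h9⟩ := (hc'.and (h5.and (hU1.filter_mono hWU))).exists
  rw [(hT i₀ π h9.1).2, (hT i₁ π h9.1).2, (hT i₀ π h9.1).2, (hT i₁ π h9.1).2, norm_sub_rev,
    ← map_sub, norm_sub_rev (π (i₀ y)), ← map_sub] at h7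
  have h10 : 0 < ‖π (i₁ b - i₀ b)‖ := norm_pos_iff.2 h9.2
  rw [norm_div, div_lt_iff₀ h10, ← div_eq_inv_mul, lt_div_iff₀ (by positivity)] at h8
  have h11 : c * ‖π (i₁ y - i₀ y)‖ ≤ |c| * ‖π (i₁ y - i₀ y)‖ :=
    mul_le_mul_of_nonneg_right (le_abs_self c) (norm_nonneg _)
  have h12 : 0 ≤ ‖π (i₁ y - i₀ y)‖ := norm_nonneg _
  linarith only [h12, h11, h8, h7]

end Vale.Agent.P282.EQ
end
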