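import Mathlib
import Vale.Agent.P282.Bd3.B2
import Vale.Agent.P282.Bd3.B4
import Vale.Agent.P282.Bd3.B1
import Vale.Agent.P282.Bd3.B3

set_option linter.all false

namespace AFast0065aax8a
@[reducible] noncomputable def a0 {x1 : ℕ} {x2 : Type} [x3 : Field x2] [x4 : Algebra (FractionRing (Vale.Agent.P282.L2.Pol x1)) x2] : Module (FractionRing (Vale.Agent.P282.L2.Pol x1)) x2 := inferInstance
theorem a1 {x1 : Type} {x2 : Type} [x3 : CommRing x1] [x4 : Field x2] : MulHomClass (x1 →+* x2) x1 x2 := inferInstance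
@[reducible] noncomputable def a2 {x1 : ℕ} {x2 : Type} [x3 : Field x2] [x4 : Algebra (Vale.Agent.P282.L2.Pol x1) x2] {x5 : Fin (x1 + 1) → Vale.Agent.P282.L2.IB x1 x2} {x6 : Fin (x1 + 1) → ℕ} {x7 : ℕ} : Semiring (Vale.Agent.P282.L2.IB x1 x2 ⧸ Vale.Agent.P282.EQ.wIdeal x5 x6 x7) := inferInstance
@[reducible] def a3 : Mul (WithZero (Multiplicative ℤ)) := inferInstance
@[reducible] noncomputable def a4 {x1 : ℕ} : Algebra (Vale.Agent.P282.L2.Pol x1) (OreLocalization (nonZeroDivisors (Vale.Agent.P282.L2.Pol x1)) (Vale.Agent.P282.L2.Pol x1)) := inferInstance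
theorem a5 {x1 : Type} {x2 : Type} [x3 : CommRing x1] [x4 : Field x2] : NonUnitalRingHomClass (x1 →+* x2) x1 x2 := inferInstance
@[reducible] noncomputable def a6 {x1 : Type} [x2 : Field x1] [x3 : Algebra ℂ x1] : Module ℂ Ω[x1⁄ℂ] := inferInstance
@[reducible] def a7 : LinearOrderedCommMonoidWithZero (WithZero (Multiplicative ℤ)) := inferInstance
@[reducible] noncomputable def a8 {x1 : ℕ} {x2 : Type} [x3 : Field x2] [x4 : Algebra (Vale.Agent.P282.L2.Pol x1) x2] {x5 : Fin (x1 + 1) → Vale.Agent.P282.L2.IB x1 x2} {x6 : Fin (x1 + 1) → ℕ} {x7 : ℕ} : Ring (Vale.Agent.P282.L2.IB x1 x2 ⧸ Vale.Agent.P282.EQ.wIdeal x5 x6 x7) := inferInstance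
@[reducible] def a9 {x1 : Type} [x2 : Field x1] {x3 : Valuation x1 (WithZero (Multiplicative ℤ))} : Semiring ↥x3.integer := inferInstance
@[reducible] noncomputable def a10 {x1 : ℕ} : SMul (Vale.Agent.P282.L2.Pol x1) (OreLocalization (nonZeroDivisors (Vale.Agent.P282.L2.Pol x1)) (Vale.Agent.P282.L2.Pol x1)) := inferInstance
@[reducible] noncomputable def a11 {x1 : ℕ} : DivisionRing (OreLocalization (nonZeroDivisors (Vale.Agent.P282.L2.Pol x1)) (Vale.Agent.P282.L2.Pol x1)) := inferInstance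
theorem a12 {x1 : Type} [x2 : CommRing x1] [x3 : IsDomain x1] [x4 : Algebra ℂ x1] : IsScalarTower (FractionRing x1) (FractionRing x1) Ω[FractionRing x1⁄ℂ] := inferInstance
@[reducible] noncomputable def a13 {x1 : Type} [x2 : Field x1] {x3 : Valuation x1 (WithZero (Multiplicative ℤ))} [x4 : Algebra ℂ x1] : Algebra (↥x3.integer) (ExteriorAlgebra x1 Ω[x1⁄ℂ]) := inferInstance
theorem a14 : IsOrderedCancelMonoid (Multiplicative ℤ) := inferInstance
@[reducible] noncomputable def a15 {x1 : ℕ} {x2 : Type} [x3 : Field x2] [x4 : Algebra (Vale.Agent.P282.L2.Pol x1) x2] {x5 : Fin (x1 + 1) → Vale.Agent.P282.L2.IB x1 x2} {x6 : Fin (x1 + 1) → ℕ} {x7 : ℕ} : NonAssocSemiring (Vale.Agent.P282.L2.IB x1 x2 ⧸ Vale.Agent.P282.EQ.wIdeal x5 x6 x7) := inferInstance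
theorem a16 {x1 : Type} [x2 : Field x1] : MulHomClass (Valuation x1 NNReal) x1 NNReal := inferInstance
@[reducible] noncomputable def a17 {x1 : ℕ} {x2 : Type} [x3 : CommRing x2] [x4 : Algebra (MvPolynomial (Fin x1) ℂ) x2] : Algebra (MvPolynomial (Fin x1) ℂ) (OreLocalization (nonZeroDivisors x2) x2) := inferInstance
theorem a18 : ZeroLEOneClass (WithZero (Multiplicative ℤ)) := inferInstance
theorem a19 {x1 : ℕ} {x2 : Type} [x3 : Field x2] [x4 : Algebra (Vale.Agent.P282.L2.Pol x1) x2] {x5 : Fin (x1 + 1) → Vale.Agent.P282.L2.IB x1 x2} {x6 : Fin (x1 + 1) → ℕ} {x7 : ℕ} : (Vale.Agent.P282.EQ.wIdeal x5 x6 x7).IsTwoSided := inferInstance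
theorem a20 : MulLeftMono (WithZero (Multiplicative ℤ)) := inferInstance
theorem a21 {x1 : Type} [x2 : Field x1] : MonoidHomClass (Valuation x1 (WithZero (Multiplicative ℤ))) x1 (WithZero (Multiplicative ℤ)) := inferInstance
@[reducible] noncomputable def a22 {x1 : Type} [x2 : Field x1] [x3 : Algebra ℂ x1] : AddCommMonoid Ω[x1⁄ℂ] := inferInstance
theorem a23 : IsOrderedCancelAddMonoid ℤ := inferInstance
theorem a24 : IsCancelAdd ℂ := inferInstance
@[reducible] def a25 {x1 : Type} [x2 : Field x1] {x3 : Valuation x1 (WithZero (Multiplicative ℤ))} : CommSemiring ↥x3.integer := inferInstance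
theorem a26 {x1 : ℕ} : IsDomain (MvPolynomial (Fin x1) ℂ) := inferInstance
@[reducible] def a27 {x1 : Type} [x2 : CommRing x1] : Pow (Submodule x1 x1) ℕ := inferInstance
theorem a28 {x1 : Type} [x2 : Field x1] : SubsemiringClass (Subring x1) x1 := inferInstance
theorem a29 {x1 : Type} [x2 : Field x1] {x3 : Type} [x4 : Field x3] [x5 : Algebra x1 x3] : AddMonoidHomClass (x3 →ₗ[x1] x1) x3 x1 := inferInstance
@[reducible] noncomputable def a30 {x1 : ℕ} {x2 : Type} [x3 : Field x2] [x4 : Algebra (Vale.Agent.P282.L2.Pol x1) x2] {x5 : Fin (x1 + 1) → Vale.Agent.P282.L2.IB x1 x2} {x6 : Fin (x1 + 1) → ℕ} {x7 : ℕ} : AddCommGroup (Vale.Agent.P282.L2.IB x1 x2 ⧸ Vale.Agent.P282.EQ.wIdeal x5 x6 x7) := inferInstance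
theorem a31 : MulLeftMono (Multiplicative ℤ) := inferInstance
@[reducible] noncomputable def a32 {x1 : ℕ} : CommSemiring (OreLocalization (nonZeroDivisors (Vale.Agent.P282.L2.Pol x1)) (Vale.Agent.P282.L2.Pol x1)) := inferInstance
theorem a33 : CovariantClass (Multiplicative ℤ) (Multiplicative ℤ) (Function.swap fun x1 x2 => x1 * x2) fun x1 x2 => x1 ≤ x2 := inferInstance
theorem a34 {x1 : Type} {x2 : Type} [x3 : CommRing x1] [x4 : Field x2] : MonoidHomClass (x1 →+* x2) x1 x2 := inferInstance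
end AFast0065aax8a
attribute [local instance] AFast0065aax8a.a0 AFast0065aax8a.a1 AFast0065aax8a.a2 AFast0065aax8a.a3
  AFast0065aax8a.a4 AFast0065aax8a.a5 AFast0065aax8a.a6 AFast0065aax8a.a7 AFast0065aax8a.a8
  AFast0065aax8a.a9 AFast0065aax8a.a10 AFast0065aax8a.a11 AFast0065aax8a.a12 AFast0065aax8a.a13
  AFast0065aax8a.a14 AFast0065aax8a.a15 AFast0065aax8a.a16 AFast0065aax8a.a17 AFast0065aax8a.a18
  AFast0065aax8a.a19 AFast0065aax8a.a20 AFast0065aax8a.a21 AFast0065aax8a.a22 AFast0065aax8a.a23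
  AFast0065aax8a.a24 AFast0065aax8a.a25 AFast0065aax8a.a26 AFast0065aax8a.a27 AFast0065aax8a.a28
  AFast0065aax8a.a29 AFast0065aax8a.a30 AFast0065aax8a.a31 AFast0065aax8a.a32 AFast0065aax8a.a33
  AFast0065aax8a.a34
namespace AFast0065aax8b
@[reducible] noncomputable def a0 {x1 : Type} [x2 : CommRing x1] [x3 : IsDomain x1] {x4 : Valuation (FractionRing x1) (WithZero (Multiplicative ℤ))} [x5 : Algebra ℂ x1] {x6 : ℕ} : Module ↥x4.integer ↥(⋀[FractionRing x1]^x6 Ω[FractionRing x1⁄ℂ]) := inferInstance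
@[reducible] def a1 {x1 : Type} [x2 : CommRing x1] [x3 : IsDomain x1] {x4 : Valuation (FractionRing x1) (WithZero (Multiplicative ℤ))} : SMul (↥x4.integer) (FractionRing x1) := inferInstance
@[reducible] noncomputable def a2 {x1 : ℕ} {x2 : Type} [x3 : Field x2] [x4 : Algebra (Vale.Agent.P282.L2.Pol x1) x2] {x5 : Fin (x1 + 1) → Vale.Agent.P282.L2.IB x1 x2} {x6 : Fin (x1 + 1) → ℕ} {x7 : ℕ} [x8 : Algebra ℂ x2] [x9 : IsScalarTower ℂ (Vale.Agent.P282.L2.Pol x1) x2] : Module ℂ (Vale.Agent.P282.L2.IB x1 x2 ⧸ Vale.Agent.P282.EQ.wIdeal x5 x6 x7) := inferInstance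
@[reducible] noncomputable def a3 {x1 : Type} [x2 : CommRing x1] [x3 : IsDomain x1] {x4 : Valuation (FractionRing x1) (WithZero (Multiplicative ℤ))} [x5 : Algebra ℂ x1] {x6 : ℕ} : Module ↥x4.integer ↥(⋀[FractionRing x1]^(x6 + 1) Ω[FractionRing x1⁄ℂ]) := inferInstance
theorem a4 {x1 : ℕ} {x2 : Type} [x3 : Field x2] [x4 : Algebra (MvPolynomial (Fin (x1 + 1)) ℂ) x2] [x5 : IsFractionRing (MvPolynomial (Fin (x1 + 1)) ℂ) x2] : FaithfulSMul (MvPolynomial (Fin (x1 + 1)) ℂ) x2 := inferInstance
@[reducible] noncomputable def a5 {x1 : Type} [x2 : CommRing x1] [x3 : IsDomain x1] {x4 : Valuation (FractionRing x1) (WithZero (Multiplicative ℤ))} : Semiring ↥x4.integer := inferInstance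
@[reducible] def a6 {x1 : ℕ} {x2 : Type} [x3 : Field x2] [x4 : Algebra (Vale.Agent.P282.L2.Pol x1) x2] : SMul (Vale.Agent.P282.L2.Pol x1) x2 := inferInstance
theorem a7 {x1 : Type} [x2 : CommRing x1] [x3 : IsDomain x1] {x4 : Valuation (FractionRing x1) (WithZero (Multiplicative ℤ))} [x5 : Algebra ℂ x1] : IsScalarTower (↥x4.integer) (FractionRing x1) (ExteriorAlgebra (FractionRing x1) Ω[FractionRing x1⁄ℂ]) := inferInstance
@[reducible] def a8 {x1 : ℕ} {x2 : Type} [x3 : Field x2] [x4 : Algebra (FractionRing (Vale.Agent.P282.L2.Pol x1)) x2] : SMul (FractionRing (Vale.Agent.P282.L2.Pol x1)) x2 := inferInstance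
theorem a9 {x1 : Type} [x2 : Field x1] : MulHomClass (Valuation x1 (WithZero (Multiplicative ℤ))) x1 (WithZero (Multiplicative ℤ)) := inferInstance
@[reducible] def a10 {x1 : ℕ} {x2 : Type} [x3 : CommRing x2] [x4 : Algebra (MvPolynomial (Fin x1) ℂ) x2] : SMul (MvPolynomial (Fin x1) ℂ) x2 := inferInstance
@[reducible] noncomputable def a11 {x1 : Type} [x2 : Field x1] {x3 : Valuation x1 (WithZero (Multiplicative ℤ))} [x4 : Algebra ℂ x1] {x5 : ℕ} : Module ↥x3.integer ↥(⋀[x1]^x5 Ω[x1⁄ℂ]) := inferInstance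
@[reducible] noncomputable def a12 {x1 : ℕ} {x2 : Type} [x3 : Field x2] [x4 : Algebra (Vale.Agent.P282.L2.Pol x1) x2] {x5 : Fin (x1 + 1) → Vale.Agent.P282.L2.IB x1 x2} {x6 : Fin (x1 + 1) → ℕ} {x7 : ℕ} [x8 : Algebra ℂ x2] [x9 : IsScalarTower ℂ (Vale.Agent.P282.L2.Pol x1) x2] : Algebra ℂ (Vale.Agent.P282.L2.IB x1 x2 ⧸ Vale.Agent.P282.EQ.wIdeal x5 x6 x7) := inferInstance
theorem a13 {x1 : Type} [x2 : Field x1] {x3 : Valuation x1 (WithZero (Multiplicative ℤ))} [x4 : Algebra ℂ x1] : IsScalarTower (↥x3.integer) x1 (ExteriorAlgebra x1 Ω[x1⁄ℂ]) := inferInstance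
@[reducible] noncomputable def a14 {x1 : ℕ} {x2 : Type} [x3 : Field x2] [x4 : Algebra (Vale.Agent.P282.L2.Pol x1) x2] {x5 : Fin (x1 + 1) → Vale.Agent.P282.L2.IB x1 x2} {x6 : Fin (x1 + 1) → ℕ} {x7 : ℕ} : Zero (Vale.Agent.P282.L2.IB x1 x2 ⧸ Vale.Agent.P282.EQ.wIdeal x5 x6 x7) := inferInstance
@[reducible] noncomputable def a15 {x1 : Type} [x2 : Field x1] {x3 : Valuation x1 (WithZero (Multiplicative ℤ))} [x4 : Algebra ℂ x1] : Module (↥x3.integer) (ExteriorAlgebra x1 Ω[x1⁄ℂ]) := inferInstance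
@[reducible] noncomputable def a16 {x1 : ℕ} {x2 : Type} [x3 : Field x2] [x4 : Algebra (Vale.Agent.P282.L2.Pol x1) x2] : Algebra (Vale.Agent.P282.L2.Pol x1) ↥(integralClosure (Vale.Agent.P282.L2.Pol x1) x2) := inferInstance
theorem a17 {x1 : ℕ} : AddMonoidHomClass (MvPolynomial (Fin x1) ℂ →+* ℂ) (MvPolynomial (Fin x1) ℂ) ℂ := inferInstance
theorem a18 {x1 : ℕ} {x2 : Type} [x3 : Field x2] : AddMonoidHomClass (MvPolynomial (Fin x1) ℂ →+* x2) (MvPolynomial (Fin x1) ℂ) x2 := inferInstance
@[reducible] noncomputable def a19 {x1 : Type} [x2 : Field x1] {x3 : Valuation x1 (WithZero (Multiplicative ℤ))} [x4 : Algebra ℂ x1] {x5 : ℕ} : Module ↥x3.integer ↥(⋀[x1]^(x5 + 1) Ω[x1⁄ℂ]) := inferInstance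
@[reducible] noncomputable def a20 {x1 : Type} {x2 : ℕ} [x3 : Field x1] [x4 : Algebra (Vale.Agent.P282.L2.Pol x2) x1] [x5 : Algebra ℂ x1] [x6 : IsScalarTower ℂ (Vale.Agent.P282.L2.Pol x2) x1] : Algebra ℂ ↥(integralClosure (Vale.Agent.P282.L2.Pol x2) x1) := inferInstance
theorem a21 {x1 : ℕ} {x2 : Type} [x3 : Field x2] [x4 : Algebra (Vale.Agent.P282.L2.Pol x1) x2] {x5 : Fin (x1 + 1) → Vale.Agent.P282.L2.IB x1 x2} {x6 : Fin (x1 + 1) → ℕ} {x7 : ℕ} [x8 : Algebra ℂ x2] [x9 : IsScalarTower ℂ (Vale.Agent.P282.L2.Pol x1) x2] : NonUnitalAlgHomClass (MvPolynomial (Fin (x1 + 1)) ℂ →ₐ[ℂ] Vale.Agent.P282.L2.IB x1 x2 ⧸ Vale.Agent.P282.EQ.wIdeal x5 x6 x7) ℂ (MvPolynomial (Fin (x1 + 1)) ℂ) (Vale.Agent.P282.L2.IB x1 x2 ⧸ Vale.Agent.P282.EQ.wIdeal x5 x6 x7) := inferInstance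
@[reducible] noncomputable def a22 {x1 : Type} [x2 : Field x1] [x3 : Algebra ℂ x1] {x4 : ℕ} : AddZeroClass ↥(⋀[x1]^x4 Ω[x1⁄ℂ]) := inferInstance
@[reducible] noncomputable def a23 {x1 : Type} [x2 : Field x1] [x3 : Algebra ℂ x1] {x4 : ℕ} : AddMonoid ↥(⋀[x1]^x4 Ω[x1⁄ℂ]) := inferInstance
@[reducible] noncomputable def a24 {x1 : ℕ} {x2 : Type} [x3 : Field x2] [x4 : Algebra (Vale.Agent.P282.L2.Pol x1) x2] {x5 : Fin (x1 + 1) → Vale.Agent.P282.L2.IB x1 x2} {x6 : Fin (x1 + 1) → ℕ} {x7 : ℕ} [x8 : Algebra ℂ x2] [x9 : IsScalarTower ℂ (Vale.Agent.P282.L2.Pol x1) x2] : SMulZeroClass ℂ (Vale.Agent.P282.L2.IB x1 x2 ⧸ Vale.Agent.P282.EQ.wIdeal x5 x6 x7) := inferInstance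
theorem a25 : CovariantClass (WithZero (Multiplicative ℤ)) (WithZero (Multiplicative ℤ)) (Function.swap fun x1 x2 => x1 * x2) fun x1 x2 => x1 ≤ x2 := inferInstance
theorem a26 {x1 : Type} [x2 : CommRing x1] : MulHomClass (Valuation (FractionRing x1) (WithZero (Multiplicative ℤ))) (FractionRing x1) (WithZero (Multiplicative ℤ)) := inferInstance
theorem a27 {x1 : Type} {x2 : Type} [x3 : CommRing x1] [x4 : Field x2] : AddMonoidHomClass (x1 →+* x2) x1 x2 := inferInstance
@[reducible] noncomputable def a28 {x1 : Type} [x2 : CommRing x1] {x3 : Valuation (FractionRing x1) (WithZero (Multiplicative ℤ))} [x4 : IsDomain x1] [x5 : Algebra ℂ x1] : Module (↥x3.integer) (ExteriorAlgebra (FractionRing x1) Ω[FractionRing x1⁄ℂ]) := inferInstance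
theorem a29 {x1 : Type} [x2 : Field x1] : AddMonoidHomClass (ℂ →+* x1) ℂ x1 := inferInstance
@[reducible] noncomputable def a30 {x1 : Type} [x2 : CommRing x1] [x3 : IsDomain x1] [x4 : Algebra ℂ x1] : Module (FractionRing x1) (ExteriorAlgebra (FractionRing x1) Ω[FractionRing x1⁄ℂ]) := inferInstance
@[reducible] noncomputable def a31 {x1 : Type} [x2 : Field x1] [x3 : Algebra ℂ x1] {x4 : ℕ} : AddZero ↥(⋀[x1]^(x4 + 1) Ω[x1⁄ℂ]) := inferInstance
@[reducible] noncomputable def a32 {x1 : Type} [x2 : Field x1] [x3 : Algebra ℂ x1] {x4 : ℕ} : AddZeroClass ↥(⋀[x1]^(x4 + 1) Ω[x1⁄ℂ]) := inferInstance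
@[reducible] noncomputable def a33 {x1 : Type} [x2 : Field x1] [x3 : Algebra ℂ x1] {x4 : ℕ} : AddMonoid ↥(⋀[x1]^(x4 + 1) Ω[x1⁄ℂ]) := inferInstance
theorem a34 {x1 : Type} [x2 : Field x1] : AddHomClass (ℂ →+* x1) ℂ x1 := inferInstance
@[reducible] noncomputable def a35 {x1 : ℕ} {x2 : Type} [x3 : CommRing x2] [x4 : Algebra (MvPolynomial (Fin x1) ℂ) x2] : SemigroupAction (MvPolynomial (Fin x1) ℂ) x2 := inferInstance
@[reducible] noncomputable def a36 {x1 : ℕ} {x2 : Type} [x3 : CommRing x2] [x4 : Algebra (MvPolynomial (Fin x1) ℂ) x2] : MulAction (MvPolynomial (Fin x1) ℂ) x2 := inferInstance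
@[reducible] def a37 {x1 : ℕ} {x2 : Type} [x3 : Field x2] [x4 : Algebra (MvPolynomial (Fin (x1 + 1)) ℂ) x2] : SMul (MvPolynomial (Fin (x1 + 1)) ℂ) x2 := inferInstance
@[reducible] noncomputable def a38 {x1 : Type} [x2 : CommRing x1] [x3 : IsDomain x1] [x4 : Algebra ℂ x1] : DistribMulAction (FractionRing x1) (ExteriorAlgebra (FractionRing x1) Ω[FractionRing x1⁄ℂ]) := inferInstance
@[reducible] noncomputable def a39 {x1 : Type} [x2 : Field x1] [x3 : Algebra ℂ x1] {x4 : ℕ} : AddZero ↥(⋀[x1]^x4 Ω[x1⁄ℂ]) := inferInstance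
theorem a40 : MulPosReflectLE (WithZero (Multiplicative ℤ)) := inferInstance
@[reducible] noncomputable def a41 {x1 : Type} [x2 : CommRing x1] [x3 : IsDomain x1] : DivisionRing (FractionRing x1) := inferInstance
@[reducible] noncomputable def a42 {x1 : Type} [x2 : CommRing x1] [x3 : IsDomain x1] [x4 : Algebra ℂ x1] : MulAction (FractionRing x1) (ExteriorAlgebra (FractionRing x1) Ω[FractionRing x1⁄ℂ]) := inferInstance
@[reducible] noncomputable def a43 {x1 : Type} [x2 : CommRing x1] [x3 : IsDomain x1] [x4 : Algebra ℂ x1] : SemigroupAction (FractionRing x1) (ExteriorAlgebra (FractionRing x1) Ω[FractionRing x1⁄ℂ]) := inferInstance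
theorem a44 {x1 : ℕ} {x2 : Type} [x3 : Field x2] [x4 : Algebra (Vale.Agent.P282.L2.Pol x1) x2] {x5 : Fin (x1 + 1) → Vale.Agent.P282.L2.IB x1 x2} {x6 : Fin (x1 + 1) → ℕ} {x7 : ℕ} [x8 : Algebra ℂ x2] [x9 : IsScalarTower ℂ (Vale.Agent.P282.L2.Pol x1) x2] : AddMonoidHomClass (MvPolynomial (Fin (x1 + 1)) ℂ →ₐ[ℂ] Vale.Agent.P282.L2.IB x1 x2 ⧸ Vale.Agent.P282.EQ.wIdeal x5 x6 x7) (MvPolynomial (Fin (x1 + 1)) ℂ) (Vale.Agent.P282.L2.IB x1 x2 ⧸ Vale.Agent.P282.EQ.wIdeal x5 x6 x7) := inferInstance
theorem a45 {x1 : ℕ} {x2 : Type} [x3 : Field x2] [x4 : Algebra (Vale.Agent.P282.L2.Pol x1) x2] {x5 : Fin (x1 + 1) → Vale.Agent.P282.L2.IB x1 x2} {x6 : Fin (x1 + 1) → ℕ} {x7 : ℕ} [x8 : Algebra ℂ x2] [x9 : IsScalarTower ℂ (Vale.Agent.P282.L2.Pol x1) x2] : DistribMulActionSemiHomClass (MvPolynomial (Fin (x1 + 1)) ℂ →ₐ[ℂ] Vale.Agent.P282.L2.IB x1 x2 ⧸ Vale.Agent.P282.EQ.wIdeal x5 x6 x7) (⇑(MonoidHom.id ℂ)) (MvPolynomial (Fin (x1 + 1)) ℂ) (Vale.Agent.P282.L2.IB x1 x2 ⧸ Vale.Agent.P282.EQ.wIdeal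 x5 x6 x7) := inferInstance
theorem a46 {x1 : ℕ} {x2 : Type} [x3 : Field x2] [x4 : Algebra (Vale.Agent.P282.L2.Pol x1) x2] {x5 : Fin (x1 + 1) → Vale.Agent.P282.L2.IB x1 x2} {x6 : Fin (x1 + 1) → ℕ} {x7 : ℕ} [x8 : Algebra ℂ x2] [x9 : IsScalarTower ℂ (Vale.Agent.P282.L2.Pol x1) x2] : MulHomClass (MvPolynomial (Fin (x1 + 1)) ℂ →ₐ[ℂ] Vale.Agent.P282.L2.IB x1 x2 ⧸ Vale.Agent.P282.EQ.wIdeal x5 x6 x7) (MvPolynomial (Fin (x1 + 1)) ℂ) (Vale.Agent.P282.L2.IB x1 x2 ⧸ Vale.Agent.P282.EQ.wIdeal x5 x6 x7) := inferInstance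
@[reducible] noncomputable def a47 {x1 : ℕ} {x2 : Type} [x3 : Field x2] [x4 : Algebra (Vale.Agent.P282.L2.Pol x1) x2] [x5 : Algebra ℂ x2] [x6 : IsScalarTower ℂ (Vale.Agent.P282.L2.Pol x1) x2] : Module ℂ (Vale.Agent.P282.L2.IB x1 x2) := inferInstance
@[reducible] noncomputable def a48 {x1 : Type} [x2 : Field x1] [x3 : Algebra ℂ x1] {x4 : ℕ} : SubNegMonoid ↥(⋀[x1]^(x4 + 1) Ω[x1⁄ℂ]) := inferInstance
@[reducible] noncomputable def a49 {x1 : Type} [x2 : Field x1] [x3 : Algebra ℂ x1] {x4 : ℕ} : AddGroup ↥(⋀[x1]^(x4 + 1) Ω[x1⁄ℂ]) := inferInstance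
@[reducible] noncomputable def a50 {x1 : ℕ} {x2 : Type} [x3 : Field x2] [x4 : Algebra (Vale.Agent.P282.L2.Pol x1) x2] {x5 : Fin (x1 + 1) → Vale.Agent.P282.L2.IB x1 x2} {x6 : Fin (x1 + 1) → ℕ} {x7 : ℕ} : Mul (Vale.Agent.P282.L2.IB x1 x2 ⧸ Vale.Agent.P282.EQ.wIdeal x5 x6 x7) := inferInstance
@[reducible] noncomputable def a51 {x1 : ℕ} {x2 : Type} [x3 : Field x2] [x4 : Algebra (Vale.Agent.P282.L2.Pol x1) x2] {x5 : Fin (x1 + 1) → Vale.Agent.P282.L2.IB x1 x2} {x6 : Fin (x1 + 1) → ℕ} {x7 : ℕ} : Distrib (Vale.Agent.P282.L2.IB x1 x2 ⧸ Vale.Agent.P282.EQ.wIdeal x5 x6 x7) := inferInstance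
theorem a52 : MulPosStrictMono (WithZero (Multiplicative ℤ)) := inferInstance
theorem a53 : MulRightStrictMono (Multiplicative ℤ) := inferInstance
@[reducible] noncomputable def a54 {x1 : Type} [x2 : Field x1] [x3 : Algebra ℂ x1] {x4 : ℕ} : SubNegMonoid ↥(⋀[x1]^x4 Ω[x1⁄ℂ]) := inferInstance
@[reducible] noncomputable def a55 {x1 : Type} [x2 : Field x1] [x3 : Algebra ℂ x1] {x4 : ℕ} : AddGroup ↥(⋀[x1]^x4 Ω[x1⁄ℂ]) := inferInstance
@[reducible] noncomputable def a56 {x1 : ℕ} : DistribMulAction (Vale.Agent.P282.L2.Pol x1) (Vale.Agent.P282.L2.Pol x1) := inferInstance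
@[reducible] noncomputable def a57 {x1 : ℕ} {x2 : Type} [x3 : Field x2] [x4 : Algebra (Vale.Agent.P282.L2.Pol x1) x2] {x5 : Ideal (Vale.Agent.P282.L2.IB x1 x2)} [x6 : Algebra ℂ x2] [x7 : IsScalarTower ℂ (Vale.Agent.P282.L2.Pol x1) x2] : Algebra ℂ (Vale.Agent.P282.L2.IB x1 x2 ⧸ x5) := inferInstance
@[reducible] noncomputable def a58 {x1 : ℕ} {x2 : Type} [x3 : CommRing x2] [x4 : Algebra (MvPolynomial (Fin (x1 + 1)) ℂ) x2] : SemigroupAction (MvPolynomial (Fin (x1 + 1)) ℂ) x2 := inferInstance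
@[reducible] noncomputable def a59 {x1 : ℕ} {x2 : Type} [x3 : Field x2] [x4 : Algebra (Vale.Agent.P282.L2.Pol x1) x2] {x5 : Fin (x1 + 1) → Vale.Agent.P282.L2.IB x1 x2} {x6 : Fin (x1 + 1) → ℕ} {x7 : ℕ} : NegZeroClass (Vale.Agent.P282.L2.IB x1 x2 ⧸ Vale.Agent.P282.EQ.wIdeal x5 x6 x7) := inferInstance
@[reducible] noncomputable def a60 {x1 : ℕ} {x2 : Type} [x3 : Field x2] [x4 : Algebra (Vale.Agent.P282.L2.Pol x1) x2] {x5 : Fin (x1 + 1) → Vale.Agent.P282.L2.IB x1 x2} {x6 : Fin (x1 + 1) → ℕ} {x7 : ℕ} : SubNegZeroMonoid (Vale.Agent.P282.L2.IB x1 x2 ⧸ Vale.Agent.P282.EQ.wIdeal x5 x6 x7) := inferInstance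
@[reducible] noncomputable def a61 {x1 : ℕ} {x2 : Type} [x3 : Field x2] [x4 : Algebra (Vale.Agent.P282.L2.Pol x1) x2] {x5 : Fin (x1 + 1) → Vale.Agent.P282.L2.IB x1 x2} {x6 : Fin (x1 + 1) → ℕ} {x7 : ℕ} : SubtractionMonoid (Vale.Agent.P282.L2.IB x1 x2 ⧸ Vale.Agent.P282.EQ.wIdeal x5 x6 x7) := inferInstance
@[reducible] noncomputable def a62 {x1 : ℕ} {x2 : Type} [x3 : Field x2] [x4 : Algebra (Vale.Agent.P282.L2.Pol x1) x2] {x5 : Fin (x1 + 1) → Vale.Agent.P282.L2.IB x1 x2} {x6 : Fin (x1 + 1) → ℕ} {x7 : ℕ} : SubtractionCommMonoid (Vale.Agent.P282.L2.IB x1 x2 ⧸ Vale.Agent.P282.EQ.wIdeal x5 x6 x7) := inferInstance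
end AFast0065aax8b
attribute [local instance] AFast0065aax8b.a0 AFast0065aax8b.a1 AFast0065aax8b.a2 AFast0065aax8b.a3
  AFast0065aax8b.a4 AFast0065aax8b.a5 AFast0065aax8b.a6 AFast0065aax8b.a7 AFast0065aax8b.a8
  AFast0065aax8b.a9 AFast0065aax8b.a10 AFast0065aax8b.a11 AFast0065aax8b.a12 AFast0065aax8b.a13
  AFast0065aax8b.a14 AFast0065aax8b.a15 AFast0065aax8b.a16 AFast0065aax8b.a17 AFast0065aax8b.a18
  AFast0065aax8b.a19 AFast0065aax8b.a20 AFast0065aax8b.a21 AFast0065aax8b.a22 AFast0065aax8b.a23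
  AFast0065aax8b.a24 AFast0065aax8b.a25 AFast0065aax8b.a26 AFast0065aax8b.a27 AFast0065aax8b.a28
  AFast0065aax8b.a29 AFast0065aax8b.a30 AFast0065aax8b.a31 AFast0065aax8b.a32 AFast0065aax8b.a33
  AFast0065aax8b.a34 AFast0065aax8b.a35 AFast0065aax8b.a36 AFast0065aax8b.a37 AFast0065aax8b.a38
  AFast0065aax8b.a39 AFast0065aax8b.a40 AFast0065aax8b.a41 AFast0065aax8b.a42 AFast0065aax8b.a43
  AFast0065aax8b.a44 AFast0065aax8b.a45 AFast0065aax8b.a46 AFast0065aax8b.a47 AFast0065aax8b.a48
  AFast0065aax8b.a49 AFast0065aax8b.a50 AFast0065aax8b.a51 AFast0065aax8b.a52 AFast0065aax8b.a53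
  AFast0065aax8b.a54 AFast0065aax8b.a55 AFast0065aax8b.a56 AFast0065aax8b.a57 AFast0065aax8b.a58
  AFast0065aax8b.a59 AFast0065aax8b.a60 AFast0065aax8b.a61 AFast0065aax8b.a62
section

open IsLocalRing

namespace Vale.Agent.P282

section aux

variable {R : Type} [CommRing R]

theorem pow_sup_le (I J : Ideal R) (u : R) (hJ : J ≤ I) (hu : u ∈ I) (i : ℕ) :
    (J ⊔ Ideal.span {u}) ^ (i + 1) ≤ J * I ^ i ⊔ Ideal.span {u ^ (i + 1)} := by
  have huI : Ideal.span {u} ≤ I := by
    rw [Ideal.span_le]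
    simpa using hu
  induction i with
  | zero => simp
  | succ i ih =>
    rw [pow_succ' _ (i + 1), Ideal.sup_mul]
    apply sup_le
    · refine le_trans ?_ le_sup_left
      apply Ideal.mul_mono_right
      exact Ideal.pow_right_mono (sup_le hJ huI) _
    · refine (Ideal.mul_mono_right ih).trans ?_
      rw [Ideal.mul_sup]
      apply sup_le_sup
      · calc Ideal.span {u} * (J * I ^ i) = J * (Ideal.span {u} * I ^ i) := by ring
          _ ≤ J * (I * I ^ i) := Ideal.mul_mono_right (Ideal.mul_mono_left huI)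
          _ = J * I ^ (i + 1) := by rw [pow_succ']
      · rw [Ideal.span_singleton_mul_span_singleton, ← pow_succ']

theorem aeval_mem_pow [Algebra ℂ R] {I : Ideal R} {N : ℕ} (p : Fin N → R) (hp : ∀ i, p i ∈ I)
    (H : MvPolynomial (Fin N) ℂ) (k : ℕ) (hH : ∀ d ∈ H.support, k ≤ d.degree) :
    MvPolynomial.aeval p H ∈ I ^ k := by
  have h1 : H ∈ MvPolynomial.idealOfVars (Fin N) ℂ ^ k :=
    (MvPolynomial.mem_pow_idealOfVars_iff k H).mpr hH
  have h2 : Ideal.map (MvPolynomial.aeval p) (MvPolynomial.idealOfVars (Fin N) ℂ) ≤ I := by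
    rw [Ideal.map_le_iff_le_comap, MvPolynomial.idealOfVars, Ideal.span_le]
    rintro _ ⟨i, rfl⟩
    simpa using hp i
  have h3 := Ideal.mem_map_of_mem (MvPolynomial.aeval p) h1
  rw [Ideal.map_pow] at h3
  exact Ideal.pow_right_mono h2 k h3

theorem prod_pow_mem {N : ℕ} {I : Ideal R} (p : Fin N → R) (hp : ∀ i, p i ∈ I)
    (d : Fin N →₀ ℕ) : (∏ i, p i ^ d i) ∈ I ^ d.degree := by
  rw [Finsupp.degree_eq_sum, ← Finset.prod_pow_eq_pow_sum]
  exact Ideal.prod_mem_prod (fun i _ => Ideal.pow_mem_pow (hp i) _)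

theorem pow_sub_pow_mem {I J : Ideal R} (p q : R) (hp : p ∈ I) (hq : q ∈ I) (hpq : p - q ∈ J)
    (k : ℕ) : p ^ k - q ^ k ∈ J * I ^ (k - 1) := by
  induction k with
  | zero => simp
  | succ k ih =>
    have h1 : p ^ (k + 1) - q ^ (k + 1) = (p - q) * p ^ k + q * (p ^ k - q ^ k) := by ring
    rw [h1]
    apply Ideal.add_mem
    · exact Ideal.mul_mem_mul hpq (Ideal.pow_mem_pow hp k)
    · have h2 : q * (p ^ k - q ^ k) ∈ I * (J * I ^ (k - 1)) := Ideal.mul_mem_mul hq ih
      have h3 : I * (J * I ^ (k - 1)) = J * I ^ (k - 1 + 1) := by ring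
      rw [h3] at h2
      exact Ideal.mul_mono_right (Ideal.pow_le_pow_right (by omega)) h2

theorem prod_sub_prod_mem {N : ℕ} {I J : Ideal R} (p q : Fin N → R) (hp : ∀ i, p i ∈ I)
    (hq : ∀ i, q i ∈ I) (hpq : ∀ i, p i - q i ∈ J) (d : Fin N →₀ ℕ) :
    (∏ i, p i ^ d i) - (∏ i, q i ^ d i) ∈ J * I ^ (d.degree - 1) := by
  induction d using Finsupp.induction_linear with
  | zero => simp
  | add d e hd he =>
    have h1 : (∏ i, p i ^ (d + e) i) - (∏ i, q i ^ (d + e) i) =
        ((∏ i, p i ^ d i) - (∏ i, q i ^ d i)) * (∏ i, p i ^ e i) +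
        (∏ i, q i ^ d i) * ((∏ i, p i ^ e i) - (∏ i, q i ^ e i)) := by
      simp only [Finsupp.add_apply, pow_add, Finset.prod_mul_distrib]
      ring
    rw [h1, map_add]
    apply Ideal.add_mem
    · have h2 := Ideal.mul_mem_mul hd (prod_pow_mem p hp e)
      rw [mul_assoc, ← pow_add] at h2
      exact Ideal.mul_mono_right (Ideal.pow_le_pow_right (by omega)) h2
    · have h2 := Ideal.mul_mem_mul (prod_pow_mem q hq d) he
      have h3 : I ^ d.degree * (J * I ^ (e.degree - 1)) =
          J * I ^ (d.degree + (e.degree - 1)) := by ring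
      rw [h3] at h2
      exact Ideal.mul_mono_right (Ideal.pow_le_pow_right (by omega)) h2
  | single i k =>
    have h1 : ∀ z : Fin N → R, (∏ j, z j ^ (Finsupp.single i k) j) = z i ^ k := by
      intro z
      rw [Finset.prod_eq_single i]
      · simp
      · intro j _ hj
        rw [Finsupp.single_eq_of_ne hj, pow_zero]
      · simp
    rw [h1, h1, Finsupp.degree_single]
    exact pow_sub_pow_mem _ _ (hp i) (hq i) (hpq i) k

theorem aeval_sub_mem [Algebra ℂ R] {N : ℕ} {I J : Ideal R} (p q : Fin N → R)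
    (hp : ∀ i, p i ∈ I) (hq : ∀ i, q i ∈ I) (hpq : ∀ i, p i - q i ∈ J)
    (F : MvPolynomial (Fin N) ℂ) (j : ℕ) (hF : F.IsHomogeneous j) :
    MvPolynomial.aeval p F - MvPolynomial.aeval q F ∈ J * I ^ (j - 1) := by
  rw [MvPolynomial.aeval_def, MvPolynomial.aeval_def, MvPolynomial.eval₂_eq',
    MvPolynomial.eval₂_eq', ← Finset.sum_sub_distrib]
  apply Ideal.sum_mem
  intro d hd
  rw [← mul_sub]
  apply Ideal.mul_mem_left
  have h1 : d.degree = j := by
    by_contra h
    exact (MvPolynomial.mem_support_iff.mp hd) (hF.coeff_eq_zero h)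
  rw [← h1]
  exact prod_sub_prod_mem p q hp hq hpq d

theorem aeval_smul [Algebra ℂ R] {N : ℕ} (a : Fin N → ℂ) (u : R)
    (F : MvPolynomial (Fin N) ℂ) (j : ℕ) (hF : F.IsHomogeneous j) :
    MvPolynomial.aeval (fun i => algebraMap ℂ R (a i) * u) F =
      algebraMap ℂ R (MvPolynomial.eval a F) * u ^ j := by
  rw [MvPolynomial.aeval_def, MvPolynomial.eval₂_eq', MvPolynomial.eval_eq', map_sum,
    Finset.sum_mul]
  apply Finset.sum_congr rfl
  intro d hd
  have h1 : d.degree = j := by
    by_contra h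
    exact (MvPolynomial.mem_support_iff.mp hd) (hF.coeff_eq_zero h)
  rw [map_mul, mul_assoc]
  congr 1
  rw [← h1, Finsupp.degree_eq_sum, map_prod, ← Finset.prod_pow_eq_pow_sum,
    ← Finset.prod_mul_distrib]
  apply Finset.prod_congr rfl
  intro i _
  rw [mul_pow, map_pow]

end aux

/-- `x` generates a reduction of the maximal ideal. -/
def IsRed (R : Type) [CommRing R] [IsLocalRing R] (N : ℕ) : Prop :=
  ∃ x : Fin N → R, (∀ i, x i ∈ maximalIdeal R) ∧
      ∃ k : ℕ, maximalIdeal R ^ (k + 1) ≤ Ideal.span (Set.range x) * maximalIdeal R ^ k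

theorem nak {R : Type} [CommRing R] [IsLocalRing R] [IsNoetherianRing R] (N N' : Ideal R)
    (h : N' ≤ N ⊔ maximalIdeal R * N') : N' ≤ N := by
  apply Submodule.le_of_le_smul_of_le_jacobson_bot (I := maximalIdeal R)
    (IsNoetherian.noetherian N')
  · rw [IsLocalRing.jacobson_eq_maximalIdeal _ bot_ne_top]
  · exact h

theorem pow_red {R : Type} [CommRing R] (I K : Ideal R) (k : ℕ) (h : I ^ (k + 1) ≤ K * I ^ k)
    (j : ℕ) : I ^ (k + j) ≤ K ^ j * I ^ k := by
  induction j with
  | zero => simp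
  | succ j ih =>
    calc I ^ (k + (j + 1)) = I ^ j * I ^ (k + 1) := by ring
      _ ≤ I ^ j * (K * I ^ k) := Ideal.mul_mono_right h
      _ = K * I ^ (k + j) := by ring
      _ ≤ K * (K ^ j * I ^ k) := Ideal.mul_mono_right ih
      _ = K ^ (j + 1) * I ^ k := by ring

theorem red_step {R : Type} [CommRing R] [IsDomain R] [IsLocalRing R] [IsNoetherianRing R]
    [Algebra ℂ R] (n : ℕ) (hdim : Algebra.trdeg ℂ R = n) (N : ℕ) (hN : n ≤ N)
    (h : IsRed R (N + 1)) : IsRed R N := by
  obtain ⟨x, hx, k, hk⟩ := h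
  have hdep : ¬ AlgebraicIndependent ℂ x := by
    intro hi
    have h1 := hi.cardinalMk_le_trdeg
    rw [hdim, Cardinal.mk_fin, Nat.cast_le] at h1
    omega
  obtain ⟨G, hG, hG0⟩ : ∃ G : MvPolynomial (Fin (N + 1)) ℂ, MvPolynomial.aeval x G = 0 ∧ G ≠ 0 := by
    rw [algebraicIndependent_iff] at hdep
    push Not at hdep
    exact hdep
  -- the lowest degree part
  have hex : ∃ j, MvPolynomial.homogeneousComponent j G ≠ 0 := by
    by_contra hcon
    push Not at hcon
    apply hG0
    rw [← MvPolynomial.sum_homogeneousComponent G]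
    exact Finset.sum_eq_zero (fun i _ => hcon i)
  classical
  let j := Nat.find hex
  have hj : MvPolynomial.homogeneousComponent j G ≠ 0 := Nat.find_spec hex
  have hjmin : ∀ i < j, MvPolynomial.homogeneousComponent i G = 0 := by
    intro i hi
    by_contra h
    exact Nat.find_min hex hi h
  set F := MvPolynomial.homogeneousComponent j G with hFdef
  have hF : F.IsHomogeneous j := MvPolynomial.homogeneousComponent_isHomogeneous j G
  have hrest : ∀ d ∈ (F - G).support, j + 1 ≤ d.degree := by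
    intro d hd
    rw [MvPolynomial.mem_support_iff, MvPolynomial.coeff_sub, hFdef,
      MvPolynomial.coeff_homogeneousComponent] at hd
    by_contra hlt
    push Not at hlt
    rcases Nat.lt_or_ge d.degree j with h1 | h1
    · have h2 := hjmin _ h1
      have h3 : MvPolynomial.coeff d G = 0 := by
        have := congrArg (MvPolynomial.coeff d) h2
        rw [MvPolynomial.coeff_homogeneousComponent] at this
        simpa using this
      apply hd
      rw [if_neg (by omega), h3, sub_zero]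
    · have h2 : d.degree = j := by omega
      apply hd
      rw [if_pos h2, sub_self]
  have hFx : MvPolynomial.aeval x F ∈ maximalIdeal R ^ (j + 1) := by
    have h1 : MvPolynomial.aeval x F = MvPolynomial.aeval x (F - G) := by
      rw [map_sub, hG, sub_zero]
    rw [h1]
    exact aeval_mem_pow x hx _ _ hrest
  obtain ⟨a, ha⟩ : ∃ a : Fin (N + 1) → ℂ, MvPolynomial.eval a F ≠ 0 := by
    by_contra hcon
    push Not at hcon
    exact hj (hF.eq_zero_of_forall_eval_eq_zero hcon)
  -- `j` is positive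
  have hunit : ∀ z : ℂ, z ≠ 0 → IsUnit (algebraMap ℂ R z) := fun z hz =>
    (IsUnit.mk0 z hz).map _
  have hj1 : 1 ≤ j := by
    by_contra hj0
    have hj0' : j = 0 := by omega
    have h1 : F = MvPolynomial.C (MvPolynomial.coeff 0 G) := by
      rw [hFdef, hj0', MvPolynomial.homogeneousComponent_zero]
    have h2 : MvPolynomial.coeff 0 G ≠ 0 := by
      intro h3
      rw [h3, map_zero] at h1
      exact hj h1
    rw [h1, hj0', MvPolynomial.aeval_C] at hFx
    simp only [zero_add, pow_one] at hFx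
    exact (mem_maximalIdeal _).mp hFx (hunit _ h2)
  obtain ⟨i0, hi0⟩ : ∃ i0, a i0 ≠ 0 := by
    by_contra hcon
    push Not at hcon
    apply ha
    have h1 : a = 0 := _root_.funext hcon
    rw [h1, MvPolynomial.eval_zero, MvPolynomial.constantCoeff_eq]
    exact hF.coeff_eq_zero (by simp; omega)
  obtain ⟨i, hi⟩ : ∃ i, j = i + 1 := ⟨j - 1, by omega⟩
  -- new coordinates
  let a' : Fin (N + 1) → ℂ := fun l => a l / a i0
  have ha' : MvPolynomial.eval a' F ≠ 0 := by
    have h1 := aeval_smul a' (a i0) F j hF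
    have h2 : (fun l => algebraMap ℂ ℂ (a' l) * a i0) = a := by
      funext l
      simp [a', hi0]
    rw [h2] at h1
    intro h3
    rw [h3, map_zero, zero_mul] at h1
    apply ha
    rw [← h1, MvPolynomial.aeval_eq_eval]
  let u := x i0
  let x' : Fin N → R := fun l => x (i0.succAbove l) - algebraMap ℂ R (a' (i0.succAbove l)) * u
  let J := Ideal.span (Set.range x')
  have hx' : ∀ l, x' l ∈ maximalIdeal R := fun l =>
    Ideal.sub_mem _ (hx _) (Ideal.mul_mem_left _ _ (hx i0))
  have hJ : J ≤ maximalIdeal R := by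
    rw [Ideal.span_le]
    rintro _ ⟨l, rfl⟩
    exact hx' l
  have hxq : ∀ l, x l - algebraMap ℂ R (a' l) * u ∈ J := by
    intro l
    rcases Fin.eq_self_or_eq_succAbove i0 l with h1 | ⟨l', h1⟩
    · have h2 : x l - algebraMap ℂ R (a' l) * u = 0 := by
        rw [h1]
        simp [a', u, div_self hi0]
      rw [h2]
      exact Ideal.zero_mem _
    · rw [h1]
      exact Ideal.subset_span ⟨l', rfl⟩
  have hu : u ^ (i + 1) ∈ J * maximalIdeal R ^ i ⊔ maximalIdeal R ^ (i + 2) := by
    have h1 := aeval_sub_mem x (fun l => algebraMap ℂ R (a' l) * u) hx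
      (fun l => Ideal.mul_mem_left _ _ (hx i0)) hxq F j hF
    rw [aeval_smul a' u F j hF] at h1
    have h2 : algebraMap ℂ R (MvPolynomial.eval a' F) * u ^ j ∈
        J * maximalIdeal R ^ i ⊔ maximalIdeal R ^ (i + 2) := by
      have h3 : algebraMap ℂ R (MvPolynomial.eval a' F) * u ^ j =
          -(MvPolynomial.aeval x F - algebraMap ℂ R (MvPolynomial.eval a' F) * u ^ j) +
            MvPolynomial.aeval x F := by ring
      rw [h3]
      apply Ideal.add_mem
      · apply Ideal.mem_sup_left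
        rw [hi] at h1 ⊢
        exact (Ideal.neg_mem_iff _).mpr h1
      · apply Ideal.mem_sup_right
        rw [hi] at hFx
        exact hFx
    rw [Ideal.unit_mul_mem_iff_mem _ (hunit _ ha'), hi] at h2
    exact h2
  have hspan : Ideal.span (Set.range x) ≤ J ⊔ Ideal.span {u} := by
    rw [Ideal.span_le]
    rintro _ ⟨l, rfl⟩
    have h1 : x l = (x l - algebraMap ℂ R (a' l) * u) + algebraMap ℂ R (a' l) * u := by ring
    rw [h1]
    apply Ideal.add_mem
    · exact Ideal.mem_sup_left (hxq l)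
    · exact Ideal.mem_sup_right (Ideal.mul_mem_left _ _ (Ideal.mem_span_singleton_self u))
  refine ⟨x', hx', k + i, ?_⟩
  apply nak
  have h1 : Ideal.span (Set.range x) ^ (i + 1) ≤
      J * maximalIdeal R ^ i ⊔ maximalIdeal R ^ (i + 2) := by
    refine (Ideal.pow_right_mono hspan (i + 1)).trans ?_
    refine (pow_sup_le (maximalIdeal R) J u hJ (hx i0) i).trans ?_
    apply sup_le le_sup_left
    rw [Ideal.span_le]
    simpa using hu
  calc maximalIdeal R ^ (k + i + 1) = maximalIdeal R ^ (k + (i + 1)) := by ring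
    _ ≤ Ideal.span (Set.range x) ^ (i + 1) * maximalIdeal R ^ k :=
        pow_red _ _ k hk (i + 1)
    _ ≤ (J * maximalIdeal R ^ i ⊔ maximalIdeal R ^ (i + 2)) * maximalIdeal R ^ k :=
        Ideal.mul_mono_left h1
    _ = J * maximalIdeal R ^ (k + i) ⊔ maximalIdeal R * maximalIdeal R ^ (k + i + 1) := by
        rw [Ideal.sup_mul]
        congr 1 <;> ring

/-- T1a. Existence of an `n`-generated reduction of the maximal ideal. -/
theorem exists_reduction (R : Type) [CommRing R] [IsDomain R] [IsLocalRing R] [IsNoetherianRing R]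
    [Algebra ℂ R] (hres : Function.Surjective (algebraMap ℂ (ResidueField R))) (n : ℕ)
    (hdim : Algebra.trdeg ℂ R = n) :
    ∃ x : Fin n → R, (∀ i, x i ∈ maximalIdeal R) ∧
      ∃ k : ℕ, maximalIdeal R ^ (k + 1) ≤ Ideal.span (Set.range x) * maximalIdeal R ^ k := by
  have hstart : ∃ N, IsRed R N := by
    obtain ⟨N, x, hx⟩ := Submodule.fg_iff_exists_fin_generating_family.mp
      (IsNoetherian.noetherian (maximalIdeal R))
    refine ⟨N, x, fun i => ?_, 0, ?_⟩
    · rw [← hx]
      exact Submodule.subset_span ⟨i, rfl⟩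
    · rw [zero_add, pow_one, pow_zero, mul_one]
      exact hx.symm.le
  have hup : ∀ N, IsRed R N → IsRed R (N + 1) := by
    rintro N ⟨x, hx, k, hk⟩
    refine ⟨Fin.cons 0 x, ?_, k, hk.trans (Ideal.mul_mono_left ?_)⟩
    · intro i
      refine Fin.cases ?_ ?_ i
      · simp
      · intro l
        simpa using hx l
    · apply Ideal.span_mono
      rintro _ ⟨l, rfl⟩
      exact ⟨l.succ, by simp⟩
  obtain ⟨N, hN⟩ := hstart
  have hbig : IsRed R (n + N) := by
    have : ∀ M, IsRed R (N + M) := by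
      intro M
      induction M with
      | zero => exact hN
      | succ M ih => exact hup _ ih
    rw [add_comm]
    exact this n
  have hdown : ∀ M, IsRed R (n + M) → IsRed R n := by
    intro M
    induction M with
    | zero => exact fun h => h
    | succ M ih =>
      intro h
      exact ih (red_step n hdim (n + M) (by omega) h)
  exact hdown N hbig

/-- T1b. In a Cohen-Macaulay ring such a reduction is linearly independent modulo `m^2`. -/
theorem reduction_linInd (R : Type) [CommRing R] [IsDomain R] [IsLocalRing R] [IsNoetherianRing R]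
    [Algebra ℂ R] (n : ℕ) (hCM : IsCM R n)
    (x : Fin n → R) (hx : ∀ i, x i ∈ maximalIdeal R)
    (hk : ∃ k : ℕ, maximalIdeal R ^ (k + 1) ≤ Ideal.span (Set.range x) * maximalIdeal R ^ k)
    (c : Fin n → ℂ) (hc : ∑ i, algebraMap ℂ R (c i) * x i ∈ maximalIdeal R ^ 2) : c = 0 := by
  classical
  by_contra hc0
  obtain ⟨i0, hi0⟩ : ∃ i0, c i0 ≠ 0 := by
    by_contra hcon
    push Not at hcon
    exact hc0 (_root_.funext hcon)
  obtain ⟨k, hk⟩ := hk
  let x' : Fin n → R := Function.update x i0 0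
  let J := Ideal.span (Set.range x')
  have hx' : ∀ i, x' i ∈ maximalIdeal R := by
    intro i
    by_cases h : i = i0
    · simp [x', h]
    · simpa [x', h] using hx i
  have hne : ∀ i, i ≠ i0 → x i ∈ J := by
    intro i hi
    apply Ideal.subset_span
    exact ⟨i, by simp [x', hi]⟩
  have hunit : IsUnit (algebraMap ℂ R (c i0)) := (IsUnit.mk0 _ hi0).map _
  have hxi0 : x i0 ∈ J ⊔ maximalIdeal R ^ 2 := by
    rw [← Ideal.unit_mul_mem_iff_mem _ hunit]
    have h1 : algebraMap ℂ R (c i0) * x i0 = (∑ i, algebraMap ℂ R (c i) * x i) -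
        ∑ i ∈ Finset.univ.erase i0, algebraMap ℂ R (c i) * x i := by
      rw [← Finset.add_sum_erase _ _ (Finset.mem_univ i0)]
      ring
    rw [h1]
    apply Ideal.sub_mem
    · exact Ideal.mem_sup_right hc
    · apply Ideal.mem_sup_left
      apply Ideal.sum_mem
      intro i hi
      exact Ideal.mul_mem_left _ _ (hne i (Finset.ne_of_mem_erase hi))
  have hspan : Ideal.span (Set.range x) ≤ J ⊔ maximalIdeal R ^ 2 := by
    rw [Ideal.span_le]
    rintro _ ⟨i, rfl⟩
    by_cases h : i = i0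
    · rw [h]
      exact hxi0
    · exact Ideal.mem_sup_left (hne i h)
  have hJ : maximalIdeal R ^ (k + 1) ≤ J * maximalIdeal R ^ k := by
    apply nak
    calc maximalIdeal R ^ (k + 1) ≤ Ideal.span (Set.range x) * maximalIdeal R ^ k := hk
      _ ≤ (J ⊔ maximalIdeal R ^ 2) * maximalIdeal R ^ k := Ideal.mul_mono_left hspan
      _ = J * maximalIdeal R ^ k ⊔ maximalIdeal R * maximalIdeal R ^ (k + 1) := by
          rw [Ideal.sup_mul]
          congr 1
          ring
  have hreg := hCM x' hx' ⟨k + 1, hJ.trans Ideal.mul_le_left⟩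
  have h1 := hreg.toIsWeaklyRegular.regular_mod_prev i0 (by simp)
  have h2 : (List.ofFn x')[(i0 : ℕ)]'(by simp) = 0 := by
    simp [x']
  rw [h2] at h1
  have h3 : Subsingleton (R ⧸ (Ideal.ofList ((List.ofFn x').take i0) • ⊤ : Submodule R R)) := by
    refine ⟨fun a b => h1 ?_⟩
    simp
  rw [Submodule.Quotient.subsingleton_iff] at h3
  have h4 : (Ideal.ofList ((List.ofFn x').take i0) • ⊤ : Submodule R R) ≤ maximalIdeal R := by
    rw [smul_eq_mul, Ideal.mul_top, Ideal.ofList, Ideal.span_le]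
    intro z hz
    have h5 := List.mem_of_mem_take hz
    rw [List.mem_ofFn] at h5
    obtain ⟨i, rfl⟩ := h5
    exact hx' i
  rw [h3] at h4
  exact (maximalIdeal.isMaximal R).ne_top (top_le_iff.mp h4)

end Vale.Agent.P282
end

section

open IsLocalRing
open scoped WithZero

namespace Vale.Agent.P282

open KaehlerDifferential TensorProduct

theorem alt_update_sum {K M N : Type} [Field K] [AddCommGroup M] [Module K M] [AddCommGroup N]
    [Module K N] {n : ℕ} (A : M [⋀^Fin n]→ₗ[K] N) (b : Fin n → M) (i : Fin n) (c : Fin n → K) :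
    A (Function.update b i (∑ j, c j • b j)) = c i • A b := by
  classical
  rw [AlternatingMap.map_update_sum]
  rw [Finset.sum_eq_single i]
  · rw [AlternatingMap.map_update_smul, Function.update_eq_self]
  · intro j _ hj
    rw [AlternatingMap.map_update_smul, AlternatingMap.map_update_self _ _ (Ne.symm hj), smul_zero]
  · simp

theorem alt_eq_det {K M N : Type} [Field K] [AddCommGroup M] [Module K M] [AddCommGroup N]
    [Module K N] {n : ℕ} (A : M [⋀^Fin n]→ₗ[K] N) (b : Module.Basis (Fin n) K M) (y : Fin n → M) :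
    A y = b.det y • A b := by
  classical
  have h : A = (LinearMap.toSpanSingleton K N (A b)).compAlternatingMap b.det := by
    apply Module.Basis.ext_alternating b
    intro f hf
    let σ : Equiv.Perm (Fin n) := Equiv.ofBijective f (Finite.injective_iff_bijective.mp hf)
    have h1 : (fun i => b (f i)) = b ∘ σ := rfl
    rw [h1, AlternatingMap.map_perm, AlternatingMap.map_perm]
    simp [Module.Basis.det_self]
  conv_lhs => rw [h]
  simp [LinearMap.toSpanSingleton_apply]

theorem v_det_le {K : Type} [Field K] {n : ℕ} (v : Valuation K ℤᵐ⁰) (M : Matrix (Fin n) (Fin n) K)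
    (h : ∀ i j, v (M i j) ≤ 1) : v M.det ≤ 1 := by
  rw [Matrix.det_apply']
  refine v.map_sum_le fun σ _ => ?_
  rw [map_mul, map_prod]
  apply mul_le_one'
  · rcases Int.units_eq_one_or (Equiv.Perm.sign σ) with h | h <;> simp [h, Valuation.map_neg]
  · exact Finset.prod_le_one' fun i _ => h _ _

theorem regForms_eq_span {K : Type} [Field K] [Algebra ℂ K] {n : ℕ} (v : Valuation K ℤᵐ⁰)
    (ζ : Fin n → K) (hζ : ∀ i, v (ζ i) ≤ 1)
    (b : Module.Basis (Fin n) K (Ω[K⁄ℂ])) (hb : ∀ i, b i = KaehlerDifferential.D ℂ K (ζ i))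
    (h : ∀ z, v z ≤ 1 → InN v ζ 0 (KaehlerDifferential.D ℂ K z)) :
    regForms n v = Submodule.span v.integer {dWedge ζ} := by
  apply le_antisymm
  · unfold regForms
    rw [Submodule.span_le]
    rintro _ ⟨c, hc, rfl⟩
    have h1 : dWedge c = b.det (fun i => KaehlerDifferential.D ℂ K (c i)) • dWedge ζ := by
      unfold dWedge
      rw [alt_eq_det (exteriorPower.ιMulti K n) b]
      congr 1
      congr 1
      ext i
      exact hb i
    have h2 : v (b.det (fun i => KaehlerDifferential.D ℂ K (c i))) ≤ 1 := by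
      rw [Module.Basis.det_apply]
      apply v_det_le
      intro i j
      rw [Module.Basis.toMatrix_apply]
      obtain ⟨d, hd, hd'⟩ := h (c j) (hc j)
      have h3 : KaehlerDifferential.D ℂ K (c j) = ∑ i, d i • b i := by
        rw [hd']; simp [hb]
      rw [h3, Module.Basis.repr_sum_self]
      simpa using hd i
    rw [h1, SetLike.mem_coe, Submodule.mem_span_singleton]
    exact ⟨⟨_, h2⟩, rfl⟩
  · rw [Submodule.span_le, Set.singleton_subset_iff]
    exact Submodule.subset_span ⟨ζ, hζ, rfl⟩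

theorem trdeg_chart {n : ℕ} {P K : Type} [CommRing P] [IsDomain P] [Algebra ℂ P]
    (e : MvPolynomial (Fin n) ℂ ≃ₐ[ℂ] P) [Field K] [Algebra ℂ K] [Algebra P K]
    [IsScalarTower ℂ P K] [FaithfulSMul P K] [Algebra.IsAlgebraic P K] :
    Algebra.trdeg ℂ K = n := by
  have h0 : FaithfulSMul ℂ P := (faithfulSMul_iff_algebraMap_injective _ _).mpr
    (algebraMap ℂ P).injective
  have h1 := trdeg_add_eq ℂ P (A := K)
  rw [← h1, (trdeg_eq_zero : Algebra.trdeg P K = 0), add_zero, ← e.trdeg_eq]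
  rw [MvPolynomial.trdeg_of_isDomain]
  simp

theorem aeval_chart {n : ℕ} {P K : Type} [CommRing P] [IsDomain P] [Algebra ℂ P]
    (e : MvPolynomial (Fin n) ℂ ≃ₐ[ℂ] P) [Field K] [Algebra ℂ K] [Algebra P K]
    [IsScalarTower ℂ P K] (F : MvPolynomial (Fin n) ℂ) :
    MvPolynomial.aeval (fun i => algebraMap P K (e (MvPolynomial.X i))) F =
      algebraMap P K (e F) := by
  have : MvPolynomial.aeval (fun i => algebraMap P K (e (MvPolynomial.X i))) =
    (IsScalarTower.toAlgHom ℂ P K).comp (e : MvPolynomial (Fin n) ℂ →ₐ[ℂ] P) := by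
    ext i; simp
  rw [this]
  simp


theorem forms_main {m : ℕ} {P K : Type} [CommRing P] [IsDomain P] [Algebra ℂ P]
    (e : MvPolynomial (Fin (m + 1)) ℂ ≃ₐ[ℂ] P) [Field K] [Algebra ℂ K] [Algebra P K]
    [IsScalarTower ℂ P K] [FaithfulSMul P K] [Algebra.IsAlgebraic P K]
    (f : P) (hf : Prime f) (v : Valuation K ℤᵐ⁰) (hsurj : Function.Surjective v)
    (hP : ∀ p : P, v (algebraMap P K p) ≤ 1) (hPf : ∀ p : P, v (algebraMap P K p) < 1 ↔ f ∣ p)
    (hbdd : ∃ (N : ℕ) (β : Fin N → K), ∀ z : K, v z ≤ 1 → ∃ p q : Fin N → P,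
          v (∑ j, algebraMap P K (q j) * β j) = 1 ∧
          z * (∑ j, algebraMap P K (q j) * β j) = ∑ j, algebraMap P K (p j) * β j) :
    IsDivisorial (m + 1) v ∧ ∃ (θ : TopForm K (m + 1)) (g : K),
      regForms (m + 1) v = Submodule.span v.integer {θ} ∧
      dWedge (fun i => algebraMap P K (e (MvPolynomial.X i))) = g • θ ∧
      v (algebraMap P K f) = v g * WithZero.exp (-1) := by
  classical
  set X : Fin (m + 1) → K := fun i => algebraMap P K (e (MvPolynomial.X i)) with hX
  have haeval : ∀ F, MvPolynomial.aeval X F = algebraMap P K (e F) := aeval_chart e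
  have hf' : Prime (e.symm f) := by
    rwa [← MulEquiv.prime_iff (e.symm : P ≃ₐ[ℂ] MvPolynomial (Fin (m + 1)) ℂ)] at hf
  have hdvd : ∀ F : MvPolynomial (Fin (m + 1)) ℂ, f ∣ e F ↔ e.symm f ∣ F := by
    intro F
    constructor
    · intro h
      simpa using map_dvd e.symm h
    · intro h
      simpa using map_dvd e h
  have hvF : ∀ F : MvPolynomial (Fin (m + 1)) ℂ, ¬ e.symm f ∣ F →
      v (MvPolynomial.aeval X F) = 1 := by
    intro F hF
    rw [haeval]
    apply le_antisymm (hP _)
    rw [← hdvd, ← hPf] at hF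
    exact not_lt.mp hF
  obtain ⟨i0, hi0⟩ := exists_degreeOf_pos hf'
  set w : Fin m → K := fun j => X (i0.succAbove j) with hw_def
  have hw : ∀ F : MvPolynomial (Fin m) ℂ, F ≠ 0 → v (MvPolynomial.aeval w F) = 1 := by
    intro F hF
    have h1 : MvPolynomial.aeval w F =
        MvPolynomial.aeval X (MvPolynomial.rename i0.succAbove F) := by
      rw [MvPolynomial.aeval_rename]; rfl
    rw [h1]
    apply hvF
    intro hd
    have h2 : MvPolynomial.rename i0.succAbove F ≠ 0 := by
      intro h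
      apply hF
      exact MvPolynomial.rename_injective _ Fin.succAbove_right_injective (by simpa using h)
    have h3 := degreeOf_le_of_dvd i0 hd h2
    have h4 : MvPolynomial.degreeOf i0 (MvPolynomial.rename i0.succAbove F) = 0 := by
      by_contra h
      have h5 : i0 ∈ (MvPolynomial.rename i0.succAbove F).vars :=
        MvPolynomial.mem_vars_iff_degreeOf_ne_zero.mpr h
      have h6 := MvPolynomial.vars_rename _ _ h5
      rw [Finset.mem_image] at h6
      obtain ⟨j, _, hj⟩ := h6
      exact Fin.succAbove_ne i0 j hj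
    omega
  obtain ⟨π, hπ⟩ := hsurj (WithZero.exp (-1 : ℤ))
  have hπ0 : π ≠ 0 := by
    rintro rfl
    rw [map_zero] at hπ
    exact WithZero.exp_ne_zero hπ.symm
  have hπ1 : v π < 1 := by
    rw [hπ, ← WithZero.exp_zero]
    exact WithZero.exp_lt_exp.mpr (by norm_num)
  have htr : Algebra.trdeg ℂ K = (m + 1 : ℕ) := trdeg_chart e
  set ζ : Fin (m + 1) → K := Function.update X i0 π with hζ_def
  have hζi0 : ζ i0 = π := by simp [hζ_def]
  have hζw : ∀ j, ζ (i0.succAbove j) = w j := by
    intro j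
    simp [hζ_def, hw_def, Fin.succAbove_ne]
  have hζX : ∀ i, i ≠ i0 → ζ i = X i := by
    intro i hi
    simp [hζ_def, hi]
  have hζ1 : ∀ i, v (ζ i) ≤ 1 := by
    intro i
    by_cases hi : i = i0
    · subst hi; rw [hζi0]; exact hπ1.le
    · rw [hζX i hi]; exact hP _
  have hζtb : IsTranscendenceBasis ℂ ζ := by
    have h1 := algInd_of_residual v w hw π hπ0 hπ1
    have h2 : ζ = (fun o : Option (Fin m) => o.elim π w) ∘ (finSuccEquiv' i0) := by
      ext i
      rcases Fin.eq_self_or_eq_succAbove i0 i with h | ⟨j, h⟩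
      · subst h; simp [hζi0]
      · subst h; simp [hζw]
    have h3 : AlgebraicIndependent ℂ ζ := by
      rw [h2]
      exact h1.comp _ (finSuccEquiv' i0).injective
    exact h3.isTranscendenceBasis_of_trdeg_le_of_finite (by rw [htr]; simp)
  obtain ⟨b, hb⟩ := exists_kaehler_basis ζ hζtb
  have hle : ∀ F, v (MvPolynomial.aeval X F) ≤ 1 := fun F => by rw [haeval]; exact hP _
  have hbd : ∃ k : ℕ, ∀ z, v z ≤ 1 → InN v ζ (k : ℤ) (KaehlerDifferential.D ℂ K z) := by
    obtain ⟨N, β, hβ⟩ := hbdd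
    obtain ⟨k1, hk1⟩ := exists_InN_family (v := v) b hb (fun j => KaehlerDifferential.D ℂ K (β j))
    obtain ⟨k2, hk2⟩ := exists_InN_family (v := v) b hb (fun j => KaehlerDifferential.D ℂ K (X j))
    obtain ⟨k3, hk3⟩ := exists_exp_ge_family (fun j => v (β j))
    have hQ : ∀ q : Fin N → P, InN v ζ ((k1 + k2 + k3 : ℕ) : ℤ)
        (KaehlerDifferential.D ℂ K (∑ j, algebraMap P K (q j) * β j)) := by
      intro q
      rw [map_sum]
      apply InN.sum
      intro j _
      rw [Derivation.leibniz]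
      apply InN.add
      · exact (InN.smul' (hP _) (hk1 j)).mono (by push_cast; omega)
      · have h1 : InN v ζ (k2 : ℤ) (KaehlerDifferential.D ℂ K (algebraMap P K (q j))) := by
          have h2 : algebraMap P K (q j) = MvPolynomial.aeval X (e.symm (q j)) := by
            rw [haeval]; simp
          rw [h2, D_aeval]
          exact InN.sum _ fun i _ => InN.smul' (hle _) (hk2 i)
        exact (InN.smul (hk3 j) h1).mono (by push_cast; omega)
    refine ⟨k1 + k2 + k3, fun z hz => ?_⟩
    obtain ⟨p, q, hq, hzq⟩ := hβ z hz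
    set Q := ∑ j, algebraMap P K (q j) * β j with hQdef
    have hQ0 : Q ≠ 0 := by
      intro h
      rw [h, map_zero] at hq
      exact zero_ne_one hq
    have h1 := hQ p
    rw [← hzq, Derivation.leibniz] at h1
    have h2 := h1.sub (InN.smul' hz (hQ q))
    rw [add_sub_cancel_left] at h2
    have h3 := InN.smul' (a := Q⁻¹) (by rw [map_inv₀, hq]; simp) h2
    rwa [smul_smul, inv_mul_cancel₀ hQ0, one_smul] at h3
  have hπζ : InN v ζ 0 (KaehlerDifferential.D ℂ K π) := by
    rw [← hζi0]; exact InN.basis i0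
  have hwζ : ∀ j, InN v ζ 0 (KaehlerDifferential.D ℂ K (w j)) := by
    intro j
    rw [← hζw]; exact InN.basis _
  have hlat := D_mem_lattice v w hw htr.le π hπ ζ hπζ hwζ hbd
  refine ⟨⟨hsurj, ⟨w, hw⟩⟩, dWedge ζ, ?_⟩
  have hreg := regForms_eq_span v ζ hζ1 b hb hlat
  -- the factorization of `f`
  set φ := algebraMap P K f with hφ
  have hφ0 : φ ≠ 0 := by
    rw [hφ, Ne, FaithfulSMul.algebraMap_eq_zero_iff]
    exact hf.ne_zero
  have hφ1 : v φ < 1 := (hPf f).mpr dvd_rfl
  have hvφ : v φ ≠ 0 := v.ne_zero_iff.mpr hφ0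
  obtain ⟨r, hr⟩ : ∃ r : ℕ, v φ = WithZero.exp (-((r + 1 : ℕ) : ℤ)) := by
    refine ⟨(-(WithZero.log (v φ)) - 1).toNat, ?_⟩
    have : WithZero.log (v φ) < 0 := by
      rw [WithZero.log_lt_iff_lt_exp hvφ]
      simpa using hφ1
    rw [← WithZero.exp_log hvφ, WithZero.exp_inj]
    push_cast
    rw [WithZero.log_exp, Int.toNat_of_nonneg (by omega)]
    ring
  set η := φ / π ^ (r + 1) with hη
  have hφη : φ = π ^ (r + 1) * η := by
    rw [hη]; field_simp
  have hvη : v η = 1 := by
    rw [hη, map_div₀, map_pow, hπ, hr, ← WithZero.exp_nsmul, ← WithZero.exp_sub]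
    simp
  obtain ⟨d, hd, hd'⟩ := hlat η hvη.le
  have hDφ : KaehlerDifferential.D ℂ K φ =
      ∑ j, (π ^ (r + 1) * d j + (if j = i0 then ((r + 1 : ℕ) : K) * π ^ r * η else 0)) •
        KaehlerDifferential.D ℂ K (ζ j) := by
    rw [hφη, Derivation.leibniz, Derivation.leibniz_pow, hd']
    simp only [add_smul, Finset.sum_add_distrib, ite_smul, zero_smul, Finset.sum_ite_eq',
      Finset.mem_univ, if_true, Finset.smul_sum, smul_smul, hζi0]
    congr 1
    rw [← Nat.cast_smul_eq_nsmul K r, one_smul, Nat.add_sub_cancel, smul_smul, ← add_smul, smul_smul]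
    congr 1
    push_cast
    ring
  have hDφ2 : KaehlerDifferential.D ℂ K φ =
      ∑ j, MvPolynomial.aeval X (MvPolynomial.pderiv j (e.symm f)) •
        KaehlerDifferential.D ℂ K (X j) := by
    rw [← D_aeval, haeval]; simp [hφ]
  set a := MvPolynomial.aeval X (MvPolynomial.pderiv i0 (e.symm f)) with ha
  have hva : v a = 1 := by
    apply hvF
    intro hd
    have := degreeOf_le_of_dvd i0 hd (pderiv_ne_zero i0 _ hi0)
    have := degreeOf_pderiv_lt i0 _ hi0
    omega
  have ha0 : a ≠ 0 := by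
    intro h
    rw [h, map_zero] at hva
    exact zero_ne_one hva
  set c0 := π ^ (r + 1) * d i0 + ((r + 1 : ℕ) : K) * π ^ r * η with hc0
  have hvc0 : v c0 = WithZero.exp (-(r : ℤ)) := by
    have h1 : c0 = π ^ r * (((r + 1 : ℕ) : K) * η + π * d i0) := by
      rw [hc0]; ring
    have h2 : v (((r + 1 : ℕ) : K) * η) = 1 := by
      rw [map_mul, hvη, mul_one]
      have := hw (MvPolynomial.C ((r + 1 : ℕ) : ℂ)) (by
        rw [Ne, MvPolynomial.C_eq_zero]
        exact Nat.cast_ne_zero.mpr (by omega))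
      rw [MvPolynomial.aeval_C] at this
      simpa using this
    have h3 : v (π * d i0) < 1 := by
      rw [map_mul]
      have := hd i0
      simp only [WithZero.exp_zero] at this
      exact lt_of_le_of_lt (mul_le_of_le_one_right' this) hπ1
    rw [h1, map_mul, map_pow, hπ, v.map_add_eq_of_lt_left (by rwa [h2]), h2,
      ← WithZero.exp_nsmul]
    simp
  have hwedge : a • dWedge X = c0 • dWedge ζ := by
    have h1 := alt_update_sum (exteriorPower.ιMulti K (M := Ω[K⁄ℂ]) (m + 1))
      (fun i => KaehlerDifferential.D ℂ K (X i)) i0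
      (fun j => MvPolynomial.aeval X (MvPolynomial.pderiv j (e.symm f)))
    have h2 := alt_update_sum (exteriorPower.ιMulti K (M := Ω[K⁄ℂ]) (m + 1))
      (fun i => KaehlerDifferential.D ℂ K (ζ i)) i0
      (fun j => π ^ (r + 1) * d j + (if j = i0 then ((r + 1 : ℕ) : K) * π ^ r * η else 0))
    rw [← hDφ2] at h1
    rw [← hDφ, if_pos rfl] at h2
    have h3 : Function.update (fun i => KaehlerDifferential.D ℂ K (ζ i)) i0
        (KaehlerDifferential.D ℂ K φ) = Function.update (fun i => KaehlerDifferential.D ℂ K (X i))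
          i0 (KaehlerDifferential.D ℂ K φ) := by
      ext i
      by_cases hi : i = i0
      · subst hi; simp
      · simp [hi, hζX i hi]
    rw [h3, h1] at h2
    exact h2
  refine ⟨a⁻¹ * c0, hreg, ?_, ?_⟩
  · rw [mul_smul, ← hwedge, smul_smul, inv_mul_cancel₀ ha0, one_smul]
  · rw [map_mul, map_inv₀, hva, inv_one, one_mul, hvc0, hr, ← WithZero.exp_add]
    congr 1
    push_cast
    ring

end Vale.Agent.P282
end

section

open IsLocalRing
open scoped WithZero

namespace Vale.Agent.P282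

/-- The valuations of `K` over the prime divisor `(f)` of `Spec P`. -/
structure IsPrimeVals {n : ℕ} {P : Type} (F : Type) {K : Type} [CommRing P] [Algebra ℂ P]
    [Field F] [Algebra P F] [Field K] [Algebra ℂ K] [Algebra P K] [Algebra F K]
    (e : MvPolynomial (Fin n) ℂ ≃ₐ[ℂ] P) (f : P) (V : Set (Valuation K ℤᵐ⁰)) : Prop where
  finite : V.Finite
  divisorial : ∀ v ∈ V, IsDivisorial n v
  le_one : ∀ v ∈ V, ∀ p : P, v (algebraMap P K p) ≤ 1
  lt_one : ∀ v ∈ V, ∀ p : P, v (algebraMap P K p) < 1 ↔ f ∣ p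
  forms : ∀ v ∈ V, ∃ (θ : TopForm K n) (g : K), regForms n v = Submodule.span v.integer {θ} ∧
    dWedge (fun i => algebraMap P K (e (MvPolynomial.X i))) = g • θ ∧
    v (algebraMap P K f) = v g * WithZero.exp (-1)
  integral : ∀ z : K, (∀ v ∈ V, v z ≤ 1) → ∃ s : P, ¬ f ∣ s ∧ IsIntegral P (algebraMap P K s * z)
  trace : ∀ z : K, (∀ v ∈ V, v z < 1) → ∃ s p : P, ¬ f ∣ s ∧
    algebraMap P F s * Algebra.trace F K z = algebraMap P F (f * p)
  different : ∀ g : K, (∀ z : K, IsIntegral P z →
    ∃ p : P, algebraMap P F p = Algebra.trace F K (g * z)) →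
    ∀ v ∈ V, v (g * algebraMap P K f) < 1

theorem exists_primeVals {n : ℕ} (hn : 1 ≤ n) {P F K : Type} [CommRing P] [IsDomain P]
    [Algebra ℂ P] [Field F] [Algebra P F] [IsFractionRing P F] [Field K] [Algebra ℂ K]
    [Algebra P K] [IsScalarTower ℂ P K] [Algebra F K] [IsScalarTower P F K]
    [FiniteDimensional F K] (e : MvPolynomial (Fin n) ℂ ≃ₐ[ℂ] P) (f : P) (hf : Prime f) :
    ∃ V : Set (Valuation K ℤᵐ⁰), IsPrimeVals F e f V := by
  obtain ⟨m, rfl⟩ : ∃ m, n = m + 1 := ⟨n - 1, by omega⟩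
  have hnoeth : IsNoetherianRing P := isNoetherianRing_of_ringEquiv _ e.toRingEquiv
  have hchar : CharZero K := charZero_of_injective_algebraMap (algebraMap ℂ K).injective
  have hinj : Function.Injective (algebraMap P K) := by
    rw [IsScalarTower.algebraMap_eq P F K]
    exact (algebraMap F K).injective.comp (IsFractionRing.injective P F)
  have hfaith : FaithfulSMul P K := (faithfulSMul_iff_algebraMap_injective _ _).mpr hinj
  have halg : Algebra.IsAlgebraic P K :=
    (IsFractionRing.comap_isAlgebraic_iff (A := P) (K := F) (C := K)).mpr inferInstance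
  obtain ⟨V, hV1, hV2, hV3, hV4, hV5⟩ := dedekind_chart (P := P) (F := F) (K := K) f hf
  refine ⟨V, hV1, fun v hv => ?_, fun v hv => (hV2 v hv).2.1, fun v hv => (hV2 v hv).2.2.1,
    fun v hv => ?_, hV3, hV4, hV5⟩
  · obtain ⟨h1, h2, h3, h4⟩ := hV2 v hv
    exact (forms_main e f hf v h1 h2 h3 h4).1
  · obtain ⟨h1, h2, h3, h4⟩ := hV2 v hv
    exact (forms_main e f hf v h1 h2 h3 h4).2

end Vale.Agent.P282
end

section

open scoped NNReal ENNReal Nat WithZero
open IsLocalRing

namespace Vale.Agent.P282.Full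

variable {n r : ℕ} {R K R' K' : Type} [CommRing R] [IsDomain R] [IsLocalRing R] [Algebra ℂ R]
  [Field K] [Algebra ℂ K] [Algebra R K] [IsScalarTower ℂ R K] [IsFractionRing R K]
  [CommRing R'] [IsDomain R'] [IsLocalRing R'] [Algebra ℂ R']
  [Field K'] [Algebra ℂ K'] [Algebra R' K'] [IsScalarTower ℂ R' K'] [IsFractionRing R' K']
  [Algebra K K'] [IsScalarTower ℂ K K'] [Algebra R R'] [Algebra R K'] [IsScalarTower R R' K']
  [IsScalarTower R K K'] [IsScalarTower ℂ R R']

theorem transfer_tb {F : Type} [Field F] [Algebra ℂ F] (hdim : Algebra.trdeg ℂ F = n) :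
    ∃ x : Fin n → F, IsTranscendenceBasis ℂ x := by
  have h2 : FaithfulSMul ℂ F := (faithfulSMul_iff_algebraMap_injective _ _).mpr
    (algebraMap ℂ F).injective
  obtain ⟨ι, x, hx⟩ := exists_isTranscendenceBasis' ℂ F
  have h3 : Cardinal.mk ι = n := by rw [hx.cardinalMk_eq_trdeg, hdim]
  have h4 : Nonempty (Fin n ≃ ι) := by
    rw [← Cardinal.eq, h3]; simp
  obtain ⟨e⟩ := h4
  exact ⟨_, hx.comp_equiv e⟩

theorem transfer_repr {F : Type} [Field F] [Algebra ℂ F] {x : Fin n → F}
    (b : Module.Basis (Fin n) F (Ω[F⁄ℂ]))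
    (hb : ∀ i, b i = KaehlerDifferential.D ℂ F (x i)) (D : Derivation ℂ F F) (z : F) :
    D z = ∑ k, D (x k) * b.repr (KaehlerDifferential.D ℂ F z) k := by
  have h4 : ∀ z, D z = D.liftKaehlerDifferential (KaehlerDifferential.D ℂ F z) := by
    intro z
    rw [Derivation.liftKaehlerDifferential_comp_D]
  rw [h4 z]
  conv_lhs => rw [← b.sum_repr (KaehlerDifferential.D ℂ F z)]
  rw [map_sum]
  refine Finset.sum_congr rfl fun k _ => ?_
  rw [map_smul, hb, ← h4, smul_eq_mul, mul_comm]

/-- Two Jacobian determinants are proportional. -/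
theorem transfer_det {F : Type} [Field F] [Algebra ℂ F] {x : Fin n → F}
    (hx : IsTranscendenceBasis ℂ x) (D L : Fin n → Derivation ℂ F F) (b c : Fin n → F) :
    Matrix.det (Matrix.of fun i j => D i (b j)) * Matrix.det (Matrix.of fun i j => L i (c j)) =
      Matrix.det (Matrix.of fun i j => D i (c j)) *
        Matrix.det (Matrix.of fun i j => L i (b j)) := by
  obtain ⟨B, hB⟩ := exists_kaehler_basis x hx
  have key : ∀ (D : Fin n → Derivation ℂ F F) (b : Fin n → F),
      Matrix.det (Matrix.of fun i j => D i (b j)) =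
      Matrix.det (Matrix.of fun i j => D i (x j)) *
        Matrix.det (Matrix.of fun i j => B.repr (KaehlerDifferential.D ℂ F (b j)) i) := by
    intro D b
    rw [← Matrix.det_mul]
    congr 1
    ext i j
    rw [Matrix.mul_apply, Matrix.of_apply, transfer_repr B hB]
    rfl
  rw [key D b, key L c, key D c, key L b]
  ring

/-- Extension of derivations to finite separable extensions. -/
theorem exists_extend_derivation (hfin : FiniteDimensional K K') (D : Derivation ℂ K K) :
    ∃ D' : Derivation ℂ K' K', ∀ a : K, D' (algebraMap K K' a) = algebraMap K K' (D a) := by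
  have _ : CharZero K := charZero_of_injective_algebraMap (R := ℂ) (algebraMap ℂ K).injective
  have _ : Algebra.FormallyEtale K K' := Algebra.FormallyEtale.of_isSeparable _ _
  let g : (Ω[K⁄ℂ]) →ₗ[K] K' := (Algebra.linearMap K K') ∘ₗ D.liftKaehlerDifferential
  let ℓ : TensorProduct K K' (Ω[K⁄ℂ]) →ₗ[K'] K' := LinearMap.liftBaseChange K' g
  let e := KaehlerDifferential.tensorKaehlerEquivOfFormallyEtale ℂ K K'
  refine ⟨KaehlerDifferential.linearMapEquivDerivation ℂ K' (M := K') (ℓ ∘ₗ e.symm.toLinearMap),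
    fun a => ?_⟩
  have h1 : KaehlerDifferential.linearMapEquivDerivation ℂ K' (M := K')
      (ℓ ∘ₗ e.symm.toLinearMap) (algebraMap K K' a) =
      ℓ (e.symm (KaehlerDifferential.D ℂ K' (algebraMap K K' a))) := rfl
  rw [h1, KaehlerDifferential.tensorKaehlerEquivOfFormallyEtale_symm_D_algebraMap,
    LinearMap.liftBaseChange_tmul, one_smul]
  change algebraMap K K' (D.liftKaehlerDifferential (KaehlerDifferential.D ℂ K a)) = _
  rw [Derivation.liftKaehlerDifferential_comp_D]

/-- Extension of a frame. -/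
theorem transfer_extend (hfin : FiniteDimensional K K') (L : Fin n → Derivation ℂ K K) :
    ∃ L' : Fin n → Derivation ℂ K' K', ∀ b : Fin n → K,
      Matrix.det (Matrix.of fun i j => L' i (algebraMap K K' (b j))) =
        algebraMap K K' (Matrix.det (Matrix.of fun i j => L i (b j))) := by
  choose L' hL' using fun i => exists_extend_derivation hfin (L i)
  refine ⟨L', fun b => ?_⟩
  rw [RingHom.map_det]
  congr 1
  ext i j
  rw [Matrix.of_apply, hL']
  rfl

/-- The form on the cover is a nonzero form. -/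
theorem coverForm_isPluriForm (hfin : FiniteDimensional K K') (hr : 0 < r)
    {ω : (Fin n → Derivation ℂ K K) → K} {g : K} {b : Fin n → K} (h0 : ∃ D, ω D ≠ 0)
    (hω : ∀ D, ω D = g * Matrix.det (Matrix.of fun i j => D i (b j)) ^ r) {ε : K'}
    (hε : ε ^ r = algebraMap K K' g) : IsPluriForm n 1 (coverForm ε b) := by
  obtain ⟨L, hL⟩ := h0
  rw [hω] at hL
  have hg : g ≠ 0 := left_ne_zero_of_mul hL
  have hdet : Matrix.det (Matrix.of fun i j => L i (b j)) ≠ 0 := by
    intro h
    apply right_ne_zero_of_mul hL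
    rw [h, zero_pow hr.ne']
  have hε0 : ε ≠ 0 := by
    rintro rfl
    rw [zero_pow hr.ne'] at hε
    exact hg ((map_eq_zero (algebraMap K K')).1 hε.symm)
  obtain ⟨L', hL'⟩ := transfer_extend hfin L
  refine ⟨⟨L', ?_⟩, ε, fun j => algebraMap K K' (b j), fun D => ?_⟩
  · unfold coverForm
    rw [hL' b]
    exact mul_ne_zero hε0 ((map_ne_zero (algebraMap K K')).2 hdet)
  · rw [pow_one]
    rfl

/-- Comparison of the log discrepancies. -/
theorem logSet_cover (hdim : Algebra.trdeg ℂ K = n) (hess : Algebra.EssFiniteType ℂ K)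
    (hfin : FiniteDimensional K K') (hr : 0 < r)
    {ω : (Fin n → Derivation ℂ K K) → K} {g : K} {b : Fin n → K} (h0 : ∃ D, ω D ≠ 0)
    (hω : ∀ D, ω D = g * Matrix.det (Matrix.of fun i j => D i (b j)) ^ r) {ε : K'}
    (hε : ε ^ r = algebraMap K K' g) (v : Valuation K' ℝ≥0) :
    logSet n r ω (v.comap (algebraMap K K')) ⊆ logSet n 1 (coverForm ε b) v := by
  rintro t ⟨c, h, hc, hD, rfl⟩
  obtain ⟨L, hL⟩ := h0
  have hcL := hD L
  have hP : (∏ i, c i) ≠ 0 := Finset.prod_ne_zero_iff.mpr fun i _ => hc i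
  have hδc : Matrix.det (Matrix.of fun i j => L i (c j)) ≠ 0 := by
    intro h1
    rw [h1, zero_pow hr.ne', mul_zero] at hcL
    exact (mul_ne_zero (pow_ne_zero _ hP) hL) hcL
  obtain ⟨x, hx⟩ := transfer_tb (n := n) hdim
  have hx' : IsTranscendenceBasis ℂ (algebraMap K K' ∘ x) := hx.algebraMap_comp (A := K')
  obtain ⟨L', hL'⟩ := transfer_extend hfin L
  set δc := Matrix.det (Matrix.of fun i j => L i (c j)) with hδcdef
  set δb := Matrix.det (Matrix.of fun i j => L i (b j)) with hδbdef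
  have hδc' : algebraMap K K' δc ≠ 0 := (map_ne_zero (algebraMap K K')).2 hδc
  -- the coefficient
  set h' : K' := algebraMap K K' (∏ i, c i) * ε * algebraMap K K' δb / algebraMap K K' δc with hh'
  have hpow : h' ^ r = algebraMap K K' h := by
    rw [hh', div_pow, mul_pow, mul_pow, hε, ← map_pow, ← map_pow, ← map_pow, ← map_mul, ← map_mul]
    rw [div_eq_iff (by rw [map_pow]; exact pow_ne_zero _ hδc'), ← map_mul]
    congr 1
    rw [← hcL, hω L]
    ring
  refine ⟨fun i => algebraMap K K' (c i), h', fun i => (map_ne_zero (algebraMap K K')).2 (hc i),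
    fun D' => ?_, ?_⟩
  · rw [pow_one, pow_one]
    have h1 := transfer_det hx' D' L' (fun j => algebraMap K K' (b j))
      (fun j => algebraMap K K' (c j))
    rw [hL' c, hL' b] at h1
    unfold coverForm
    rw [hh', ← map_prod, div_mul_eq_mul_div, eq_div_iff hδc']
    calc algebraMap K K' (∏ i, c i) * (ε * Matrix.det (Matrix.of fun i j =>
          D' i (algebraMap K K' (b j)))) * algebraMap K K' δc
        = algebraMap K K' (∏ i, c i) * ε * (Matrix.det (Matrix.of fun i j =>
          D' i (algebraMap K K' (b j))) * algebraMap K K' δc) := by ring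
      _ = algebraMap K K' (∏ i, c i) * ε * (Matrix.det (Matrix.of fun i j =>
          D' i (algebraMap K K' (c j))) * algebraMap K K' δb) := by rw [h1]
      _ = _ := by ring
  · have h2 : ((v.comap (algebraMap K K')) h : ℝ) = (v h' : ℝ) ^ r := by
      rw [Valuation.comap_apply, ← hpow, map_pow, NNReal.coe_pow]
    have hr' : (r : ℝ) ≠ 0 := by exact_mod_cast hr.ne'
    rw [h2, Real.log_pow, Nat.cast_one, div_one]
    field_simp

/-- The log set is not empty. -/
theorem logSet_nonempty (hdim : Algebra.trdeg ℂ K = n) (hess : Algebra.EssFiniteType ℂ K)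
    (hr : 0 < r) {ω : (Fin n → Derivation ℂ K K) → K} (hω : IsPluriForm n r ω)
    (v : Valuation K ℝ≥0) : (logSet n r ω v).Nonempty := by
  obtain ⟨⟨L, hL⟩, g, b, hgb⟩ := hω
  have hb : ∀ j, b j ≠ 0 := by
    intro j hj
    apply hL
    rw [hgb L, Matrix.det_eq_zero_of_column_eq_zero j (fun i => ?_), zero_pow hr.ne', mul_zero]
    rw [Matrix.of_apply, hj, map_zero]
  refine ⟨_, b, (∏ i, b i) ^ r * g, hb, fun D => ?_, rfl⟩
  rw [hgb D]
  ring

end Vale.Agent.P282.Full
end

section

open scoped NNReal ENNReal Nat WithZero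
open IsLocalRing

namespace Vale.Agent.P282.Full

open Vale.Agent.P282.L2

/-- The determinant of a matrix which differs from the identity in one column only. -/
theorem det_one_column {K : Type} [Field K] {n : ℕ} (A : Matrix (Fin n) (Fin n) K) (i0 : Fin n)
    (h : ∀ i j, j ≠ i0 → A i j = if i = j then 1 else 0) : A.det = A i0 i0 := by
  classical
  have h1 : A = (1 : Matrix (Fin n) (Fin n) K).updateCol i0 (fun i => A i i0) := by
    ext i j
    by_cases hj : j = i0
    · subst hj
      rw [Matrix.updateCol_self]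
    · rw [Matrix.updateCol_ne hj, h i j hj, Matrix.one_apply]
  have h2 := Matrix.cramer_apply (1 : Matrix (Fin n) (Fin n) K) (fun i => A i i0) i0
  rw [Matrix.cramer_one] at h2
  rw [← h1] at h2
  rw [← h2]
  rfl

/-- The derivation dual to a member of a basis of the differentials. -/
noncomputable def dualDer {K : Type} [Field K] [Algebra ℂ K] {n : ℕ}
    (b : Module.Basis (Fin n) K (Ω[K⁄ℂ])) (i : Fin n) : Derivation ℂ K K :=
  KaehlerDifferential.linearMapEquivDerivation ℂ K (M := K) (b.coord i)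

theorem dualDer_apply {K : Type} [Field K] [Algebra ℂ K] {n : ℕ}
    (b : Module.Basis (Fin n) K (Ω[K⁄ℂ])) (i : Fin n) (z : K) :
    dualDer b i z = b.repr (KaehlerDifferential.D ℂ K z) i := rfl

/-- The logarithmic frame attached to a uniformizer and residually algebraically independent
elements. -/
theorem logFrame_of_lattice {K : Type} [Field K] [Algebra ℂ K] {n : ℕ} (v : Valuation K ℤᵐ⁰)
    (i0 : Fin n) (π : K) (hπ : v π = WithZero.exp (-1 : ℤ)) (ζ : Fin n → K) (hζ0 : ζ i0 = π)
    (hζ : ∀ i, i ≠ i0 → v (ζ i) = 1) (b : Module.Basis (Fin n) K (Ω[K⁄ℂ]))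
    (hb : ∀ i, b i = KaehlerDifferential.D ℂ K (ζ i))
    (hlat : ∀ z, v z ≤ 1 → InN v ζ 0 (KaehlerDifferential.D ℂ K z))
    (hnat : ∀ k : ℕ, v (k : K) ≤ 1) :
    ∃ L : Fin n → Derivation ℂ K K, LogFrame v L ζ ∧ ∀ X : Fin n → K,
      (∀ i, i ≠ i0 → X i = ζ i) →
      Matrix.det (Matrix.of fun i j => L i (X j)) =
        π * b.repr (KaehlerDifferential.D ℂ K (X i0)) i0 := by
  classical
  have hπ0 : π ≠ 0 := by
    rintro rfl
    rw [map_zero] at hπ
    exact WithZero.exp_ne_zero hπ.symm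
  have hπ1 : v π ≤ 1 := by
    rw [hπ, ← WithZero.exp_zero]
    exact WithZero.exp_le_exp.mpr (by norm_num)
  have hdζ : ∀ i j, dualDer b i (ζ j) = if i = j then 1 else 0 := by
    intro i j
    rw [dualDer_apply, ← hb, Module.Basis.repr_self, Finsupp.single_apply]
    simp [eq_comm]
  have hd1 : ∀ i z, v z ≤ 1 → v (dualDer b i z) ≤ 1 := by
    intro i z hz
    obtain ⟨d, hd, hd'⟩ := hlat z hz
    have h3 : KaehlerDifferential.D ℂ K z = ∑ i, d i • b i := by
      rw [hd']; simp [hb]
    rw [dualDer_apply, h3, Module.Basis.repr_sum_self]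
    simpa using hd i
  set L : Fin n → Derivation ℂ K K := fun i => if i = i0 then π • dualDer b i else dualDer b i
    with hL
  have hL0 : ∀ z, L i0 z = π * dualDer b i0 z := by
    intro z
    simp only [hL, if_true]
    rfl
  have hL1 : ∀ i, i ≠ i0 → ∀ z, L i z = dualDer b i z := by
    intro i hi z
    simp only [hL, if_neg hi]
  -- the bound for elements of value at most one
  have hle1 : ∀ i, ∀ z, z ≠ 0 → v z ≤ 1 → v (L i z) ≤ v z := by
    intro i z hz hz1
    have hvz : v z ≠ 0 := v.ne_zero_iff.mpr hz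
    obtain ⟨k, hk⟩ : ∃ k : ℕ, v z = WithZero.exp (-(k : ℤ)) := by
      refine ⟨(-(WithZero.log (v z))).toNat, ?_⟩
      have : WithZero.log (v z) ≤ 0 := by
        rw [WithZero.log_le_iff_le_exp hvz]
        simpa using hz1
      rw [Int.toNat_of_nonneg (by omega), neg_neg, WithZero.exp_log hvz]
    set u := z / π ^ k with hu
    have hzu : z = π ^ k * u := by
      rw [hu]; field_simp
    have hvk : v (π ^ k) = WithZero.exp (-(k : ℤ)) := by
      rw [map_pow, hπ, ← WithZero.exp_nsmul]
      simp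
    have hvu : v u = 1 := by
      rw [hu, map_div₀, hvk, hk, div_self WithZero.exp_ne_zero]
    have hpow : v π ^ k ≤ 1 := pow_le_one' hπ1 k
    by_cases hi : i = i0
    · subst hi
      have h1 : L i z = (k : K) * z + π ^ k * (π * dualDer b i u) := by
        rw [hL0, hzu, Derivation.leibniz, Derivation.leibniz_pow]
        have h2 : dualDer b i π = 1 := by
          rw [← hζ0, hdζ]; simp
        rw [h2]
        simp only [smul_eq_mul, nsmul_eq_mul, mul_one]
        rcases k with _ | k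
        · simp
        · rw [Nat.add_sub_cancel]
          ring
      rw [h1]
      refine v.map_add_le ?_ ?_
      · rw [map_mul]
        exact mul_le_of_le_one_left' (hnat k)
      · rw [map_mul, map_mul, hvk, ← hk]
        exact mul_le_of_le_one_right' (mul_le_one' hπ1 (hd1 i u hvu.le))
    · have h1 : L i z = π ^ k * dualDer b i u := by
        rw [hL1 i hi, hzu, Derivation.leibniz, Derivation.leibniz_pow]
        have h2 : dualDer b i π = 0 := by
          rw [← hζ0, hdζ, if_neg hi]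
        rw [h2]
        simp
      rw [h1, map_mul, hvk, ← hk]
      exact mul_le_of_le_one_right' (hd1 i u hvu.le)
  refine ⟨L, ⟨?_, ?_, ?_⟩, ?_⟩
  · intro i z
    by_cases hz : z = 0
    · subst hz
      simp
    · rcases le_total (v z) 1 with h1 | h1
      · exact hle1 i z hz h1
      · have hvz : v z ≠ 0 := v.ne_zero_iff.mpr hz
        have h2 : v z⁻¹ ≤ 1 := by
          rw [map_inv₀]
          exact inv_le_one_of_one_le₀ h1
        have h3 := hle1 i z⁻¹ (inv_ne_zero hz) h2
        have h4 : L i z = -z ^ 2 * L i z⁻¹ := by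
          have := (L i).leibniz_inv z⁻¹
          rw [inv_inv] at this
          simpa using this
        rw [h4, map_mul, Valuation.map_neg, map_pow]
        calc v z ^ 2 * v (L i z⁻¹) ≤ v z ^ 2 * v z⁻¹ := mul_le_mul_right h3 _
          _ = v z := by
              rw [map_inv₀, pow_two, mul_assoc, mul_inv_cancel₀ hvz, mul_one]
  · intro i
    by_cases hi : i = i0
    · subst hi
      rw [hζ0]; exact hπ0
    · intro h
      have := hζ i hi
      rw [h, map_zero] at this
      exact zero_ne_one this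
  · have h1 : Matrix.det (Matrix.of fun i j => L i (ζ j)) = L i0 (ζ i0) := by
      refine det_one_column _ i0 fun i j hj => ?_
      rw [Matrix.of_apply]
      by_cases hi : i = i0
      · subst hi
        rw [hL0, hdζ, if_neg (Ne.symm hj), mul_zero]
      · rw [hL1 i hi, hdζ]
    rw [h1, hL0, hdζ, if_pos rfl, mul_one, map_prod]
    rw [Finset.prod_eq_single i0 (fun i _ hi => hζ i hi) (fun h => absurd (Finset.mem_univ _) h),
      hζ0]
  · intro X hX
    have h1 : Matrix.det (Matrix.of fun i j => L i (X j)) = L i0 (X i0) := by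
      refine det_one_column _ i0 fun i j hj => ?_
      rw [Matrix.of_apply, hX j hj]
      by_cases hi : i = i0
      · subst hi
        rw [hL0, hdζ, if_neg (Ne.symm hj), mul_zero]
      · rw [hL1 i hi, hdζ]
    rw [h1, hL0]
    rfl

theorem forms_main_log {m : ℕ} {P K : Type} [CommRing P] [IsDomain P] [Algebra ℂ P]
    (e : MvPolynomial (Fin (m + 1)) ℂ ≃ₐ[ℂ] P) [Field K] [Algebra ℂ K] [Algebra P K]
    [IsScalarTower ℂ P K] [FaithfulSMul P K] [Algebra.IsAlgebraic P K]
    (f : P) (hf : Prime f) (v : Valuation K ℤᵐ⁰) (hsurj : Function.Surjective v)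
    (hP : ∀ p : P, v (algebraMap P K p) ≤ 1) (hPf : ∀ p : P, v (algebraMap P K p) < 1 ↔ f ∣ p)
    (hbdd : ∃ (N : ℕ) (β : Fin N → K), ∀ z : K, v z ≤ 1 → ∃ p q : Fin N → P,
          v (∑ j, algebraMap P K (q j) * β j) = 1 ∧
          z * (∑ j, algebraMap P K (q j) * β j) = ∑ j, algebraMap P K (p j) * β j) :
    ∃ (L : Fin (m + 1) → Derivation ℂ K K) (ζ : Fin (m + 1) → K), LogFrame v L ζ ∧
      v (Matrix.det (Matrix.of fun i j => L i (algebraMap P K (e (MvPolynomial.X j))))) =
        v (algebraMap P K f) := by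
  classical
  set X : Fin (m + 1) → K := fun i => algebraMap P K (e (MvPolynomial.X i)) with hX
  have haeval : ∀ F, MvPolynomial.aeval X F = algebraMap P K (e F) := aeval_chart e
  have hf' : Prime (e.symm f) := by
    rwa [← MulEquiv.prime_iff (e.symm : P ≃ₐ[ℂ] MvPolynomial (Fin (m + 1)) ℂ)] at hf
  have hdvd : ∀ F : MvPolynomial (Fin (m + 1)) ℂ, f ∣ e F ↔ e.symm f ∣ F := by
    intro F
    constructor
    · intro h
      simpa using map_dvd e.symm h
    · intro h
      simpa using map_dvd e h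
  have hvF : ∀ F : MvPolynomial (Fin (m + 1)) ℂ, ¬ e.symm f ∣ F →
      v (MvPolynomial.aeval X F) = 1 := by
    intro F hF
    rw [haeval]
    apply le_antisymm (hP _)
    rw [← hdvd, ← hPf] at hF
    exact not_lt.mp hF
  obtain ⟨i0, hi0⟩ := exists_degreeOf_pos hf'
  set w : Fin m → K := fun j => X (i0.succAbove j) with hw_def
  have hw : ∀ F : MvPolynomial (Fin m) ℂ, F ≠ 0 → v (MvPolynomial.aeval w F) = 1 := by
    intro F hF
    have h1 : MvPolynomial.aeval w F =
        MvPolynomial.aeval X (MvPolynomial.rename i0.succAbove F) := by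
      rw [MvPolynomial.aeval_rename]; rfl
    rw [h1]
    apply hvF
    intro hd
    have h2 : MvPolynomial.rename i0.succAbove F ≠ 0 := by
      intro h
      apply hF
      exact MvPolynomial.rename_injective _ Fin.succAbove_right_injective (by simpa using h)
    have h3 := degreeOf_le_of_dvd i0 hd h2
    have h4 : MvPolynomial.degreeOf i0 (MvPolynomial.rename i0.succAbove F) = 0 := by
      by_contra h
      have h5 : i0 ∈ (MvPolynomial.rename i0.succAbove F).vars :=
        MvPolynomial.mem_vars_iff_degreeOf_ne_zero.mpr h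
      have h6 := MvPolynomial.vars_rename _ _ h5
      rw [Finset.mem_image] at h6
      obtain ⟨j, _, hj⟩ := h6
      exact Fin.succAbove_ne i0 j hj
    omega
  obtain ⟨π, hπ⟩ := hsurj (WithZero.exp (-1 : ℤ))
  have hπ0 : π ≠ 0 := by
    rintro rfl
    rw [map_zero] at hπ
    exact WithZero.exp_ne_zero hπ.symm
  have hπ1 : v π < 1 := by
    rw [hπ, ← WithZero.exp_zero]
    exact WithZero.exp_lt_exp.mpr (by norm_num)
  have htr : Algebra.trdeg ℂ K = (m + 1 : ℕ) := trdeg_chart e
  set ζ : Fin (m + 1) → K := Function.update X i0 π with hζ_def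
  have hζi0 : ζ i0 = π := by simp [hζ_def]
  have hζw : ∀ j, ζ (i0.succAbove j) = w j := by
    intro j
    simp [hζ_def, hw_def, Fin.succAbove_ne]
  have hζX : ∀ i, i ≠ i0 → ζ i = X i := by
    intro i hi
    simp [hζ_def, hi]
  have hζ1 : ∀ i, v (ζ i) ≤ 1 := by
    intro i
    by_cases hi : i = i0
    · subst hi; rw [hζi0]; exact hπ1.le
    · rw [hζX i hi]; exact hP _
  have hζtb : IsTranscendenceBasis ℂ ζ := by
    have h1 := algInd_of_residual v w hw π hπ0 hπ1
    have h2 : ζ = (fun o : Option (Fin m) => o.elim π w) ∘ (finSuccEquiv' i0) := by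
      ext i
      rcases Fin.eq_self_or_eq_succAbove i0 i with h | ⟨j, h⟩
      · subst h; simp [hζi0]
      · subst h; simp [hζw]
    have h3 : AlgebraicIndependent ℂ ζ := by
      rw [h2]
      exact h1.comp _ (finSuccEquiv' i0).injective
    exact h3.isTranscendenceBasis_of_trdeg_le_of_finite (by rw [htr]; simp)
  obtain ⟨b, hb⟩ := exists_kaehler_basis ζ hζtb
  have hle : ∀ F, v (MvPolynomial.aeval X F) ≤ 1 := fun F => by rw [haeval]; exact hP _
  have hbd : ∃ k : ℕ, ∀ z, v z ≤ 1 → InN v ζ (k : ℤ) (KaehlerDifferential.D ℂ K z) := by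
    obtain ⟨N, β, hβ⟩ := hbdd
    obtain ⟨k1, hk1⟩ := exists_InN_family (v := v) b hb (fun j => KaehlerDifferential.D ℂ K (β j))
    obtain ⟨k2, hk2⟩ := exists_InN_family (v := v) b hb (fun j => KaehlerDifferential.D ℂ K (X j))
    obtain ⟨k3, hk3⟩ := exists_exp_ge_family (fun j => v (β j))
    have hQ : ∀ q : Fin N → P, InN v ζ ((k1 + k2 + k3 : ℕ) : ℤ)
        (KaehlerDifferential.D ℂ K (∑ j, algebraMap P K (q j) * β j)) := by
      intro q
      rw [map_sum]
      apply InN.sum
      intro j _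
      rw [Derivation.leibniz]
      apply InN.add
      · exact (InN.smul' (hP _) (hk1 j)).mono (by push_cast; omega)
      · have h1 : InN v ζ (k2 : ℤ) (KaehlerDifferential.D ℂ K (algebraMap P K (q j))) := by
          have h2 : algebraMap P K (q j) = MvPolynomial.aeval X (e.symm (q j)) := by
            rw [haeval]; simp
          rw [h2, D_aeval]
          exact InN.sum _ fun i _ => InN.smul' (hle _) (hk2 i)
        exact (InN.smul (hk3 j) h1).mono (by push_cast; omega)
    refine ⟨k1 + k2 + k3, fun z hz => ?_⟩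
    obtain ⟨p, q, hq, hzq⟩ := hβ z hz
    set Q := ∑ j, algebraMap P K (q j) * β j with hQdef
    have hQ0 : Q ≠ 0 := by
      intro h
      rw [h, map_zero] at hq
      exact zero_ne_one hq
    have h1 := hQ p
    rw [← hzq, Derivation.leibniz] at h1
    have h2 := h1.sub (InN.smul' hz (hQ q))
    rw [add_sub_cancel_left] at h2
    have h3 := InN.smul' (a := Q⁻¹) (by rw [map_inv₀, hq]; simp) h2
    rwa [smul_smul, inv_mul_cancel₀ hQ0, one_smul] at h3
  have hπζ : InN v ζ 0 (KaehlerDifferential.D ℂ K π) := by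
    rw [← hζi0]; exact InN.basis i0
  have hwζ : ∀ j, InN v ζ 0 (KaehlerDifferential.D ℂ K (w j)) := by
    intro j
    rw [← hζw]; exact InN.basis _
  have hlat := D_mem_lattice v w hw htr.le π hπ ζ hπζ hwζ hbd
  -- the frame
  have hζv : ∀ i, i ≠ i0 → v (ζ i) = 1 := by
    intro i hi
    obtain ⟨j, rfl⟩ := Fin.exists_succAbove_eq hi
    have h1 := hw (MvPolynomial.X j) (MvPolynomial.X_ne_zero j)
    rw [MvPolynomial.aeval_X] at h1
    rw [hζw]
    exact h1
  have hnat : ∀ k : ℕ, v (k : K) ≤ 1 := by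
    intro k
    have h1 := hP (k : P)
    rwa [map_natCast] at h1
  obtain ⟨L, hL, hdet⟩ := logFrame_of_lattice v i0 π hπ ζ hζi0 hζv b hb hlat hnat
  refine ⟨L, ζ, hL, ?_⟩
  rw [hdet X fun i hi => (hζX i hi).symm]
  -- the factorization of `f`
  set fK := algebraMap P K f with hfK
  have hfK0 : fK ≠ 0 := by
    rw [hfK, Ne, FaithfulSMul.algebraMap_eq_zero_iff]
    exact hf.ne_zero
  have hfK1 : v fK < 1 := (hPf f).mpr dvd_rfl
  have hvfK : v fK ≠ 0 := v.ne_zero_iff.mpr hfK0
  obtain ⟨r, hr⟩ : ∃ r : ℕ, v fK = WithZero.exp (-((r + 1 : ℕ) : ℤ)) := by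
    refine ⟨(-(WithZero.log (v fK)) - 1).toNat, ?_⟩
    have : WithZero.log (v fK) < 0 := by
      rw [WithZero.log_lt_iff_lt_exp hvfK]
      simpa using hfK1
    rw [← WithZero.exp_log hvfK, WithZero.exp_inj]
    push_cast
    rw [WithZero.log_exp, Int.toNat_of_nonneg (by omega)]
    ring
  set η := fK / π ^ (r + 1) with hη
  have hfKη : fK = π ^ (r + 1) * η := by
    rw [hη]; field_simp
  have hvη : v η = 1 := by
    rw [hη, map_div₀, map_pow, hπ, hr, ← WithZero.exp_nsmul, ← WithZero.exp_sub]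
    simp
  obtain ⟨d, hd, hd'⟩ := hlat η hvη.le
  have hDfK : KaehlerDifferential.D ℂ K fK =
      ∑ j, (π ^ (r + 1) * d j + (if j = i0 then ((r + 1 : ℕ) : K) * π ^ r * η else 0)) •
        KaehlerDifferential.D ℂ K (ζ j) := by
    rw [hfKη, Derivation.leibniz, Derivation.leibniz_pow, hd']
    simp only [add_smul, Finset.sum_add_distrib, ite_smul, zero_smul, Finset.sum_ite_eq',
      Finset.mem_univ, if_true, Finset.smul_sum, smul_smul, hζi0]
    congr 1
    rw [← Nat.cast_smul_eq_nsmul K r, one_smul, Nat.add_sub_cancel, smul_smul, ← add_smul, smul_smul]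
    congr 1
    push_cast
    ring
  have hDfK2 : KaehlerDifferential.D ℂ K fK =
      ∑ j, MvPolynomial.aeval X (MvPolynomial.pderiv j (e.symm f)) •
        KaehlerDifferential.D ℂ K (X j) := by
    rw [← D_aeval, haeval]; simp [hfK]
  set a := MvPolynomial.aeval X (MvPolynomial.pderiv i0 (e.symm f)) with ha
  have hva : v a = 1 := by
    apply hvF
    intro hd
    have := degreeOf_le_of_dvd i0 hd (pderiv_ne_zero i0 _ hi0)
    have := degreeOf_pderiv_lt i0 _ hi0
    omega
  set c0 := π ^ (r + 1) * d i0 + ((r + 1 : ℕ) : K) * π ^ r * η with hc0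
  have hvc0 : v c0 = WithZero.exp (-(r : ℤ)) := by
    have h1 : c0 = π ^ r * (((r + 1 : ℕ) : K) * η + π * d i0) := by
      rw [hc0]; ring
    have h2 : v (((r + 1 : ℕ) : K) * η) = 1 := by
      rw [map_mul, hvη, mul_one]
      have := hw (MvPolynomial.C ((r + 1 : ℕ) : ℂ)) (by
        rw [Ne, MvPolynomial.C_eq_zero]
        exact Nat.cast_ne_zero.mpr (by omega))
      rw [MvPolynomial.aeval_C] at this
      simpa using this
    have h3 : v (π * d i0) < 1 := by
      rw [map_mul]
      have := hd i0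
      simp only [WithZero.exp_zero] at this
      exact lt_of_le_of_lt (mul_le_of_le_one_right' this) hπ1
    rw [h1, map_mul, map_pow, hπ, v.map_add_eq_of_lt_left (by rwa [h2]), h2,
      ← WithZero.exp_nsmul]
    simp
  have hrX : ∀ j, j ≠ i0 → b.repr (KaehlerDifferential.D ℂ K (X j)) i0 = 0 := by
    intro j hj
    rw [← hζX j hj, ← hb, Module.Basis.repr_self, Finsupp.single_apply, if_neg hj]
  have hkey : c0 = a * b.repr (KaehlerDifferential.D ℂ K (X i0)) i0 := by
    have h1 : b.repr (KaehlerDifferential.D ℂ K fK) i0 = c0 := by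
      have h2 : KaehlerDifferential.D ℂ K fK =
          ∑ j, (π ^ (r + 1) * d j + (if j = i0 then ((r + 1 : ℕ) : K) * π ^ r * η else 0)) •
            b j := by
        rw [hDfK]; simp only [hb]
      rw [h2, Module.Basis.repr_sum_self, if_pos rfl]
    have h3 : b.repr (KaehlerDifferential.D ℂ K fK) i0 =
        a * b.repr (KaehlerDifferential.D ℂ K (X i0)) i0 := by
      rw [hDfK2, map_sum, Finsupp.finsetSum_apply, Finset.sum_eq_single i0]
      · rw [map_smul, Finsupp.smul_apply, smul_eq_mul]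
      · intro j _ hj
        rw [map_smul, Finsupp.smul_apply, hrX j hj, smul_zero]
      · intro h
        exact absurd (Finset.mem_univ _) h
    rw [← h1, h3]
  have hvr : v (b.repr (KaehlerDifferential.D ℂ K (X i0)) i0) = WithZero.exp (-(r : ℤ)) := by
    have h1 := congrArg v hkey
    rw [map_mul, hva, one_mul, hvc0] at h1
    exact h1.symm
  rw [map_mul, hπ, hvr, hr, ← WithZero.exp_add]
  congr 1
  push_cast
  ring

/-- The prime divisors over a prime divisor of affine space, with logarithmic frames. -/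
theorem exists_primeVals_log {n : ℕ} (hn : 1 ≤ n) {P F K : Type} [CommRing P] [IsDomain P]
    [Algebra ℂ P] [Field F] [Algebra P F] [IsFractionRing P F] [Field K] [Algebra ℂ K]
    [Algebra P K] [IsScalarTower ℂ P K] [Algebra F K] [IsScalarTower P F K]
    [FiniteDimensional F K] (e : MvPolynomial (Fin n) ℂ ≃ₐ[ℂ] P) (f : P) (hf : Prime f) :
    ∃ V : Set (Valuation K ℤᵐ⁰), IsPrimeVals F e f V ∧ ∀ v ∈ V,
      ∃ (L : Fin n → Derivation ℂ K K) (ζ : Fin n → K), LogFrame v L ζ ∧
        v (Matrix.det (Matrix.of fun i j => L i (algebraMap P K (e (MvPolynomial.X j))))) =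
          v (algebraMap P K f) := by
  obtain ⟨m, rfl⟩ : ∃ m, n = m + 1 := ⟨n - 1, by omega⟩
  have hnoeth : IsNoetherianRing P := isNoetherianRing_of_ringEquiv _ e.toRingEquiv
  have hchar : CharZero K := charZero_of_injective_algebraMap (algebraMap ℂ K).injective
  have hinj : Function.Injective (algebraMap P K) := by
    rw [IsScalarTower.algebraMap_eq P F K]
    exact (algebraMap F K).injective.comp (IsFractionRing.injective P F)
  have hfaith : FaithfulSMul P K := (faithfulSMul_iff_algebraMap_injective _ _).mpr hinj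
  have halg : Algebra.IsAlgebraic P K :=
    (IsFractionRing.comap_isAlgebraic_iff (A := P) (K := F) (C := K)).mpr inferInstance
  obtain ⟨V, hV1, hV2, hV3, hV4, hV5⟩ := dedekind_chart (P := P) (F := F) (K := K) f hf
  refine ⟨V, ⟨hV1, fun v hv => ?_, fun v hv => (hV2 v hv).2.1, fun v hv => (hV2 v hv).2.2.1,
    fun v hv => ?_, hV3, hV4, hV5⟩, fun v hv => ?_⟩
  · obtain ⟨h1, h2, h3, h4⟩ := hV2 v hv
    exact (forms_main e f hf v h1 h2 h3 h4).1
  · obtain ⟨h1, h2, h3, h4⟩ := hV2 v hv
    exact (forms_main e f hf v h1 h2 h3 h4).2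
  · obtain ⟨h1, h2, h3, h4⟩ := hV2 v hv
    exact forms_main_log e f hf v h1 h2 h3 h4

end Vale.Agent.P282.Full
end

section

open scoped WithZero
open Polynomial

namespace Vale.Agent.P282

section hartogs

variable {P F K : Type} [CommRing P] [IsDomain P] [UniqueFactorizationMonoid P]
  [Field F] [Algebra P F] [IsFractionRing P F] [Field K] [Algebra F K] [Algebra P K]
  [IsScalarTower P F K]

omit [Field K] [Algebra F K] [Algebra P K] [IsScalarTower P F K] in
theorem mem_of_forall_prime (c : F)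
    (h : ∀ f : P, Prime f → ∃ s p : P, ¬ f ∣ s ∧ algebraMap P F s * c = algebraMap P F p) :
    ∃ p, algebraMap P F p = c := by
  by_cases hu : IsUnit (IsFractionRing.den P c : P)
  · obtain ⟨p, hp⟩ := IsFractionRing.isInteger_of_isUnit_den hu
    exact ⟨p, hp⟩
  · exfalso
    have hd0 : (IsFractionRing.den P c : P) ≠ 0 := nonZeroDivisors.coe_ne_zero _
    obtain ⟨f, hf, hfd⟩ := WfDvdMonoid.exists_irreducible_factor hu hd0
    have hf' := hf.prime
    obtain ⟨s, p, hs, hsp⟩ := h f hf'
    have h1 : s * IsFractionRing.num P c = p * IsFractionRing.den P c := by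
      apply IsFractionRing.injective P F
      rw [map_mul, map_mul, ← hsp]
      have h2 := IsFractionRing.mk'_num_den (A := P) c
      have h3 : algebraMap P F (IsFractionRing.num P c) =
          c * algebraMap P F (IsFractionRing.den P c) := by
        have h4 := IsLocalization.mk'_spec F (IsFractionRing.num P c) (IsFractionRing.den P c)
        rw [h2] at h4
        exact h4.symm
      rw [h3]; ring
    have h4 : f ∣ s * IsFractionRing.num P c := by
      rw [h1]; exact hfd.mul_left p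
    rcases hf'.dvd_or_dvd h4 with h5 | h5
    · exact hs h5
    · exact hf.not_isUnit (IsFractionRing.num_den_reduced P c h5 hfd)

theorem isIntegral_of_forall_prime [FiniteDimensional F K] (z : K)
    (h : ∀ f : P, Prime f → ∃ s : P, ¬ f ∣ s ∧ IsIntegral P (algebraMap P K s * z)) :
    IsIntegral P z := by
  classical
  have hz : IsIntegral F z := IsIntegral.of_finite F z
  have hcoeff : ∀ i, ∃ p, algebraMap P F p = (minpoly F z).coeff i := by
    intro i
    apply mem_of_forall_prime
    intro f hf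
    obtain ⟨s, hs, hint⟩ := h f hf
    have hp : (Ideal.span {f}).IsPrime := (Ideal.span_singleton_prime hf.ne_zero).mpr hf
    have hM : (Ideal.span {f}).primeCompl ≤ nonZeroDivisors P :=
      Ideal.primeCompl_le_nonZeroDivisors _
    let O := Localization.subalgebra.ofField F (Ideal.span {f}).primeCompl hM
    have hloc : IsLocalization.AtPrime O (Ideal.span {f}) :=
      Localization.subalgebra.isLocalization_ofField _ _ _
    have hOic : IsIntegrallyClosed O :=
      isIntegrallyClosed_of_isLocalization O (Ideal.span {f}).primeCompl hM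
    have hsp : s ∈ (Ideal.span {f}).primeCompl := fun h => hs (Ideal.mem_span_singleton.mp h)
    have hzO : IsIntegral O z := by
      have h1 : IsIntegral O (algebraMap P K s * z) := hint.tower_top
      obtain ⟨u, hu⟩ := IsLocalization.map_units O (⟨s, hsp⟩ : (Ideal.span {f}).primeCompl)
      have h2 : z = algebraMap O K (↑(u⁻¹) : O) * (algebraMap P K s * z) := by
        have h3 : algebraMap P K s = algebraMap O K (u : O) := by
          rw [hu, ← IsScalarTower.algebraMap_apply]
        rw [← mul_assoc, h3, ← map_mul, Units.inv_mul, map_one, one_mul]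
      rw [h2]
      exact isIntegral_algebraMap.mul h1
    have h3 := minpoly.isIntegrallyClosed_eq_field_fractions' (R := O) F hzO
    obtain ⟨⟨p, t⟩, hpt⟩ := IsLocalization.surj (Ideal.span {f}).primeCompl ((minpoly O z).coeff i)
    refine ⟨t, p, fun h => t.2 (Ideal.mem_span_singleton.mpr h), ?_⟩
    rw [h3, coeff_map, IsScalarTower.algebraMap_apply P O F, IsScalarTower.algebraMap_apply P O F p,
      ← hpt, map_mul]
    ring
  have hlifts : minpoly F z ∈ lifts (algebraMap P F) := by
    rw [lifts_iff_coeff_lifts]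
    intro i
    obtain ⟨p, hp⟩ := hcoeff i
    exact ⟨p, hp⟩
  obtain ⟨q, hq, _, hqm⟩ := lifts_and_natDegree_eq_and_monic hlifts (minpoly.monic hz)
  refine ⟨q, hqm, ?_⟩
  have h4 : eval₂ (algebraMap P K) z q = aeval z (q.map (algebraMap P F)) := by
    rw [aeval_def, eval₂_map, ← IsScalarTower.algebraMap_eq]
  rw [h4, hq, minpoly.aeval]

end hartogs

end Vale.Agent.P282
end

section

open IsLocalRing
open scoped WithZero

namespace Vale.Agent.P282

section prelim

variable {P K : Type} [CommRing P] [Field K] [Algebra P K]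

theorem val_le_one_of_integral (v : Valuation K ℤᵐ⁰) (hP : ∀ p : P, v (algebraMap P K p) ≤ 1)
    (z : K) (hz : IsIntegral P z) : v z ≤ 1 := by
  obtain ⟨q, hq, hqz⟩ := hz
  by_contra hcon
  push Not at hcon
  have h1 : z ^ q.natDegree = - ∑ i ∈ Finset.range q.natDegree, algebraMap P K (q.coeff i) * z ^ i := by
    rw [Polynomial.eval₂_eq_sum_range, Finset.sum_range_succ, hq.coeff_natDegree, map_one,
      one_mul] at hqz
    exact eq_neg_of_add_eq_zero_right hqz
  have h2 : v (z ^ q.natDegree) < v z ^ q.natDegree := by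
    rw [h1, Valuation.map_neg]
    have h0 : v z ^ q.natDegree ≠ 0 := pow_ne_zero _ (ne_of_gt (lt_trans zero_lt_one hcon))
    apply v.map_sum_lt h0
    intro i hi
    rw [Finset.mem_range] at hi
    rw [map_mul, map_pow]
    calc _ ≤ 1 * v z ^ i := mul_le_mul_left (hP _) _
      _ = v z ^ i := one_mul _
      _ < v z ^ q.natDegree := pow_lt_pow_right₀ hcon hi
  rw [map_pow] at h2
  exact lt_irrefl _ h2

end prelim

section shrink

variable {P R K : Type} [CommRing P] [CommRing R] [Field K] [Algebra P R] [Algebra R K]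
  [Algebra P K] [IsScalarTower P R K]

/-- `v` is nonnegative on `R`. -/
def OverR (R : Type) {K : Type} [CommRing R] [Field K] [Algebra R K] (v : Valuation K ℤᵐ⁰) : Prop :=
  ∀ r : R, v (algebraMap R K r) ≤ 1

theorem OverR.eq_one {v : Valuation K ℤᵐ⁰} (hv : OverR R v) {s : R} (hs : IsUnit s) :
    v (algebraMap R K s) = 1 := by
  obtain ⟨u, rfl⟩ := hs
  apply le_antisymm (hv _)
  have h1 : v (algebraMap R K (u : R)) * v (algebraMap R K (↑u⁻¹ : R)) = 1 := by
    rw [← map_mul, ← map_mul, Units.mul_inv, map_one, map_one]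
  calc (1 : ℤᵐ⁰) = v (algebraMap R K (u : R)) * v (algebraMap R K (↑u⁻¹ : R)) := h1.symm
    _ ≤ v (algebraMap R K (u : R)) * 1 := mul_le_mul_right (hv _) _
    _ = _ := mul_one _

theorem exists_unit_lt_one (hzmt : ∀ r : R, ∃ s : R, IsUnit s ∧ IsIntegral P s ∧ IsIntegral P (s * r))
    (v : Valuation K ℤᵐ⁰) (hP : ∀ p : P, v (algebraMap P K p) ≤ 1) (hv : ¬ OverR R v) :
    ∃ s : R, IsUnit s ∧ IsIntegral P s ∧ v (algebraMap R K s) < 1 := by
  unfold OverR at hv
  push Not at hv
  obtain ⟨r, hr⟩ := hv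
  obtain ⟨s, hs, hs1, hs2⟩ := hzmt r
  refine ⟨s, hs, hs1, ?_⟩
  have h1 : v (algebraMap R K (s * r)) ≤ 1 := val_le_one_of_integral v hP _ hs2.algebraMap
  rw [map_mul, map_mul] at h1
  by_contra hcon
  push Not at hcon
  have h2 : 1 < v (algebraMap R K s) * v (algebraMap R K r) :=
    one_lt_mul_of_le_of_lt hcon hr
  exact absurd h1 (not_le.mpr h2)

theorem exists_pow_mul_lt_one (a b : ℤᵐ⁰) (ha : a < 1) : ∃ N : ℕ, a ^ N * b < 1 := by
  by_cases ha0 : a = 0
  · exact ⟨1, by simp [ha0]⟩
  by_cases hb0 : b = 0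
  · exact ⟨0, by simp [hb0]⟩
  have h1 : WithZero.log a < 0 := by
    rw [WithZero.log_lt_iff_lt_exp ha0]; simpa using ha
  refine ⟨(WithZero.log b).toNat + 1, ?_⟩
  have h2 : a ^ ((WithZero.log b).toNat + 1) * b ≠ 0 := mul_ne_zero (pow_ne_zero _ ha0) hb0
  rw [← WithZero.exp_zero, ← WithZero.log_lt_iff_lt_exp h2, WithZero.log_mul (pow_ne_zero _ ha0) hb0,
    WithZero.log_pow]
  have h3 := Int.self_le_toNat (WithZero.log b)
  simp only [nsmul_eq_mul]
  push_cast
  nlinarith

theorem shrink (hzmt : ∀ r : R, ∃ s : R, IsUnit s ∧ IsIntegral P s ∧ IsIntegral P (s * r))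
    (V : Set (Valuation K ℤᵐ⁰)) (hV : V.Finite) (hP : ∀ v ∈ V, ∀ p : P, v (algebraMap P K p) ≤ 1)
    (z : K) : ∃ s : R, IsUnit s ∧ IsIntegral P s ∧
      ∀ v ∈ V, ¬ OverR R v → v (algebraMap R K s * z) < 1 := by
  induction V, hV using Set.Finite.induction_on with
  | empty => exact ⟨1, isUnit_one, isIntegral_one, by simp⟩
  | @insert v V _ _ ih =>
    obtain ⟨s, hs1, hs2, hs3⟩ := ih fun w hw => hP w (Set.mem_insert_of_mem _ hw)
    by_cases hv : OverR R v
    · refine ⟨s, hs1, hs2, ?_⟩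
      rintro w (rfl | hw) hw'
      · exact absurd hv hw'
      · exact hs3 w hw hw'
    · obtain ⟨t, ht1, ht2, ht3⟩ := exists_unit_lt_one hzmt v (hP v (Set.mem_insert _ _)) hv
      obtain ⟨N, hN⟩ := exists_pow_mul_lt_one _ (v (algebraMap R K s * z)) ht3
      refine ⟨t ^ N * s, (ht1.pow N).mul hs1, (ht2.pow N).mul hs2, ?_⟩
      rintro w (rfl | hw) hw'
      · rw [map_mul (algebraMap R K), mul_assoc, map_mul w, map_pow, map_pow]
        exact hN
      · rw [map_mul (algebraMap R K), mul_assoc, map_mul w]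
        have h1 : w (algebraMap R K (t ^ N)) ≤ 1 :=
          val_le_one_of_integral w (hP w (Set.mem_insert_of_mem _ hw)) _ (ht2.pow N).algebraMap
        exact lt_of_le_of_lt (mul_le_of_le_one_left' h1) (hs3 w hw hw')

end shrink

/-- `g` lies in the dual of the integral closure of `P` with respect to the trace form. -/
def InD (P F : Type) {K : Type} [CommRing P] [Field F] [Field K] [Algebra P F] [Algebra F K]
    [Algebra P K] (g : K) : Prop :=
  ∀ z : K, IsIntegral P z → ∃ p : P, algebraMap P F p = Algebra.trace F K (g * z)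

section dual

variable {n : ℕ} {P F R K : Type} [CommRing P] [IsDomain P] [UniqueFactorizationMonoid P]
  [Algebra ℂ P] [Field F] [Algebra P F] [IsFractionRing P F]
  [CommRing R] [Field K] [Algebra ℂ K] [Algebra P R] [Algebra R K]
  [Algebra P K] [Algebra F K] [IsScalarTower P F K] [IsScalarTower P R K]
  {e : MvPolynomial (Fin n) ℂ ≃ₐ[ℂ] P} {V : P → Set (Valuation K ℤᵐ⁰)}

omit [IsDomain P] [UniqueFactorizationMonoid P] [Algebra ℂ P] [IsFractionRing P F] [Algebra ℂ K]
  [CommRing R] [Algebra P R] [Algebra R K] [IsScalarTower P R K] [IsScalarTower P F K] in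
theorem InD.mul {g : K} (hg : InD P F g) {a : K} (ha : IsIntegral P a) : InD P F (a * g) := by
  intro z hz
  obtain ⟨p, hp⟩ := hg (a * z) (ha.mul hz)
  exact ⟨p, by rw [hp]; congr 1; ring⟩

theorem inD_of_lt_one (hV : ∀ f, Prime f → IsPrimeVals F e f (V f)) (g : K)
    (h : ∀ f : P, Prime f → ∃ f', Associated f f' ∧ ∀ v ∈ V f', v (g * algebraMap P K f') < 1) :
    InD P F g := by
  intro z hz
  apply mem_of_forall_prime
  intro f hf
  obtain ⟨f', hff', hf'⟩ := h f hf
  have hpf' : Prime f' := (hff'.prime_iff).mp hf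
  obtain ⟨s, p, hs, hsp⟩ := (hV f' hpf').trace (g * algebraMap P K f' * z) (by
    intro v hv
    rw [map_mul]
    have h1 := val_le_one_of_integral v ((hV f' hpf').le_one v hv) z hz
    exact lt_of_le_of_lt (mul_le_of_le_one_right' h1) (hf' v hv))
  refine ⟨s, p, fun hd => hs (hff'.symm.dvd.trans hd), ?_⟩
  have h1 : g * algebraMap P K f' * z = algebraMap P F f' • (g * z) := by
    rw [Algebra.smul_def, ← IsScalarTower.algebraMap_apply]; ring
  rw [h1, map_smul, smul_eq_mul, map_mul (algebraMap P F)] at hsp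
  have h2 : algebraMap P F f' ≠ 0 := by
    rw [Ne, FaithfulSMul.algebraMap_eq_zero_iff]
    exact hpf'.ne_zero
  apply mul_left_cancel₀ h2
  rw [← hsp]; ring

/-- Elements of `K` nonnegative on all prime divisors over `R` lie in `R`. -/
theorem mem_of_le_one [IsDomain R] [IsFractionRing R K] [IsIntegrallyClosed R]
    [FiniteDimensional F K]
    (hzmt : ∀ r : R, ∃ s : R, IsUnit s ∧ IsIntegral P s ∧ IsIntegral P (s * r))
    (hV : ∀ f, Prime f → IsPrimeVals F e f (V f)) (hprime : ∃ f : P, Prime f) (z : K)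
    (hz : ∀ f, Prime f → ∀ v ∈ V f, OverR R v → v z ≤ 1) :
    ∃ r : R, algebraMap R K r = z := by
  classical
  have key : ∀ f, Prime f → ∃ (a : R) (s : P), IsUnit a ∧ IsIntegral P a ∧ ¬ f ∣ s ∧
      IsIntegral P (algebraMap P K s * (algebraMap R K a * z)) := by
    intro f hf
    obtain ⟨a, ha1, ha2, ha3⟩ := shrink hzmt (V f) (hV f hf).finite (hV f hf).le_one z
    obtain ⟨s, hs, hs'⟩ := (hV f hf).integral (algebraMap R K a * z) (by
      intro v hv
      by_cases hvo : OverR R v
      · rw [map_mul, hvo.eq_one ha1, one_mul]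
        exact hz f hf v hv hvo
      · exact (ha3 v hv hvo).le)
    exact ⟨a, s, ha1, ha2, hs, hs'⟩
  choose a s ha1 ha2 hs1 hs2 using key
  obtain ⟨f0, hf0⟩ := hprime
  have hs0 : s f0 hf0 ≠ 0 := fun h => hs1 f0 hf0 (h ▸ dvd_zero _)
  -- the product over the prime factors
  let T := (UniqueFactorizationMonoid.factors (s f0 hf0)).toFinset
  have hT : ∀ f ∈ T, Prime f := fun f hf =>
    UniqueFactorizationMonoid.prime_of_factor f (Multiset.mem_toFinset.mp hf)
  let b : R := ∏ f ∈ T.attach, a f.1 (hT f.1 f.2)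
  have hb1 : IsUnit b := by
    apply Finset.prod_induction _ IsUnit (fun _ _ => IsUnit.mul) isUnit_one
    intro f _; exact ha1 _ _
  have hb2 : IsIntegral P b := IsIntegral.prod _ fun f _ => ha2 _ _
  have hb3 : ∀ f (hf : f ∈ T), ∃ c : R, IsIntegral P c ∧ b = c * a f (hT f hf) := by
    intro f hf
    refine ⟨∏ f ∈ T.attach.erase ⟨f, hf⟩, a f.1 (hT f.1 f.2), IsIntegral.prod _ fun f _ => ha2 _ _, ?_⟩
    exact (Finset.prod_erase_mul T.attach (fun f => a f.1 (hT f.1 f.2)) (Finset.mem_attach T ⟨f, hf⟩)).symm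
  have hint : IsIntegral P (algebraMap R K (a f0 hf0 * b) * z) := by
    apply isIntegral_of_forall_prime (F := F)
    intro f hf
    by_cases hfs : f ∣ s f0 hf0
    · obtain ⟨f', hf'1, hf'2⟩ := UniqueFactorizationMonoid.exists_mem_factors_of_dvd hs0
        hf.irreducible hfs
      have hf'T : f' ∈ T := Multiset.mem_toFinset.mpr hf'1
      obtain ⟨c, hc1, hc2⟩ := hb3 f' hf'T
      refine ⟨s f' (hT f' hf'T), fun h => hs1 f' (hT f' hf'T) (hf'2.symm.dvd.trans h), ?_⟩
      have h1 : algebraMap P K (s f' (hT f' hf'T)) * (algebraMap R K (a f0 hf0 * b) * z) =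
          algebraMap R K (a f0 hf0 * c) *
          (algebraMap P K (s f' (hT f' hf'T)) * (algebraMap R K (a f' (hT f' hf'T)) * z)) := by
        rw [hc2]; simp only [map_mul]; ring
      rw [h1]
      exact ((ha2 f0 hf0).mul hc1).algebraMap.mul (hs2 f' _)
    · refine ⟨s f0 hf0, hfs, ?_⟩
      have h1 : algebraMap P K (s f0 hf0) * (algebraMap R K (a f0 hf0 * b) * z) =
          algebraMap R K b * (algebraMap P K (s f0 hf0) * (algebraMap R K (a f0 hf0) * z)) := by
        simp only [map_mul]; ring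
      rw [h1]
      exact hb2.algebraMap.mul (hs2 f0 hf0)
  obtain ⟨y, hy⟩ := IsIntegrallyClosed.isIntegral_iff.mp (hint.tower_top (A := R))
  obtain ⟨u, hu⟩ := (ha1 f0 hf0).mul hb1
  refine ⟨(↑u⁻¹ : R) * y, ?_⟩
  rw [map_mul, hy, ← hu, ← mul_assoc, ← map_mul, Units.inv_mul, map_one, one_mul]

/-- Elements of `K` in the dual along all prime divisors over `R` are locally in the dual. -/
theorem exists_unit_mul_inD [IsDomain R] [IsFractionRing R K] [FiniteDimensional F K]
    (hzmt : ∀ r : R, ∃ s : R, IsUnit s ∧ IsIntegral P s ∧ IsIntegral P (s * r))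
    (hV : ∀ f, Prime f → IsPrimeVals F e f (V f)) (z : K)
    (hz : ∀ f, Prime f → ∀ v ∈ V f, OverR R v → v (z * algebraMap P K f) < 1) :
    ∃ s : R, IsUnit s ∧ IsIntegral P s ∧ InD P F (algebraMap R K s * z) := by
  classical
  -- denominators
  have halg : Algebra.IsAlgebraic P K :=
    (IsFractionRing.comap_isAlgebraic_iff (A := P) (K := F) (C := K)).mpr inferInstance
  obtain ⟨b, hb0, hb⟩ := (halg.isAlgebraic z).exists_integral_multiple
  have key : ∀ f, Prime f → ∃ a : R, IsUnit a ∧ IsIntegral P a ∧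
      ∀ v ∈ V f, ¬ OverR R v → v (algebraMap R K a * (z * algebraMap P K f)) < 1 := fun f hf =>
    shrink hzmt (V f) (hV f hf).finite (hV f hf).le_one _
  choose a ha1 ha2 ha3 using key
  let T := (UniqueFactorizationMonoid.factors b).toFinset
  have hT : ∀ f ∈ T, Prime f := fun f hf =>
    UniqueFactorizationMonoid.prime_of_factor f (Multiset.mem_toFinset.mp hf)
  let c : R := ∏ f ∈ T.attach, a f.1 (hT f.1 f.2)
  have hc1 : IsUnit c := by
    apply Finset.prod_induction _ IsUnit (fun _ _ => IsUnit.mul) isUnit_one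
    intro f _; exact ha1 _ _
  have hc2 : IsIntegral P c := IsIntegral.prod _ fun f _ => ha2 _ _
  have hc3 : ∀ f (hf : f ∈ T), ∃ d : R, IsIntegral P d ∧ c = d * a f (hT f hf) := by
    intro f hf
    refine ⟨∏ f ∈ T.attach.erase ⟨f, hf⟩, a f.1 (hT f.1 f.2), IsIntegral.prod _ fun f _ => ha2 _ _, ?_⟩
    exact (Finset.prod_erase_mul T.attach (fun f => a f.1 (hT f.1 f.2)) (Finset.mem_attach T ⟨f, hf⟩)).symm
  refine ⟨c, hc1, hc2, inD_of_lt_one hV _ ?_⟩
  intro f hf
  by_cases hfb : f ∣ b
  · obtain ⟨f', hf'1, hf'2⟩ := UniqueFactorizationMonoid.exists_mem_factors_of_dvd hb0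
        hf.irreducible hfb
    have hf'T : f' ∈ T := Multiset.mem_toFinset.mpr hf'1
    refine ⟨f', hf'2, fun v hv => ?_⟩
    by_cases hvo : OverR R v
    · rw [mul_assoc, map_mul, hvo.eq_one hc1, one_mul]
      exact hz f' (hT f' hf'T) v hv hvo
    · obtain ⟨d, hd1, hd2⟩ := hc3 f' hf'T
      have h1 : algebraMap R K c * z * algebraMap P K f' =
          algebraMap R K d * (algebraMap R K (a f' (hT f' hf'T)) * (z * algebraMap P K f')) := by
        rw [hd2]; simp only [map_mul]; ring
      rw [h1, map_mul]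
      have h2 : v (algebraMap R K d) ≤ 1 :=
        val_le_one_of_integral v ((hV f' (hT f' hf'T)).le_one v hv) _ hd1.algebraMap
      exact lt_of_le_of_lt (mul_le_of_le_one_left' h2) (ha3 f' (hT f' hf'T) v hv hvo)
  · refine ⟨f, Associated.refl f, fun v hv => ?_⟩
    have hvb : v (algebraMap P K b) = 1 := by
      apply le_antisymm ((hV f hf).le_one v hv b)
      rw [← not_lt, (hV f hf).lt_one v hv]
      exact hfb
    have hvz : v z ≤ 1 := by
      have h1 : v (b • z) ≤ 1 := val_le_one_of_integral v ((hV f hf).le_one v hv) _ hb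
      rwa [Algebra.smul_def, map_mul, hvb, one_mul] at h1
    have hvc : v (algebraMap R K c) ≤ 1 :=
        val_le_one_of_integral v ((hV f hf).le_one v hv) _ hc2.algebraMap
    have hvf : v (algebraMap P K f) < 1 := ((hV f hf).lt_one v hv f).mpr dvd_rfl
    rw [map_mul, map_mul]
    exact lt_of_le_of_lt (mul_le_of_le_one_left' (mul_le_one' hvc hvz)) hvf

end dual

end Vale.Agent.P282
end

section

open IsLocalRing

namespace Vale.Agent.P282

theorem reg_last {R : Type} [CommRing R] {m : ℕ} (z : Fin (m + 1) → R)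
    (hz : RingTheory.Sequence.IsWeaklyRegular R (List.ofFn z)) (y : R)
    (hy : z (Fin.last m) * y ∈ Ideal.span (Set.range fun j : Fin m => z j.castSucc)) :
    y ∈ Ideal.span (Set.range fun j : Fin m => z j.castSucc) := by
  have h1 := hz.regular_mod_prev m (by simp)
  have h2 : (List.ofFn z).take m = List.ofFn fun j : Fin m => z j.castSucc := by
    rw [List.ofFn_succ', List.concat_eq_append, List.take_append_of_le_length (by simp)]
    simp
  have h3 : (List.ofFn z)[m]'(by simp) = z (Fin.last m) := by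
    rw [List.getElem_ofFn]; rfl
  rw [h3, h2] at h1
  have h4 : Ideal.ofList (List.ofFn fun j : Fin m => z j.castSucc) =
      Ideal.span (Set.range fun j : Fin m => z j.castSucc) := by
    rw [Ideal.ofList]
    congr 1
    ext a
    simp [List.mem_ofFn]
  rw [h4] at h1
  have h5 : Submodule.Quotient.mk (p := (Ideal.span (Set.range fun j : Fin m => z j.castSucc) •
      (⊤ : Submodule R R))) y = 0 := by
    apply h1
    simp only [smul_zero]
    rw [← Submodule.Quotient.mk_smul, Submodule.Quotient.mk_eq_zero]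
    simpa using hy
  rw [Submodule.Quotient.mk_eq_zero] at h5
  simpa using h5

variable {R : Type} [CommRing R] [IsLocalRing R]

/-- In a Cohen-Macaulay local ring each `x i` is regular modulo powers of the other parameters. -/
theorem reg_other {n : ℕ} (hCM : IsCM R n) (x : Fin n → R) (hx : ∀ i, x i ∈ maximalIdeal R)
    (hk : ∃ k : ℕ, maximalIdeal R ^ k ≤ Ideal.span (Set.range x)) [IsNoetherianRing R]
    (a : Fin n → ℕ) (ha : ∀ i, 1 ≤ a i) (i : Fin n) (y : R)
    (hy : x i * y ∈ Ideal.span ((fun k => x k ^ a k) '' {k | k ≠ i})) :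
    y ∈ Ideal.span ((fun k => x k ^ a k) '' {k | k ≠ i}) := by
  cases n with
  | zero => exact i.elim0
  | succ m =>
    let z : Fin (m + 1) → R := Fin.snoc (fun j => x (i.succAbove j) ^ a (i.succAbove j)) (x i)
    have hz1 : ∀ j : Fin m, z j.castSucc = x (i.succAbove j) ^ a (i.succAbove j) := by
      intro j; simp [z]
    have hz2 : z (Fin.last m) = x i := by simp [z]
    have hspan : Ideal.span (Set.range fun j : Fin m => z j.castSucc) =
        Ideal.span ((fun k => x k ^ a k) '' {k | k ≠ i}) := by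
      congr 1
      ext r
      constructor
      · rintro ⟨j, rfl⟩
        exact ⟨i.succAbove j, Fin.succAbove_ne i j, (hz1 j).symm⟩
      · rintro ⟨k, hk, rfl⟩
        obtain ⟨j, rfl⟩ := Fin.exists_succAbove_eq hk
        exact ⟨j, hz1 j⟩
    have hmem : ∀ j, z j ∈ maximalIdeal R := by
      intro j
      refine Fin.lastCases ?_ (fun j => ?_) j
      · rw [hz2]; exact hx i
      · rw [hz1]
        exact Ideal.pow_mem_of_mem _ (hx _) _ (ha _)
    have hpow : ∃ k : ℕ, maximalIdeal R ^ k ≤ Ideal.span (Set.range z) := by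
      obtain ⟨k, hk⟩ := hk
      have h1 : Ideal.span (Set.range x) ≤ (Ideal.span (Set.range z)).radical := by
        rw [Ideal.span_le]
        rintro _ ⟨l, rfl⟩
        by_cases hl : l = i
        · subst hl
          exact Ideal.le_radical (Ideal.subset_span ⟨Fin.last m, hz2⟩)
        · obtain ⟨j, rfl⟩ := Fin.exists_succAbove_eq hl
          exact ⟨a (i.succAbove j), Ideal.subset_span ⟨j.castSucc, hz1 j⟩⟩
      obtain ⟨N, hN⟩ := Ideal.exists_pow_le_of_le_radical_of_fg h1 (IsNoetherian.noetherian _)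
      refine ⟨k * N, ?_⟩
      rw [pow_mul]
      exact (Ideal.pow_right_mono hk N).trans hN
    have h2 := reg_last z (hCM z hmem hpow).toIsWeaklyRegular y (by rw [hspan, hz2]; exact hy)
    rwa [hspan] at h2

/-- colon ideals of powers of a system of parameters -/
theorem colon_prod {n : ℕ} (hCM : IsCM R n) (x : Fin n → R) (hx : ∀ i, x i ∈ maximalIdeal R)
    (hk : ∃ k : ℕ, maximalIdeal R ^ k ≤ Ideal.span (Set.range x)) [IsNoetherianRing R]
    (M : ℕ) (hM : 1 ≤ M) (S : Finset (Fin n)) :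
    ∀ y : R, y * ∏ i ∈ S, x i ^ (M - 1) ∈
      Ideal.span (Set.range fun k => x k ^ (if k ∈ S then M else 1)) →
      y ∈ Ideal.span (Set.range x) := by
  classical
  induction S using Finset.induction_on with
  | empty => intro y hy; simpa using hy
  | insert i S hi ih =>
    intro y hy
    rw [Finset.prod_insert hi] at hy
    set a : Fin n → ℕ := fun k => if k ∈ insert i S then M else 1 with ha
    have ha1 : ∀ k, 1 ≤ a k := by intro k; simp only [ha]; split_ifs <;> omega
    have hrange : (Set.range fun k => x k ^ a k) =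
        insert (x i ^ M) ((fun k => x k ^ a k) '' {k | k ≠ i}) := by
      ext r
      constructor
      · rintro ⟨k, rfl⟩
        by_cases hk : k = i
        · subst hk; left; simp [ha]
        · right; exact ⟨k, hk, rfl⟩
      · rintro (rfl | ⟨k, _, rfl⟩)
        · exact ⟨i, by simp [ha]⟩
        · exact ⟨k, rfl⟩
    rw [hrange, Ideal.mem_span_insert] at hy
    obtain ⟨r, j, hj, hy⟩ := hy
    have hreg : ∀ (N : ℕ) (w : R), x i ^ N * w ∈ Ideal.span ((fun k => x k ^ a k) '' {k | k ≠ i}) →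
        w ∈ Ideal.span ((fun k => x k ^ a k) '' {k | k ≠ i}) := by
      intro N
      induction N with
      | zero => intro w hw; simpa using hw
      | succ N ihN =>
        intro w hw
        apply ihN
        apply reg_other hCM x hx hk a ha1 i
        rwa [← mul_assoc, ← pow_succ']
    have h1 : y * ∏ k ∈ S, x k ^ (M - 1) - r * x i ∈
        Ideal.span ((fun k => x k ^ a k) '' {k | k ≠ i}) := by
      apply hreg (M - 1)
      have h2 : x i ^ (M - 1) * (y * ∏ k ∈ S, x k ^ (M - 1) - r * x i) = j := by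
        have h3 : x i ^ M = x i ^ (M - 1) * x i := by
          rw [← pow_succ]; congr 1; omega
        rw [h3] at hy
        linear_combination hy
      rw [h2]; exact hj
    apply ih
    have h2 : y * ∏ k ∈ S, x k ^ (M - 1) = (y * ∏ k ∈ S, x k ^ (M - 1) - r * x i) + r * x i := by
      ring
    rw [h2]
    refine Ideal.add_mem _ ?_ (Ideal.mul_mem_left _ _ (Ideal.subset_span ⟨i, by simp [hi]⟩))
    refine (Ideal.span_le.mpr ?_) h1
    rintro _ ⟨k, hk, rfl⟩
    have hk' : k ≠ i := hk
    refine Ideal.subset_span ⟨k, ?_⟩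
    simp [ha, hk']


open MvPolynomial in
/-- `P`-linear independence modulo powers. -/
theorem coeff_mem_of_sum_mem {n : ℕ} (hCM : IsCM R n) [IsNoetherianRing R] [Algebra ℂ R]
    [Algebra (MvPolynomial (Fin n) ℂ) R] [IsScalarTower ℂ (MvPolynomial (Fin n) ℂ) R]
    (hx : ∀ i : Fin n, algebraMap (MvPolynomial (Fin n) ℂ) R (X i) ∈ maximalIdeal R)
    (hk : ∃ k : ℕ, maximalIdeal R ^ k ≤ Ideal.span
      (Set.range fun i : Fin n => algebraMap (MvPolynomial (Fin n) ℂ) R (X i)))
    {e : ℕ} (b : Fin e → R)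
    (hb : ∀ c : Fin e → ℂ, (∑ j, algebraMap ℂ R (c j) * b j) ∈ Ideal.span
      (Set.range fun i : Fin n => algebraMap (MvPolynomial (Fin n) ℂ) R (X i)) → c = 0)
    (M : ℕ) (hM : 1 ≤ M) (p : Fin e → MvPolynomial (Fin n) ℂ)
    (hp : (∑ j, algebraMap (MvPolynomial (Fin n) ℂ) R (p j) * b j) ∈ Ideal.span
      (Set.range fun i : Fin n => algebraMap (MvPolynomial (Fin n) ℂ) R (X i) ^ M)) (j : Fin e) :
    p j ∈ Ideal.span (Set.range fun i : Fin n => (X i : MvPolynomial (Fin n) ℂ) ^ M) := by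
  classical
  set mM := Ideal.span (Set.range fun i : Fin n => (X i : MvPolynomial (Fin n) ℂ) ^ M) with hmM
  have hmono : ∀ (d : Fin n →₀ ℕ) (c : ℂ), (∃ i, M ≤ d i) → monomial d c ∈ mM := by
    rintro d c ⟨i, hi⟩
    have hd : d - Finsupp.single i M + Finsupp.single i M = d := by
      ext k
      by_cases hk : k = i
      · subst hk; simp; omega
      · simp [Ne.symm hk]
    have : monomial d c = monomial (d - Finsupp.single i M) c * X i ^ M := by
      rw [X_pow_eq_monomial, monomial_mul, mul_one, hd]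
    rw [this]
    exact Ideal.mul_mem_left _ _ (Ideal.subset_span ⟨i, rfl⟩)
  by_contra hcon
  -- some monomial with all exponents `< M` occurs
  have hex : ∃ t : Fin e × (Fin n →₀ ℕ), coeff t.2 (p t.1) ≠ 0 ∧ ∀ i, t.2 i < M := by
    by_contra h
    push Not at h
    apply hcon
    rw [(p j).as_sum]
    refine Ideal.sum_mem _ fun d hd => hmono d _ ?_
    exact h (j, d) (mem_support_iff.mp hd)
  obtain ⟨⟨j0, a⟩, ⟨ha1, ha2⟩, hmin⟩ := exists_minimalFor_of_wellFoundedLT
    (fun t : Fin e × (Fin n →₀ ℕ) => coeff t.2 (p t.1) ≠ 0 ∧ ∀ i, t.2 i < M)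
    (fun t => t.2.degree) hex
  simp only at ha1 ha2 hmin
  let top : Fin n →₀ ℕ := Finsupp.equivFunOnFinite.symm fun _ => M - 1
  have htop : ∀ i, top i = M - 1 := fun i => rfl
  have hkey : ∀ j, monomial (top - a) 1 * p j - monomial top (coeff a (p j)) ∈ mM := by
    intro j
    have h1 : monomial (top - a) 1 * p j = ∑ d ∈ (p j).support, monomial (top - a + d) (coeff d (p j)) := by
      conv_lhs => rw [(p j).as_sum]
      rw [Finset.mul_sum]
      refine Finset.sum_congr rfl fun d _ => ?_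
      rw [monomial_mul, one_mul]
    have h2 : ∀ d ∈ (p j).support, d ≠ a → monomial (top - a + d) (coeff d (p j)) ∈ mM := by
      intro d hd hda
      apply hmono
      by_contra h
      push Not at h
      have hle : ∀ i, d i ≤ a i := by
        intro i
        have h3 := h i
        simp only [Finsupp.add_apply, Finsupp.tsub_apply, htop] at h3
        have := ha2 i
        omega
      have h4 := hmin (j := (j, d)) ⟨mem_support_iff.mp hd, fun i => (hle i).trans_lt (ha2 i)⟩
        (Finsupp.degree_mono hle)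
      have h5 : d = a := by
        have h6 : d ≤ a := hle
        have h7 : a = d + (a - d) := (add_tsub_cancel_of_le h6).symm
        have h8 : a.degree = d.degree + (a - d).degree := by
          conv_lhs => rw [h7]
          rw [map_add]
        have h9 : (a - d).degree = 0 := by
          have : a.degree ≤ d.degree := h4
          omega
        rw [Finsupp.degree_eq_zero_iff] at h9
        rw [h7, h9, add_zero]
      exact hda h5
    have htopa : top - a + a = top := tsub_add_cancel_of_le (by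
      intro i
      rw [htop]
      have := ha2 i
      omega)
    by_cases haj : a ∈ (p j).support
    · rw [h1, ← Finset.add_sum_erase _ _ haj, htopa, add_sub_cancel_left]
      exact Ideal.sum_mem _ fun d hd => h2 d (Finset.mem_of_mem_erase hd) (Finset.ne_of_mem_erase hd)
    · rw [notMem_support_iff.mp haj, monomial_zero, sub_zero, h1]
      exact Ideal.sum_mem _ fun d hd => h2 d hd (fun h => haj (h ▸ hd))
  set x : Fin n → R := fun i => algebraMap (MvPolynomial (Fin n) ℂ) R (X i) with hxdef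
  have hmM' : ∀ q ∈ mM, algebraMap (MvPolynomial (Fin n) ℂ) R q ∈
      Ideal.span (Set.range fun i : Fin n => x i ^ M) := by
    intro q hq
    have h1 := Ideal.mem_map_of_mem (algebraMap (MvPolynomial (Fin n) ℂ) R) hq
    rw [hmM, Ideal.map_span] at h1
    refine Ideal.span_mono ?_ h1
    rintro _ ⟨_, ⟨i, rfl⟩, rfl⟩
    exact ⟨i, by simp [hxdef]⟩
  have h1 : (∑ j, algebraMap ℂ R (coeff a (p j)) * b j) * ∏ i : Fin n, x i ^ (M - 1) ∈
      Ideal.span (Set.range fun i : Fin n => x i ^ M) := by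
    have h2 : algebraMap (MvPolynomial (Fin n) ℂ) R (monomial (top - a) 1) *
        (∑ j, algebraMap (MvPolynomial (Fin n) ℂ) R (p j) * b j) ∈
        Ideal.span (Set.range fun i : Fin n => x i ^ M) := Ideal.mul_mem_left _ _ hp
    have h3 : (∑ j, algebraMap ℂ R (coeff a (p j)) * b j) * ∏ i : Fin n, x i ^ (M - 1) =
        algebraMap (MvPolynomial (Fin n) ℂ) R (monomial (top - a) 1) *
        (∑ j, algebraMap (MvPolynomial (Fin n) ℂ) R (p j) * b j) -
        ∑ j, algebraMap (MvPolynomial (Fin n) ℂ) R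
          (monomial (top - a) 1 * p j - monomial top (coeff a (p j))) * b j := by
      rw [Finset.mul_sum, Finset.sum_mul, ← Finset.sum_sub_distrib]
      refine Finset.sum_congr rfl fun j _ => ?_
      have h4 : algebraMap (MvPolynomial (Fin n) ℂ) R (monomial top (coeff a (p j))) =
          algebraMap ℂ R (coeff a (p j)) * ∏ i : Fin n, x i ^ (M - 1) := by
        rw [monomial_eq, map_mul, Finsupp.prod_fintype _ _ (by simp), map_prod,
          IsScalarTower.algebraMap_apply ℂ (MvPolynomial (Fin n) ℂ) R]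
        congr 1
        refine Finset.prod_congr rfl fun i _ => ?_
        rw [map_pow, htop]
      rw [map_sub, map_mul, h4]
      ring
    rw [h3]
    exact Ideal.sub_mem _ h2 (Ideal.sum_mem _ fun j _ => Ideal.mul_mem_right _ _ (hmM' _ (hkey j)))
  have h5 := colon_prod hCM x hx hk M hM Finset.univ _ (by simpa using h1)
  have h6 := hb _ h5
  exact ha1 (congrFun h6 j0)


open MvPolynomial in
/-- T2b. Lifting functionals of `R/(x)` to `P`-linear maps `R → P/𝔪^M`. -/
theorem exists_lift_functional {n : ℕ} (hCM : IsCM R n) [IsNoetherianRing R] [Algebra ℂ R]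
    [Algebra (MvPolynomial (Fin n) ℂ) R] [IsScalarTower ℂ (MvPolynomial (Fin n) ℂ) R]
    (hx : ∀ i : Fin n, algebraMap (MvPolynomial (Fin n) ℂ) R (X i) ∈ maximalIdeal R)
    (hk : ∃ k : ℕ, maximalIdeal R ^ k ≤ Ideal.span
      (Set.range fun i : Fin n => algebraMap (MvPolynomial (Fin n) ℂ) R (X i)))
    (hfin : Module.Finite ℂ (R ⧸ Ideal.span
      (Set.range fun i : Fin n => algebraMap (MvPolynomial (Fin n) ℂ) R (X i))))
    (l : R →ₗ[ℂ] ℂ)
    (hl : ∀ r ∈ Ideal.span (Set.range fun i : Fin n => algebraMap (MvPolynomial (Fin n) ℂ) R (X i)),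
      l r = 0) (M : ℕ) (hM : 1 ≤ M) :
    ∃ L : R →ₗ[MvPolynomial (Fin n) ℂ]
        (MvPolynomial (Fin n) ℂ ⧸ (Ideal.span (Set.range (X : Fin n → MvPolynomial (Fin n) ℂ))) ^ M),
      ∀ r : R, ∃ p : MvPolynomial (Fin n) ℂ,
        L r = Ideal.Quotient.mk _ p ∧ constantCoeff p = l r := by
  classical
  set x : Fin n → R := fun i => algebraMap (MvPolynomial (Fin n) ℂ) R (X i) with hxdef
  set I := Ideal.span (Set.range x) with hI
  set mP := Ideal.span (Set.range (X : Fin n → MvPolynomial (Fin n) ℂ)) with hmP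
  let β := Module.finBasis ℂ (R ⧸ I)
  set e := Module.finrank ℂ (R ⧸ I) with he
  choose b hb using fun j => Ideal.Quotient.mk_surjective (β j)
  -- independence
  have hind : ∀ c : Fin e → ℂ, (∑ j, algebraMap ℂ R (c j) * b j) ∈ I → c = 0 := by
    intro c hc
    rw [← Ideal.Quotient.eq_zero_iff_mem, map_sum] at hc
    have h1 : ∑ j, c j • β j = 0 := by
      rw [← hc]
      refine Finset.sum_congr rfl fun j _ => ?_
      rw [map_mul, hb j, Algebra.smul_def]
      rfl
    have h2 := Fintype.linearIndependent_iff.mp β.linearIndependent c h1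
    funext j
    exact h2 j
  -- constant coefficients
  have hconst : ∀ p : MvPolynomial (Fin n) ℂ, p - C (constantCoeff p) ∈ mP := by
    intro p
    have h1 : p - C (constantCoeff p) ∈ idealOfVars (Fin n) ℂ ^ 1 := by
      rw [mem_pow_idealOfVars_iff']
      intro d hd
      have hd0 : d = 0 := by
        rw [← Finsupp.degree_eq_zero_iff]; omega
      subst hd0
      simp [constantCoeff_eq]
    rwa [pow_one] at h1
  have hlp : ∀ (p : MvPolynomial (Fin n) ℂ) (r : R),
      l (algebraMap (MvPolynomial (Fin n) ℂ) R p * r) = constantCoeff p * l r := by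
    intro p r
    have h1 : algebraMap (MvPolynomial (Fin n) ℂ) R (p - C (constantCoeff p)) ∈ I := by
      have := Ideal.mem_map_of_mem (algebraMap (MvPolynomial (Fin n) ℂ) R) (hconst p)
      rw [hmP, Ideal.map_span] at this
      refine Ideal.span_mono ?_ this
      rintro _ ⟨_, ⟨i, rfl⟩, rfl⟩
      exact ⟨i, rfl⟩
    have h2 := hl _ (Ideal.mul_mem_right r _ h1)
    rw [map_sub, sub_mul, map_sub, sub_eq_zero] at h2
    rw [h2]
    have h3 : algebraMap (MvPolynomial (Fin n) ℂ) R (C (constantCoeff p)) * r =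
        constantCoeff p • r := by
      rw [Algebra.smul_def, IsScalarTower.algebraMap_apply ℂ (MvPolynomial (Fin n) ℂ) R]
      rfl
    rw [h3, map_smul, smul_eq_mul]
  set J := Ideal.span (Set.range fun i : Fin n => x i ^ M) with hJ
  have hJI : J ≤ I := by
    rw [hJ, Ideal.span_le]
    rintro _ ⟨i, rfl⟩
    exact Ideal.pow_mem_of_mem I (Ideal.subset_span ⟨i, rfl⟩) M (by omega)
  -- generation
  have hgen0 : ∀ r : R, ∃ c : Fin e → ℂ, r - ∑ j, algebraMap ℂ R (c j) * b j ∈ I := by
    intro r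
    refine ⟨fun j => β.repr (Ideal.Quotient.mk I r) j, ?_⟩
    rw [← Ideal.Quotient.eq_zero_iff_mem, map_sub, sub_eq_zero]
    conv_lhs => rw [← β.sum_repr (Ideal.Quotient.mk I r)]
    rw [map_sum]
    refine Finset.sum_congr rfl fun j _ => ?_
    rw [map_mul, hb j, Algebra.smul_def]
    rfl
  have hgen : ∀ (K : ℕ) (r : R), ∃ p : Fin e → MvPolynomial (Fin n) ℂ,
      r - ∑ j, algebraMap (MvPolynomial (Fin n) ℂ) R (p j) * b j ∈ I ^ K := by
    intro K
    induction K with
    | zero => intro r; exact ⟨0, by simp⟩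
    | succ K ih =>
      intro r
      obtain ⟨c, hc⟩ := hgen0 r
      rw [hI, Ideal.mem_span_range_iff_exists_fun] at hc
      obtain ⟨s, hs⟩ := hc
      choose q hq using fun i => ih (s i)
      refine ⟨fun j => C (c j) + ∑ i, X i * q i j, ?_⟩
      have h1 : r - ∑ j, algebraMap (MvPolynomial (Fin n) ℂ) R (C (c j) + ∑ i, X i * q i j) * b j
          = ∑ i, (s i - ∑ j, algebraMap (MvPolynomial (Fin n) ℂ) R (q i j) * b j) * x i := by
        have h2 : ∀ j, algebraMap (MvPolynomial (Fin n) ℂ) R (C (c j) + ∑ i, X i * q i j) * b j =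
            algebraMap ℂ R (c j) * b j +
            ∑ i, (algebraMap (MvPolynomial (Fin n) ℂ) R (q i j) * b j) * x i := by
          intro j
          rw [map_add, add_mul, map_sum, Finset.sum_mul]
          congr 1
          · rw [IsScalarTower.algebraMap_apply ℂ (MvPolynomial (Fin n) ℂ) R]; rfl
          · refine Finset.sum_congr rfl fun i _ => ?_
            rw [map_mul, hxdef]; ring
        simp only [h2, Finset.sum_add_distrib, sub_mul, Finset.sum_sub_distrib, hs]
        rw [Finset.sum_comm]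
        simp only [Finset.sum_mul]
        ring
      rw [h1]
      refine Ideal.sum_mem _ fun i _ => ?_
      rw [pow_succ]
      exact Ideal.mul_mem_mul (hq i) (Ideal.subset_span ⟨i, rfl⟩)
  obtain ⟨K, hK⟩ : ∃ K, I ^ K ≤ J := by
    apply Ideal.exists_pow_le_of_le_radical_of_fg _ (IsNoetherian.noetherian _)
    rw [hI, Ideal.span_le]
    rintro _ ⟨i, rfl⟩
    exact ⟨M, Ideal.subset_span ⟨i, rfl⟩⟩
  let φ : (Fin e → MvPolynomial (Fin n) ℂ) →ₗ[MvPolynomial (Fin n) ℂ] (R ⧸ J) :=
    ∑ j, (LinearMap.toSpanSingleton (MvPolynomial (Fin n) ℂ) (R ⧸ J)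
      (Ideal.Quotient.mk J (b j))).comp (LinearMap.proj j)
  have hφ : ∀ p, φ p = Ideal.Quotient.mk J
      (∑ j, algebraMap (MvPolynomial (Fin n) ℂ) R (p j) * b j) := by
    intro p
    simp only [φ, LinearMap.sum_apply, LinearMap.comp_apply, LinearMap.proj_apply,
      LinearMap.toSpanSingleton_apply, map_sum, map_mul]
    refine Finset.sum_congr rfl fun j _ => ?_
    rw [Algebra.smul_def]
    rfl
  have hφsurj : Function.Surjective φ := by
    intro y
    obtain ⟨r, rfl⟩ := Ideal.Quotient.mk_surjective y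
    obtain ⟨p, hp⟩ := hgen K r
    refine ⟨p, ?_⟩
    rw [hφ, eq_comm, Ideal.Quotient.eq]
    exact hK hp
  let ψ : (Fin e → MvPolynomial (Fin n) ℂ) →ₗ[MvPolynomial (Fin n) ℂ]
      (MvPolynomial (Fin n) ℂ ⧸ mP ^ M) :=
    ∑ j, (LinearMap.toSpanSingleton (MvPolynomial (Fin n) ℂ) (MvPolynomial (Fin n) ℂ ⧸ mP ^ M)
      (Ideal.Quotient.mk _ (C (l (b j))))).comp (LinearMap.proj j)
  have hψ : ∀ p, ψ p = Ideal.Quotient.mk (mP ^ M) (∑ j, p j * C (l (b j))) := by
    intro p
    simp only [ψ, LinearMap.sum_apply, LinearMap.comp_apply, LinearMap.proj_apply,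
      LinearMap.toSpanSingleton_apply, map_sum]
    rfl
  have hker : LinearMap.ker φ ≤ LinearMap.ker ψ := by
    intro p hp
    rw [LinearMap.mem_ker, hφ, Ideal.Quotient.eq_zero_iff_mem] at hp
    rw [LinearMap.mem_ker, hψ, Ideal.Quotient.eq_zero_iff_mem]
    refine Ideal.sum_mem _ fun j _ => Ideal.mul_mem_right _ _ ?_
    have h1 := coeff_mem_of_sum_mem hCM hx hk b hind M hM p hp j
    refine (Ideal.span_le.mpr ?_) h1
    rintro _ ⟨i, rfl⟩
    exact Ideal.pow_mem_pow (I := mP) (Ideal.subset_span ⟨i, rfl⟩) M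
  let L' : (R ⧸ J) →ₗ[MvPolynomial (Fin n) ℂ] (MvPolynomial (Fin n) ℂ ⧸ mP ^ M) :=
    ((LinearMap.ker φ).liftQ ψ hker).comp (φ.quotKerEquivOfSurjective hφsurj).symm.toLinearMap
  have hL' : ∀ p, L' (φ p) = ψ p := by
    intro p
    have : (φ.quotKerEquivOfSurjective hφsurj).symm (φ p) = Submodule.Quotient.mk p := by
      rw [LinearEquiv.symm_apply_eq]; rfl
    simp only [L', LinearMap.comp_apply, LinearEquiv.coe_coe, this]
    rfl
  refine ⟨L'.comp (Ideal.Quotient.mkₐ (MvPolynomial (Fin n) ℂ) J).toLinearMap, fun r => ?_⟩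
  obtain ⟨p, hp⟩ := hgen K r
  refine ⟨∑ j, p j * C (l (b j)), ?_, ?_⟩
  · rw [← hψ, ← hL', LinearMap.comp_apply]
    congr 1
    rw [hφ]
    simp only [AlgHom.toLinearMap_apply, Ideal.Quotient.mkₐ_eq_mk]
    rw [Ideal.Quotient.eq]
    exact hK hp
  · have h1 := hl _ (hJI (hK hp))
    rw [map_sub, sub_eq_zero] at h1
    rw [h1, map_sum, map_sum]
    refine Finset.sum_congr rfl fun j _ => ?_
    rw [hlp, map_mul, constantCoeff_C]

end Vale.Agent.P282
end

section

open IsLocalRing
open scoped WithZero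

namespace Vale.Agent.P282

section traceRep

variable {P F R K : Type} [CommRing P] [IsDomain P] [Field F] [Algebra P F] [IsFractionRing P F]
  [CommRing R] [Field K] [Algebra P R] [Algebra R K] [Algebra P K] [Algebra F K]
  [IsScalarTower P F K] [IsScalarTower P R K] [FiniteDimensional F K]

/-- Every linear functional on the integral closure of `P` in `R` is represented by the trace. -/
theorem exists_trace_rep [CharZero F] [FaithfulSMul R K] [IsIntegrallyClosed R] [IsDomain R]
    [IsFractionRing R K]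
    (ψ : integralClosure P R →ₗ[P] P) : ∃ g : K, ∀ a : integralClosure P R,
      algebraMap P F (ψ a) = Algebra.trace F K (g * algebraMap R K a) := by
  classical
  obtain ⟨s, b, hb⟩ := FiniteDimensional.exists_is_basis_integral P F K
  have hbR : ∀ i, ∃ a : integralClosure P R, algebraMap R K a = b i := by
    intro i
    obtain ⟨y, hy⟩ := IsIntegrallyClosed.isIntegral_iff.mp ((hb i).tower_top (A := R))
    refine ⟨⟨y, ?_⟩, hy⟩
    have h1 : IsIntegral P (algebraMap R K y) := by rw [hy]; exact hb i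
    exact (isIntegral_algebraMap_iff (FaithfulSMul.algebraMap_injective R K)).mp h1
  choose a ha using hbR
  let T : K →ₗ[F] F := b.constr F (fun i => algebraMap P F (ψ (a i)))
  have hT : ∀ i, T (b i) = algebraMap P F (ψ (a i)) := fun i => by simp [T]
  let g : K := (LinearMap.BilinForm.toDual (Algebra.traceForm F K)
    (traceForm_nondegenerate F K)).symm T
  have hg : ∀ z, Algebra.trace F K (g * z) = T z := fun z => by
    have := LinearMap.BilinForm.apply_toDual_symm_apply (B := Algebra.traceForm F K)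
      (hB := traceForm_nondegenerate F K) T z
    rw [← this]; rfl
  refine ⟨g, fun c => ?_⟩
  -- common denominators
  obtain ⟨⟨d, hd⟩, hd'⟩ := IsLocalization.exist_integer_multiples_of_finite (nonZeroDivisors P)
    (fun i => b.repr (algebraMap R K c) i)
  choose p hp using hd'
  have hd0 : algebraMap P F d ≠ 0 := by
    rw [Ne, FaithfulSMul.algebraMap_eq_zero_iff]
    exact nonZeroDivisors.ne_zero hd
  have h1 : algebraMap R K (d • c : integralClosure P R) = algebraMap R K (∑ i, p i • a i : integralClosure P R) := by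
    have h2 : algebraMap R K (d • c : integralClosure P R) = algebraMap P F d • algebraMap R K c := by
      rw [Subalgebra.coe_smul, Algebra.smul_def, map_mul, Algebra.smul_def,
        ← IsScalarTower.algebraMap_apply, ← IsScalarTower.algebraMap_apply]
    rw [h2]
    conv_lhs => rw [← b.sum_repr (algebraMap R K c), Finset.smul_sum]
    rw [AddSubmonoidClass.coe_finsetSum, map_sum]
    refine Finset.sum_congr rfl fun i _ => ?_
    have h3 : algebraMap P F (p i) = d • b.repr (algebraMap R K c) i := hp i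
    rw [smul_smul, ← ha i, Subalgebra.coe_smul, Algebra.smul_def (p i), map_mul,
      ← IsScalarTower.algebraMap_apply, IsScalarTower.algebraMap_apply P F K, h3,
      Algebra.smul_def (R := F), Algebra.smul_def (R := P) d]
  have h4 : d • c = ∑ i, p i • a i := by
    apply Subtype.ext
    exact FaithfulSMul.algebraMap_injective R K h1
  apply mul_left_cancel₀ hd0
  rw [← map_mul, ← smul_eq_mul d, ← map_smul, h4, hg]
  have h5 : T (algebraMap R K (∑ i, p i • a i : integralClosure P R)) =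
      algebraMap P F d * T (algebraMap R K c) := by
    rw [← h1, Subalgebra.coe_smul, Algebra.smul_def, map_mul, ← IsScalarTower.algebraMap_apply,
      IsScalarTower.algebraMap_apply P F K, ← Algebra.smul_def, map_smul, smul_eq_mul]
  rw [← h5, map_sum, map_sum, AddSubmonoidClass.coe_finsetSum, map_sum, map_sum]
  refine Finset.sum_congr rfl fun i _ => ?_
  have e1 : ψ (p i • a i) = p i * ψ (a i) := by rw [map_smul, smul_eq_mul]
  have e2 : algebraMap R K (p i • a i : integralClosure P R) = algebraMap P F (p i) • b i := by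
    rw [Subalgebra.coe_smul, Algebra.smul_def (p i), map_mul, ← IsScalarTower.algebraMap_apply, ha,
      IsScalarTower.algebraMap_apply P F K, ← Algebra.smul_def]
  rw [e1, e2, map_mul, map_smul, smul_eq_mul, hT]

end traceRep

section dualityMain

variable {n : ℕ} {F R K : Type} [Field F] [Algebra (MvPolynomial (Fin n) ℂ) F]
  [IsFractionRing (MvPolynomial (Fin n) ℂ) F]
  [CommRing R] [IsDomain R] [IsLocalRing R] [IsNoetherianRing R] [IsIntegrallyClosed R]
  [Algebra ℂ R] [Field K] [Algebra ℂ K]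
  [Algebra (MvPolynomial (Fin n) ℂ) R] [IsScalarTower ℂ (MvPolynomial (Fin n) ℂ) R]
  [Algebra R K] [IsFractionRing R K]
  [Algebra (MvPolynomial (Fin n) ℂ) K] [Algebra F K] [IsScalarTower (MvPolynomial (Fin n) ℂ) F K]
  [IsScalarTower (MvPolynomial (Fin n) ℂ) R K] [FiniteDimensional F K]

/-- the parameters -/
noncomputable def par (n : ℕ) (R : Type) [CommRing R] [Algebra (MvPolynomial (Fin n) ℂ) R]
    (i : Fin n) : R := algebraMap (MvPolynomial (Fin n) ℂ) R (MvPolynomial.X i)

/-- G1: functionals on `R/(x)` are represented by elements of the dual. -/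
theorem exists_inD_rep (hCM : IsCM R n)
    (hx : ∀ i : Fin n, par n R i ∈ maximalIdeal R)
    (hk : ∃ k : ℕ, maximalIdeal R ^ k ≤ Ideal.span (Set.range (par n R)))
    (hfin : Module.Finite ℂ (R ⧸ Ideal.span (Set.range (par n R))))
    (l : R →ₗ[ℂ] ℂ) (hl : ∀ r ∈ Ideal.span (Set.range (par n R)), l r = 0) :
    ∃ g : K, InD (MvPolynomial (Fin n) ℂ) F g ∧
      ∀ a : R, IsIntegral (MvPolynomial (Fin n) ℂ) a → ∃ p : MvPolynomial (Fin n) ℂ,
        algebraMap _ F p = Algebra.trace F K (g * algebraMap R K a) ∧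
        MvPolynomial.constantCoeff p = l a := by
  classical
  have hcharF : CharZero F := by
    have : FaithfulSMul (MvPolynomial (Fin n) ℂ) F := inferInstance
    exact charZero_of_injective_algebraMap (IsFractionRing.injective (MvPolynomial (Fin n) ℂ) F)
  let P := MvPolynomial (Fin n) ℂ
  let A := integralClosure P R
  have hA : Module.Finite P A := by
    have h1 : Module.Finite P (integralClosure P K) := IsIntegralClosure.finite P F K _
    have h2 : IsNoetherian P (integralClosure P K) := isNoetherian_of_isNoetherianRing_of_finite P _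
    let f : A →ₗ[P] integralClosure P K :=
      LinearMap.codRestrict (Subalgebra.toSubmodule (integralClosure P K))
        ((IsScalarTower.toAlgHom P R K).toLinearMap.comp A.val.toLinearMap) (fun a => by
          have h3 : IsIntegral P (a : R) := a.2
          exact h3.algebraMap)
    refine Module.Finite.of_injective f ?_
    intro a b hab
    apply Subtype.ext
    apply FaithfulSMul.algebraMap_injective R K
    exact congrArg Subtype.val hab
  obtain ⟨M, hM, hlift⟩ := exists_lift (P := P) (A := A)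
    (Ideal.span (Set.range (MvPolynomial.X : Fin n → P)))
  obtain ⟨L, hL⟩ := exists_lift_functional hCM hx hk hfin l hl M hM
  obtain ⟨ψ, hψ⟩ := hlift (L.comp A.val.toLinearMap)
  have hψ' : ∀ a : A, MvPolynomial.constantCoeff (ψ a) = l (a : R) := by
    intro a
    obtain ⟨p, hp1, hp2⟩ := hL (a : R)
    have h1 := hψ a p hp1
    have h2 : Ideal.span (Set.range (MvPolynomial.X : Fin n → P)) ≤
        RingHom.ker (MvPolynomial.constantCoeff : P →+* ℂ) := by
      rw [Ideal.span_le]
      rintro _ ⟨i, rfl⟩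
      simp [RingHom.mem_ker]
    have h3 := h2 h1
    rw [RingHom.mem_ker, map_sub, sub_eq_zero] at h3
    rw [h3, hp2]
  obtain ⟨g, hg⟩ := exists_trace_rep (F := F) (K := K) ψ
  refine ⟨g, ?_, fun a ha => ⟨ψ ⟨a, ha⟩, hg ⟨a, ha⟩, hψ' ⟨a, ha⟩⟩⟩
  intro z hz
  obtain ⟨y, hy⟩ := IsIntegrallyClosed.isIntegral_iff.mp (hz.tower_top (A := R))
  have hy' : IsIntegral P y := by
    have h1 : IsIntegral P (algebraMap R K y) := by rw [hy]; exact hz
    exact (isIntegral_algebraMap_iff (FaithfulSMul.algebraMap_injective R K)).mp h1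
  exact ⟨ψ ⟨y, hy'⟩, by rw [hg, ← hy]⟩

omit [IsDomain R] [IsNoetherianRing R] [IsIntegrallyClosed R] in
theorem exists_integral_congr
    (hres : Function.Surjective (algebraMap ℂ (ResidueField R)))
    (hk : ∃ k : ℕ, maximalIdeal R ^ k ≤ Ideal.span (Set.range (par n R)))
    (hzmt : ∀ r : R, ∃ s : R, IsUnit s ∧ IsIntegral (MvPolynomial (Fin n) ℂ) s ∧
      IsIntegral (MvPolynomial (Fin n) ℂ) (s * r)) (r : R) :
    ∃ a : R, IsIntegral (MvPolynomial (Fin n) ℂ) a ∧ r - a ∈ Ideal.span (Set.range (par n R)) := by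
  obtain ⟨s, hs1, hs2, hs3⟩ := hzmt r
  obtain ⟨c, hc⟩ := hres (residue R s)
  have hsc : s - algebraMap ℂ R c ∈ maximalIdeal R := by
    rw [← residue_eq_zero_iff, map_sub, ← hc, sub_eq_zero,
      IsScalarTower.algebraMap_apply ℂ R (ResidueField R)]
    rfl
  have hc0 : c ≠ 0 := by
    rintro rfl
    rw [map_zero, sub_zero] at hsc
    exact hsc hs1
  obtain ⟨k, hk⟩ := hk
  set u : R := 1 - algebraMap ℂ R c⁻¹ * s with hu
  have hCint : ∀ c : ℂ, IsIntegral (MvPolynomial (Fin n) ℂ) (algebraMap ℂ R c) := by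
    intro c
    rw [IsScalarTower.algebraMap_apply ℂ (MvPolynomial (Fin n) ℂ) R]
    exact isIntegral_algebraMap
  have hum : u ∈ maximalIdeal R := by
    have h1 : u = - (algebraMap ℂ R c⁻¹ * (s - algebraMap ℂ R c)) := by
      have h2 : algebraMap ℂ R c⁻¹ * algebraMap ℂ R c = 1 := by
        rw [← map_mul, inv_mul_cancel₀ hc0, map_one]
      rw [hu]
      linear_combination (-1 : R) * h2
    rw [h1]
    exact Ideal.neg_mem_iff _ |>.mpr (Ideal.mul_mem_left _ _ hsc)
  have huint : IsIntegral (MvPolynomial (Fin n) ℂ) u :=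
    isIntegral_one.sub ((hCint _).mul hs2)
  have huk : u ^ k ∈ Ideal.span (Set.range (par n R)) := hk (Ideal.pow_mem_pow hum k)
  refine ⟨(∑ i ∈ Finset.range k, u ^ i) * (algebraMap ℂ R c⁻¹ * (s * r)),
    (IsIntegral.sum _ fun i _ => huint.pow i).mul ((hCint _).mul hs3), ?_⟩
  have h1 : (∑ i ∈ Finset.range k, u ^ i) * (1 - u) = 1 - u ^ k := by
    rw [mul_comm, mul_neg_geom_sum]
  have h2 : r - (∑ i ∈ Finset.range k, u ^ i) * (algebraMap ℂ R c⁻¹ * (s * r)) = u ^ k * r := by
    have h3 : algebraMap ℂ R c⁻¹ * (s * r) = (1 - u) * r := by rw [hu]; ring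
    rw [h3, ← mul_assoc, h1]; ring
  rw [h2]
  exact Ideal.mul_mem_right _ _ huk

omit [IsLocalRing R] [IsNoetherianRing R] [IsIntegrallyClosed R] in
/-- KC: a functional killing `(x)` represented by an element of `(x) ε` vanishes. -/
theorem rep_eq_zero (ε : K)
    (hsurj : ∀ r : R, ∃ a : R, IsIntegral (MvPolynomial (Fin n) ℂ) a ∧
      r - a ∈ Ideal.span (Set.range (par n R)))
    (hloc : ∀ r : R, ∃ s : R, IsUnit s ∧ IsIntegral (MvPolynomial (Fin n) ℂ) s ∧
      InD (MvPolynomial (Fin n) ℂ) F (algebraMap R K s * (algebraMap R K r * ε)))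
    (l : R →ₗ[ℂ] ℂ) (hl : ∀ r ∈ Ideal.span (Set.range (par n R)), l r = 0)
    (r : R) (hr : r ∈ Ideal.span (Set.range (par n R)))
    (hrep : ∀ a : R, IsIntegral (MvPolynomial (Fin n) ℂ) a → ∃ p : MvPolynomial (Fin n) ℂ,
        algebraMap _ F p = Algebra.trace F K (algebraMap R K r * ε * algebraMap R K a) ∧
        MvPolynomial.constantCoeff p = l a) : ∀ r', l r' = 0 := by
  classical
  rw [Ideal.mem_span_range_iff_exists_fun] at hr
  obtain ⟨c, hc⟩ := hr
  choose s hs1 hs2 hs3 using fun i => hloc (c i)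
  let S : R := ∏ i, s i
  have hS1 : IsUnit S := by
    apply Finset.prod_induction _ IsUnit (fun _ _ => IsUnit.mul) isUnit_one
    intro f _; exact hs1 _
  have hS2 : IsIntegral (MvPolynomial (Fin n) ℂ) S := IsIntegral.prod _ fun f _ => hs2 _
  have hS3 : ∀ i, InD (MvPolynomial (Fin n) ℂ) F (algebraMap R K S * (algebraMap R K (c i) * ε)) := by
    intro i
    have h1 : algebraMap R K S * (algebraMap R K (c i) * ε) =
        algebraMap R K (∏ j ∈ Finset.univ.erase i, s j) *
        (algebraMap R K (s i) * (algebraMap R K (c i) * ε)) := by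
      have h2 : S = (∏ j ∈ Finset.univ.erase i, s j) * s i :=
        (Finset.prod_erase_mul _ _ (Finset.mem_univ i)).symm
      rw [h2, map_mul]; ring
    rw [h1]
    have h3 : IsIntegral (MvPolynomial (Fin n) ℂ) (∏ j ∈ Finset.univ.erase i, s j) :=
      IsIntegral.prod _ fun f _ => hs2 _
    exact (hs3 i).mul h3.algebraMap
  have hSa : ∀ a : R, IsIntegral (MvPolynomial (Fin n) ℂ) a → l (S * a) = 0 := by
    intro a ha
    obtain ⟨p, hp1, hp2⟩ := hrep (S * a) (hS2.mul ha)
    choose q hq using fun i => hS3 i (algebraMap R K a) ha.algebraMap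
    have h1 : p = ∑ i, MvPolynomial.X i * q i := by
      apply IsFractionRing.injective (MvPolynomial (Fin n) ℂ) F
      rw [hp1, map_sum]
      have h2 : algebraMap R K r * ε * algebraMap R K (S * a) = ∑ i,
          algebraMap (MvPolynomial (Fin n) ℂ) F (MvPolynomial.X i) •
          (algebraMap R K S * (algebraMap R K (c i) * ε) * algebraMap R K a) := by
        rw [← hc, map_sum, Finset.sum_mul, Finset.sum_mul]
        refine Finset.sum_congr rfl fun i _ => ?_
        rw [Algebra.smul_def, ← IsScalarTower.algebraMap_apply, map_mul, map_mul]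
        have h3 : algebraMap R K (par n R i) =
            algebraMap (MvPolynomial (Fin n) ℂ) K (MvPolynomial.X i) := by
          rw [par, ← IsScalarTower.algebraMap_apply]
        rw [h3]; ring
      rw [h2, map_sum]
      refine Finset.sum_congr rfl fun i _ => ?_
      rw [map_smul, ← hq, smul_eq_mul, map_mul]
    rw [← hp2, h1, map_sum]
    refine Finset.sum_eq_zero fun i _ => ?_
    rw [map_mul, MvPolynomial.constantCoeff_X, zero_mul]
  intro r'
  obtain ⟨u, hu⟩ := hS1
  obtain ⟨a, ha1, ha2⟩ := hsurj ((↑u⁻¹ : R) * r')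
  have h1 : r' = S * a + S * ((↑u⁻¹ : R) * r' - a) := by
    have h2 : S * ((↑u⁻¹ : R) * r') = r' := by
      rw [← hu, ← mul_assoc, Units.mul_inv, one_mul]
    rw [mul_sub, h2]; ring
  rw [h1, map_add, hSa a ha1, hl _ (Ideal.mul_mem_left _ _ ha2), add_zero]

/-- `g` represents the functional `l` through the trace form. -/
def Rep (n : ℕ) (F R : Type) {K : Type} [Field F] [Algebra (MvPolynomial (Fin n) ℂ) F] [CommRing R]
    [Algebra ℂ R] [Field K] [Algebra (MvPolynomial (Fin n) ℂ) R] [Algebra R K] [Algebra F K]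
    (g : K) (l : R →ₗ[ℂ] ℂ) : Prop :=
  ∀ a : R, IsIntegral (MvPolynomial (Fin n) ℂ) a → ∃ p : MvPolynomial (Fin n) ℂ,
    algebraMap _ F p = Algebra.trace F K (g * algebraMap R K a) ∧
    MvPolynomial.constantCoeff p = l a

omit [IsFractionRing (MvPolynomial (Fin n) ℂ) F] [IsDomain R] [IsLocalRing R] [IsNoetherianRing R]
  [IsIntegrallyClosed R] [Algebra ℂ K] [IsScalarTower ℂ (MvPolynomial (Fin n) ℂ) R]
  [IsFractionRing R K] [IsScalarTower (MvPolynomial (Fin n) ℂ) R K] [FiniteDimensional F K] in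
theorem Rep.lincomb {e : ℕ} (g : Fin e → K) (l : Fin e → (R →ₗ[ℂ] ℂ))
    (h : ∀ j, Rep n F R (g j) (l j)) (c : Fin e → ℂ) :
    Rep n F R (∑ j, algebraMap (MvPolynomial (Fin n) ℂ) K (MvPolynomial.C (c j)) * g j)
      (∑ j, c j • l j) := by
  intro a ha
  choose p hp1 hp2 using fun j => h j a ha
  refine ⟨∑ j, MvPolynomial.C (c j) * p j, ?_, ?_⟩
  · rw [map_sum, Finset.sum_mul, map_sum]
    refine Finset.sum_congr rfl fun j _ => ?_
    rw [map_mul, hp1, ← smul_eq_mul, ← map_smul, Algebra.smul_def, ← IsScalarTower.algebraMap_apply,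
      mul_assoc]
  · rw [map_sum, LinearMap.sum_apply]
    refine Finset.sum_congr rfl fun j _ => ?_
    rw [map_mul, MvPolynomial.constantCoeff_C, hp2, LinearMap.smul_apply, smul_eq_mul]

omit [IsFractionRing (MvPolynomial (Fin n) ℂ) F] [IsDomain R] [IsLocalRing R] [IsNoetherianRing R]
  [IsIntegrallyClosed R] [Algebra ℂ K] [IsScalarTower ℂ (MvPolynomial (Fin n) ℂ) R]
  [IsFractionRing R K] [IsScalarTower (MvPolynomial (Fin n) ℂ) R K] [FiniteDimensional F K]
  [Algebra (MvPolynomial (Fin n) ℂ) K] [IsScalarTower (MvPolynomial (Fin n) ℂ) F K] in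
theorem Rep.sub {g g' : K} {l l' : R →ₗ[ℂ] ℂ} (h : Rep n F R g l) (h' : Rep n F R g' l') :
    Rep n F R (g - g') (l - l') := by
  intro a ha
  obtain ⟨p, hp1, hp2⟩ := h a ha
  obtain ⟨q, hq1, hq2⟩ := h' a ha
  exact ⟨p - q, by rw [map_sub, hp1, hq1, sub_mul, map_sub], by rw [map_sub, hp2, hq2]; rfl⟩

theorem duality_main (hCM : IsCM R n)
    (hres : Function.Surjective (algebraMap ℂ (ResidueField R)))
    (hx : ∀ i : Fin n, par n R i ∈ maximalIdeal R)
    (hk : ∃ k : ℕ, maximalIdeal R ^ k ≤ Ideal.span (Set.range (par n R)))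
    (hzmt : ∀ r : R, ∃ s : R, IsUnit s ∧ IsIntegral (MvPolynomial (Fin n) ℂ) s ∧
      IsIntegral (MvPolynomial (Fin n) ℂ) (s * r))
    (ε : K)
    (h5 : ∀ g : K, InD (MvPolynomial (Fin n) ℂ) F g → ∃ r : R, g = algebraMap R K r * ε)
    (hloc : ∀ r : R, ∃ s : R, IsUnit s ∧ IsIntegral (MvPolynomial (Fin n) ℂ) s ∧
      InD (MvPolynomial (Fin n) ℂ) F (algebraMap R K s * (algebraMap R K r * ε))) :
    (∀ r : R, Rep n F R (algebraMap R K r * ε) 0 → r ∈ Ideal.span (Set.range (par n R))) ∧
    ∃ Φ : R →ₗ[ℂ] ℂ, (∀ r ∈ Ideal.span (Set.range (par n R)), Φ r = 0) ∧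
      ∀ b : R, (∀ a : R, Φ (a * b) = 0) → b ∈ Ideal.span (Set.range (par n R)) := by
  classical
  set I := Ideal.span (Set.range (par n R)) with hI
  have hfin : Module.Finite ℂ (R ⧸ I) := by
    obtain ⟨k, hk⟩ := hk
    exact finite_quotient_of_pow_le hres I k hk
  have hsurj := fun r : R => exists_integral_congr (n := n) hres hk hzmt r
  let β := Module.finBasis ℂ (R ⧸ I)
  set e := Module.finrank ℂ (R ⧸ I) with he
  let l : Fin e → (R →ₗ[ℂ] ℂ) := fun j => (β.coord j).comp (Ideal.Quotient.mkₐ ℂ I).toLinearMap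
  have hl : ∀ j, ∀ r ∈ I, l j r = 0 := by
    intro j r hr
    simp only [l, LinearMap.comp_apply, AlgHom.toLinearMap_apply, Ideal.Quotient.mkₐ_eq_mk]
    rw [Ideal.Quotient.eq_zero_iff_mem.mpr hr, map_zero]
  choose g hg1 hg2 using fun j => exists_inD_rep (F := F) (K := K) hCM hx hk hfin (l j) (hl j)
  choose r hr using fun j => h5 (g j) (hg1 j)
  have hlsum : ∀ c : Fin e → ℂ, (∀ r', (∑ j, c j • l j) r' = 0) → c = 0 := by
    intro c hc
    funext j
    obtain ⟨y, hy⟩ := Ideal.Quotient.mk_surjective (β j)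
    have h1 := hc y
    simp only [l, LinearMap.sum_apply, LinearMap.smul_apply, LinearMap.comp_apply,
      AlgHom.toLinearMap_apply, Ideal.Quotient.mkₐ_eq_mk, hy, Module.Basis.coord_apply,
      Module.Basis.repr_self, smul_eq_mul] at h1
    simpa [Finsupp.single_apply] using h1
  have hRepc : ∀ c : Fin e → ℂ, Rep n F R (algebraMap R K (∑ j, algebraMap ℂ R (c j) * r j) * ε)
      (∑ j, c j • l j) := by
    intro c
    have h1 := Rep.lincomb (n := n) (F := F) g l hg2 c
    have h2 : ∑ j, algebraMap (MvPolynomial (Fin n) ℂ) K (MvPolynomial.C (c j)) * g j =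
        algebraMap R K (∑ j, algebraMap ℂ R (c j) * r j) * ε := by
      rw [map_sum, Finset.sum_mul]
      refine Finset.sum_congr rfl fun j _ => ?_
      have h3 : algebraMap (MvPolynomial (Fin n) ℂ) K (MvPolynomial.C (c j)) =
          algebraMap R K (algebraMap ℂ R (c j)) := by
        rw [IsScalarTower.algebraMap_apply (MvPolynomial (Fin n) ℂ) R K,
          IsScalarTower.algebraMap_apply ℂ (MvPolynomial (Fin n) ℂ) R]
        rfl
      rw [h3, hr j, map_mul, mul_assoc]
    rwa [h2] at h1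
  have hlI : ∀ c : Fin e → ℂ, ∀ r ∈ I, (∑ j, c j • l j) r = 0 := by
    intro c r hr
    rw [LinearMap.sum_apply]
    exact Finset.sum_eq_zero fun j _ => by rw [LinearMap.smul_apply, hl j r hr, smul_zero]
  let T : (Fin e → ℂ) →ₗ[ℂ] (R ⧸ I) :=
    (Ideal.Quotient.mkₐ ℂ I).toLinearMap.comp
      (∑ j, (LinearMap.toSpanSingleton ℂ R (r j)).comp (LinearMap.proj j))
  have hT : ∀ c, T c = Ideal.Quotient.mk I (∑ j, algebraMap ℂ R (c j) * r j) := by
    intro c
    simp only [T, LinearMap.comp_apply, LinearMap.sum_apply, LinearMap.proj_apply,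
      LinearMap.toSpanSingleton_apply, AlgHom.toLinearMap_apply, Ideal.Quotient.mkₐ_eq_mk,
      Algebra.smul_def]
  have hTinj : Function.Injective T := by
    rw [← LinearMap.ker_eq_bot, LinearMap.ker_eq_bot']
    intro c hc
    rw [hT, Ideal.Quotient.eq_zero_iff_mem] at hc
    exact hlsum c (rep_eq_zero ε hsurj hloc _ (hlI c) _ hc (hRepc c))
  have hTsurj : Function.Surjective T :=
    (LinearMap.injective_iff_surjective_of_finrank_eq_finrank (by simp [he])).mp hTinj
  have out1 : ∀ r : R, Rep n F R (algebraMap R K r * ε) 0 → r ∈ I := by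
    intro r0 hr0
    obtain ⟨c, hc⟩ := hTsurj (Ideal.Quotient.mk I r0)
    rw [hT] at hc
    have h1 := hr0.sub (hRepc c)
    have h2 : algebraMap R K r0 * ε - algebraMap R K (∑ j, algebraMap ℂ R (c j) * r j) * ε =
        algebraMap R K (r0 - ∑ j, algebraMap ℂ R (c j) * r j) * ε := by
      rw [map_sub, sub_mul]
    rw [h2, zero_sub] at h1
    have h3 : r0 - ∑ j, algebraMap ℂ R (c j) * r j ∈ I := by
      rw [← Ideal.Quotient.eq, hc]
    have h4 := rep_eq_zero ε hsurj hloc _ (fun r hr => by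
      rw [LinearMap.neg_apply, hlI c r hr, neg_zero]) _ h3 h1
    have h5 : c = 0 := hlsum c (fun r' => by
      have := h4 r'
      rwa [LinearMap.neg_apply, neg_eq_zero] at this)
    subst h5
    simpa using h3
  refine ⟨out1, ?_⟩
  obtain ⟨c, hc⟩ := hTsurj (Ideal.Quotient.mk I 1)
  rw [hT] at hc
  refine ⟨∑ j, c j • l j, hlI c, fun b hb => ?_⟩
  obtain ⟨b', hb'1, hb'2⟩ := hsurj b
  have hb'3 : ∀ a : R, (∑ j, c j • l j) (b' * a) = 0 := by
    intro a
    have h1 : b' * a = a * b - a * (b - b') := by ring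
    rw [h1, map_sub, hb a, hlI c _ (Ideal.mul_mem_left _ _ hb'2), sub_zero]
  have h1 : Rep n F R (algebraMap R K (b' * ∑ j, algebraMap ℂ R (c j) * r j) * ε) 0 := by
    intro a ha
    obtain ⟨p, hp1, hp2⟩ := hRepc c (b' * a) (hb'1.mul ha)
    refine ⟨p, ?_, ?_⟩
    · rw [hp1]
      congr 1
      rw [map_mul, map_mul]; ring
    · rw [hp2, hb'3]; rfl
  have h2 := out1 _ h1
  have h3 : b = b' * (∑ j, algebraMap ℂ R (c j) * r j) + (b - b') -
      b' * ((∑ j, algebraMap ℂ R (c j) * r j) - 1) := by ring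
  rw [h3]
  refine Ideal.sub_mem _ (Ideal.add_mem _ h2 hb'2) (Ideal.mul_mem_left _ _ ?_)
  rw [← Ideal.Quotient.eq]; exact hc

end dualityMain

end Vale.Agent.P282
end

section

open IsLocalRing
open scoped WithZero

namespace Vale.Agent.P282

theorem center_height {P R K : Type} [CommRing P] [IsDomain P] [UniqueFactorizationMonoid P]
    [CommRing R] [IsDomain R] [Field K] [Algebra P R] [Algebra R K] [Algebra P K]
    [IsScalarTower P R K] [FaithfulSMul R K]
    (hzmt : ∀ r : R, ∃ s : R, IsUnit s ∧ IsIntegral P s ∧ IsIntegral P (s * r))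
    (f : P) (hf : Prime f) (hf0 : algebraMap P R f ≠ 0) (v : Valuation K ℤᵐ⁰)
    (hvf : ∀ p : P, v (algebraMap P K p) < 1 ↔ f ∣ p) (q : Ideal R) [hq : q.IsPrime]
    (hqv : ∀ r, r ∈ q ↔ v (algebraMap R K r) < 1) : q.height = 1 := by
  have hqP : ∀ p : P, algebraMap P R p ∈ q ↔ f ∣ p := by
    intro p
    rw [hqv, ← IsScalarTower.algebraMap_apply, hvf]
  have hfq : algebraMap P R f ∈ q := (hqP f).mpr dvd_rfl
  apply le_antisymm
  · have h1 : q.height ≤ ((1 : ℕ) : ℕ∞) := by
      rw [Ideal.height_le_iff]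
      intro q' hq' hlt
      -- `q'` is zero
      have hcl : ∀ p : P, algebraMap P R p ∈ q' → p ≠ 0 → algebraMap P R f ∈ q' := by
        intro p hp hp0
        obtain ⟨p', hpp', hp'⟩ := (FiniteMultiplicity.of_prime_left hf hp0).exists_eq_pow_mul_and_not_dvd
        rw [hpp', map_mul, map_pow] at hp
        rcases hq'.mem_or_mem hp with h | h
        · exact hq'.mem_of_pow_mem _ h
        · exact absurd ((hqP p').mp (hlt.le h)) hp'
      have hfq' : algebraMap P R f ∉ q' := by
        intro h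
        obtain ⟨r, hr, hr'⟩ := SetLike.exists_of_lt hlt
        obtain ⟨s, hs1, hs2, hs3⟩ := hzmt r
        have h2 := Ideal.comap_lt_comap_of_integral_mem_sdiff (R := P) hlt.le
          (x := s * r) ⟨Ideal.mul_mem_left _ _ hr, fun h' => by
            rcases hq'.mem_or_mem h' with h3 | h3
            · exact hq'.ne_top (Ideal.eq_top_of_isUnit_mem _ h3 hs1)
            · exact hr' h3⟩ hs3
        obtain ⟨p, hp1, hp2⟩ := SetLike.exists_of_lt h2
        rw [Ideal.mem_comap] at hp1 hp2
        apply hp2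
        obtain ⟨c, rfl⟩ := (hqP p).mp hp1
        rw [map_mul]
        exact Ideal.mul_mem_right _ _ h
      have hbot : q' = ⊥ := by
        by_contra hne
        obtain ⟨r, hr, hr0⟩ := Submodule.exists_mem_ne_zero_of_ne_bot hne
        obtain ⟨s, hs1, hs2, hs3⟩ := hzmt r
        have hsr0 : s * r ≠ 0 := mul_ne_zero hs1.ne_zero hr0
        have h2 := Ideal.comap_ne_bot_of_integral_mem (R := P) hsr0
          (I := q') (Ideal.mul_mem_left _ _ hr) hs3
        obtain ⟨p, hp, hp0⟩ := Submodule.exists_mem_ne_zero_of_ne_bot h2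
        exact hfq' (hcl p hp hp0)
      subst hbot
      rw [Ideal.height_bot]
      exact zero_lt_one
    exact_mod_cast h1
  · rw [Order.one_le_iff_ne_zero]
    intro h0
    rw [Ideal.height_eq_zero_iff_eq_bot] at h0
    rw [h0, Ideal.mem_bot] at hfq
    exact hf0 hfq

section forms

variable {K : Type} [Field K] [Algebra ℂ K] {n : ℕ}

theorem dWedge_ne_zero (x : Fin n → K) (b : Module.Basis (Fin n) K (Ω[K⁄ℂ]))
    (hb : ∀ i, b i = KaehlerDifferential.D ℂ K (x i)) : dWedge x ≠ 0 := by
  intro h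
  have h1 : exteriorPower.alternatingMapLinearEquiv b.det (dWedge x) = b.det b := by
    unfold dWedge
    rw [exteriorPower.alternatingMapLinearEquiv_apply_ιMulti]
    congr 1
    ext i
    exact (hb i).symm
  rw [h, map_zero, Module.Basis.det_self] at h1
  exact zero_ne_one h1

theorem exists_smul_dWedge (x : Fin n → K) (b : Module.Basis (Fin n) K (Ω[K⁄ℂ]))
    (hb : ∀ i, b i = KaehlerDifferential.D ℂ K (x i)) (ω : TopForm K n) :
    ∃ ε : K, ω = ε • dWedge x := by
  have h1 : ω ∈ Submodule.span K (Set.range (exteriorPower.ιMulti K n (M := Ω[K⁄ℂ]))) := by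
    rw [exteriorPower.ιMulti_span]; trivial
  have h2 : Submodule.span K (Set.range (exteriorPower.ιMulti K n (M := Ω[K⁄ℂ]))) ≤
      Submodule.span K {dWedge x} := by
    rw [Submodule.span_le]
    rintro _ ⟨y, rfl⟩
    rw [alt_eq_det (exteriorPower.ιMulti K n) b y]
    apply Submodule.smul_mem
    apply Submodule.subset_span
    rw [Set.mem_singleton_iff]
    unfold dWedge
    congr 1
    ext i
    exact hb i
  have h3 := h2 h1
  rw [Submodule.mem_span_singleton] at h3
  obtain ⟨ε, hε⟩ := h3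
  exact ⟨ε, hε.symm⟩

/-- two generators of the lattice of regular forms differ by a unit -/
theorem val_eq_one_of_span_eq {K M : Type} [Field K] [AddCommGroup M] [Module K M]
    (v : Valuation K ℤᵐ⁰) (ω θ : M) (hθ : θ ≠ 0) (u : K)
    (hω : ω = u • θ)
    (h : Submodule.span v.integer {ω} = Submodule.span v.integer {θ}) : v u = 1 := by
  have h1 : ω ∈ Submodule.span v.integer {θ} := by
    rw [← h]; exact Submodule.mem_span_singleton_self ω
  have h2 : θ ∈ Submodule.span v.integer {ω} := by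
    rw [h]; exact Submodule.mem_span_singleton_self θ
  rw [Submodule.mem_span_singleton] at h1 h2
  obtain ⟨a, ha⟩ := h1
  obtain ⟨b, hb⟩ := h2
  have ha' : (a : K) = u := by
    have h3 : ((a : K) - u) • θ = 0 := by
      rw [sub_smul, ← hω, ← ha, sub_eq_zero]; rfl
    rcases smul_eq_zero.mp h3 with h4 | h4
    · exact sub_eq_zero.mp h4
    · exact absurd h4 hθ
  have hb' : (b : K) * u = 1 := by
    have h3 : ((b : K) * u - 1) • θ = 0 := by
      rw [sub_smul, one_smul, mul_smul, ← hω, sub_eq_zero]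
      exact hb
    rcases smul_eq_zero.mp h3 with h4 | h4
    · exact sub_eq_zero.mp h4
    · exact absurd h4 hθ
  have h5 : v (a : K) ≤ 1 := a.2
  have h6 : v (b : K) ≤ 1 := b.2
  have h7 : v (b : K) * v u = 1 := by rw [← map_mul, hb', map_one]
  rw [ha'] at h5
  apply le_antisymm h5
  calc (1 : ℤᵐ⁰) = v (b : K) * v u := h7.symm
    _ ≤ 1 * v u := mul_le_mul_left h6 _
    _ = v u := one_mul _

end forms

section germ

variable {R : Type} [CommRing R] [IsDomain R] [IsLocalRing R] [Algebra ℂ R]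

omit [IsLocalRing R] [Algebra ℂ R] in
theorem mem_center (v : Valuation (FractionRing R) ℤᵐ⁰) (hv : IsOver v) (r : R) :
    r ∈ center v hv ↔ v (algebraMap R (FractionRing R) r) < 1 := Iff.rfl

omit [IsLocalRing R] [Algebra ℂ R] in
theorem center_isPrime (v : Valuation (FractionRing R) ℤᵐ⁰) (hv : IsOver v) :
    (center v hv).IsPrime := by
  rw [Ideal.isPrime_iff]
  constructor
  · rw [Ne, Ideal.eq_top_iff_one, mem_center, map_one, map_one]
    exact lt_irrefl _
  · intro a b hab
    rw [mem_center, map_mul, map_mul] at hab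
    rw [mem_center, mem_center]
    by_contra hcon
    push Not at hcon
    have h1 : (1 : ℤᵐ⁰) ≤ v (algebraMap R (FractionRing R) a) * v (algebraMap R (FractionRing R) b) :=
      one_le_mul hcon.1 hcon.2
    exact absurd hab (not_lt.mpr h1)

variable {n : ℕ} {F : Type} [Field F] [Algebra (MvPolynomial (Fin n) ℂ) F]
  [Algebra (MvPolynomial (Fin n) ℂ) R] [Algebra F (FractionRing R)]
  [FaithfulSMul (MvPolynomial (Fin n) ℂ) R]

theorem eps_val
    (hzmt : ∀ r : R, ∃ s : R, IsUnit s ∧ IsIntegral (MvPolynomial (Fin n) ℂ) s ∧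
      IsIntegral (MvPolynomial (Fin n) ℂ) (s * r))
    (ω : TopForm (FractionRing R) n) (hω : IsCanonicalGenerator n ω)
    (b : Module.Basis (Fin n) (FractionRing R) (Ω[(FractionRing R)⁄ℂ]))
    (hb : ∀ i, b i = KaehlerDifferential.D ℂ (FractionRing R)
      (algebraMap (MvPolynomial (Fin n) ℂ) (FractionRing R) (MvPolynomial.X i)))
    (ε : FractionRing R)
    (hε : ω = ε • dWedge fun i : Fin n =>
      algebraMap (MvPolynomial (Fin n) ℂ) (FractionRing R) (MvPolynomial.X i))
    (f : MvPolynomial (Fin n) ℂ) (hf : Prime f) (V : Set (Valuation (FractionRing R) ℤᵐ⁰))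
    (hV : IsPrimeVals F AlgEquiv.refl f V) (v : Valuation (FractionRing R) ℤᵐ⁰) (hv : v ∈ V)
    (hvo : OverR R v) :
    v (ε * algebraMap (MvPolynomial (Fin n) ℂ) (FractionRing R) f) = WithZero.exp (-1 : ℤ) := by
  have hprime := center_isPrime v hvo
  have hf0 : algebraMap (MvPolynomial (Fin n) ℂ) R f ≠ 0 := by
    rw [Ne, FaithfulSMul.algebraMap_eq_zero_iff]; exact hf.ne_zero
  have hheight : (center v hvo).height = 1 :=
    center_height hzmt f hf hf0 v (hV.lt_one v hv) (center v hvo) (fun r => mem_center v hvo r)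
  have h1 := hω v hvo (hV.divisorial v hv) hheight
  obtain ⟨θ, g, hθ1, hθ2, hθ3⟩ := hV.forms v hv
  have hθ0 : θ ≠ 0 := by
    rintro rfl
    rw [smul_zero] at hθ2
    exact dWedge_ne_zero _ b hb hθ2
  have hω' : ω = (ε * g) • θ := by
    rw [hε, mul_smul, ← hθ2]; rfl
  have h2 := val_eq_one_of_span_eq v ω θ hθ0 (ε * g) hω' (by rw [← h1, ← hθ1])
  rw [map_mul, hθ3, ← mul_assoc, ← map_mul, h2, one_mul]

/-- H5: elements of the dual are multiples of `ε`. -/
theorem exists_eq_mul_eps [IsIntegrallyClosed R] [IsFractionRing (MvPolynomial (Fin n) ℂ) F]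
    [IsScalarTower (MvPolynomial (Fin n) ℂ) F (FractionRing R)]
    [FiniteDimensional F (FractionRing R)]
    (hzmt : ∀ r : R, ∃ s : R, IsUnit s ∧ IsIntegral (MvPolynomial (Fin n) ℂ) s ∧
      IsIntegral (MvPolynomial (Fin n) ℂ) (s * r))
    (ε : FractionRing R) (hε0 : ε ≠ 0)
    (V : MvPolynomial (Fin n) ℂ → Set (Valuation (FractionRing R) ℤᵐ⁰))
    (hV : ∀ f, Prime f → IsPrimeVals F AlgEquiv.refl f (V f))
    (hprime : ∃ f : MvPolynomial (Fin n) ℂ, Prime f)
    (hε : ∀ f, Prime f → ∀ v ∈ V f, OverR R v →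
      v (ε * algebraMap (MvPolynomial (Fin n) ℂ) (FractionRing R) f) = WithZero.exp (-1 : ℤ))
    (g : FractionRing R) (hg : InD (MvPolynomial (Fin n) ℂ) F g) :
    ∃ r : R, g = algebraMap R (FractionRing R) r * ε := by
  obtain ⟨r, hr⟩ := mem_of_le_one hzmt hV hprime (g / ε) (by
    intro f hf v hv hvo
    have h1 := (hV f hf).different g hg v hv
    have h2 := hε f hf v hv hvo
    have hf0 : v (algebraMap (MvPolynomial (Fin n) ℂ) (FractionRing R) f) ≠ 0 := by
      intro h
      rw [map_mul, h, mul_zero] at h2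
      exact WithZero.exp_ne_zero h2.symm
    have h3 : v (g * algebraMap (MvPolynomial (Fin n) ℂ) (FractionRing R) f) ≤
        WithZero.exp (-1 : ℤ) := by
      by_cases h0 : v (g * algebraMap (MvPolynomial (Fin n) ℂ) (FractionRing R) f) = 0
      · rw [h0]; exact zero_le
      · rw [← WithZero.log_le_iff_le_exp h0]
        rw [← WithZero.exp_zero, ← WithZero.log_lt_iff_lt_exp h0] at h1
        omega
    rw [← h2, map_mul, map_mul] at h3
    rw [map_div₀]
    apply div_le_one_of_le₀ _ zero_le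
    exact le_of_mul_le_mul_right h3 (zero_lt_iff.mpr hf0))
  exact ⟨r, by rw [hr, div_mul_cancel₀ _ hε0]⟩

/-- H6: multiples of `ε` are locally in the dual. -/
theorem exists_unit_inD_eps [IsIntegrallyClosed R] [IsFractionRing (MvPolynomial (Fin n) ℂ) F]
    [IsScalarTower (MvPolynomial (Fin n) ℂ) F (FractionRing R)]
    [FiniteDimensional F (FractionRing R)]
    (hzmt : ∀ r : R, ∃ s : R, IsUnit s ∧ IsIntegral (MvPolynomial (Fin n) ℂ) s ∧
      IsIntegral (MvPolynomial (Fin n) ℂ) (s * r))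
    (ε : FractionRing R)
    (V : MvPolynomial (Fin n) ℂ → Set (Valuation (FractionRing R) ℤᵐ⁰))
    (hV : ∀ f, Prime f → IsPrimeVals F AlgEquiv.refl f (V f))
    (hε : ∀ f, Prime f → ∀ v ∈ V f, OverR R v →
      v (ε * algebraMap (MvPolynomial (Fin n) ℂ) (FractionRing R) f) = WithZero.exp (-1 : ℤ))
    (r : R) : ∃ s : R, IsUnit s ∧ IsIntegral (MvPolynomial (Fin n) ℂ) s ∧
      InD (MvPolynomial (Fin n) ℂ) F
        (algebraMap R (FractionRing R) s * (algebraMap R (FractionRing R) r * ε)) := by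
  apply exists_unit_mul_inD hzmt hV
  intro f hf v hv hvo
  rw [mul_assoc, map_mul, hε f hf v hv hvo]
  refine lt_of_le_of_lt (mul_le_of_le_one_left' (hvo r)) ?_
  rw [← WithZero.exp_zero]
  exact WithZero.exp_lt_exp.mpr (by norm_num)

end germ

end Vale.Agent.P282
end

section

open scoped NNReal ENNReal Nat WithZero
open IsLocalRing

namespace Vale.Agent.P282.Full

set_option linter.unusedSectionVars false
set_option linter.unusedVariables false

open Vale.Agent.P282.L2

section realval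

variable {K : Type} [Field K]

theorem canon_one_lt : (1 : ℝ≥0) < Real.toNNReal (Real.exp 1) := by
  rw [← NNReal.coe_lt_coe, Real.coe_toNNReal _ (Real.exp_pos 1).le, NNReal.coe_one]
  exact Real.one_lt_exp_iff.2 one_pos

/-- The real valuation attached to an integral valuation. -/
noncomputable def canonVal (v : Valuation K ℤᵐ⁰) : Valuation K ℝ≥0 :=
  v.map (WithZeroMulInt.toNNReal canon_one_lt.ne_zero)
    (WithZeroMulInt.toNNReal_strictMono canon_one_lt).monotone

theorem canonVal_apply (v : Valuation K ℤᵐ⁰) (x : K) :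
    canonVal v x = WithZeroMulInt.toNNReal canon_one_lt.ne_zero (v x) := rfl

theorem canon_exp (k : ℤ) :
    ((WithZeroMulInt.toNNReal canon_one_lt.ne_zero (WithZero.exp k) : ℝ≥0) : ℝ) =
      Real.exp (k : ℝ) := by
  have h0 : (WithZero.exp k : ℤᵐ⁰) ≠ 0 := WithZero.exp_ne_zero
  have h1 : Multiplicative.toAdd (WithZero.unzero h0) = k := rfl
  rw [WithZeroMulInt.toNNReal_neg_apply _ h0, NNReal.coe_zpow,
    Real.coe_toNNReal _ (Real.exp_pos 1).le, h1, ← Real.rpow_intCast, ← Real.exp_mul, one_mul]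

theorem canonVal_le_iff (v : Valuation K ℤᵐ⁰) (x y : K) :
    canonVal v x ≤ canonVal v y ↔ v x ≤ v y :=
  (WithZeroMulInt.toNNReal_strictMono canon_one_lt).le_iff_le

theorem canonVal_le_one (v : Valuation K ℤᵐ⁰) (x : K) : canonVal v x ≤ 1 ↔ v x ≤ 1 := by
  have h := canonVal_le_iff v x 1
  rwa [map_one, map_one] at h

theorem canonVal_lt_one (v : Valuation K ℤᵐ⁰) (x : K) : canonVal v x < 1 ↔ v x < 1 := by
  have h := canonVal_le_iff v 1 x
  rw [map_one, map_one] at h
  rw [← not_le, ← not_le, h]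

theorem canon_le_exp {a : ℤᵐ⁰} (ha : a < 1) : a ≤ WithZero.exp (-1 : ℤ) := by
  by_cases h0 : a = 0
  · rw [h0]; exact zero_le
  · rw [← WithZero.log_le_iff_le_exp h0]
    rw [← WithZero.exp_zero, ← WithZero.log_lt_iff_lt_exp h0] at ha
    omega

theorem canonVal_normalized [Algebra ℂ K] {v : Valuation K ℤᵐ⁰} (hv : Function.Surjective v) :
    IsNormalized (canonVal v) := by
  constructor
  · obtain ⟨f, hf⟩ := hv (WithZero.exp (-1 : ℤ))
    refine ⟨f, ?_⟩
    rw [canonVal_apply, hf, canon_exp]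
    push_cast
    rfl
  · intro f hf
    rw [canonVal_lt_one] at hf
    have h1 : canonVal v f ≤ WithZeroMulInt.toNNReal canon_one_lt.ne_zero (WithZero.exp (-1 : ℤ)) :=
      (WithZeroMulInt.toNNReal_strictMono canon_one_lt).monotone (canon_le_exp hf)
    have h2 : (canonVal v f : ℝ) ≤
        ((WithZeroMulInt.toNNReal canon_one_lt.ne_zero (WithZero.exp (-1 : ℤ)) : ℝ≥0) : ℝ) := by
      exact_mod_cast h1
    rw [canon_exp] at h2
    push_cast at h2
    exact h2

theorem canonVal_logFrame [Algebra ℂ K] {n : ℕ} {v : Valuation K ℤᵐ⁰}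
    {L : Fin n → Derivation ℂ K K} {ζ : Fin n → K} (h : LogFrame v L ζ) :
    LogFrame (canonVal v) L ζ where
  le i b := (canonVal_le_iff v _ _).2 (h.le i b)
  ne_zero := h.ne_zero
  eq := by rw [canonVal_apply, canonVal_apply, h.eq]

end realval

variable {n r : ℕ} {R K : Type} [CommRing R] [IsDomain R] [IsLocalRing R] [Algebra ℂ R]
  [Field K] [Algebra ℂ K] [Algebra R K] [IsScalarTower ℂ R K] [IsFractionRing R K]
  [Algebra (Pol n) R] [IsScalarTower ℂ (Pol n) R]
  [Algebra (Pol n) K] [IsScalarTower (Pol n) R K] [IsScalarTower ℂ (Pol n) K]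
  [FaithfulSMul (Pol n) K]
  [Algebra (FractionRing (Pol n)) K] [IsScalarTower (Pol n) (FractionRing (Pol n)) K]
  [FiniteDimensional (FractionRing (Pol n)) K]

/-- The form `ω` has neither zeros nor poles along the prime divisors of `Spec R`. -/
theorem form_val (hn : 1 ≤ n)
    (hzmt : ∀ a : R, ∃ s : R, IsUnit s ∧ IsIntegral (Pol n) s ∧ IsIntegral (Pol n) (s * a))
    {ω : (Fin n → Derivation ℂ K K) → K} (h : IsKltGerm R n r ω)
    {d : Fin n → Derivation ℂ K K} (hd : IsPartials d) (f : Pol n) (hf : Prime f)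
    (V : Set (Valuation K ℤᵐ⁰))
    (hV : IsPrimeVals (P := Pol n) (FractionRing (Pol n)) AlgEquiv.refl f V)
    (hV' : ∀ v ∈ V, ∃ (L : Fin n → Derivation ℂ K K) (ζ : Fin n → K), LogFrame v L ζ ∧
      v (Matrix.det (Matrix.of fun i j => L i (algebraMap (Pol n) K (MvPolynomial.X j)))) =
        v (algebraMap (Pol n) K f))
    (v : Valuation K ℤᵐ⁰) (hv : v ∈ V) (hvo : OverR R v) :
    v (ω d * algebraMap (Pol n) K f ^ r) = WithZero.exp (-(r : ℤ)) := by
  obtain ⟨L, ζ, hL, hLf⟩ := hV' v hv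
  -- the center
  let q : Ideal R :=
    { carrier := {a | v (algebraMap R K a) < 1}
      add_mem' := by
        intro a b ha hb
        simp only [Set.mem_ofPred_eq, map_add] at *
        exact lt_of_le_of_lt (v.map_add _ _) (max_lt ha hb)
      zero_mem' := by simp
      smul_mem' := by
        intro c x hx
        simp only [Set.mem_ofPred_eq, smul_eq_mul, map_mul] at *
        exact lt_of_le_of_lt (mul_le_mul_left (hvo c) _) (by simpa using hx) }
  have hqv : ∀ a : R, a ∈ q ↔ v (algebraMap R K a) < 1 := fun a => Iff.rfl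
  have hqp : q.IsPrime := by
    rw [Ideal.isPrime_iff]
    constructor
    · rw [Ne, Ideal.eq_top_iff_one, hqv, map_one, map_one]
      exact lt_irrefl _
    · intro a b hab
      rw [hqv, map_mul, map_mul] at hab
      rw [hqv, hqv]
      by_contra hcon
      push Not at hcon
      have h1 : (1 : ℤᵐ⁰) ≤ v (algebraMap R K a) * v (algebraMap R K b) :=
        one_le_mul hcon.1 hcon.2
      exact absurd hab (not_lt.mpr h1)
  have hfs : FaithfulSMul R K :=
    (faithfulSMul_iff_algebraMap_injective _ _).mpr (IsFractionRing.injective R K)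
  have hf0 : algebraMap (Pol n) R f ≠ 0 := by
    intro h0
    have h1 : algebraMap (Pol n) K f = 0 := by
      rw [IsScalarTower.algebraMap_apply (Pol n) R K, h0, map_zero]
    rw [FaithfulSMul.algebraMap_eq_zero_iff] at h1
    exact hf.ne_zero h1
  have hheight : q.height = 1 := center_height hzmt f hf hf0 v (hV.lt_one v hv) q hqv
  have hcen : HasCenter R (canonVal v) q := by
    intro a
    refine ⟨(canonVal_le_one v _).2 (hvo a), ?_⟩
    rw [canonVal_lt_one, hqv]
  have hlog := h.canonical (canonVal v) q hcen hheight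
    (canonVal_normalized (hV.divisorial v hv).surjective)
  have hlog' := (canonVal_logFrame hL).isLogDiscrepancy h.index_pos h.form
  have huniq : (1 : ℝ) = -Real.log (canonVal v (ω L)) / r := IsLUB.unique hlog hlog'
  have hζ : Matrix.det (Matrix.of fun i j => L i (ζ j)) ≠ 0 := by
    intro h0
    have h1 := hL.eq
    rw [h0, map_zero] at h1
    exact (Finset.prod_ne_zero_iff.2 fun i _ => hL.ne_zero i) ((v.zero_iff).1 h1.symm)
  have hωL : ω L ≠ 0 := (form_frame h.form L ζ hζ).1
  have hr : (0 : ℝ) < r := by exact_mod_cast h.index_pos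
  have hwpos : (0 : ℝ) < canonVal v (ω L) := by
    have : canonVal v (ω L) ≠ 0 := (Valuation.ne_zero_iff _).2 hωL
    exact_mod_cast pos_iff_ne_zero.2 this
  have h1 : (canonVal v (ω L) : ℝ) = Real.exp (-(r : ℝ)) := by
    rw [eq_div_iff hr.ne', one_mul] at huniq
    rw [huniq, neg_neg, Real.exp_log hwpos]
  have h2 : v (ω L) = WithZero.exp (-(r : ℤ)) := by
    apply (WithZeroMulInt.toNNReal_strictMono canon_one_lt).injective
    apply NNReal.coe_injective
    rw [canon_exp, ← canonVal_apply, h1]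
    push_cast
    rfl
  rw [map_mul, map_pow, ← hLf, ← map_pow, ← map_mul, ← (form_eval hd h.form).2 L]
  exact h2

/-- the prime divisors with logarithmic frames -/
theorem canon_choose (hn : 1 ≤ n) : ∃ V : Pol n → Set (Valuation K ℤᵐ⁰), ∀ f, Prime f →
    IsPrimeVals (P := Pol n) (FractionRing (Pol n)) AlgEquiv.refl f (V f) ∧
    ∀ v ∈ V f, ∃ (L : Fin n → Derivation ℂ K K) (ζ : Fin n → K), LogFrame v L ζ ∧
      v (Matrix.det (Matrix.of fun i j => L i (algebraMap (Pol n) K (MvPolynomial.X j)))) =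
        v (algebraMap (Pol n) K f) := by
  have h1 : ∀ f : Pol n, Prime f → ∃ V : Set (Valuation K ℤᵐ⁰),
      IsPrimeVals (P := Pol n) (FractionRing (Pol n)) AlgEquiv.refl f V ∧
      ∀ v ∈ V, ∃ (L : Fin n → Derivation ℂ K K) (ζ : Fin n → K), LogFrame v L ζ ∧
      v (Matrix.det (Matrix.of fun i j => L i (algebraMap (Pol n) K (MvPolynomial.X j)))) =
        v (algebraMap (Pol n) K f) := fun f hf =>
    exists_primeVals_log hn (F := FractionRing (Pol n)) AlgEquiv.refl f hf
  choose! V hV using h1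
  exact ⟨V, hV⟩

theorem canon_prime (hn : 1 ≤ n) : ∃ f : Pol n, Prime f :=
  ⟨MvPolynomial.X ⟨0, hn⟩, MvPolynomial.X_prime⟩

/-- `J = 1 / ω(∂/∂z₁, …, ∂/∂zₙ)` belongs to `R` (index one). -/
theorem jac_mem (hn : 1 ≤ n)
    (hzmt : ∀ a : R, ∃ s : R, IsUnit s ∧ IsIntegral (Pol n) s ∧ IsIntegral (Pol n) (s * a))
    {ω : (Fin n → Derivation ℂ K K) → K} (h : IsKltGerm R n 1 ω)
    {d : Fin n → Derivation ℂ K K} (hd : IsPartials d) :
    ∃ a : R, algebraMap R K a = (ω d)⁻¹ := by
  have hnorm := h.normal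
  obtain ⟨V, hV⟩ := canon_choose (K := K) hn
  refine mem_of_le_one (P := Pol n) (F := FractionRing (Pol n)) hzmt (fun f hf => (hV f hf).1)
    (canon_prime hn) _ ?_
  intro f hf v hv hvo
  have h1 := form_val hn hzmt h hd f hf (V f) (hV f hf).1 (hV f hf).2 v hv hvo
  rw [pow_one, map_mul, Nat.cast_one] at h1
  have h2 : v (algebraMap (Pol n) K f) < 1 := (((hV f hf).1.lt_one v hv) f).2 dvd_rfl
  have h3 := canon_le_exp h2
  rw [← h1] at h3
  have hf0 : v (algebraMap (Pol n) K f) ≠ 0 := by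
    intro h0
    rw [h0, mul_zero] at h1
    exact WithZero.exp_ne_zero h1.symm
  have h4 : 1 ≤ v (ω d) := by
    by_contra hcon
    rw [not_le] at hcon
    have h5 : v (ω d) * v (algebraMap (Pol n) K f) < 1 * v (algebraMap (Pol n) K f) :=
      mul_lt_mul_of_pos_right hcon (zero_lt_iff.mpr hf0)
    rw [one_mul] at h5
    exact absurd h3 (not_le.mpr h5)
  rw [map_inv₀]
  exact inv_le_one_of_one_le₀ h4

/-- The trace dual of the integral closure of `ℂ[z]` is contained in `R • ω(d)` (index one). -/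
theorem dual_mem (hn : 1 ≤ n)
    (hzmt : ∀ a : R, ∃ s : R, IsUnit s ∧ IsIntegral (Pol n) s ∧ IsIntegral (Pol n) (s * a))
    {ω : (Fin n → Derivation ℂ K K) → K} (h : IsKltGerm R n 1 ω)
    {d : Fin n → Derivation ℂ K K} (hd : IsPartials d) (e : K)
    (he : ∀ b : IB n K, ∃ c : Pol n,
      tr (n := n) (e * (b : K)) = algebraMap (Pol n) (FractionRing (Pol n)) c) :
    ∃ a : R, algebraMap R K a = (ω d)⁻¹ * e := by
  have hnorm := h.normal
  obtain ⟨V, hV⟩ := canon_choose (K := K) hn
  refine mem_of_le_one (P := Pol n) (F := FractionRing (Pol n)) hzmt (fun f hf => (hV f hf).1)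
    (canon_prime hn) _ ?_
  intro f hf v hv hvo
  have h1 := form_val hn hzmt h hd f hf (V f) (hV f hf).1 (hV f hf).2 v hv hvo
  rw [pow_one, Nat.cast_one] at h1
  have h2 : v (e * algebraMap (Pol n) K f) < 1 := by
    refine (hV f hf).1.different e ?_ v hv
    intro z hz
    obtain ⟨c, hc⟩ := he ⟨z, hz⟩
    exact ⟨c, hc.symm⟩
  have h3 := canon_le_exp h2
  rw [← h1, map_mul, map_mul] at h3
  rw [map_mul] at h1
  have hf0 : v (algebraMap (Pol n) K f) ≠ 0 := by
    intro h0
    rw [h0, mul_zero] at h1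
    exact WithZero.exp_ne_zero h1.symm
  have h4 : v e ≤ v (ω d) := le_of_mul_le_mul_right h3 (zero_lt_iff.mpr hf0)
  rw [map_mul, map_inv₀, mul_comm, ← div_eq_mul_inv]
  exact div_le_one_of_le₀ h4 zero_le

end Vale.Agent.P282.Full
end

section

open IsLocalRing
open scoped WithZero

namespace Vale.Agent.P282

theorem dWedge_blowup {m : ℕ} {K : Type} [Field K] [Algebra ℂ K] (y x : Fin (m + 1) → K)
    (hy : IsTranscendenceBasis ℂ y) (h0 : x 0 = y 0) (hi : ∀ i, i ≠ 0 → x i = y 0 * y i) :
    dWedge x = (y 0 ^ m) • dWedge y := by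
  classical
  obtain ⟨b, hb⟩ := exists_kaehler_basis y hy
  have h1 : dWedge x = b.det (fun i => KaehlerDifferential.D ℂ K (x i)) • dWedge y := by
    unfold dWedge
    rw [alt_eq_det (exteriorPower.ιMulti K (m + 1)) b]
    congr 1
    congr 1
    ext i
    exact hb i
  rw [h1]
  congr 1
  rw [Module.Basis.det_apply]
  have hD0 : KaehlerDifferential.D ℂ K (x 0) = b 0 := by rw [h0, hb]
  have hDi : ∀ i, i ≠ 0 → KaehlerDifferential.D ℂ K (x i) = y 0 • b i + y i • b 0 := by
    intro i h
    rw [hi i h, Derivation.leibniz, hb, hb]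
  have hup : (b.toMatrix fun i => KaehlerDifferential.D ℂ K (x i)).IsUpperTriangular := by
    intro i j hij
    have hij' : j < i := hij
    rw [Module.Basis.toMatrix_apply]
    by_cases hj : j = 0
    · subst hj
      rw [hD0, Module.Basis.repr_self, Finsupp.single_apply, if_neg (ne_of_lt hij')]
    · rw [hDi j hj, map_add, map_smul, map_smul, Module.Basis.repr_self, Module.Basis.repr_self]
      simp only [Finsupp.add_apply, Finsupp.smul_apply, Finsupp.single_apply]
      rw [if_neg (ne_of_lt hij'), if_neg (by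
        intro h; rw [← h] at hij'; exact absurd hij' (by simp))]
      simp
  rw [Matrix.det_of_isUpperTriangular hup, Fin.prod_univ_succ]
  have h2 : (b.toMatrix fun i => KaehlerDifferential.D ℂ K (x i)) 0 0 = 1 := by
    rw [Module.Basis.toMatrix_apply, hD0, Module.Basis.repr_self]; simp
  have h3 : ∀ i : Fin m, (b.toMatrix fun i => KaehlerDifferential.D ℂ K (x i)) i.succ i.succ =
      y 0 := by
    intro i
    rw [Module.Basis.toMatrix_apply, hDi _ (Fin.succ_ne_zero i), map_add, map_smul, map_smul,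
      Module.Basis.repr_self, Module.Basis.repr_self]
    simp
  rw [h2, one_mul, Finset.prod_congr rfl fun i _ => h3 i]
  simp

/-- The coordinate ring of a chart of the blowup of the origin. -/
def BlowRing (n : ℕ) : Type := MvPolynomial (Fin n) ℂ

noncomputable instance (n : ℕ) : CommRing (BlowRing n) :=
  inferInstanceAs (CommRing (MvPolynomial (Fin n) ℂ))

instance (n : ℕ) : IsDomain (BlowRing n) :=
  inferInstanceAs (IsDomain (MvPolynomial (Fin n) ℂ))

noncomputable instance (n : ℕ) : Algebra ℂ (BlowRing n) :=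
  inferInstanceAs (Algebra ℂ (MvPolynomial (Fin n) ℂ))

/-- the identity -/
noncomputable def blowEquiv (n : ℕ) : MvPolynomial (Fin n) ℂ ≃ₐ[ℂ] BlowRing n := AlgEquiv.refl

section blow

open MvPolynomial

variable {m : ℕ} {F K : Type} [Field F] [Algebra ℂ F]
    [Algebra (MvPolynomial (Fin (m + 1)) ℂ) F] [IsScalarTower ℂ (MvPolynomial (Fin (m + 1)) ℂ) F]
    [IsFractionRing (MvPolynomial (Fin (m + 1)) ℂ) F] [Field K] [Algebra ℂ K]
    [Algebra (MvPolynomial (Fin (m + 1)) ℂ) K]
    [Algebra F K] [IsScalarTower (MvPolynomial (Fin (m + 1)) ℂ) F K] [IsScalarTower ℂ F K]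
    [FiniteDimensional F K]

/-- coordinates of the chart of the blowup -/
noncomputable def yF (m : ℕ) (F : Type) [Field F] [Algebra (MvPolynomial (Fin (m + 1)) ℂ) F]
    (i : Fin (m + 1)) : F :=
  if i = 0 then algebraMap (MvPolynomial (Fin (m + 1)) ℂ) F (X 0)
  else algebraMap (MvPolynomial (Fin (m + 1)) ℂ) F (X i) /
    algebraMap (MvPolynomial (Fin (m + 1)) ℂ) F (X 0)

/-- the blowup map on polynomial rings -/
noncomputable def psi (m : ℕ) : MvPolynomial (Fin (m + 1)) ℂ →ₐ[ℂ] MvPolynomial (Fin (m + 1)) ℂ :=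
  aeval fun i => if i = 0 then X 0 else X 0 * X i

theorem psi_X0 : psi m (X 0) = X 0 := by simp [psi]

theorem psi_X {i : Fin (m + 1)} (hi : i ≠ 0) : psi m (X i) = X 0 * X i := by simp [psi, hi]

theorem constantCoeff_psi (p : MvPolynomial (Fin (m + 1)) ℂ) :
    constantCoeff (psi m p) = constantCoeff p := by
  have h1 : (constantCoeff : MvPolynomial (Fin (m + 1)) ℂ →+* ℂ).comp (psi m).toRingHom =
      constantCoeff := by
    apply MvPolynomial.ringHom_ext
    · intro c
      simp [psi]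
    · intro i
      by_cases hi : i = 0
      · subst hi; simp [psi]
      · simp [psi, hi]
  exact RingHom.congr_fun h1 p

omit [Algebra ℂ F] [IsScalarTower ℂ (MvPolynomial (Fin (m + 1)) ℂ) F] in
theorem algebraMap_X0_ne_zero : algebraMap (MvPolynomial (Fin (m + 1)) ℂ) F (X 0) ≠ 0 := by
  rw [Ne, FaithfulSMul.algebraMap_eq_zero_iff]
  exact X_ne_zero 0

omit [Algebra ℂ F] [IsScalarTower ℂ (MvPolynomial (Fin (m + 1)) ℂ) F]
  [IsFractionRing (MvPolynomial (Fin (m + 1)) ℂ) F] in
theorem yF_zero : yF m F 0 = algebraMap (MvPolynomial (Fin (m + 1)) ℂ) F (X 0) := by simp [yF]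

omit [Algebra ℂ F] [IsScalarTower ℂ (MvPolynomial (Fin (m + 1)) ℂ) F] in
theorem yF_mul {i : Fin (m + 1)} (hi : i ≠ 0) :
    algebraMap (MvPolynomial (Fin (m + 1)) ℂ) F (X i) = yF m F 0 * yF m F i := by
  rw [yF_zero]
  simp only [yF, if_neg hi]
  have := algebraMap_X0_ne_zero (m := m) (F := F)
  field_simp

theorem aeval_yF_psi (p : MvPolynomial (Fin (m + 1)) ℂ) :
    aeval (yF m F) (psi m p) = algebraMap (MvPolynomial (Fin (m + 1)) ℂ) F p := by
  have h1 : (aeval (yF m F)).comp (psi m) =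
      IsScalarTower.toAlgHom ℂ (MvPolynomial (Fin (m + 1)) ℂ) F := by
    apply MvPolynomial.algHom_ext
    intro i
    simp only [AlgHom.comp_apply, IsScalarTower.coe_toAlgHom']
    by_cases hi : i = 0
    · subst hi; rw [psi_X0, aeval_X, yF_zero]
    · rw [psi_X hi, map_mul, aeval_X, aeval_X, ← yF_mul hi]
  exact DFunLike.congr_fun h1 p

theorem yF_basis : IsTranscendenceBasis ℂ (yF m F) := by
  have htrF : Algebra.trdeg ℂ F = ((m + 1 : ℕ) : Cardinal) := by
    have h0 : Algebra.IsAlgebraic (MvPolynomial (Fin (m + 1)) ℂ) F :=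
      (IsFractionRing.comap_isAlgebraic_iff (A := MvPolynomial (Fin (m + 1)) ℂ) (K := F)
        (C := F)).mpr inferInstance
    exact trdeg_chart (P := MvPolynomial (Fin (m + 1)) ℂ) (K := F) AlgEquiv.refl
  have hadj : Algebra.IsAlgebraic (Algebra.adjoin ℂ (Set.range (yF m F))) F := by
    constructor
    intro z
    have hmem : ∀ p, algebraMap (MvPolynomial (Fin (m + 1)) ℂ) F p ∈
        Algebra.adjoin ℂ (Set.range (yF m F)) := by
      intro p
      rw [Algebra.adjoin_range_eq_range_aeval, ← aeval_yF_psi]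
      exact ⟨psi m p, rfl⟩
    obtain ⟨a, b, _, rfl⟩ := IsFractionRing.div_surjective (A := MvPolynomial (Fin (m + 1)) ℂ) z
    rw [div_eq_mul_inv]
    have h1 : ∀ p, IsAlgebraic (Algebra.adjoin ℂ (Set.range (yF m F)))
        (algebraMap (MvPolynomial (Fin (m + 1)) ℂ) F p) := fun p =>
      isAlgebraic_algebraMap (⟨_, hmem p⟩ : Algebra.adjoin ℂ (Set.range (yF m F)))
    exact (h1 a).mul (h1 b).inv
  exact Algebra.IsAlgebraic.isTranscendenceBasis_of_le_trdeg_of_finite ℂ (yF m F)
    (by rw [htrF]; simp)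

theorem blowup_aux {P1 : Type} [CommRing P1] [IsDomain P1] [Algebra ℂ P1] [Algebra P1 F]
    [IsFractionRing P1 F] [Algebra P1 K] [IsScalarTower P1 F K]
    (e : MvPolynomial (Fin (m + 1)) ℂ ≃ₐ[ℂ] P1)
    (he : ∀ p, algebraMap P1 F (e p) = aeval (yF m F) p) (V : Set (Valuation K ℤᵐ⁰))
    (hV : IsPrimeVals F e (e (X 0)) V) :
      (∀ v ∈ V, ∀ p, v (algebraMap (MvPolynomial (Fin (m + 1)) ℂ) K p) ≤ 1) ∧
      (∀ v ∈ V, IsDivisorial (m + 1) v ∧ ∃ b : ℕ, 1 ≤ b ∧
        (∀ i, v (algebraMap (MvPolynomial (Fin (m + 1)) ℂ) K (X i)) ≤ WithZero.exp (-(b : ℤ))) ∧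
        v (algebraMap (MvPolynomial (Fin (m + 1)) ℂ) K (X 0)) = WithZero.exp (-(b : ℤ)) ∧
        ∃ (θ : TopForm K (m + 1)) (g : K), regForms (m + 1) v = Submodule.span v.integer {θ} ∧
          dWedge (fun i => algebraMap (MvPolynomial (Fin (m + 1)) ℂ) K (X i)) = g • θ ∧
          v g = WithZero.exp (1 - ((m + 1 : ℕ) : ℤ) * b)) ∧
      (∀ z : K, (∀ v ∈ V, v z < 1) → ∀ p : MvPolynomial (Fin (m + 1)) ℂ,
        algebraMap (MvPolynomial (Fin (m + 1)) ℂ) F p = Algebra.trace F K z →
        constantCoeff p = 0) := by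
  classical
  have hψK : ∀ p, algebraMap P1 K (e (psi m p)) =
      algebraMap (MvPolynomial (Fin (m + 1)) ℂ) K p := by
    intro p
    rw [IsScalarTower.algebraMap_apply P1 F K, he, aeval_yF_psi, ← IsScalarTower.algebraMap_apply]
  refine ⟨?_, ?_, ?_⟩
  · intro v hv p
    rw [← hψK]
    exact hV.le_one v hv _
  · intro v hv
    refine ⟨hV.divisorial v hv, ?_⟩
    have hv0 : v (algebraMap (MvPolynomial (Fin (m + 1)) ℂ) K (X 0)) < 1 := by
      rw [← hψK, psi_X0, hV.lt_one v hv]
    have hv0' : v (algebraMap (MvPolynomial (Fin (m + 1)) ℂ) K (X 0)) ≠ 0 := by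
      rw [Ne, map_eq_zero, IsScalarTower.algebraMap_apply _ F K, map_eq_zero]
      exact algebraMap_X0_ne_zero
    obtain ⟨b, hb⟩ : ∃ b : ℕ, WithZero.log (v (algebraMap (MvPolynomial (Fin (m + 1)) ℂ) K (X 0))) =
        -((b + 1 : ℕ) : ℤ) := by
      refine ⟨(-(WithZero.log (v (algebraMap (MvPolynomial (Fin (m + 1)) ℂ) K (X 0)))) - 1).toNat, ?_⟩
      have : WithZero.log (v (algebraMap (MvPolynomial (Fin (m + 1)) ℂ) K (X 0))) < 0 := by
        rw [WithZero.log_lt_iff_lt_exp hv0']
        simpa using hv0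
      push_cast
      rw [Int.toNat_of_nonneg (by omega)]
      ring
    have hvX0 : v (algebraMap (MvPolynomial (Fin (m + 1)) ℂ) K (X 0)) =
        WithZero.exp (-((b + 1 : ℕ) : ℤ)) := by
      rw [← hb, WithZero.exp_log hv0']
    refine ⟨b + 1, by omega, ?_, hvX0, ?_⟩
    · intro i
      by_cases hi : i = 0
      · subst hi; exact hvX0.le
      · have h2 : algebraMap (MvPolynomial (Fin (m + 1)) ℂ) K (X i) =
            algebraMap (MvPolynomial (Fin (m + 1)) ℂ) K (X 0) * algebraMap P1 K (e (X i)) := by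
          rw [← hψK, psi_X hi, ← hψK, psi_X0, map_mul, map_mul]
        rw [h2, map_mul, hvX0]
        exact mul_le_of_le_one_right' (hV.le_one v hv _)
    · obtain ⟨θ, g, hθ1, hθ2, hθ3⟩ := hV.forms v hv
      have hyK : ∀ i, algebraMap P1 K (e (X i)) = algebraMap F K (yF m F i) := by
        intro i
        rw [IsScalarTower.algebraMap_apply P1 F K, he, aeval_X]
      have hx0K : algebraMap (MvPolynomial (Fin (m + 1)) ℂ) K (X 0) = algebraMap F K (yF m F 0) := by
        rw [yF_zero, ← IsScalarTower.algebraMap_apply]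
      have h1 := dWedge_blowup (K := K) (fun i => algebraMap F K (yF m F i))
        (fun i => algebraMap (MvPolynomial (Fin (m + 1)) ℂ) K (X i))
        ((yF_basis (m := m) (F := F)).algebraMap_comp) hx0K (by
          intro i hi
          rw [← map_mul, ← yF_mul hi, ← IsScalarTower.algebraMap_apply])
      have h2 : dWedge (fun i => algebraMap P1 K (e (X i))) =
          dWedge (fun i => algebraMap F K (yF m F i)) := by
        congr 1
        ext i
        exact hyK i
      refine ⟨θ, algebraMap F K (yF m F 0) ^ m * g, hθ1, ?_, ?_⟩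
      · rw [h1, ← h2, hθ2, smul_smul]
      · have h3 : v (algebraMap F K (yF m F 0)) = WithZero.exp (-((b + 1 : ℕ) : ℤ)) := by
          rw [← hx0K, hvX0]
        have h4 : v g = WithZero.exp (1 - ((b + 1 : ℕ) : ℤ)) := by
          rw [hyK 0, h3] at hθ3
          have h5 : v g = v g * WithZero.exp (-1) * WithZero.exp 1 := by
            rw [mul_assoc, ← WithZero.exp_add]; simp
          rw [h5, ← hθ3, ← WithZero.exp_add]
          congr 1
        rw [map_mul, map_pow, h3, h4, ← WithZero.exp_nsmul, ← WithZero.exp_add]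
        congr 1
        simp only [nsmul_eq_mul]
        push_cast
        ring
  · intro z hz p hp
    obtain ⟨s, p', hs, hsp⟩ := hV.trace z hz
    rw [← hp, ← aeval_yF_psi, ← he, ← map_mul] at hsp
    have h1 := IsFractionRing.injective P1 F hsp
    have h2 : e (X 0) ∣ s * e (psi m p) := ⟨p', h1⟩
    have hprime : Prime (e (X 0)) := by
      rw [MulEquiv.prime_iff e]; exact X_prime
    rcases hprime.dvd_or_dvd h2 with h3 | h3
    · exact absurd h3 hs
    · have h4 : (X 0 : MvPolynomial (Fin (m + 1)) ℂ) ∣ psi m p := by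
        simpa using map_dvd e.symm h3
      obtain ⟨q, hq⟩ := h4
      rw [← constantCoeff_psi, hq, map_mul, constantCoeff_X, zero_mul]

theorem blowup_vals :
    ∃ V : Set (Valuation K ℤᵐ⁰), V.Finite ∧
      (∀ v ∈ V, ∀ p, v (algebraMap (MvPolynomial (Fin (m + 1)) ℂ) K p) ≤ 1) ∧
      (∀ v ∈ V, IsDivisorial (m + 1) v ∧ ∃ b : ℕ, 1 ≤ b ∧
        (∀ i, v (algebraMap (MvPolynomial (Fin (m + 1)) ℂ) K (X i)) ≤ WithZero.exp (-(b : ℤ))) ∧
        v (algebraMap (MvPolynomial (Fin (m + 1)) ℂ) K (X 0)) = WithZero.exp (-(b : ℤ)) ∧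
        ∃ (θ : TopForm K (m + 1)) (g : K), regForms (m + 1) v = Submodule.span v.integer {θ} ∧
          dWedge (fun i => algebraMap (MvPolynomial (Fin (m + 1)) ℂ) K (X i)) = g • θ ∧
          v g = WithZero.exp (1 - ((m + 1 : ℕ) : ℤ) * b)) ∧
      (∀ z : K, (∀ v ∈ V, v z < 1) → ∀ p : MvPolynomial (Fin (m + 1)) ℂ,
        algebraMap (MvPolynomial (Fin (m + 1)) ℂ) F p = Algebra.trace F K z →
        constantCoeff p = 0) := by
  classical
  let e := blowEquiv (m + 1)
  let φ : BlowRing (m + 1) →ₐ[ℂ] F := (aeval (yF m F)).comp e.symm.toAlgHom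
  let _ : Algebra (BlowRing (m + 1)) F := φ.toRingHom.toAlgebra
  let _ : Algebra (BlowRing (m + 1)) K := ((algebraMap F K).comp φ.toRingHom).toAlgebra
  have he : ∀ p, algebraMap (BlowRing (m + 1)) F (e p) = aeval (yF m F) p := by
    intro p
    show aeval (yF m F) (e.symm (e p)) = _
    rw [AlgEquiv.symm_apply_apply]
  have _ : IsScalarTower (BlowRing (m + 1)) F K := IsScalarTower.of_algebraMap_eq fun p => rfl
  have _ : IsScalarTower ℂ (BlowRing (m + 1)) K := IsScalarTower.of_algebraMap_eq fun c => by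
    have h1 : algebraMap (BlowRing (m + 1)) K (algebraMap ℂ (BlowRing (m + 1)) c) =
      algebraMap F K (φ (algebraMap ℂ (BlowRing (m + 1)) c)) := rfl
    rw [h1, AlgHom.commutes, ← IsScalarTower.algebraMap_apply]
  have hinj : Function.Injective (algebraMap (BlowRing (m + 1)) F) := by
    show Function.Injective ((aeval (yF m F)).comp e.symm.toAlgHom)
    exact Function.Injective.comp (g := (aeval (yF m F))) (yF_basis (m := m) (F := F)).1
      e.symm.injective
  have _ : FaithfulSMul (BlowRing (m + 1)) F := (faithfulSMul_iff_algebraMap_injective _ _).mpr hinj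
  have _ : IsFractionRing (BlowRing (m + 1)) F := by
    apply IsFractionRing.of_field
    intro z
    obtain ⟨a, b, _, rfl⟩ := IsFractionRing.div_surjective (A := MvPolynomial (Fin (m + 1)) ℂ) z
    exact ⟨e (psi m a), e (psi m b), by rw [he, he, aeval_yF_psi, aeval_yF_psi]⟩
  obtain ⟨V, hV⟩ := exists_primeVals (P := BlowRing (m + 1)) (F := F) (K := K) (by omega) e
    (e (X 0)) (by rw [MulEquiv.prime_iff e]; exact X_prime)
  exact ⟨V, hV.finite, blowup_aux e he V hV⟩

end blow

end Vale.Agent.P282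
end

section

open IsLocalRing
open scoped WithZero

namespace Vale.Agent.P282

section setup

variable {n : ℕ} {R : Type} [CommRing R] [IsDomain R] [IsLocalRing R] [Algebra ℂ R]
  [Algebra (MvPolynomial (Fin n) ℂ) R] [IsScalarTower ℂ (MvPolynomial (Fin n) ℂ) R]

omit [IsDomain R] [IsLocalRing R] in
theorem aeval_par (p : MvPolynomial (Fin n) ℂ) :
    MvPolynomial.aeval (par n R) p = algebraMap (MvPolynomial (Fin n) ℂ) R p := by
  have h1 : MvPolynomial.aeval (par n R) = IsScalarTower.toAlgHom ℂ (MvPolynomial (Fin n) ℂ) R := by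
    apply MvPolynomial.algHom_ext
    intro i
    simp [par]
  rw [h1]; rfl

omit [IsLocalRing R] in
theorem isAlgebraic_of_zmt
    (hzmt : ∀ r : R, ∃ s : R, IsUnit s ∧ IsIntegral (MvPolynomial (Fin n) ℂ) s ∧
      IsIntegral (MvPolynomial (Fin n) ℂ) (s * r)) :
    Algebra.IsAlgebraic (Algebra.adjoin ℂ (Set.range (par n R))) R := by
  have hint : ∀ r : R, IsIntegral (MvPolynomial (Fin n) ℂ) r →
      IsIntegral (Algebra.adjoin ℂ (Set.range (par n R))) r := by
    rintro r ⟨p, hp, hpr⟩
    let f : MvPolynomial (Fin n) ℂ →+* Algebra.adjoin ℂ (Set.range (par n R)) :=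
      ((MvPolynomial.aeval (par n R)).codRestrict (Algebra.adjoin ℂ (Set.range (par n R)))
        (fun p => by rw [Algebra.adjoin_range_eq_range_aeval]; exact ⟨p, rfl⟩)).toRingHom
    refine ⟨p.map f, hp.map f, ?_⟩
    rw [Polynomial.eval₂_map]
    have h1 : (algebraMap (Algebra.adjoin ℂ (Set.range (par n R))) R).comp f =
        algebraMap (MvPolynomial (Fin n) ℂ) R := by
      apply RingHom.ext
      intro q
      exact aeval_par q
    rw [h1]; exact hpr
  constructor
  intro r
  obtain ⟨s, hs1, hs2, hs3⟩ := hzmt r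
  exact IsAlgebraic.of_mul (y := s) (hs1.mem_nonZeroDivisors) (hint s hs2).isAlgebraic
    (hint _ hs3).isAlgebraic

omit [IsLocalRing R] in
theorem par_transcendenceBasis
    (hzmt : ∀ r : R, ∃ s : R, IsUnit s ∧ IsIntegral (MvPolynomial (Fin n) ℂ) s ∧
      IsIntegral (MvPolynomial (Fin n) ℂ) (s * r)) (htr : Algebra.trdeg ℂ R = n) :
    IsTranscendenceBasis ℂ (par n R) := by
  have h1 := isAlgebraic_of_zmt hzmt
  have h2 : FaithfulSMul ℂ R := (faithfulSMul_iff_algebraMap_injective _ _).mpr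
    (algebraMap ℂ R).injective
  exact Algebra.IsAlgebraic.isTranscendenceBasis_of_le_trdeg_of_finite ℂ (par n R)
    (by rw [htr]; simp)

end setup

theorem core_aux {m : ℕ} {R : Type} [CommRing R] [IsDomain R] [IsLocalRing R] [Algebra ℂ R]
    [Algebra (MvPolynomial (Fin (m + 1)) ℂ) R] [IsScalarTower ℂ (MvPolynomial (Fin (m + 1)) ℂ) R]
    (hR : IsNormalGerm R (m + 1)) (hCM : IsCM R (m + 1)) (ω : TopForm (FractionRing R) (m + 1))
    (hω : IsCanonicalGenerator (m + 1) ω)
    (hx : ∀ i : Fin (m + 1), par (m + 1) R i ∈ maximalIdeal R)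
    (hk : ∃ k : ℕ, maximalIdeal R ^ k ≤ Ideal.span (Set.range (par (m + 1) R))) :
    (∃ Φ : R →ₗ[ℂ] ℂ, (∀ r ∈ Ideal.span (Set.range (par (m + 1) R)), Φ r = 0) ∧
      ∀ b : R, (∀ a : R, Φ (a * b) = 0) → b ∈ Ideal.span (Set.range (par (m + 1) R))) ∧
    ∀ r : R, r ∉ Ideal.span (Set.range (par (m + 1) R)) →
      ∃ (v : Valuation (FractionRing R) ℤᵐ⁰) (hv : IsOver v), IsDivisorial (m + 1) v ∧
        center v hv = maximalIdeal R ∧ ∃ (b : ℕ) (a : ℤ), 1 ≤ b ∧
        (∀ i, v (algebraMap R (FractionRing R) (par (m + 1) R i)) ≤ WithZero.exp (-(b : ℤ))) ∧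
        IsLogDiscrepancy (m + 1) ω v a ∧
        1 ≤ v (algebraMap R (FractionRing R) r) * WithZero.exp (((m + 1 : ℕ) : ℤ) * b - a) := by
  classical
  have hess := hR.essFiniteType
  have hnoeth : IsNoetherianRing R := Algebra.EssFiniteType.isNoetherianRing ℂ R
  have hic := hR.normal
  have hzmt : ∀ r : R, ∃ s : R, IsUnit s ∧ IsIntegral (MvPolynomial (Fin (m + 1)) ℂ) s ∧
      IsIntegral (MvPolynomial (Fin (m + 1)) ℂ) (s * r) := fun r => zmt hR.residue hx hk r
  have htb := par_transcendenceBasis hzmt hR.dim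
  have hinj : Function.Injective (algebraMap (MvPolynomial (Fin (m + 1)) ℂ) R) := by
    have h1 : Function.Injective (MvPolynomial.aeval (R := ℂ) (par (m + 1) R)) := htb.1
    intro p q hpq
    apply h1
    rw [aeval_par, aeval_par, hpq]
  have hfaith : FaithfulSMul (MvPolynomial (Fin (m + 1)) ℂ) R :=
    (faithfulSMul_iff_algebraMap_injective _ _).mpr hinj
  let F := FractionRing (MvPolynomial (Fin (m + 1)) ℂ)
  have hfaithK : FaithfulSMul (MvPolynomial (Fin (m + 1)) ℂ) (FractionRing R) := by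
    rw [faithfulSMul_iff_algebraMap_injective, IsScalarTower.algebraMap_eq _ R (FractionRing R)]
    exact (IsFractionRing.injective R (FractionRing R)).comp hinj
  let _ : Algebra F (FractionRing R) :=
    FractionRing.liftAlgebra (MvPolynomial (Fin (m + 1)) ℂ) (FractionRing R)
  have _ : IsScalarTower (MvPolynomial (Fin (m + 1)) ℂ) F (FractionRing R) :=
    FractionRing.isScalarTower_liftAlgebra _ _
  have _ : IsScalarTower ℂ (MvPolynomial (Fin (m + 1)) ℂ) (FractionRing R) :=
    IsScalarTower.of_algebraMap_eq fun c => by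
      rw [IsScalarTower.algebraMap_apply (MvPolynomial (Fin (m + 1)) ℂ) R (FractionRing R),
        ← IsScalarTower.algebraMap_apply ℂ (MvPolynomial (Fin (m + 1)) ℂ) R,
        ← IsScalarTower.algebraMap_apply ℂ R (FractionRing R)]
  have _ : IsScalarTower ℂ F (FractionRing R) :=
    IsScalarTower.of_algebraMap_eq fun c => by
      rw [IsScalarTower.algebraMap_apply ℂ (MvPolynomial (Fin (m + 1)) ℂ) F,
        ← IsScalarTower.algebraMap_apply (MvPolynomial (Fin (m + 1)) ℂ) F (FractionRing R),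
        ← IsScalarTower.algebraMap_apply ℂ (MvPolynomial (Fin (m + 1)) ℂ) (FractionRing R)]
  have halgR : Algebra.IsAlgebraic (MvPolynomial (Fin (m + 1)) ℂ) R := by
    constructor
    intro r
    obtain ⟨s, hs1, hs2, hs3⟩ := hzmt r
    exact IsAlgebraic.of_mul (y := s) (hs1.mem_nonZeroDivisors) hs2.isAlgebraic hs3.isAlgebraic
  have halgRK : Algebra.IsAlgebraic R (FractionRing R) :=
    IsLocalization.isAlgebraic _ (nonZeroDivisors R)
  have halgPK : Algebra.IsAlgebraic (MvPolynomial (Fin (m + 1)) ℂ) (FractionRing R) :=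
    Algebra.IsAlgebraic.trans _ R _
  have halg : Algebra.IsAlgebraic F (FractionRing R) :=
    (IsFractionRing.comap_isAlgebraic_iff (A := MvPolynomial (Fin (m + 1)) ℂ) (K := F)
      (C := FractionRing R)).mp halgPK
  have hessRK : Algebra.EssFiniteType R (FractionRing R) :=
    Algebra.EssFiniteType.of_isLocalization _ (nonZeroDivisors R)
  have hessCK : Algebra.EssFiniteType ℂ (FractionRing R) := Algebra.EssFiniteType.comp ℂ R _
  have hessK : Algebra.EssFiniteType F (FractionRing R) := Algebra.EssFiniteType.of_comp ℂ F _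
  have hfd : FiniteDimensional F (FractionRing R) :=
    Algebra.finite_of_essFiniteType_of_isAlgebraic
  -- the valuations over the primes of the polynomial ring
  have hchart : ∀ f : MvPolynomial (Fin (m + 1)) ℂ, Prime f →
      ∃ V : Set (Valuation (FractionRing R) ℤᵐ⁰), IsPrimeVals F AlgEquiv.refl f V :=
    fun f hf => exists_primeVals (by omega) AlgEquiv.refl f hf
  choose! V hV using hchart
  -- the Kähler basis
  have htbK : IsTranscendenceBasis ℂ (fun i : Fin (m + 1) =>
      algebraMap (MvPolynomial (Fin (m + 1)) ℂ) (FractionRing R) (MvPolynomial.X i)) := by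
    have h1 := htb.algebraMap_comp (A := FractionRing R)
    convert h1 using 1
    ext i
    rw [Function.comp_apply, par, ← IsScalarTower.algebraMap_apply]
  obtain ⟨b, hb⟩ := exists_kaehler_basis _ htbK
  obtain ⟨ε, hε⟩ := exists_smul_dWedge _ b hb ω
  have hεV : ∀ f, Prime f → ∀ v ∈ V f, OverR R v →
      v (ε * algebraMap (MvPolynomial (Fin (m + 1)) ℂ) (FractionRing R) f) =
        WithZero.exp (-1 : ℤ) := fun f hf v hv hvo =>
    eps_val hzmt ω hω b hb ε hε f hf (V f) (hV f hf) v hv hvo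
  have hprime : ∃ f : MvPolynomial (Fin (m + 1)) ℂ, Prime f :=
    ⟨MvPolynomial.X 0, MvPolynomial.X_prime⟩
  have hx0 : par (m + 1) R 0 ≠ 0 := by
    rw [par, Ne, FaithfulSMul.algebraMap_eq_zero_iff]
    exact MvPolynomial.X_ne_zero 0
  have hε0 : ε ≠ 0 := by
    rintro rfl
    obtain ⟨r, hr⟩ := mem_of_le_one hzmt hV hprime
      (algebraMap R (FractionRing R) (par (m + 1) R 0))⁻¹ (by
        intro f hf v hv hvo
        have := hεV f hf v hv hvo
        rw [zero_mul, map_zero] at this
        exact absurd this.symm WithZero.exp_ne_zero)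
    have h1 : algebraMap R (FractionRing R) (r * par (m + 1) R 0) = algebraMap R _ 1 := by
      rw [map_mul, hr, map_one, inv_mul_cancel₀]
      rw [Ne, FaithfulSMul.algebraMap_eq_zero_iff]
      exact hx0
    have h2 := FaithfulSMul.algebraMap_injective R (FractionRing R) h1
    have h3 : IsUnit (par (m + 1) R 0) := IsUnit.of_mul_eq_one_right r h2
    exact hx 0 h3
  have h5 := exists_eq_mul_eps hzmt ε hε0 V hV hprime hεV
  have h6 := exists_unit_inD_eps hzmt ε V hV hεV
  obtain ⟨out1, out2⟩ := duality_main hCM hR.residue hx hk hzmt ε h5 h6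
  refine ⟨out2, ?_⟩
  intro r hr
  obtain ⟨V0, hV0fin, hV0P, hV0, hV0tr⟩ := blowup_vals (m := m) (F := F) (K := FractionRing R)
  -- some valuation over `R` is bad
  obtain ⟨v, hvV, hvo, hvr⟩ : ∃ v ∈ V0, OverR R v ∧ 1 ≤ v (algebraMap R (FractionRing R) r * ε) := by
    by_contra hcon
    push Not at hcon
    apply hr
    obtain ⟨s, hs1, hs2, hs3⟩ := h6 r
    obtain ⟨a, ha1, ha2, ha3⟩ := shrink hzmt V0 hV0fin hV0P
      (algebraMap R (FractionRing R) s * (algebraMap R (FractionRing R) r * ε))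
    have hv1 : ∀ v ∈ V0, v (algebraMap R (FractionRing R) (a * s * r) * ε) < 1 := by
      intro v hv
      by_cases hvo : OverR R v
      · have e1 : algebraMap R (FractionRing R) (a * s * r) * ε =
            algebraMap R (FractionRing R) (a * s) * (algebraMap R (FractionRing R) r * ε) := by
          rw [map_mul (algebraMap R (FractionRing R)) (a * s) r]; ring
        rw [e1, map_mul v, hvo.eq_one (ha1.mul hs1), one_mul]
        exact hcon v hv hvo
      · have e1 : algebraMap R (FractionRing R) (a * s * r) * ε =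
            algebraMap R (FractionRing R) a *
            (algebraMap R (FractionRing R) s * (algebraMap R (FractionRing R) r * ε)) := by
          rw [map_mul, map_mul]; ring
        rw [e1]
        exact ha3 v hv hvo
    have hinD : InD (MvPolynomial (Fin (m + 1)) ℂ) F
        (algebraMap R (FractionRing R) (a * s * r) * ε) := by
      have h7 := hs3.mul (a := algebraMap R (FractionRing R) a) ha2.algebraMap
      have h8 : algebraMap R (FractionRing R) a *
          (algebraMap R (FractionRing R) s * (algebraMap R (FractionRing R) r * ε)) =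
          algebraMap R (FractionRing R) (a * s * r) * ε := by
        rw [map_mul, map_mul]; ring
      rwa [h8] at h7
    have hrep : Rep (m + 1) F R (algebraMap R (FractionRing R) (a * s * r) * ε) 0 := by
      intro c hc
      obtain ⟨p, hp⟩ := hinD (algebraMap R (FractionRing R) c) hc.algebraMap
      refine ⟨p, hp, ?_⟩
      rw [LinearMap.zero_apply]
      refine hV0tr _ (fun v hv => ?_) p hp
      rw [map_mul]
      have h9 : v (algebraMap R (FractionRing R) c) ≤ 1 :=
        val_le_one_of_integral v (hV0P v hv) _ hc.algebraMap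
      exact lt_of_le_of_lt (mul_le_of_le_one_right' h9) (hv1 v hv)
    have h10 := out1 _ hrep
    obtain ⟨u, hu⟩ := ha1.mul hs1
    have h11 : r = (↑u⁻¹ : R) * (a * s * r) := by
      rw [← hu, ← mul_assoc, Units.inv_mul, one_mul]
    rw [h11]
    exact Ideal.mul_mem_left _ _ h10
  obtain ⟨hdiv, c, hc1, hc2, hc3, θ, g, hθ1, hθ2, hθ3⟩ := hV0 v hvV
  have hparK : ∀ i, algebraMap R (FractionRing R) (par (m + 1) R i) =
      algebraMap (MvPolynomial (Fin (m + 1)) ℂ) (FractionRing R) (MvPolynomial.X i) := by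
    intro i
    rw [par, ← IsScalarTower.algebraMap_apply]
  have hvε : v ε ≠ 0 := (Valuation.ne_zero_iff v).mpr hε0
  have hvo' : IsOver v := hvo
  refine ⟨v, hvo', hdiv, ?_, c, ((m + 1 : ℕ) : ℤ) * c - WithZero.log (v ε), hc1, ?_, ?_, ?_⟩
  · -- the center
    have hprime := center_isPrime v hvo'
    apply le_antisymm
    · exact IsLocalRing.le_maximalIdeal hprime.ne_top
    · obtain ⟨k, hk⟩ := hk
      have h12 : Ideal.span (Set.range (par (m + 1) R)) ≤ center v hvo' := by
        rw [Ideal.span_le]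
        rintro _ ⟨i, rfl⟩
        rw [SetLike.mem_coe, mem_center, hparK]
        refine lt_of_le_of_lt (hc2 i) ?_
        rw [← WithZero.exp_zero]
        exact WithZero.exp_lt_exp.mpr (by omega)
      exact hprime.le_of_pow_le (hk.trans h12)
  · intro i
    rw [hparK]; exact hc2 i
  · refine ⟨θ, ε * g, hθ1, ?_, ?_⟩
    · rw [hε, hθ2, smul_smul]
    · rw [map_mul, hθ3]
      conv_lhs => rw [← WithZero.exp_log hvε]
      rw [← WithZero.exp_add]
      congr 1
      ring
  · rw [map_mul] at hvr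
    have h13 : WithZero.exp (((m + 1 : ℕ) : ℤ) * c - (((m + 1 : ℕ) : ℤ) * c - WithZero.log (v ε))) =
        v ε := by
      rw [sub_sub_cancel, WithZero.exp_log hvε]
    rw [h13]
    exact hvr

end Vale.Agent.P282
end

section

open scoped NNReal ENNReal Nat WithZero
open IsLocalRing

namespace Vale.Agent.P282.Full

open Vale.Agent.P282.L2

section weak

variable {K : Type} [Field K]

/-- The absolute value of a real valuation. -/
noncomputable def logexAbs (v : Valuation K ℝ≥0) : AbsoluteValue K ℝ where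
  toFun x := (v x : ℝ)
  map_mul' x y := by rw [map_mul, NNReal.coe_mul]
  nonneg' x := NNReal.coe_nonneg _
  eq_zero' x := by rw [NNReal.coe_eq_zero, Valuation.zero_iff]
  add_le' x y := by
    have h := v.map_add x y
    have h2 : max (v x) (v y) ≤ v x + v y :=
      max_le (le_add_of_nonneg_right zero_le) (le_add_of_nonneg_left zero_le)
    exact_mod_cast h.trans h2

theorem logexAbs_apply (v : Valuation K ℝ≥0) (x : K) : logexAbs v x = (v x : ℝ) := rfl

theorem logexAbs_le_iff (v : Valuation K ℝ≥0) (x y : K) :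
    logexAbs v x ≤ logexAbs v y ↔ v x ≤ v y := NNReal.coe_le_coe

theorem logex_rpow {v w : Valuation K ℝ≥0} (h : (logexAbs w).IsEquiv (logexAbs v)) :
    ∃ c : ℝ, 0 < c ∧ ∀ a, v a = w a ^ c := by
  obtain ⟨c, hc, hcw⟩ := AbsoluteValue.isEquiv_iff_exists_rpow_eq.1 h
  refine ⟨c, hc, fun a => ?_⟩
  have h1 := congrFun hcw a
  apply NNReal.coe_injective
  rw [NNReal.coe_rpow]
  exact h1.symm

theorem logex_uniformizer {w w' : Valuation K ℤᵐ⁰} (hw' : Function.Surjective w')
    (h : ∀ x y, w x ≤ w y ↔ w' x ≤ w' y) {π : K} (hπ : w π = WithZero.exp (-1 : ℤ)) :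
    w' π = WithZero.exp (-1 : ℤ) := by
  have hlt : w π < 1 := by
    rw [hπ, ← WithZero.exp_zero]
    exact WithZero.exp_lt_exp.mpr (by norm_num)
  have h1 : ∀ x, w x < 1 ↔ w' x < 1 := fun x => by
    have h2 := h 1 x
    rw [map_one, map_one] at h2
    rw [← not_le, ← not_le, h2]
  apply le_antisymm (canon_le_exp ((h1 π).1 hlt))
  obtain ⟨ρ, hρ⟩ := hw' (WithZero.exp (-1 : ℤ))
  rw [← hρ, ← h, hπ]
  apply canon_le_exp
  rw [h1, hρ, ← WithZero.exp_zero]
  exact WithZero.exp_lt_exp.mpr (by norm_num)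

theorem logex_unique {w w' : Valuation K ℤᵐ⁰} (hw : Function.Surjective w)
    (hw' : Function.Surjective w') (h : ∀ x y, w x ≤ w y ↔ w' x ≤ w' y) : w = w' := by
  obtain ⟨π, hπ⟩ := hw (WithZero.exp (-1 : ℤ))
  have hπ' := logex_uniformizer hw' h hπ
  have hπ0 : w π ≠ 0 := by rw [hπ]; exact WithZero.exp_ne_zero
  ext x
  by_cases hx : x = 0
  · rw [hx, map_zero, map_zero]
  have hx0 : w x ≠ 0 := w.ne_zero_iff.mpr hx
  set k : ℤ := WithZero.log (w x) with hk
  have hxk : w x = WithZero.exp k := (WithZero.exp_log hx0).symm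
  have hone : ∀ y, w y = 1 → w' y = 1 := fun y hy => by
    apply le_antisymm
    · have := (h y 1).1 (by rw [hy, map_one])
      rwa [map_one] at this
    · have := (h 1 y).1 (by rw [hy, map_one])
      rwa [map_one] at this
  have h1 : w (x * π ^ k) = 1 := by
    rw [map_mul, map_zpow₀, hπ, hxk, ← WithZero.exp_zsmul, ← WithZero.exp_add]
    simp
  have h2 := hone _ h1
  rw [map_mul, map_zpow₀, hπ', ← hπ, ← map_zpow₀] at h2
  rw [map_mul] at h1
  have h3 : w (π ^ k) ≠ 0 := by
    rw [map_zpow₀]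
    exact zpow_ne_zero _ hπ0
  exact mul_right_cancel₀ h3 (h1.trans h2.symm)

theorem logex_nontrivial {w : Valuation K ℤᵐ⁰} (hw : Function.Surjective w) :
    (logexAbs (canonVal w)).IsNontrivial := by
  obtain ⟨π, hπ⟩ := hw (WithZero.exp (-1 : ℤ))
  have hlt : w π < 1 := by
    rw [hπ, ← WithZero.exp_zero]
    exact WithZero.exp_lt_exp.mpr (by norm_num)
  refine ⟨π, ?_, ?_⟩
  · rintro rfl
    rw [map_zero] at hπ
    exact WithZero.exp_ne_zero hπ.symm
  · rw [logexAbs_apply]
    have h1 := (canonVal_lt_one w π).2 hlt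
    have h2 : (canonVal w π : ℝ) < 1 := by exact_mod_cast h1
    exact h2.ne

/-- weak approximation -/
theorem logex_approx {v : Valuation K ℝ≥0} (hv : (logexAbs v).IsNontrivial)
    {V : Set (Valuation K ℤᵐ⁰)} (hV : V.Finite) (hV1 : ∀ w ∈ V, Function.Surjective w)
    (hne : ∀ w ∈ V, ¬ (logexAbs (canonVal w)).IsEquiv (logexAbs v)) :
    ∃ a : K, 1 < v a ∧ ∀ w ∈ V, w a ≤ 1 := by
  have hfin : Finite V := hV
  let A : Option V → AbsoluteValue K ℝ := fun i => i.elim (logexAbs v)
    (fun w => logexAbs (canonVal w.1))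
  have h1 : ∀ i, (A i).IsNontrivial := by
    rintro (_ | w)
    · exact hv
    · exact logex_nontrivial (hV1 w.1 w.2)
  have h2 : Pairwise fun i j => ¬ (A i).IsEquiv (A j) := by
    rintro (_ | w) (_ | w') hij he
    · exact hij rfl
    · exact hne w'.1 w'.2 he.symm
    · exact hne w.1 w.2 he
    · apply hij
      congr 1
      apply Subtype.ext
      refine logex_unique (hV1 w.1 w.2) (hV1 w'.1 w'.2) fun x y => ?_
      have h3 := he x y
      change logexAbs (canonVal w.1) x ≤ logexAbs (canonVal w.1) y ↔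
        logexAbs (canonVal w'.1) x ≤ logexAbs (canonVal w'.1) y at h3
      rwa [logexAbs_le_iff, logexAbs_le_iff, canonVal_le_iff, canonVal_le_iff] at h3
  obtain ⟨a, ha, ha'⟩ := AbsoluteValue.exists_one_lt_lt_one_pi_of_not_isEquiv h1 h2 none
  refine ⟨a, ?_, fun w hw => ?_⟩
  · have h3 : (1 : ℝ) < (v a : ℝ) := ha
    exact_mod_cast h3
  · have h3 : (canonVal w a : ℝ) < 1 := ha' (some ⟨w, hw⟩) (by simp)
    have h4 : canonVal w a < 1 := by exact_mod_cast h3
    exact ((canonVal_lt_one w a).1 h4).le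

end weak

section down

/-- going down along `A → B → R`, `R` a localization of the integral closure `B` of `A` -/
theorem logex_goingDown {A R : Type} [CommRing A] [IsDomain A] [IsIntegrallyClosed A] [CommRing R]
    [IsDomain R] [Algebra A R] [FaithfulSMul A R]
    (hzmt : ∀ a : R, ∃ s : R, IsUnit s ∧ IsIntegral A s ∧ IsIntegral A (s * a)) :
    Algebra.HasGoingDown A R := by
  let B := integralClosure A R
  let S : Submonoid B := (IsUnit.submonoid R).comap (algebraMap B R)
  have hloc : IsLocalization S R := by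
    refine ⟨⟨fun y => y.2, fun z => ?_, fun {x y} hxy => ⟨1, ?_⟩⟩⟩
    · obtain ⟨s, hs, hs1, hs2⟩ := hzmt z
      refine ⟨(⟨s * z, hs2⟩, ⟨⟨s, hs1⟩, hs⟩), ?_⟩
      exact mul_comm _ _
    · have : x = y := Subtype.ext hxy
      rw [this]
  have hflat : Module.Flat B R := IsLocalization.flat R S
  exact Algebra.HasGoingDown.trans A B R

theorem logex_span {A R : Type} [CommRing A] [IsDomain A] [UniqueFactorizationMonoid A]
    [CommRing R] [IsDomain R] [Algebra A R] [FaithfulSMul A R]
    (hzmt : ∀ a : R, ∃ s : R, IsUnit s ∧ IsIntegral A s ∧ IsIntegral A (s * a))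
    {P : Ideal R} [P.IsPrime] (hP : P.height = 1) :
    ∃ f : A, Prime f ∧ P.comap (algebraMap A R) = Ideal.span {f} := by
  have hgd := logex_goingDown hzmt
  have hPbot : P ≠ ⊥ := by
    rintro rfl
    rw [Ideal.height_bot] at hP
    exact zero_ne_one hP
  obtain ⟨a, ha, ha0⟩ := Submodule.exists_mem_ne_zero_of_ne_bot hPbot
  obtain ⟨s, hs1, hs2, hs3⟩ := hzmt a
  have h1 : P.comap (algebraMap A R) ≠ ⊥ :=
    Ideal.comap_ne_bot_of_integral_mem (mul_ne_zero hs1.ne_zero ha0)
      (Ideal.mul_mem_left _ _ ha) hs3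
  obtain ⟨f, hfP, hf⟩ := Ideal.IsPrime.exists_mem_prime_of_ne_bot
    (Ideal.IsPrime.comap (algebraMap A R) (K := P)) h1
  refine ⟨f, hf, ?_⟩
  by_contra hne
  have hle : Ideal.span {f} ≤ P.comap (algebraMap A R) := by
    rw [Ideal.span_le]
    simpa using hfP
  have hlt : Ideal.span {f} < P.comap (algebraMap A R) := lt_of_le_of_ne hle (Ne.symm hne)
  have hfp : (Ideal.span {f}).IsPrime := (Ideal.span_singleton_prime hf.ne_zero).2 hf
  obtain ⟨Q, hQP, hQ, hQf⟩ := Ideal.exists_ideal_lt_liesOver_of_lt (p := Ideal.span {f})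
    (q := P.under A) P hlt
  have h2 : Q.height < ((1 : ℕ) : ℕ∞) := (Ideal.height_le_iff (n := 1)).1 (by
    rw [hP, Nat.cast_one]) Q hQ hQP
  rw [Nat.cast_one, Order.lt_one_iff, Ideal.height_eq_zero_iff_eq_bot] at h2
  have h3 : f ∈ Q.under A := by
    rw [← hQf.over]
    exact Ideal.mem_span_singleton_self f
  rw [h2, Ideal.mem_comap, Ideal.mem_bot, FaithfulSMul.algebraMap_eq_zero_iff] at h3
  exact hf.ne_zero h3

end down

theorem logex_prime {R K : Type} [CommRing R] [Field K] [Algebra R K] {v : Valuation K ℝ≥0}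
    {P : Ideal R} (hv : HasCenter R v P) : P.IsPrime := by
  rw [Ideal.isPrime_iff]
  constructor
  · rw [Ne, Ideal.eq_top_iff_one, ← (hv 1).2, map_one, map_one]
    exact lt_irrefl _
  · intro a b hab
    rw [← (hv _).2, map_mul, map_mul] at hab
    by_contra hcon
    push Not at hcon
    have h1 : ∀ x, x ∉ P → v (algebraMap R K x) = 1 := fun x hx => by
      apply le_antisymm (hv x).1
      rw [← (hv x).2, not_lt] at hx
      exact hx
    rw [h1 a hcon.1, h1 b hcon.2, one_mul] at hab
    exact lt_irrefl _ hab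

section key

variable {n r : ℕ} {R K : Type} [CommRing R] [IsDomain R] [IsLocalRing R] [Algebra ℂ R]
  [Field K] [Algebra ℂ K] [Algebra R K] [IsScalarTower ℂ R K] [IsFractionRing R K]
  [Algebra (Pol n) R] [IsScalarTower ℂ (Pol n) R]
  [Algebra (Pol n) K] [IsScalarTower (Pol n) R K] [IsScalarTower ℂ (Pol n) K]
  [FaithfulSMul (Pol n) K] [FaithfulSMul (Pol n) R]
  [Algebra (FractionRing (Pol n)) K] [IsScalarTower (Pol n) (FractionRing (Pol n)) K]
  [FiniteDimensional (FractionRing (Pol n)) K]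

omit [IsLocalRing R] [Algebra ℂ R] [IsScalarTower ℂ R K] [IsScalarTower ℂ (Pol n) R]
  [FaithfulSMul (Pol n) K] in
theorem logex_key (hn : 1 ≤ n) (hnorm : IsIntegrallyClosed R)
    (hzmt : ∀ a : R, ∃ s : R, IsUnit s ∧ IsIntegral (Pol n) s ∧ IsIntegral (Pol n) (s * a))
    {v : Valuation K ℝ≥0} {P : Ideal R} (hv : HasCenter R v P) (hP : P.height = 1) :
    ∃ w : Valuation K ℤᵐ⁰, Function.Surjective w ∧
      (∃ (L : Fin n → Derivation ℂ K K) (ζ : Fin n → K), LogFrame w L ζ) ∧
      ∃ c : ℝ, 0 < c ∧ ∀ a, v a = canonVal w a ^ c := by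
  have hPp : P.IsPrime := logex_prime hv
  obtain ⟨f, hf, hfP⟩ := logex_span (A := Pol n) hzmt hP
  obtain ⟨V, hV, hV'⟩ := exists_primeVals_log (K := K) hn (F := FractionRing (Pol n))
    AlgEquiv.refl f hf
  have hfs : FaithfulSMul R K :=
    (faithfulSMul_iff_algebraMap_injective _ _).mpr (IsFractionRing.injective R K)
  have hnt : (logexAbs v).IsNontrivial := by
    have hf1 : algebraMap (Pol n) R f ∈ P := by
      rw [← Ideal.mem_comap, hfP]
      exact Ideal.mem_span_singleton_self f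
    refine ⟨algebraMap R K (algebraMap (Pol n) R f), ?_, ?_⟩
    · rw [Ne, FaithfulSMul.algebraMap_eq_zero_iff, FaithfulSMul.algebraMap_eq_zero_iff]
      exact hf.ne_zero
    · have h1 := (hv _).2.2 hf1
      rw [logexAbs_apply]
      have h2 : (v (algebraMap R K (algebraMap (Pol n) R f)) : ℝ) < 1 := by exact_mod_cast h1
      exact h2.ne
  by_cases hex : ∃ w ∈ V, (logexAbs (canonVal w)).IsEquiv (logexAbs v)
  · obtain ⟨w, hw, he⟩ := hex
    obtain ⟨L, ζ, hL, -⟩ := hV' w hw
    exact ⟨w, (hV.divisorial w hw).surjective, ⟨L, ζ, hL⟩, logex_rpow he⟩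
  · exfalso
    push Not at hex
    obtain ⟨a, ha, ha'⟩ := logex_approx hnt hV.finite
      (fun w hw => (hV.divisorial w hw).surjective) hex
    obtain ⟨s, hs, hsa⟩ := hV.integral a ha'
    obtain ⟨b, hb⟩ := IsIntegrallyClosed.algebraMap_eq_of_integral (R := R) (K := K)
      (x := algebraMap (Pol n) K s * a) (hsa.tower_top)
    have h1 := (hv b).1
    have h2 : v (algebraMap (Pol n) K s) = 1 := by
      rw [IsScalarTower.algebraMap_apply (Pol n) R K]
      apply le_antisymm (hv _).1
      by_contra hlt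
      rw [not_le, (hv _).2, ← Ideal.mem_comap, hfP, Ideal.mem_span_singleton] at hlt
      exact hs hlt
    rw [hb, map_mul, h2, one_mul] at h1
    exact absurd ha (not_lt.2 h1)

end key

variable {n r : ℕ} {R K : Type} [CommRing R] [IsDomain R] [IsLocalRing R] [Algebra ℂ R]
  [Field K] [Algebra ℂ K] [Algebra R K] [IsScalarTower ℂ R K] [IsFractionRing R K]

theorem logex_main (hn : 1 ≤ n) (hess : Algebra.EssFiniteType ℂ R)
    (hnorm : IsIntegrallyClosed R)
    (hres : Function.Surjective (algebraMap ℂ (ResidueField R))) (hdim : Algebra.trdeg ℂ R = n)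
    {v : Valuation K ℝ≥0} {P : Ideal R} (hv : HasCenter R v P) (hP : P.height = 1) :
    ∃ w : Valuation K ℤᵐ⁰, Function.Surjective w ∧
      (∃ (L : Fin n → Derivation ℂ K K) (ζ : Fin n → K), LogFrame w L ζ) ∧
      ∃ c : ℝ, 0 < c ∧ ∀ a, v a = canonVal w a ^ c := by
  have hnoeth : IsNoetherianRing R := Algebra.EssFiniteType.isNoetherianRing ℂ R
  obtain ⟨x, hx, k, hk⟩ := exists_reduction R hres n hdim
  let _ : Algebra (Pol n) R := (MvPolynomial.aeval (R := ℂ) x).toRingHom.toAlgebra
  have haX : ∀ i, algebraMap (Pol n) R (MvPolynomial.X i) = x i := fun i =>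
    MvPolynomial.aeval_X x i
  have _ : IsScalarTower ℂ (Pol n) R := IsScalarTower.of_algebraMap_eq fun c =>
    ((MvPolynomial.aeval (R := ℂ) x).commutes c).symm
  have hzmt : ∀ a : R, ∃ s : R, IsUnit s ∧ IsIntegral (Pol n) s ∧ IsIntegral (Pol n) (s * a) :=
    fun a => zmt hres (fun i => by rw [haX]; exact hx i) ⟨k + 1, by
      simp only [haX]
      exact hk.trans Ideal.mul_le_left⟩ a
  have htb := par_transcendenceBasis hzmt hdim
  have hinj : Function.Injective (algebraMap (Pol n) R) := by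
    have h1 : Function.Injective (MvPolynomial.aeval (R := ℂ) (par n R)) := htb.1
    intro p q hpq
    apply h1
    rw [aeval_par, aeval_par, hpq]
  have hfaith : FaithfulSMul (Pol n) R := (faithfulSMul_iff_algebraMap_injective _ _).mpr hinj
  let _ : Algebra (Pol n) K := ((algebraMap R K).comp (algebraMap (Pol n) R)).toAlgebra
  have _ : IsScalarTower (Pol n) R K := IsScalarTower.of_algebraMap_eq fun _ => rfl
  have hfaithK : FaithfulSMul (Pol n) K := by
    rw [faithfulSMul_iff_algebraMap_injective, IsScalarTower.algebraMap_eq _ R K]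
    exact (IsFractionRing.injective R K).comp hinj
  let _ : Algebra (FractionRing (Pol n)) K := FractionRing.liftAlgebra (Pol n) K
  have _ : IsScalarTower (Pol n) (FractionRing (Pol n)) K :=
    FractionRing.isScalarTower_liftAlgebra _ _
  have _ : IsScalarTower ℂ (Pol n) K :=
    IsScalarTower.of_algebraMap_eq fun c => by
      rw [IsScalarTower.algebraMap_apply (Pol n) R K,
        ← IsScalarTower.algebraMap_apply ℂ (Pol n) R,
        ← IsScalarTower.algebraMap_apply ℂ R K]
  have _ : IsScalarTower ℂ (FractionRing (Pol n)) K :=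
    IsScalarTower.of_algebraMap_eq fun c => by
      rw [IsScalarTower.algebraMap_apply ℂ (Pol n) (FractionRing (Pol n)),
        ← IsScalarTower.algebraMap_apply (Pol n) (FractionRing (Pol n)) K,
        ← IsScalarTower.algebraMap_apply ℂ (Pol n) K]
  have halgR : Algebra.IsAlgebraic (Pol n) R := by
    constructor
    intro r
    obtain ⟨s, hs1, hs2, hs3⟩ := hzmt r
    exact IsAlgebraic.of_mul (y := s) (hs1.mem_nonZeroDivisors) hs2.isAlgebraic hs3.isAlgebraic
  have halgRK : Algebra.IsAlgebraic R K := IsLocalization.isAlgebraic _ (nonZeroDivisors R)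
  have halgPK : Algebra.IsAlgebraic (Pol n) K := Algebra.IsAlgebraic.trans _ R _
  have halg : Algebra.IsAlgebraic (FractionRing (Pol n)) K :=
    (IsFractionRing.comap_isAlgebraic_iff (A := Pol n) (K := FractionRing (Pol n))
      (C := K)).mp halgPK
  have hessRK : Algebra.EssFiniteType R K :=
    Algebra.EssFiniteType.of_isLocalization _ (nonZeroDivisors R)
  have hessCK : Algebra.EssFiniteType ℂ K := Algebra.EssFiniteType.comp ℂ R _
  have hessK : Algebra.EssFiniteType (FractionRing (Pol n)) K :=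
    Algebra.EssFiniteType.of_comp ℂ (FractionRing (Pol n)) _
  have hfd : FiniteDimensional (FractionRing (Pol n)) K :=
    Algebra.finite_of_essFiniteType_of_isAlgebraic
  exact logex_key hn hnorm hzmt hv hP

/-- Log frames exist for the normalized valuations with center of height one. -/
theorem exists_logFrame (hn : 1 ≤ n) (hess : Algebra.EssFiniteType ℂ R)
    (hnorm : IsIntegrallyClosed R)
    (hres : Function.Surjective (algebraMap ℂ (ResidueField R))) (hdim : Algebra.trdeg ℂ R = n)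
    {v : Valuation K ℝ≥0} {P : Ideal R} (hv : HasCenter R v P) (hP : P.height = 1)
    (hnv : IsNormalized v) :
    ∃ (L : Fin n → Derivation ℂ K K) (ζ : Fin n → K), LogFrame v L ζ := by
  have _ := hnv
  obtain ⟨w, -, ⟨L, ζ, hL⟩, c, hc, hvw⟩ := logex_main hn hess hnorm hres hdim hv hP
  refine ⟨L, ζ, fun i b => ?_, hL.ne_zero, ?_⟩
  · rw [hvw, hvw]
    exact NNReal.rpow_le_rpow ((canonVal_logFrame hL).le i b) hc.le
  · rw [hvw, hvw, (canonVal_logFrame hL).eq]

/-- A real valuation with center of height one is a power of a normalized one. -/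
theorem exists_normalized (hn : 1 ≤ n) (hess : Algebra.EssFiniteType ℂ R)
    (hnorm : IsIntegrallyClosed R)
    (hres : Function.Surjective (algebraMap ℂ (ResidueField R))) (hdim : Algebra.trdeg ℂ R = n)
    {v : Valuation K ℝ≥0} {P : Ideal R} (hv : HasCenter R v P) (hP : P.height = 1) :
    ∃ (w : Valuation K ℝ≥0) (s : ℝ), 0 < s ∧ IsNormalized w ∧ HasCenter R w P ∧
      ∀ a, v a = w a ^ s := by
  obtain ⟨w, hw, -, c, hc, hvw⟩ := logex_main hn hess hnorm hres hdim hv hP
  refine ⟨canonVal w, c, hc, canonVal_normalized hw, fun f => ?_, hvw⟩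
  obtain ⟨h1, h2⟩ := hv f
  rw [hvw, ← NNReal.one_rpow c] at h1 h2
  exact ⟨(NNReal.rpow_le_rpow_iff hc).1 h1, by rw [← h2, NNReal.rpow_lt_rpow_iff hc]⟩

end Vale.Agent.P282.Full
end

section

open scoped NNReal ENNReal Nat WithZero
open IsLocalRing

namespace Vale.Agent.P282.Full

open Vale.Agent.P282.L2

set_option linter.unusedSectionVars false

theorem cg_exists_tb {n : ℕ} {K : Type} [Field K] [Algebra ℂ K]
    (hdim : Algebra.trdeg ℂ K = n) : ∃ x : Fin n → K, IsTranscendenceBasis ℂ x := by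
  obtain ⟨ι, x, hx⟩ := exists_isTranscendenceBasis' (R := ℂ) (A := K)
  have h1 : Cardinal.mk ι = n := by rw [hx.cardinalMk_eq_trdeg, hdim]
  have h2 : Cardinal.mk (Fin n) = Cardinal.mk ι := by rw [Cardinal.mk_fin, h1]
  obtain ⟨e⟩ := Cardinal.eq.1 h2
  exact ⟨x ∘ e, (hx.comp_equiv e)⟩

/-- The log discrepancy in the presence of a logarithmic frame. -/
theorem cg_isLogDiscrepancy {n r : ℕ} {K : Type} [Field K] [Algebra ℂ K]
    (hdim : Algebra.trdeg ℂ K = n) (hess : Algebra.EssFiniteType ℂ K)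
    {v : Valuation K ℝ≥0} {L : Fin n → Derivation ℂ K K}
    {ζ : Fin n → K} (hL : LogFrame v L ζ) (hr : 0 < r) {ω : (Fin n → Derivation ℂ K K) → K}
    (hω : IsPluriForm n r ω) :
    ω L ≠ 0 ∧ IsLogDiscrepancy n r ω v (-Real.log (v (ω L)) / r) := by
  obtain ⟨x, hx⟩ := cg_exists_tb hdim
  let _ : Algebra (Pol n) K := (MvPolynomial.aeval (R := ℂ) x).toRingHom.toAlgebra
  have hmap : ∀ p : Pol n, algebraMap (Pol n) K p = MvPolynomial.aeval x p := fun p => rfl
  have hinj : Function.Injective (algebraMap (Pol n) K) := hx.1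
  have hfaith : FaithfulSMul (Pol n) K := (faithfulSMul_iff_algebraMap_injective _ _).mpr hinj
  have _ : IsScalarTower ℂ (Pol n) K := IsScalarTower.of_algebraMap_eq fun c => by
    rw [hmap, MvPolynomial.algebraMap_eq, MvPolynomial.aeval_C]
  let _ : Algebra (FractionRing (Pol n)) K := FractionRing.liftAlgebra (Pol n) K
  have _ : IsScalarTower (Pol n) (FractionRing (Pol n)) K :=
    FractionRing.isScalarTower_liftAlgebra _ _
  have _ : IsScalarTower ℂ (FractionRing (Pol n)) K :=
    IsScalarTower.of_algebraMap_eq fun c => by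
      rw [IsScalarTower.algebraMap_apply ℂ (Pol n) (FractionRing (Pol n)),
        ← IsScalarTower.algebraMap_apply (Pol n) (FractionRing (Pol n)) K,
        ← IsScalarTower.algebraMap_apply ℂ (Pol n) K]
  have halgPK : Algebra.IsAlgebraic (Pol n) K := by
    have h1 := hx.isAlgebraic
    refine Algebra.IsAlgebraic.of_ringHom_of_comp_eq (f := hx.1.aevalEquiv) (g := RingHom.id K)
      hx.1.aevalEquiv.surjective Function.injective_id ?_
    ext p
    · rfl
    · rfl
  have halg : Algebra.IsAlgebraic (FractionRing (Pol n)) K :=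
    (IsFractionRing.comap_isAlgebraic_iff (A := Pol n) (K := FractionRing (Pol n))
      (C := K)).mp halgPK
  have hessK : Algebra.EssFiniteType (FractionRing (Pol n)) K :=
    Algebra.EssFiniteType.of_comp ℂ (FractionRing (Pol n)) _
  have hfd : FiniteDimensional (FractionRing (Pol n)) K :=
    Algebra.finite_of_essFiniteType_of_isAlgebraic
  refine ⟨?_, hL.isLogDiscrepancy hr hω⟩
  have hZ : (∏ i, ζ i) ≠ 0 := Finset.prod_ne_zero_iff.mpr fun i _ => hL.ne_zero i
  have hδ : Matrix.det (Matrix.of fun i j => L i (ζ j)) ≠ 0 := by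
    intro h0
    have h1 := hL.eq
    rw [h0, map_zero] at h1
    exact hZ ((v.zero_iff).1 h1.symm)
  exact (form_frame hω L ζ hδ).1

variable {n r : ℕ} {R K R' K' : Type} [CommRing R] [IsDomain R] [IsLocalRing R] [Algebra ℂ R]
  [Field K] [Algebra ℂ K] [Algebra R K] [IsScalarTower ℂ R K] [IsFractionRing R K]
  [CommRing R'] [IsDomain R'] [IsLocalRing R'] [Algebra ℂ R']
  [Field K'] [Algebra ℂ K'] [Algebra R' K'] [IsScalarTower ℂ R' K'] [IsFractionRing R' K']
  [Algebra K K'] [IsScalarTower ℂ K K'] [Algebra R R'] [Algebra R K'] [IsScalarTower R R' K']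
  [IsScalarTower R K K'] [IsScalarTower ℂ R R']

omit [IsLocalRing R] in
/-- The fraction field is essentially of finite type. -/
theorem cg_ess (hess : Algebra.EssFiniteType ℂ R) : Algebra.EssFiniteType ℂ K := by
  have h1 : Algebra.EssFiniteType R K := Algebra.EssFiniteType.of_isLocalization _ (nonZeroDivisors R)
  exact Algebra.EssFiniteType.comp ℂ R K

omit [IsLocalRing R] in
/-- The transcendence degree of the fraction field. -/
theorem cg_trdeg (hdim : Algebra.trdeg ℂ R = n) : Algebra.trdeg ℂ K = n := by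
  have h1 : Algebra.IsAlgebraic R K := IsLocalization.isAlgebraic _ (nonZeroDivisors R)
  have h2 : FaithfulSMul ℂ R := inferInstance
  have h3 : FaithfulSMul R K :=
    (faithfulSMul_iff_algebraMap_injective _ _).mpr (IsFractionRing.injective R K)
  have h4 := trdeg_add_eq ℂ R (A := K)
  rw [trdeg_eq_zero (R := R) (A := K), add_zero, hdim] at h4
  exact h4.symm

/-- Constants have value one. -/
theorem cg_const {v : Valuation K ℝ≥0} {P : Ideal R} (hv : HasCenter R v P) (c : ℂ) (hc : c ≠ 0) :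
    v (algebraMap ℂ K c) = 1 := by
  have h1 : ∀ c : ℂ, v (algebraMap ℂ K c) ≤ 1 := by
    intro c
    rw [IsScalarTower.algebraMap_apply ℂ R K]
    exact (hv _).1
  refine le_antisymm (h1 c) ?_
  have h2 := h1 c⁻¹
  rw [map_inv₀, map_inv₀] at h2
  have h3 : algebraMap ℂ K c ≠ 0 := by
    rw [Ne, FaithfulSMul.algebraMap_eq_zero_iff]
    exact hc
  have h4 : v (algebraMap ℂ K c) ≠ 0 := (v.ne_zero_iff).2 h3
  exact (inv_le_one₀ (pos_iff_ne_zero.2 h4)).1 h2

/-- Centers are prime. -/
theorem cg_prime {v : Valuation K ℝ≥0} {P : Ideal R} (hv : HasCenter R v P) : P.IsPrime := by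
  rw [Ideal.isPrime_iff]
  constructor
  · rw [Ne, Ideal.eq_top_iff_one, ← (hv 1).2, map_one, map_one]
    exact lt_irrefl _
  · intro a b hab
    rw [← (hv _).2, map_mul, map_mul] at hab
    rw [← (hv _).2, ← (hv _).2]
    by_contra hcon
    push Not at hcon
    have h1 : (1 : ℝ≥0) ≤ v (algebraMap R K a) * v (algebraMap R K b) := one_le_mul hcon.1 hcon.2
    exact absurd hab (not_lt.mpr h1)

theorem cg_pow_inj {a b : ℝ≥0} {r : ℕ} (hr : 0 < r) (h : a ^ r = b ^ r) : a = b :=
  (pow_left_inj₀ zero_le zero_le hr.ne').1 h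

/-- The cover of a klt germ is a klt germ of index one. -/
theorem isKltGerm_cover (hn : 1 ≤ n) {ω : (Fin n → Derivation ℂ K K) → K}
    (h : IsKltGerm R n r ω) {g : K} {b : Fin n → K}
    (hω : ∀ D, ω D = g * Matrix.det (Matrix.of fun i j => D i (b j)) ^ r) {ε : K'}
    (hc : IsCover (R := R) (R' := R') n r g ε) :
    IsKltGerm R' n 1 (coverForm ε b) := by
  have hr := h.index_pos
  have hrR : (0 : ℝ) < r := by exact_mod_cast hr
  have hessK : Algebra.EssFiniteType ℂ K := cg_ess h.essFiniteType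
  have hdimK : Algebra.trdeg ℂ K = n := cg_trdeg h.dim
  have hessK' : Algebra.EssFiniteType ℂ K' := cg_ess hc.essFiniteType
  have hdimK' : Algebra.trdeg ℂ K' = n := cg_trdeg hc.dim
  have hform : IsPluriForm n 1 (coverForm ε b) :=
    coverForm_isPluriForm hc.finite hr h.form.1 hω hc.pow
  refine ⟨hc.essFiniteType, hc.normal, hc.residue, hc.dim, one_pos, hform, ?_, ?_⟩
  · intro v P' hv hP' hnv
    have hP'p : P'.IsPrime := cg_prime hv
    have hv0 : HasCenter R (v.comap (algebraMap K K')) (P'.comap (algebraMap R R')) :=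
      HasCenter.comap hc hv
    set v0 := v.comap (algebraMap K K') with hv0def
    have hv0a : ∀ a : K, v0 a = v (algebraMap K K' a) := fun a => rfl
    have hP : (P'.comap (algebraMap R R')).height = 1 := comap_height hc h.normal hP'
    set P := P'.comap (algebraMap R R') with hPdef
    have hvC : ∀ c : ℂ, c ≠ 0 → v (algebraMap ℂ K' c) = 1 := cg_const hv
    obtain ⟨w, s, hs, hwn, hwc, hws⟩ :=
      exists_normalized hn h.essFiniteType h.normal h.residue h.dim hv0 hP
    -- the valuation `w`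
    obtain ⟨π, hπ⟩ := hwn.1
    have hπ0 : π ≠ 0 := by
      rintro rfl
      rw [map_zero] at hπ
      exact (Real.exp_pos _).ne hπ
    have hexpr : ∀ (u : Valuation K ℝ≥0), IsNormalized u → HasCenter R u P →
        ∃ (L : Fin n → Derivation ℂ K K) (ζ : Fin n → K), LogFrame u L ζ ∧ ω L ≠ 0 ∧
          (u (ω L) : ℝ) = Real.exp (-1) ^ r := by
      intro u hu1 hu2
      obtain ⟨L, ζ, hL⟩ :=
        exists_logFrame hn h.essFiniteType h.normal h.residue h.dim hu2 hP hu1
      obtain ⟨h1, h2⟩ := cg_isLogDiscrepancy hdimK hessK hL hr h.form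
      have h3 := h.canonical u P hu2 hP hu1
      have h4 : (1 : ℝ) = -Real.log (u (ω L)) / r := IsLUB.unique h3 h2
      have h5 : (0 : ℝ) < u (ω L) := by
        have : u (ω L) ≠ 0 := (Valuation.ne_zero_iff _).2 h1
        exact_mod_cast pos_iff_ne_zero.2 this
      refine ⟨L, ζ, hL, h1, ?_⟩
      rw [eq_div_iff hrR.ne', one_mul] at h4
      rw [← Real.exp_nat_mul, mul_neg, mul_one, h4, neg_neg, Real.exp_log h5]
    have hu : ∃ (a0 : K), a0 ≠ 0 ∧ w g = w a0 ^ r := by
      obtain ⟨L, ζ, -, h1, h2⟩ := hexpr w hwn hwc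
      rw [hω L] at h1 h2
      set δ := Matrix.det (Matrix.of fun i j => L i (b j)) with hδ
      have hδ0 : δ ≠ 0 := fun h0 => h1 (by rw [h0, zero_pow hr.ne', mul_zero])
      refine ⟨π / δ, div_ne_zero hπ0 hδ0, ?_⟩
      have h3 : w (g * δ ^ r) = w π ^ r := by
        apply NNReal.coe_injective
        rw [h2, NNReal.coe_pow, hπ]
      have h4 : w δ ≠ 0 := (Valuation.ne_zero_iff _).2 hδ0
      rw [map_div₀, div_pow, eq_div_iff (pow_ne_zero _ h4), ← h3, map_mul, map_pow]
    obtain ⟨a0, ha0, hwg⟩ := hu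
    have ha0' : algebraMap K K' a0 ≠ 0 := by
      rw [Ne, FaithfulSMul.algebraMap_eq_zero_iff]
      exact ha0
    set u : K' := ε / algebraMap K K' a0 with hudef
    have huε : ε = u * algebraMap K K' a0 := by
      rw [hudef, div_mul_cancel₀ _ ha0']
    have huc : u ^ r = algebraMap K K' (g / a0 ^ r) := by
      rw [hudef, div_pow, hc.pow, map_div₀, map_pow]
    have hwc1 : w (g / a0 ^ r) = 1 := by
      rw [map_div₀, map_pow, hwg]
      exact div_self (pow_ne_zero _ ((Valuation.ne_zero_iff _).2 ha0))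
    have hvu : v u = 1 := by
      apply cg_pow_inj hr
      rw [← map_pow, huc, ← hv0a, hws, hwc1, one_pow, NNReal.one_rpow]
    have hadj : Algebra.adjoin K {u} = ⊤ := by
      rw [eq_top_iff, ← hc.adjoin, Algebra.adjoin_le_iff, Set.singleton_subset_iff, huε]
      exact Subalgebra.mul_mem _ (Algebra.self_mem_adjoin_singleton K u)
        (Subalgebra.algebraMap_mem _ _)
    have hvsmall : ∃ a : K, a ≠ 0 ∧ v (algebraMap K K' a) < 1 := by
      refine ⟨π, hπ0, ?_⟩
      rw [← hv0a, hws]
      have h1 : w π < 1 := by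
        rw [← NNReal.coe_lt_coe, hπ, NNReal.coe_one]
        exact Real.exp_lt_one_iff.2 (by norm_num)
      exact NNReal.rpow_lt_one h1 hs
    have hvals : ∀ a : K', ∃ b : K, v (algebraMap K K' b) = v a :=
      exists_val_eq hc.finite hc.galois hr hadj huc v hvC hvu hvsmall
    have hn0 : IsNormalized v0 := by
      constructor
      · obtain ⟨f, hf⟩ := hnv.1
        obtain ⟨f0, hf0⟩ := hvals f
        exact ⟨f0, by rw [hv0a, hf0, hf]⟩
      · intro f hf
        exact hnv.2 (algebraMap K K' f) hf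
    -- the log frame
    obtain ⟨L, ζ, hL, hωL, hval⟩ := hexpr v0 hn0 hv0
    choose L' hL' using fun i => exists_extend_derivation (K' := K') hc.finite (L i)
    have hdet : ∀ c : Fin n → K, Matrix.det (Matrix.of fun i j => L' i (algebraMap K K' (c j))) =
        algebraMap K K' (Matrix.det (Matrix.of fun i j => L i (c j))) := by
      intro c
      rw [RingHom.map_det]
      congr 1
      ext i j
      rw [Matrix.of_apply, hL', RingHom.mapMatrix_apply, Matrix.map_apply, Matrix.of_apply]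
    have hL'f : LogFrame v L' (fun j => algebraMap K K' (ζ j)) := by
      refine ⟨fun i b' => ?_, fun i => ?_, ?_⟩
      · exact extend_log hc.finite hc.galois hr hadj huc v hvC hvu hvsmall
          (fun b => hL.le i b) (hL' i) b'
      · rw [Ne, FaithfulSMul.algebraMap_eq_zero_iff]
        exact hL.ne_zero i
      · rw [hdet, ← map_prod]
        exact hL.eq
    obtain ⟨h1, h2⟩ := cg_isLogDiscrepancy hdimK' hessK' hL'f one_pos hform
    have h3 : v (coverForm ε b L') ^ r = v0 (ω L) := by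
      rw [← map_pow, hv0a]
      congr 1
      rw [coverForm, hdet, mul_pow, hc.pow, hω L, map_mul, map_pow]
    have h4 : (v (coverForm ε b L') : ℝ) = Real.exp (-1) := by
      have h5 : ((v (coverForm ε b L') : ℝ)) ^ r = Real.exp (-1) ^ r := by
        rw [← hval, ← h3, NNReal.coe_pow]
      exact (pow_left_inj₀ (NNReal.coe_nonneg _) (Real.exp_pos _).le hr.ne').1 h5
    rw [h4, Real.log_exp, neg_neg, Nat.cast_one, div_one] at h2
    exact h2
  · intro v P' a' hv hP' ha'
    have hv0 : HasCenter R (v.comap (algebraMap K K')) (P'.comap (algebraMap R R')) :=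
      HasCenter.comap hc hv
    have hP : P'.comap (algebraMap R R') ≠ ⊥ := comap_ne_bot hc hP'
    have hsub := logSet_cover hdimK hessK hc.finite hr h.form.1 hω hc.pow v
    have hne := logSet_nonempty hdimK hessK hr h.form (v.comap (algebraMap K K'))
    have ha'' : IsLUB (logSet n 1 (coverForm ε b) v) a' := ha'
    have hbdd : BddAbove (logSet n r ω (v.comap (algebraMap K K'))) :=
      ⟨a', fun t ht => ha''.1 (hsub ht)⟩
    have h1 := isLUB_csSup hne hbdd
    have h2 := h.klt _ _ _ hv0 hP h1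
    exact lt_of_lt_of_le h2 (csSup_le hne fun t ht => ha''.1 (hsub ht))

end Vale.Agent.P282.Full
end

section

/-!
P282, equality case: the weighted bound, colengths.
-/

open Filter Topology
open scoped Nat

namespace Vale.Agent.P282.EQ

open Vale.Agent.P282.L2

/-! ### Counting -/

theorem colen_finite {n : ℕ} {w : Fin n → ℕ} (hw : ∀ i, 0 < w i) (k : ℕ) :
    Finite {a : Fin n → ℕ // ∑ i, w i * a i < k} := by
  have h : ∀ (a : {a : Fin n → ℕ // ∑ i, w i * a i < k}) (i : Fin n), a.1 i < k := by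
    intro a i
    have h1 : w i * a.1 i ≤ ∑ i, w i * a.1 i :=
      Finset.single_le_sum (f := fun i => w i * a.1 i) (fun _ _ => Nat.zero_le _) (Finset.mem_univ i)
    have h2 : a.1 i ≤ w i * a.1 i := Nat.le_mul_of_pos_left _ (hw i)
    exact lt_of_le_of_lt (h2.trans h1) a.2
  refine Finite.of_injective (fun a => fun i => (⟨a.1 i, h a i⟩ : Fin k)) ?_
  intro a b hab
  apply Subtype.ext
  funext i
  have := congrFun hab i
  exact congrArg Fin.val this

/-- splitting off the first coordinate -/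
theorem colen_split {n : ℕ} {w : Fin (n + 1) → ℕ} (hw : ∀ i, 0 < w i) (k : ℕ) :
    Nat.card {a : Fin (n + 1) → ℕ // ∑ i, w i * a i < k} ≤
      Nat.card {a : Fin n → ℕ // ∑ i, w i.succ * a i < k} +
      Nat.card {a : Fin (n + 1) → ℕ // ∑ i, w i * a i < k - w 0} := by
  have f1 := colen_finite hw (k - w 0)
  have f2 := colen_finite (w := fun i : Fin n => w i.succ) (fun i => hw i.succ) k
  rw [← Nat.card_sum]
  refine Nat.card_le_card_of_injective (fun a : {a : Fin (n + 1) → ℕ // ∑ i, w i * a i < k} =>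
    if h : a.1 0 = 0 then
      (Sum.inl ⟨fun i => a.1 i.succ, by
        have := a.2
        rw [Fin.sum_univ_succ, h, mul_zero, zero_add] at this
        exact this⟩ : {a : Fin n → ℕ // ∑ i, w i.succ * a i < k} ⊕
          {a : Fin (n + 1) → ℕ // ∑ i, w i * a i < k - w 0})
    else Sum.inr ⟨Fin.cons (a.1 0 - 1) (fun i => a.1 i.succ), by
        have h1 := a.2
        rw [Fin.sum_univ_succ] at h1
        rw [Fin.sum_univ_succ]
        simp only [Fin.cons_zero, Fin.cons_succ]
        have h2 : w 0 * a.1 0 = w 0 * (a.1 0 - 1) + w 0 := by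
          conv_lhs => rw [show a.1 0 = (a.1 0 - 1) + 1 by omega]
          ring
        omega⟩) ?_
  intro a b hab
  simp only at hab
  by_cases ha : a.1 0 = 0 <;> by_cases hb : b.1 0 = 0
  · rw [dif_pos ha, dif_pos hb] at hab
    have h1 := congrArg Subtype.val (Sum.inl.inj hab)
    apply Subtype.ext
    funext i
    refine Fin.cases ?_ (fun i => ?_) i
    · rw [ha, hb]
    · exact congrFun h1 i
  · rw [dif_pos ha, dif_neg hb] at hab
    exact absurd hab Sum.inl_ne_inr
  · rw [dif_neg ha, dif_pos hb] at hab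
    exact absurd hab Sum.inr_ne_inl
  · rw [dif_neg ha, dif_neg hb] at hab
    have h1 := congrArg Subtype.val (Sum.inr.inj hab)
    apply Subtype.ext
    funext i
    refine Fin.cases ?_ (fun i => ?_) i
    · have := congrFun h1 0
      simp only [Fin.cons_zero] at this
      omega
    · have := congrFun h1 i.succ
      simp only [Fin.cons_succ] at this
      exact this

theorem colen_pow {X w : ℝ} (hX : 0 ≤ X) (hw : 0 ≤ w) (m : ℕ) :
    X ^ (m + 1) + (m + 1) * w * X ^ m ≤ (X + w) ^ (m + 1) := by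
  induction m with
  | zero => simp
  | succ m ih =>
    have h1 : (X + w) ^ (m + 1 + 1) = (X + w) * (X + w) ^ (m + 1) := by ring
    rw [h1]
    refine le_trans ?_ (mul_le_mul_of_nonneg_left ih (by positivity))
    have h2 : (X + w) * (X ^ (m + 1) + (m + 1) * w * X ^ m) =
        X ^ (m + 1 + 1) + ((m + 1 : ℕ) + 1) * w * X ^ (m + 1) + (m + 1) * w ^ 2 * X ^ m := by
      push_cast
      ring
    rw [h2]
    have : 0 ≤ (m + 1) * w ^ 2 * X ^ m := by positivity
    linarith

theorem colen_card_bound : ∀ (n : ℕ) (w : Fin n → ℕ) (_ : ∀ i, 0 < w i) (k : ℕ),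
    (Nat.card {a : Fin n → ℕ // ∑ i, w i * a i < k} : ℝ) ≤
      ((k : ℝ) + ∑ i, (w i : ℝ)) ^ n / ((n ! : ℝ) * ∏ i, (w i : ℝ)) := by
  intro n
  induction n with
  | zero =>
    intro w hw k
    have : Subsingleton {a : Fin 0 → ℕ // ∑ i, w i * a i < k} := by
      constructor
      intro a b
      apply Subtype.ext
      funext i
      exact i.elim0
    have h1 : Nat.card {a : Fin 0 → ℕ // ∑ i, w i * a i < k} ≤ 1 :=
      Finite.card_le_one_iff_subsingleton.2 this
    have h2 : (Nat.card {a : Fin 0 → ℕ // ∑ i, w i * a i < k} : ℝ) ≤ 1 := by exact_mod_cast h1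
    simpa using h2
  | succ n ih =>
    intro w hw k
    induction k using Nat.strong_induction_on with
    | _ k ihk =>
      rcases Nat.eq_zero_or_pos k with rfl | hk
      · have : IsEmpty {a : Fin (n + 1) → ℕ // ∑ i, w i * a i < 0} :=
          ⟨fun a => absurd a.2 (Nat.not_lt_zero _)⟩
        rw [Nat.card_of_isEmpty, Nat.cast_zero]
        positivity
      · have h1 := colen_split hw k
        have h2 : (Nat.card {a : Fin (n + 1) → ℕ // ∑ i, w i * a i < k} : ℝ) ≤
            (Nat.card {a : Fin n → ℕ // ∑ i, w i.succ * a i < k} : ℝ) +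
            (Nat.card {a : Fin (n + 1) → ℕ // ∑ i, w i * a i < k - w 0} : ℝ) := by
          exact_mod_cast h1
        have h3 := ih (fun i => w i.succ) (fun i => hw i.succ) k
        have h4 := ihk (k - w 0) (by have := hw 0; omega)
        have hw0 : (0:ℝ) < w 0 := by exact_mod_cast hw 0
        have hP : (0:ℝ) < ∏ i : Fin n, (w i.succ : ℝ) :=
          Finset.prod_pos fun i _ => by exact_mod_cast hw i.succ
        have hS : (0:ℝ) ≤ ∑ i : Fin n, (w i.succ : ℝ) := Finset.sum_nonneg fun i _ => by positivity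
        obtain ⟨X, hX⟩ : ∃ X : ℝ, X = (k : ℝ) + ∑ i : Fin n, (w i.succ : ℝ) := ⟨_, rfl⟩
        have hX0 : 0 ≤ X := by rw [hX]; positivity
        have hfac : (0:ℝ) < (n ! : ℝ) := by exact_mod_cast Nat.factorial_pos n
        have h5 : (Nat.card {a : Fin (n + 1) → ℕ // ∑ i, w i * a i < k - w 0} : ℝ) ≤
            X ^ (n + 1) / (((n + 1)! : ℝ) * ∏ i, (w i : ℝ)) := by
          rcases lt_or_ge k (w 0) with hlt | hge
          · have hk0 : k - w 0 = 0 := by omega
            rw [hk0]
            have : IsEmpty {a : Fin (n + 1) → ℕ // ∑ i, w i * a i < 0} :=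
              ⟨fun a => absurd a.2 (Nat.not_lt_zero _)⟩
            rw [Nat.card_of_isEmpty, Nat.cast_zero]
            (clear * - hX0; positivity)
          · refine h4.trans (le_of_eq ?_)
            congr 2
            rw [Fin.sum_univ_succ, Nat.cast_sub hge, hX]
            ring
        have h6 : X ^ (n + 1) + (n + 1) * w 0 * X ^ n ≤ (X + w 0) ^ (n + 1) := by
          exact colen_pow hX0 hw0.le n
        rw [Fin.prod_univ_succ] at h5 ⊢
        rw [Fin.sum_univ_succ]
        refine h2.trans ((add_le_add h3 h5).trans ?_)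
        rw [← hX]
        have h9 : (k : ℝ) + ((w 0 : ℝ) + ∑ i : Fin n, (w i.succ : ℝ)) = X + w 0 := by rw [hX]; ring
        rw [h9, Nat.factorial_succ, Nat.cast_mul, Nat.cast_succ]
        have h10 : X ^ n / ((n ! : ℝ) * ∏ i : Fin n, (w i.succ : ℝ)) =
            ((n + 1) * w 0 * X ^ n) / (((n + 1) * (n ! : ℝ)) * ((w 0 : ℝ) * ∏ i : Fin n, (w i.succ : ℝ))) := by
          field_simp
        rw [h10, ← add_div]
        apply div_le_div_of_nonneg_right _ (by (clear * - hw0 hP; positivity))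
        linarith only [h6]

/-- Number of weighted monomials. -/
theorem card_weighted {n : ℕ} (hn : 0 < n) {w : Fin n → ℕ} (hw : ∀ i, 0 < w i) {ε : ℝ}
    (hε : 0 < ε) : ∀ᶠ k : ℕ in atTop, (Nat.card {a : Fin n → ℕ // ∑ i, w i * a i < k} : ℝ) ≤
      (1 / ((n ! : ℝ) * ∏ i, (w i : ℝ)) + ε) * (k : ℝ) ^ n := by
  obtain ⟨c, hc⟩ : ∃ c : ℝ, c = 1 / ((n ! : ℝ) * ∏ i, (w i : ℝ)) := ⟨_, rfl⟩
  obtain ⟨s, hs⟩ : ∃ s : ℝ, s = ∑ i, (w i : ℝ) := ⟨_, rfl⟩
  have h1 : Tendsto (fun k : ℕ => (1 + s / (k : ℝ)) ^ n * c) atTop (𝓝 ((1 + 0) ^ n * c)) := by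
    have h2 : Tendsto (fun k : ℕ => s / (k : ℝ)) atTop (𝓝 0) :=
      tendsto_const_div_atTop_nhds_zero_nat s
    exact ((h2.const_add 1).pow n).mul_const c
  rw [add_zero, one_pow, one_mul] at h1
  have h3 := h1.eventually (gt_mem_nhds (show c < c + ε by linarith))
  filter_upwards [h3, eventually_gt_atTop 0] with k hk hk0
  have hk1 : (0:ℝ) < k := by exact_mod_cast hk0
  refine (colen_card_bound n w hw k).trans ?_
  rw [← hs, ← hc]
  have h4 : ((k : ℝ) + s) ^ n / ((n ! : ℝ) * ∏ i, (w i : ℝ)) =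
      ((1 + s / (k : ℝ)) ^ n * c) * (k : ℝ) ^ n := by
    have h5 : (k : ℝ) + s = (1 + s / (k : ℝ)) * k := by field_simp
    rw [h5, mul_pow, hc]
    ring
  rw [h4]
  exact mul_le_mul_of_nonneg_right hk.le (by positivity)

variable {n N : ℕ} {K : Type} [Field K] [Algebra ℂ K] [Algebra (Pol n) K]
  [IsScalarTower ℂ (Pol n) K] [FaithfulSMul (Pol n) K]
  [Algebra (FractionRing (Pol n)) K] [IsScalarTower (Pol n) (FractionRing (Pol n)) K]
  [FiniteDimensional (FractionRing (Pol n)) K]

/-! ### The ideals -/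

section basic

variable {x : Pt n K} {J : K} {u : Fin (n + 1) → IB n K} {F : MvPolynomial (Fin (n + 1)) ℂ}
  {W : Fin (n + 1) → ℕ}

set_option linter.unusedSectionVars false

theorem colen_xu (h : Hyp x J u F) (i : Fin (n + 1)) : x.toFun (u i) = 0 := by
  refine Fin.cases h.zero (fun i => ?_) i
  obtain ⟨L, _, hL⟩ := h.lin
  rw [hL i, x.map_alg]
  simp

theorem colen_mono_mem {e : Fin (n + 1) → ℕ} {k : ℕ} (he : k ≤ ∑ i, W i * e i) :
    ∏ i, u i ^ e i ∈ wIdeal u W k := Ideal.subset_span ⟨e, he, rfl⟩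

theorem colen_pow_mem (hW : ∀ i, 0 < W i) (i : Fin (n + 1)) (k : ℕ) :
    u i ^ k ∈ wIdeal u W k := by
  have h1 : u i ^ k = ∏ j, u j ^ (Pi.single i k : Fin (n + 1) → ℕ) j := by
    rw [Finset.prod_eq_single i]
    · rw [Pi.single_eq_same]
    · intro j _ hj
      rw [Pi.single_eq_of_ne hj, pow_zero]
    · intro hi
      exact absurd (Finset.mem_univ i) hi
  rw [h1]
  refine colen_mono_mem ?_
  have h2 : W i * (Pi.single i k : Fin (n + 1) → ℕ) i ≤ ∑ j, W j * (Pi.single i k : Fin (n + 1) → ℕ) j :=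
    Finset.single_le_sum (f := fun j => W j * (Pi.single i k : Fin (n + 1) → ℕ) j)
      (fun _ _ => Nat.zero_le _) (Finset.mem_univ i)
  rw [Pi.single_eq_same] at h2
  exact (Nat.le_mul_of_pos_left _ (hW i)).trans h2

theorem colen_mul (k l : ℕ) : wIdeal u W k * wIdeal u W l ≤ wIdeal u W (k + l) := by
  unfold wIdeal
  rw [Ideal.span_mul_span', Ideal.span_le]
  rintro _ ⟨a, ⟨e, he, rfl⟩, b, ⟨f, hf, rfl⟩, rfl⟩
  refine Ideal.subset_span ⟨fun i => e i + f i, ?_, ?_⟩
  · have : ∑ i, W i * (e i + f i) = ∑ i, W i * e i + ∑ i, W i * f i := by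
      rw [← Finset.sum_add_distrib]
      exact Finset.sum_congr rfl fun i _ => by ring
    rw [this]
    exact add_le_add he hf
  · change (∏ i, u i ^ e i) * (∏ i, u i ^ f i) = _
    rw [← Finset.prod_mul_distrib]
    exact Finset.prod_congr rfl fun i _ => (pow_add _ _ _).symm

theorem colen_le_ker (h : Hyp x J u F) {k : ℕ} (hk : 0 < k) :
    wIdeal u W k ≤ RingHom.ker x.toFun := by
  unfold wIdeal
  rw [Ideal.span_le]
  rintro _ ⟨e, he, rfl⟩
  change x.toFun _ = 0
  have h1 : ∃ i, e i ≠ 0 := by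
    by_contra hcon
    push Not at hcon
    have : ∑ i, W i * e i = 0 := Finset.sum_eq_zero fun i _ => by rw [hcon i, mul_zero]
    omega
  obtain ⟨i, hi⟩ := h1
  rw [map_prod]
  refine Finset.prod_eq_zero (Finset.mem_univ i) ?_
  rw [map_pow, colen_xu h i, zero_pow hi]

/-- the coordinates are linear combinations of the `u i` -/
theorem colen_X_mem (h : Hyp x J u F) {Q : Ideal (IB n K)} (hQ : ∀ i, u i ∈ Q) (j : Fin n) :
    algebraMap (Pol n) (IB n K) (MvPolynomial.X j) ∈ Q := by
  obtain ⟨L, hL0, hL⟩ := h.lin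
  have h1 : algebraMap (Pol n) (IB n K) (MvPolynomial.X j) =
      ∑ i, algebraMap (Pol n) (IB n K) (MvPolynomial.C (L⁻¹ j i)) * u i.succ := by
    have h2 : ∀ i, algebraMap (Pol n) (IB n K) (MvPolynomial.C (L⁻¹ j i)) * u i.succ =
        algebraMap (Pol n) (IB n K) (∑ l, MvPolynomial.C (L⁻¹ j i * L i l) * MvPolynomial.X l) := by
      intro i
      rw [hL i, ← map_mul, Finset.mul_sum]
      refine congrArg (algebraMap (Pol n) (IB n K)) ?_
      refine Finset.sum_congr rfl fun l _ => ?_
      rw [MvPolynomial.C_mul, mul_assoc]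
    rw [Finset.sum_congr rfl fun i _ => h2 i, ← map_sum, Finset.sum_comm]
    refine congrArg (algebraMap (Pol n) (IB n K)) ?_
    have h3 : ∀ l, ∑ i, MvPolynomial.C (L⁻¹ j i * L i l) * (MvPolynomial.X l : Pol n) =
        MvPolynomial.C ((1 : Matrix (Fin n) (Fin n) ℂ) j l) * MvPolynomial.X l := by
      intro l
      rw [← Finset.sum_mul, ← map_sum, ← Matrix.nonsing_inv_mul L (isUnit_iff_ne_zero.2 hL0),
        Matrix.mul_apply]
    rw [Finset.sum_congr rfl fun l _ => h3 l, Finset.sum_eq_single j]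
    · simp
    · intro l _ hl
      rw [Matrix.one_apply_ne (Ne.symm hl), map_zero, zero_mul]
    · intro hj
      exact absurd (Finset.mem_univ j) hj
  rw [h1]
  exact Q.sum_mem fun i _ => Q.mul_mem_left _ (hQ i.succ)

end basic

set_option linter.unusedSectionVars false

/-- a prime ideal over the origin is the kernel of a point -/
theorem colen_point {Q : Ideal (IB n K)} [hQp : Q.IsPrime]
    (hQ : ∀ j : Fin n, algebraMap (Pol n) (IB n K) (MvPolynomial.X j) ∈ Q) :
    ∃ x' : Pt n K, ∀ b, x'.toFun b = 0 ↔ b ∈ Q := by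
  have hC : ∀ c : ℂ, algebraMap (Pol n) (IB n K) (MvPolynomial.C c) = algebraMap ℂ (IB n K) c := by
    intro c
    apply Subtype.ext
    change algebraMap (Pol n) K (MvPolynomial.C c) = algebraMap ℂ K c
    rw [IsScalarTower.algebraMap_apply ℂ (Pol n) K, MvPolynomial.algebraMap_eq]
  have hcomp : (algebraMap ℂ (IB n K ⧸ Q)).comp (MvPolynomial.eval (0 : Fin n → ℂ)) =
      (Ideal.Quotient.mk Q).comp (algebraMap (Pol n) (IB n K)) := by
    apply MvPolynomial.ringHom_ext
    · intro c
      rw [RingHom.comp_apply, RingHom.comp_apply, MvPolynomial.eval_C, hC]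
      rfl
    · intro j
      rw [RingHom.comp_apply, RingHom.comp_apply, MvPolynomial.eval_X, Pi.zero_apply, map_zero]
      exact (Ideal.Quotient.eq_zero_iff_mem.2 (hQ j)).symm
  have hint : Algebra.IsIntegral ℂ (IB n K ⧸ Q) := by
    constructor
    intro y
    obtain ⟨b, rfl⟩ := Ideal.Quotient.mk_surjective y
    exact IsIntegral.map_of_comp_eq (MvPolynomial.eval (0 : Fin n → ℂ)) (Ideal.Quotient.mk Q) hcomp
      (integralClosure.isIntegral b)
  have hbij : Function.Bijective (algebraMap ℂ (IB n K ⧸ Q)) :=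
    IsAlgClosed.algebraMap_bijective_of_isIntegral
  let e := RingEquiv.ofBijective (algebraMap ℂ (IB n K ⧸ Q)) hbij
  refine ⟨⟨(e.symm : (IB n K ⧸ Q) →+* ℂ).comp (Ideal.Quotient.mk Q), fun f => ?_⟩, fun b => ?_⟩
  · rw [RingHom.comp_apply]
    change e.symm (Ideal.Quotient.mk Q (algebraMap (Pol n) (IB n K) f)) = _
    rw [RingEquiv.symm_apply_eq]
    exact (RingHom.congr_fun hcomp f).symm
  · change e.symm (Ideal.Quotient.mk Q b) = 0 ↔ _
    rw [← Ideal.Quotient.eq_zero_iff_mem, RingEquiv.symm_apply_eq, map_zero]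

section

variable {x : Pt n K} {J : K} {u : Fin (n + 1) → IB n K} {F : MvPolynomial (Fin (n + 1)) ℂ}
  {W : Fin (n + 1) → ℕ}

theorem colen_exists_pow (h : Hyp x J u F) (hW : ∀ i, 0 < W i) (k : ℕ) :
    ∃ m, RingHom.ker x.toFun ^ m ≤ wIdeal u W k := by
  have hnoeth : IsNoetherianRing (IB n K) := ib_noetherian
  refine Ideal.exists_pow_le_of_le_radical_of_fg ?_ (IsNoetherian.noetherian _)
  rw [Ideal.radical_eq_sInf]
  refine le_sInf fun Q hQ => ?_
  obtain ⟨hQ1, hQ2⟩ := hQ
  have hu : ∀ i, u i ∈ Q := fun i => hQ2.mem_of_pow_mem k (hQ1 (colen_pow_mem hW i k))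
  obtain ⟨x', hx'⟩ := colen_point (Q := Q) (fun j => colen_X_mem h hu j)
  have h1 := h.sep x' ((hx' _).2 (hu 0))
  intro b hb
  rw [RingHom.mem_ker, ← h1] at hb
  exact (hx' b).1 hb

/-- The weighted ideals form a graded family of ideals with cosupport `x`. -/
theorem wIdeal_graded {x : Pt n K} {J : K}
    {u : Fin (n + 1) → IB n K} {F : MvPolynomial (Fin (n + 1)) ℂ} (h : Hyp x J u F)
    {W : Fin (n + 1) → ℕ} (hW : ∀ i, 0 < W i) :
    wIdeal u W 0 = ⊤ ∧ Antitone (wIdeal u W) ∧
    (∀ k l, wIdeal u W k * wIdeal u W l ≤ wIdeal u W (k + l)) ∧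
    (∀ k, 0 < k → wIdeal u W k ≤ RingHom.ker x.toFun) ∧
    ∀ k, ∃ m, RingHom.ker x.toFun ^ m ≤ wIdeal u W k := by
  refine ⟨?_, ?_, colen_mul, fun k hk => colen_le_ker h hk, colen_exists_pow h hW⟩
  · rw [Ideal.eq_top_iff_one]
    have := colen_mono_mem (u := u) (W := W) (e := fun _ => 0) (k := 0) (Nat.zero_le _)
    simpa using this
  · intro k l hkl
    refine Ideal.span_mono ?_
    rintro _ ⟨e, he, rfl⟩
    exact ⟨e, hkl.trans he, rfl⟩

/-! ### Colength -/

/-- the class of a polynomial in `u` -/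
noncomputable def colenPhi (u : Fin (n + 1) → IB n K) (W : Fin (n + 1) → ℕ) (k : ℕ) :
    MvPolynomial (Fin (n + 1)) ℂ →ₐ[ℂ] (IB n K ⧸ wIdeal u W k) :=
  (Ideal.Quotient.mkₐ ℂ (wIdeal u W k)).comp (MvPolynomial.aeval u)

theorem colenPhi_apply (f : MvPolynomial (Fin (n + 1)) ℂ) (k : ℕ) :
    colenPhi u W k f = Ideal.Quotient.mk (wIdeal u W k) (MvPolynomial.aeval u f) := rfl

/-- units -/
theorem colen_unit (h : Hyp x J u F) (hW : ∀ i, 0 < W i) (k : ℕ)
    {s : MvPolynomial (Fin (n + 1)) ℂ} (hs : x.toFun (MvPolynomial.aeval u s) ≠ 0) :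
    ∃ t, colenPhi u W k (s * t) = 1 := by
  obtain ⟨m, hm⟩ := colen_exists_pow h hW k
  obtain ⟨c, hc⟩ : ∃ c : ℂ, c = x.toFun (MvPolynomial.aeval u s) := ⟨_, rfl⟩
  have hc0 : c ≠ 0 := by rw [hc]; exact hs
  -- r = 1 - s / c
  obtain ⟨r, hr⟩ : ∃ r : MvPolynomial (Fin (n + 1)) ℂ, r = 1 - MvPolynomial.C c⁻¹ * s := ⟨_, rfl⟩
  have hxC : ∀ d : ℂ, x.toFun (algebraMap ℂ (IB n K) d) = d := by
    intro d
    have : algebraMap ℂ (IB n K) d = algebraMap (Pol n) (IB n K) (MvPolynomial.C d) := by
      apply Subtype.ext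
      change algebraMap ℂ K d = algebraMap (Pol n) K (MvPolynomial.C d)
      rw [IsScalarTower.algebraMap_apply ℂ (Pol n) K, MvPolynomial.algebraMap_eq]
    rw [this, x.map_alg, MvPolynomial.eval_C]
  have hxr : x.toFun (MvPolynomial.aeval u r) = 0 := by
    rw [hr, map_sub, map_one, map_mul, MvPolynomial.aeval_C, map_sub, map_one, map_mul, hxC, ← hc,
      inv_mul_cancel₀ hc0, sub_self]
  have hr0 : colenPhi u W k (r ^ m) = 0 := by
    rw [colenPhi_apply, map_pow, Ideal.Quotient.eq_zero_iff_mem]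
    exact hm (Ideal.pow_mem_pow ((RingHom.mem_ker).2 hxr) m)
  refine ⟨MvPolynomial.C c⁻¹ * ∑ i ∈ Finset.range m, r ^ i, ?_⟩
  have h1 : s * (MvPolynomial.C c⁻¹ * ∑ i ∈ Finset.range m, r ^ i) = 1 - r ^ m := by
    have h2 : s * MvPolynomial.C c⁻¹ = 1 - r := by rw [hr]; ring
    rw [← mul_assoc, h2]
    exact mul_neg_geom_sum r m
  rw [h1, map_sub, map_one, hr0, sub_zero]

theorem colen_surj (h : Hyp x J u F) (hW : ∀ i, 0 < W i) (k : ℕ) :
    Function.Surjective (colenPhi u W k) := by
  intro y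
  obtain ⟨b, rfl⟩ := Ideal.Quotient.mk_surjective y
  obtain ⟨s, a, hs, hsa⟩ := h.loc b
  obtain ⟨t, ht⟩ := colen_unit h hW k hs
  refine ⟨a * t, ?_⟩
  rw [map_mul, colenPhi_apply, ← hsa, map_mul, ← colenPhi_apply s k]
  calc colenPhi u W k s * (Ideal.Quotient.mk (wIdeal u W k)) b * colenPhi u W k t
      = colenPhi u W k (s * t) * (Ideal.Quotient.mk (wIdeal u W k)) b := by
        rw [map_mul]; ring
    _ = _ := by rw [ht, one_mul]

theorem colen_mono_zero {k : ℕ} {e : Fin (n + 1) →₀ ℕ} (he : k ≤ ∑ i, W i * e i) (c : ℂ) :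
    colenPhi u W k (MvPolynomial.monomial e c) = 0 := by
  rw [colenPhi_apply, MvPolynomial.aeval_monomial, Ideal.Quotient.eq_zero_iff_mem]
  refine Ideal.mul_mem_left _ _ ?_
  rw [Finsupp.prod_fintype _ _ (fun i => pow_zero _)]
  exact colen_mono_mem he

/-- The colength of the weighted ideals. -/
theorem finrank_wIdeal_le {x : Pt n K} {J : K}
    {u : Fin (n + 1) → IB n K} {F : MvPolynomial (Fin (n + 1)) ℂ} (h : Hyp x J u F)
    {W : Fin (n + 1) → ℕ} (hW : ∀ i, 0 < W i) {p : ℕ}
    (hp : MvPolynomial.coeff (Finsupp.single 0 p) F ≠ 0)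
    (hD : ∀ e ∈ F.support, p * W 0 ≤ ∑ i, W i * e i) (k : ℕ) :
    FiniteDimensional ℂ (IB n K ⧸ wIdeal u W k) ∧
    Module.finrank ℂ (IB n K ⧸ wIdeal u W k) ≤
      p * Nat.card {a : Fin n → ℕ // ∑ i, W i.succ * a i < k} := by
  have hf1 := colen_finite (w := fun i : Fin n => W i.succ) (fun i => hW i.succ) k
  -- the index set
  obtain ⟨ι, hι⟩ : ∃ ι : Type, ι = {e : Fin (n + 1) → ℕ // e 0 < p ∧ ∑ i, W i * e i < k} := ⟨_, rfl⟩
  subst hι
  let g : {e : Fin (n + 1) → ℕ // e 0 < p ∧ ∑ i, W i * e i < k} →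
      Fin p × {a : Fin n → ℕ // ∑ i, W i.succ * a i < k} := fun e =>
    (⟨e.1 0, e.2.1⟩, ⟨fun i => e.1 i.succ, by
      have := e.2.2
      rw [Fin.sum_univ_succ] at this
      exact lt_of_le_of_lt (Nat.le_add_left _ _) this⟩)
  have hg : Function.Injective g := by
    intro a b hab
    have h1 := congrArg Prod.fst hab
    have h2 := congrArg Prod.snd hab
    apply Subtype.ext
    funext i
    refine Fin.cases ?_ (fun i => ?_) i
    · exact congrArg Fin.val h1
    · exact congrFun (congrArg Subtype.val h2) i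
  have hfin : Finite {e : Fin (n + 1) → ℕ // e 0 < p ∧ ∑ i, W i * e i < k} :=
    Finite.of_injective g hg
  have hcard : Nat.card {e : Fin (n + 1) → ℕ // e 0 < p ∧ ∑ i, W i * e i < k} ≤
      p * Nat.card {a : Fin n → ℕ // ∑ i, W i.succ * a i < k} := by
    have := Nat.card_le_card_of_injective g hg
    rwa [Nat.card_prod, Nat.card_fin] at this
  let v : {e : Fin (n + 1) → ℕ // e 0 < p ∧ ∑ i, W i * e i < k} → (IB n K ⧸ wIdeal u W k) :=
    fun e => colenPhi u W k (MvPolynomial.monomial (Finsupp.equivFunOnFinite.symm e.1) 1)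
  -- reduction of the monomials
  have hred : ∀ N : ℕ, ∀ e : Fin (n + 1) →₀ ℕ, k ≤ ∑ i, W i * e i + N →
      colenPhi u W k (MvPolynomial.monomial e 1) ∈ Submodule.span ℂ (Set.range v) := by
    intro N
    induction N with
    | zero =>
      intro e he
      rw [colen_mono_zero (by simpa using he)]
      exact Submodule.zero_mem _
    | succ N ih =>
      intro e he
      obtain ⟨d, hd⟩ : ∃ d, d = e 0 := ⟨_, rfl⟩
      induction d using Nat.strong_induction_on generalizing e with
      | _ d ihd =>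
        subst hd
        rcases lt_or_ge (e 0) p with hlt | hge
        · rcases lt_or_ge (∑ i, W i * e i) k with hk | hk
          · refine Submodule.subset_span ⟨⟨e, hlt, hk⟩, ?_⟩
            change colenPhi u W k (MvPolynomial.monomial (Finsupp.equivFunOnFinite.symm ⇑e) 1) = _
            rw [Finsupp.equivFunOnFinite_symm_coe]
          · rw [colen_mono_zero hk]
            exact Submodule.zero_mem _
        · -- use the equation
          obtain ⟨e', he'⟩ : ∃ e' : Fin (n + 1) →₀ ℕ, e = e' + Finsupp.single 0 p := by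
            refine ⟨e - Finsupp.single 0 p, ?_⟩
            rw [tsub_add_cancel_of_le]
            intro i
            rw [Finsupp.single_apply]
            split_ifs with hi
            · rw [← hi]; exact hge
            · exact Nat.zero_le _
          have hwt : ∀ f : Fin (n + 1) →₀ ℕ, ∑ i, W i * (e' + f) i =
              ∑ i, W i * e' i + ∑ i, W i * f i := by
            intro f
            rw [← Finset.sum_add_distrib]
            exact Finset.sum_congr rfl fun i _ => by rw [Finsupp.add_apply]; ring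
          have hws : ∑ i, W i * (Finsupp.single (0 : Fin (n + 1)) p) i = p * W 0 := by
            rw [Finset.sum_eq_single 0]
            · rw [Finsupp.single_eq_same]; ring
            · intro j _ hj
              rw [Finsupp.single_eq_of_ne hj, mul_zero]
            · intro hi
              exact absurd (Finset.mem_univ _) hi
          have hz : colenPhi u W k (MvPolynomial.monomial e' 1 * F) = 0 := by
            rw [map_mul, colenPhi_apply F, h.eq, map_zero, mul_zero]
          have hexp : MvPolynomial.monomial e' 1 * F =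
              ∑ f ∈ F.support, MvPolynomial.C (MvPolynomial.coeff f F) *
                MvPolynomial.monomial (e' + f) 1 := by
            conv_lhs => rw [F.as_sum, Finset.mul_sum]
            refine Finset.sum_congr rfl fun f _ => ?_
            rw [MvPolynomial.monomial_mul, one_mul, MvPolynomial.C_mul_monomial, mul_one]
          have hmem : (Finsupp.single 0 p : Fin (n + 1) →₀ ℕ) ∈ F.support :=
            MvPolynomial.mem_support_iff.2 hp
          rw [hexp, map_sum, ← Finset.add_sum_erase _ _ hmem, ← he'] at hz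
          have hC : ∀ (c : ℂ) (f : MvPolynomial (Fin (n + 1)) ℂ),
              colenPhi u W k (MvPolynomial.C c * f) = c • colenPhi u W k f := by
            intro c f
            rw [← MvPolynomial.smul_eq_C_mul, map_smul]
          rw [hC] at hz
          have hmain : ∑ f ∈ F.support.erase (Finsupp.single 0 p),
              colenPhi u W k (MvPolynomial.C (MvPolynomial.coeff f F) *
                MvPolynomial.monomial (e' + f) 1) ∈ Submodule.span ℂ (Set.range v) := by
            refine Submodule.sum_mem _ fun f hf => ?_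
            rw [hC]
            refine Submodule.smul_mem _ _ ?_
            obtain ⟨hf1, hf2⟩ := Finset.mem_erase.1 hf
            have hDf := hD f hf2
            have hwe : ∑ i, W i * e i = ∑ i, W i * e' i + p * W 0 := by rw [he', hwt, hws]
            rcases Nat.eq_or_lt_of_le hDf with heq | hlt2
            · have hf0 : f 0 < p := by
                by_contra hcon
                push Not at hcon
                apply hf1
                have h0 : ∑ i, W i * f i = W 0 * f 0 + ∑ i : Fin n, W i.succ * f i.succ :=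
                  Fin.sum_univ_succ _
                have h1 : p * W 0 ≤ W 0 * f 0 := by
                  rw [mul_comm]
                  exact Nat.mul_le_mul_left _ hcon
                have h2 : ∑ i : Fin n, W i.succ * f i.succ = 0 := by omega
                have h3 : W 0 * f 0 = W 0 * p := by rw [mul_comm (W 0) p]; omega
                have h4 : f 0 = p := Nat.eq_of_mul_eq_mul_left (hW 0) h3
                ext i
                refine Fin.cases ?_ (fun i => ?_) i
                · rw [Finsupp.single_eq_same, h4]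
                · rw [Finset.sum_eq_zero_iff] at h2
                  have h5 := h2 i (Finset.mem_univ i)
                  have h6 : f i.succ = 0 := by
                    rcases Nat.mul_eq_zero.1 h5 with h7 | h7
                    · have := hW i.succ; omega
                    · exact h7
                  rw [h6, Finsupp.single_eq_of_ne (Fin.succ_ne_zero i)]
              refine ihd ((e' + f) 0) ?_ (e' + f) ?_ rfl
              · rw [he', Finsupp.add_apply, Finsupp.add_apply, Finsupp.single_eq_same]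
                omega
              · rw [hwt]; omega
            · refine ih (e' + f) ?_
              rw [hwt]; omega
          have h8 : colenPhi u W k (MvPolynomial.monomial e 1) =
              (-(MvPolynomial.coeff (Finsupp.single 0 p) F)⁻¹) •
              ∑ f ∈ F.support.erase (Finsupp.single 0 p),
              colenPhi u W k (MvPolynomial.C (MvPolynomial.coeff f F) *
                MvPolynomial.monomial (e' + f) 1) := by
            have h9 := eq_neg_of_add_eq_zero_right hz
            rw [h9, smul_neg, neg_smul, neg_neg, smul_smul, inv_mul_cancel₀ hp, one_smul]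
          rw [h8]
          exact Submodule.smul_mem _ _ hmain
  have hspan : Submodule.span ℂ (Set.range v) = ⊤ := by
    rw [eq_top_iff]
    intro y _
    obtain ⟨f, rfl⟩ := colen_surj h hW k y
    rw [f.as_sum, map_sum]
    refine Submodule.sum_mem _ fun e _ => ?_
    have h1 : (MvPolynomial.monomial e (MvPolynomial.coeff e f) : MvPolynomial (Fin (n + 1)) ℂ) =
        MvPolynomial.coeff e f • MvPolynomial.monomial e 1 := by
      rw [MvPolynomial.smul_monomial, smul_eq_mul, mul_one]
    rw [h1, map_smul]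
    exact Submodule.smul_mem _ _ (hred k e (Nat.le_add_left _ _))
  have hft := Fintype.ofFinite {e : Fin (n + 1) → ℕ // e 0 < p ∧ ∑ i, W i * e i < k}
  refine ⟨⟨⟨(Set.finite_range v).toFinset, ?_⟩⟩, ?_⟩
  · rw [Set.Finite.coe_toFinset]
    exact hspan
  · have h1 := finrank_range_le_card (R := ℂ) v
    rw [Set.finrank, hspan, finrank_top, ← Nat.card_eq_fintype_card] at h1
    exact h1.trans hcard

end

end Vale.Agent.P282.EQ
end

section

/-!
P282, equality case: numerical inequalities.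
-/

namespace Vale.Agent.P282.EQ

/-- Multiplicity at least three. -/
theorem numer_mult {n p : ℕ} (hn : 2 ≤ n) (hp : 3 ≤ p) :
    ∃ c : ℝ, 0 < c ∧ (n : ℝ) + 1 - p ≤ c ∧ p * c ^ n < 2 * ((n : ℝ) - 1) ^ n := by
  have hn' : (2 : ℝ) ≤ n := by exact_mod_cast hn
  have hp' : (3 : ℝ) ≤ p := by exact_mod_cast hp
  rcases Nat.lt_or_ge n p with h | h
  · have h' : (n : ℝ) + 1 ≤ p := by exact_mod_cast h
    have hc0 : (0 : ℝ) < 1 / (p + 1) := by positivity
    have hc1 : (1 : ℝ) / (p + 1) ≤ 1 := by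
      rw [div_le_one (by positivity)]
      linarith
    refine ⟨1 / (p + 1), hc0, by linarith, ?_⟩
    have h1 : ((1 : ℝ) / (p + 1)) ^ n ≤ 1 / (p + 1) :=
      pow_le_of_le_one hc0.le hc1 (by omega)
    have h2 : (p : ℝ) * (1 / (p + 1)) < 1 := by
      rw [mul_one_div, div_lt_one (by positivity)]
      linarith
    have h3 : (p : ℝ) * (1 / (p + 1)) ^ n ≤ p * (1 / (p + 1)) :=
      mul_le_mul_of_nonneg_left h1 (by linarith)
    have h4 : (1 : ℝ) ≤ ((n : ℝ) - 1) ^ n := one_le_pow₀ (by linarith)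
    linarith
  · have h' : (p : ℝ) ≤ n := by exact_mod_cast h
    set c : ℝ := (n : ℝ) + 1 - p with hc
    have hc1 : 1 ≤ c := by rw [hc]; linarith
    have hc0 : 0 < c := by linarith
    refine ⟨c, hc0, le_rfl, ?_⟩
    have hx : -2 ≤ ((p : ℝ) - 2) / c := by
      have : 0 ≤ ((p : ℝ) - 2) / c := div_nonneg (by linarith) hc0.le
      linarith
    have h1 := one_add_mul_le_pow hx n
    have h2 : ((n : ℝ) - 1) = c * (1 + ((p : ℝ) - 2) / c) := by
      rw [mul_add, mul_one, mul_div_cancel₀ _ hc0.ne', hc]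
      ring
    have h3 : (p : ℝ) - 2 ≤ n * (((p : ℝ) - 2) / c) := by
      have h4 : (1 : ℝ) ≤ n / c := by
        rw [le_div_iff₀ hc0, hc]
        linarith
      have h5 : (n : ℝ) * (((p : ℝ) - 2) / c) = (n / c) * ((p : ℝ) - 2) := by ring
      rw [h5]
      exact le_mul_of_one_le_left (by linarith only [hp']) h4
    have hcn : 0 < c ^ n := pow_pos hc0 n
    rw [h2, mul_pow]
    have h4 : c ^ n * ((p : ℝ) - 1) ≤ c ^ n * (1 + ((p : ℝ) - 2) / c) ^ n :=
      mul_le_mul_of_nonneg_left (by linarith only [h3, h1]) hcn.le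
    have h5 : (p : ℝ) * c ^ n < 2 * (c ^ n * ((p : ℝ) - 1)) := by
      have h6 : 0 < c ^ n * ((p : ℝ) - 2) := mul_pos hcn (by linarith)
      linarith only [h6]
    linarith only [h5, h4]

/-- Degenerate quadratic part. -/
theorem numer_deg {n : ℕ} (hn : 2 ≤ n) :
    2 * (((n : ℝ) - 1) * (n + 1) - 1) ^ n < 2 * ((n : ℝ) - 1) ^ n * ((n + 1) ^ (n - 1) * n) := by
  have hn' : (2 : ℝ) ≤ n := by exact_mod_cast hn
  set A : ℝ := ((n : ℝ) - 1) * (n + 1) - 1 with hA
  have hA0 : 0 < A := by rw [hA]; nlinarith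
  have hAn : A < (n : ℝ) * n := by rw [hA]; linarith
  have h1 : 1 + (n : ℝ) * (1 / A) ≤ (1 + 1 / A) ^ n :=
    one_add_mul_le_pow (by
      have : 0 < 1 / A := by positivity
      linarith) n
  have hAp : 0 < A ^ n := pow_pos hA0 n
  have h2 : A ^ n * (1 + 1 / A) ^ n = (((n : ℝ) - 1) * (n + 1)) ^ n := by
    rw [← mul_pow]
    congr 1
    rw [mul_add, mul_one, mul_one_div_cancel hA0.ne', hA]
    ring
  have h3 : (n : ℝ) + 1 < n * (1 + (n : ℝ) * (1 / A)) := by
    have h4 : 1 < (n : ℝ) * n * (1 / A) := by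
      rw [mul_one_div, one_lt_div hA0]
      exact hAn
    have h5 : (n : ℝ) * (1 + (n : ℝ) * (1 / A)) = n + (n : ℝ) * n * (1 / A) := by ring
    rw [h5]
    linarith
  have h4 : ((n : ℝ) + 1) * A ^ n < n * (((n : ℝ) - 1) * (n + 1)) ^ n := by
    rw [← h2]
    calc ((n : ℝ) + 1) * A ^ n < (n * (1 + (n : ℝ) * (1 / A))) * A ^ n :=
          mul_lt_mul_of_pos_right h3 hAp
      _ ≤ (n * (1 + 1 / A) ^ n) * A ^ n :=
          mul_le_mul_of_nonneg_right (mul_le_mul_of_nonneg_left h1 (by linarith)) hAp.le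
      _ = n * (A ^ n * (1 + 1 / A) ^ n) := by ring
  have h5 : ((n : ℝ) + 1) * (((n : ℝ) - 1) ^ n * ((n + 1) ^ (n - 1) * n)) =
      n * (((n : ℝ) - 1) * (n + 1)) ^ n := by
    rw [mul_pow]
    have h6 : ((n : ℝ) + 1) ^ n = (n + 1) ^ (n - 1) * (n + 1) := by
      rw [← pow_succ]
      congr 1
      omega
    rw [h6]
    ring
  rw [← h5] at h4
  have h6 : A ^ n < ((n : ℝ) - 1) ^ n * ((n + 1) ^ (n - 1) * n) :=
    lt_of_mul_lt_mul_left h4 (by linarith)
  linarith

end Vale.Agent.P282.EQ
end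

section

/-!
P282, converse: near-optimal logarithmic frames.
-/

open scoped NNReal ENNReal Nat

namespace Vale.Agent.P282.Full

theorem frame_sum_apply {K ι : Type} [Field K] [Algebra ℂ K] (s : Finset ι)
    (D : ι → Derivation ℂ K K) (f : K) : (∑ i ∈ s, D i) f = ∑ i ∈ s, D i f := by
  classical
  induction s using Finset.induction_on with
  | empty => rfl
  | insert a s ha ih =>
    rw [Finset.sum_insert ha, Derivation.add_apply, ih, Finset.sum_insert ha]

/-- A dual frame of logarithmic coordinates. -/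
theorem frame_dual {n : ℕ} {K : Type} [Field K] [Algebra ℂ K]
    (hdim : Algebra.trdeg ℂ K = n) (D0 : Fin n → Derivation ℂ K K) (b : Fin n → K)
    (hb : ∀ i, b i ≠ 0) (hdet : Matrix.det (Matrix.of fun i j => D0 i (b j)) ≠ 0) :
    ∃ L : Fin n → Derivation ℂ K K, (∀ i j, L i (b j) = if i = j then b j else 0) ∧
      ∀ (D : Derivation ℂ K K) (f : K), D f = ∑ i, D (b i) / b i * L i f := by
  obtain ⟨x, hx⟩ := transfer_tb (n := n) hdim
  obtain ⟨B, hB⟩ := exists_kaehler_basis x hx
  set M : Matrix (Fin n) (Fin n) K := Matrix.of fun i j => D0 i (b j) with hM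
  set J : Matrix (Fin n) (Fin n) K :=
    Matrix.of fun k j => B.repr (KaehlerDifferential.D ℂ K (b j)) k with hJ
  have hMJ : M = (Matrix.of fun i k => D0 i (x k)) * J := by
    ext i j
    rw [Matrix.mul_apply, hM, Matrix.of_apply, transfer_repr B hB]
    rfl
  have hJdet : J.det ≠ 0 := by
    intro h0
    apply hdet
    rw [hMJ, Matrix.det_mul, h0, mul_zero]
  have hu : IsUnit M.det := isUnit_iff_ne_zero.2 hdet
  let L : Fin n → Derivation ℂ K K := fun i => b i • ∑ k, M⁻¹ i k • D0 k
  have hLf : ∀ i f, L i f = b i * ∑ k, M⁻¹ i k * D0 k f := by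
    intro i f
    show (b i • ∑ k, M⁻¹ i k • D0 k : Derivation ℂ K K) f = _
    rw [Derivation.smul_apply, smul_eq_mul]
    congr 1
    rw [frame_sum_apply]
    rfl
  have hLb : ∀ i j, L i (b j) = if i = j then b j else 0 := by
    intro i j
    have h1 : ∑ k, M⁻¹ i k * D0 k (b j) = (M⁻¹ * M) i j := by
      rw [Matrix.mul_apply]
      rfl
    rw [hLf, h1, Matrix.nonsing_inv_mul M hu, Matrix.one_apply]
    by_cases h : i = j
    · rw [if_pos h, if_pos h, h, mul_one]
    · rw [if_neg h, if_neg h, mul_zero]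
  refine ⟨L, hLb, fun D f => ?_⟩
  set E : Derivation ℂ K K := D - ∑ i, (D (b i) / b i) • L i with hE
  have hEf : ∀ f, E f = D f - ∑ i, D (b i) / b i * L i f := by
    intro f
    rw [hE, Derivation.sub_apply, frame_sum_apply]
    rfl
  have hEb : ∀ j, E (b j) = 0 := by
    intro j
    rw [hEf]
    simp only [hLb, mul_ite, mul_zero, Finset.sum_ite_eq', Finset.mem_univ, if_true]
    rw [div_mul_cancel₀ _ (hb j), sub_self]
  have hEx : (fun k => E (x k)) = 0 := by
    apply Matrix.eq_zero_of_vecMul_eq_zero hJdet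
    funext j
    have h1 := transfer_repr B hB E (b j)
    rw [hEb] at h1
    exact h1.symm
  have h2 : E f = 0 := by
    rw [transfer_repr B hB E f]
    refine Finset.sum_eq_zero fun k _ => ?_
    rw [show E (x k) = 0 from congrFun hEx k, zero_mul]
  rw [hEf, sub_eq_zero] at h2
  exact h2

/-- Change of one logarithmic coordinate. -/
theorem frame_det {n : ℕ} {K : Type} [Field K] [Algebra ℂ K]
    {L : Fin n → Derivation ℂ K K} {b : Fin n → K}
    (hD : ∀ (D : Derivation ℂ K K) (f : K), D f = ∑ i, D (b i) / b i * L i f)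
    (i : Fin n) (f : K) (D : Fin n → Derivation ℂ K K) :
    Matrix.det (Matrix.of fun k j => D k (Function.update b i f j))
      = L i f / b i * Matrix.det (Matrix.of fun k j => D k (b j)) := by
  have h1 := Matrix.det_updateCol_sum (Matrix.of fun k j => D k (b j)) i
    (fun l => L l f / b l)
  rw [smul_eq_mul] at h1
  rw [← h1]
  congr 1
  ext k j
  by_cases h : j = i
  · rw [h, Matrix.updateCol_self, Matrix.of_apply, Function.update_self, hD (D k) f]
    refine Finset.sum_congr rfl fun l _ => ?_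
    rw [smul_eq_mul, Matrix.of_apply]
    ring
  · rw [Matrix.updateCol_ne h, Matrix.of_apply, Matrix.of_apply, Function.update_of_ne h]

/-- Near-optimal logarithmic frames. -/
theorem exists_frame {n r : ℕ} {K : Type} [Field K] [Algebra ℂ K]
    (hdim : Algebra.trdeg ℂ K = n) (hess : Algebra.EssFiniteType ℂ K) (hr : 0 < r)
    {ω : (Fin n → Derivation ℂ K K) → K} (hω : IsPluriForm n r ω) {v : Valuation K ℝ≥0} {a : ℝ}
    (ha : IsLogDiscrepancy n r ω v a) {ε : ℝ} (hε : 0 < ε) :
    ∃ (L : Fin n → Derivation ℂ K K) (b : Fin n → K) (g : K), (∀ i, b i ≠ 0) ∧ g ≠ 0 ∧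
      (∀ i j, L i (b j) = if i = j then b j else 0) ∧
      (∀ D : Fin n → Derivation ℂ K K,
        (∏ i, b i) ^ r * ω D = g * Matrix.det (Matrix.of fun i j => D i (b j)) ^ r) ∧
      Real.exp (-(r * a)) ≤ (v g : ℝ) ∧
      (∀ (i : Fin n) (f : K), (v (L i f) : ℝ) ≤ Real.exp ε * v f) ∧
      ∀ (D : Derivation ℂ K K) (f : K), D f = ∑ i, D (b i) / b i * L i f := by
  obtain ⟨⟨D0, hD0⟩, -⟩ := hω
  obtain ⟨t, ⟨b, g, hb, hbg, rfl⟩, hta, -⟩ := ha.exists_between (sub_lt_self a hε)
  have hr' : (0 : ℝ) < r := by exact_mod_cast hr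
  have hP : (∏ i, b i) ≠ 0 := Finset.prod_ne_zero_iff.mpr fun i _ => hb i
  have hne : g * Matrix.det (Matrix.of fun i j => D0 i (b j)) ^ r ≠ 0 := by
    rw [← hbg D0]
    exact mul_ne_zero (pow_ne_zero _ hP) hD0
  have hg : g ≠ 0 := left_ne_zero_of_mul hne
  have hdet : Matrix.det (Matrix.of fun i j => D0 i (b j)) ≠ 0 := by
    intro h0
    apply right_ne_zero_of_mul hne
    rw [h0, zero_pow hr.ne']
  obtain ⟨L, hLb, hD⟩ := frame_dual hdim D0 b hb hdet
  have hvg : (0 : ℝ) < v g := by
    have : v g ≠ 0 := (v.ne_zero_iff).2 hg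
    exact_mod_cast pos_iff_ne_zero.2 this
  refine ⟨L, b, g, hb, hg, hLb, hbg, ?_, ?_, hD⟩
  · have h1 : -Real.log (v g) / r ≤ a := ha.1 ⟨b, g, hb, hbg, rfl⟩
    rw [div_le_iff₀ hr'] at h1
    rw [← Real.exp_log hvg]
    exact Real.exp_le_exp.2 (by linarith)
  · intro i f
    by_cases hf : f = 0
    · rw [hf, map_zero, map_zero, NNReal.coe_zero, mul_zero]
    by_cases hLf : L i f = 0
    · rw [hLf, map_zero, NNReal.coe_zero]
      positivity
    have hvf : (0 : ℝ) < v f := by
      have : v f ≠ 0 := (v.ne_zero_iff).2 hf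
      exact_mod_cast pos_iff_ne_zero.2 this
    have hvL : (0 : ℝ) < v (L i f) := by
      have : v (L i f) ≠ 0 := (v.ne_zero_iff).2 hLf
      exact_mod_cast pos_iff_ne_zero.2 this
    have hprod : (∏ j, Function.update b i f j) * b i = (∏ j, b j) * f := by
      rw [← Finset.mul_prod_erase Finset.univ (fun j => Function.update b i f j)
        (Finset.mem_univ i), ← Finset.mul_prod_erase Finset.univ b (Finset.mem_univ i),
        Function.update_self]
      have h1 : ∏ j ∈ Finset.univ.erase i, Function.update b i f j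
          = ∏ j ∈ Finset.univ.erase i, b j :=
        Finset.prod_congr rfl fun j hj => Function.update_of_ne (Finset.ne_of_mem_erase hj) ..
      rw [h1]
      ring
    have h1 : -Real.log (v (g * (f / L i f) ^ r)) / r ≤ a := by
      refine ha.1 ⟨Function.update b i f, g * (f / L i f) ^ r, fun j => ?_, fun D => ?_, rfl⟩
      · by_cases h : j = i
        · rw [h, Function.update_self]
          exact hf
        · rw [Function.update_of_ne h]
          exact hb j
      · rw [frame_det hD i f D]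
        have h2 : (∏ j, Function.update b i f j) = (∏ j, b j) * f / b i := by
          rw [eq_div_iff (hb i), hprod]
        rw [h2, div_pow, mul_pow, div_mul_eq_mul_div, mul_right_comm, hbg D, div_pow, mul_pow,
          div_pow]
        have h3 := pow_ne_zero r (hb i)
        have h4 := pow_ne_zero r hLf
        field_simp
    have h5 : Real.log (v (g * (f / L i f) ^ r))
        = Real.log (v g) + r * (Real.log (v f) - Real.log (v (L i f))) := by
      rw [map_mul, map_pow, map_div₀, NNReal.coe_mul, NNReal.coe_pow, NNReal.coe_div,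
        Real.log_mul hvg.ne' (pow_ne_zero _ (div_ne_zero hvf.ne' hvL.ne')), Real.log_pow,
        Real.log_div hvf.ne' hvL.ne']
    rw [h5, div_le_iff₀ hr'] at h1
    rw [lt_div_iff₀ hr'] at hta
    have h6 : r * Real.log (v (L i f)) ≤ r * (ε + Real.log (v f)) := by linarith
    have h7 : Real.log (v (L i f)) ≤ ε + Real.log (v f) := le_of_mul_le_mul_left h6 hr'
    calc (v (L i f) : ℝ) = Real.exp (Real.log (v (L i f))) := (Real.exp_log hvL).symm
      _ ≤ Real.exp (ε + Real.log (v f)) := Real.exp_le_exp.2 h7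
      _ = Real.exp ε * v f := by rw [Real.exp_add, Real.exp_log hvf]

end Vale.Agent.P282.Full
end
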