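import Mathlib
import Vale.Agent.P282.Full.Germ
import Vale.Agent.P282.Bd3.B2
import Vale.Agent.P282.Bd3.B1
import Vale.Agent.P282.Bd3.B3
import Vale.Agent.P282.Bd3.B4

set_option linter.all false

namespace AFastb7eaeex9a
@[reducible] noncomputable def a0 {x1 : ℕ} {x2 : Type} [x3 : Field x2] [x4 : Algebra (FractionRing (Vale.Agent.P282.L2.Pol x1)) x2] : Module (FractionRing (Vale.Agent.P282.L2.Pol x1)) x2 := inferInstance
theorem a1 {x1 : ℕ} : OpensMeasurableSpace (Fin x1 → ℂ) := inferInstance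
theorem a2 {x1 : Type} [x2 : Field x1] : MulHomClass (Valuation x1 NNReal) x1 NNReal := inferInstance
@[reducible] noncomputable def a3 {x1 : ℕ} : SMul (Vale.Agent.P282.L2.Pol x1) (OreLocalization (nonZeroDivisors (Vale.Agent.P282.L2.Pol x1)) (Vale.Agent.P282.L2.Pol x1)) := inferInstance
theorem a4 : SecondCountableTopology ℂ := inferInstance
@[reducible] noncomputable def a5 {x1 : ℕ} : DivisionRing (OreLocalization (nonZeroDivisors (Vale.Agent.P282.L2.Pol x1)) (Vale.Agent.P282.L2.Pol x1)) := inferInstance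
@[reducible] noncomputable def a6 {x1 : Type} {x2 : ℕ} [x3 : Field x1] [x4 : Algebra (Vale.Agent.P282.L2.Pol x2) x1] : Zero ↥(integralClosure (Vale.Agent.P282.L2.Pol x2) x1) := inferInstance
theorem a7 : CovariantClass ℝ ℝ (Function.swap fun x1 x2 => x1 + x2) fun x1 x2 => x1 ≤ x2 := inferInstance
theorem a8 {x1 : ℕ} {x2 : Type} [x3 : Field x2] [x4 : Algebra (Vale.Agent.P282.L2.Pol x1) x2] : AddSubmonoidClass (Subalgebra (Vale.Agent.P282.L2.Pol x1) x2) x2 := inferInstance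
theorem a9 : CharZero ℝ := inferInstance
theorem a10 : TopologicalSpace.IsCompletelyMetrizableSpace ℂ := inferInstance
theorem a11 : PolishSpace ℂ := inferInstance
theorem a12 {x1 : ℕ} {x2 : Type} [x3 : Field x2] [x4 : Algebra (Vale.Agent.P282.L2.Pol x1) x2] : ZeroMemClass (Subalgebra (Vale.Agent.P282.L2.Pol x1) x2) x2 := inferInstance
theorem a13 : TopologicalSpace.SeparableSpace ℂ := inferInstance
@[reducible] noncomputable def a14 {x1 : ℕ} : CommSemiring (OreLocalization (nonZeroDivisors (Vale.Agent.P282.L2.Pol x1)) (Vale.Agent.P282.L2.Pol x1)) := inferInstance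
@[reducible] noncomputable def a15 {x1 : ℕ} : OreLocalization.OreSet (nonZeroDivisors (Vale.Agent.P282.L2.Pol x1)) := inferInstance
theorem a16 {x1 : Type} {x2 : Type} [x3 : CommRing x1] [x4 : Field x2] : MulHomClass (x1 →+* x2) x1 x2 := inferInstance
theorem a17 : AddLeftMono ℝ := inferInstance
theorem a18 : AddRightStrictMono ℝ := inferInstance
@[reducible] noncomputable def a19 {x1 : ℕ} : CommMonoid (Vale.Agent.P282.L2.Pol x1) := inferInstance
theorem a20 {x1 : Type} [x2 : Field x1] : MonoidHomClass (Valuation x1 NNReal) x1 NNReal := inferInstance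
@[reducible] noncomputable def a21 {x1 : Type} {x2 : ℕ} [x3 : Field x1] [x4 : Algebra (Vale.Agent.P282.L2.Pol x2) x1] : Pow ↥(integralClosure (Vale.Agent.P282.L2.Pol x2) x1) ℕ := inferInstance
theorem a22 : PosMulReflectLT ℝ := inferInstance
@[reducible] noncomputable def a23 {x1 : ℕ} : Monoid (Vale.Agent.P282.L2.Pol x1) := inferInstance
theorem a24 {x1 : ℕ} : NoZeroDivisors (MvPolynomial (Fin x1) ℂ) := inferInstance
theorem a25 : PosMulReflectLE ℝ := inferInstance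
theorem a26 {x1 : Type} {x2 : Type} [x3 : CommRing x1] [x4 : Field x2] : NonUnitalRingHomClass (x1 →+* x2) x1 x2 := inferInstance
@[reducible] noncomputable def a27 {x1 : ℕ} : Algebra (Vale.Agent.P282.L2.Pol x1) (Polynomial (Vale.Agent.P282.L2.Pol x1)) := inferInstance
theorem a28 {x1 : ℕ} : SecondCountableTopologyEither (Fin x1 → ℂ) ℂ := inferInstance
theorem a29 {x1 : ℕ} : IsScalarTower (Vale.Agent.P282.L2.Pol x1) (Vale.Agent.P282.L2.Pol x1) (Vale.Agent.P282.L2.Pol x1) := inferInstance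
theorem a30 {x1 : ℕ} : ContinuousSMul ℂ (Fin x1 → ℂ) := inferInstance
theorem a31 : IsTopologicalSemiring ℂ := inferInstance
theorem a32 : IsTopologicalRing ℂ := inferInstance
theorem a33 : AddLeftReflectLE ℝ := inferInstance
@[reducible] noncomputable def a34 {x1 : ℕ} {x2 : Type} [x3 : Field x2] [x4 : Algebra (Vale.Agent.P282.L2.Pol x1) x2] : Pow (Submodule (Vale.Agent.P282.L2.IB x1 x2) (Vale.Agent.P282.L2.IB x1 x2)) ℕ := inferInstance
theorem a35 : IsRightCancelAdd ℝ := inferInstance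
theorem a36 : PosMulStrictMono ℝ := inferInstance
theorem a37 : T2Space NNReal := inferInstance
@[reducible] noncomputable def a38 {x1 : ℕ} {x2 : Type} [x3 : Field x2] [x4 : Algebra (Vale.Agent.P282.L2.Pol x1) x2] : Zero (Vale.Agent.P282.L2.IB x1 x2) := inferInstance
theorem a39 {x1 : ℕ} {x2 : Type} [x3 : Field x2] : MonoidWithZeroHomClass (Vale.Agent.P282.L2.Pol x1 →+* x2) (Vale.Agent.P282.L2.Pol x1) x2 := inferInstance
theorem a40 : AddRightReflectLE ℝ := inferInstance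
@[reducible] noncomputable def a41 {x1 : ℕ} : MeasureTheory.MeasureSpace (Fin x1 → ℂ) := inferInstance
@[reducible] noncomputable def a42 : MeasureTheory.MeasureSpace ℂ := inferInstance
@[reducible] def a43 : Monoid ℂ := inferInstance
@[reducible] noncomputable def a44 {x1 : ℕ} {x2 : Type} [x3 : Field x2] [x4 : Algebra (Vale.Agent.P282.L2.Pol x1) x2] : Monoid (Vale.Agent.P282.L2.IB x1 x2) := inferInstance
theorem a45 {x1 : ℕ} : ZeroHomClass (Derivation ℂ (MvPolynomial (Fin x1) ℂ) (MvPolynomial (Fin x1) ℂ)) (MvPolynomial (Fin x1) ℂ) (MvPolynomial (Fin x1) ℂ) := inferInstance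
theorem a46 {x1 : ℕ} {x2 : Type} [x3 : Field x2] : ZeroHomClass (Vale.Agent.P282.L2.Pol x1 →+* x2) (Vale.Agent.P282.L2.Pol x1) x2 := inferInstance
theorem a47 : IsLeftCancelAdd ℝ := inferInstance
@[reducible] noncomputable def a48 {x1 : ℕ} {x2 : Type} [x3 : Field x2] [x4 : Algebra (Vale.Agent.P282.L2.Pol x1) x2] : Pow (Vale.Agent.P282.L2.IB x1 x2) ℕ := inferInstance
theorem a49 {x1 : ℕ} : BorelSpace (Fin x1 → ℂ) := inferInstance
theorem a50 : SigmaCompactSpace ℂ := inferInstance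
theorem a51 : OrderClosedTopology ℝ := inferInstance
theorem a52 {x1 : Type} [x2 : CommRing x1] [x3 : Algebra ℂ x1] : AddMonoidHomClass (x1 →ₗ[ℂ] ℂ) x1 ℂ := inferInstance
@[reducible] noncomputable def a53 {x1 : ℕ} {x2 : Type} [x3 : Field x2] [x4 : Algebra (Vale.Agent.P282.L2.Pol x1) x2] : NPow (Ideal (Vale.Agent.P282.L2.IB x1 x2)) := inferInstance
theorem a54 : IsModuleTopology ℂ ℂ := inferInstance
@[reducible] noncomputable def a55 {x1 : ℕ} {x2 : Type} [x3 : Field x2] [x4 : Algebra (Vale.Agent.P282.L2.Pol x1) x2] : Monoid (Ideal (Vale.Agent.P282.L2.IB x1 x2)) := inferInstance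
theorem a56 {x1 : Type} [x2 : CommRing x1] [x3 : Algebra ℂ x1] {x4 : Submodule ℂ x1} : IsScalarTower ℂ ℂ (x1 ⧸ x4) := inferInstance
@[reducible] def a57 : Pow ℂ ℕ := inferInstance
theorem a58 {x1 : Type} [x2 : CommRing x1] [x3 : Algebra ℂ x1] : DistribMulActionSemiHomClass (x1 →ₗ[ℂ] ℂ) (⇑(RingHom.id ℂ)) x1 ℂ := inferInstance
theorem a59 : ContinuousAdd ℂ := inferInstance
@[reducible] noncomputable def a60 {x1 : ℕ} : Algebra (Vale.Agent.P282.L2.Pol x1) (OreLocalization (nonZeroDivisors (Vale.Agent.P282.L2.Pol x1)) (Vale.Agent.P282.L2.Pol x1)) := inferInstance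
theorem a61 : ContravariantClass ℝ ℝ (fun x1 x2 => x1 + x2) fun x1 x2 => x1 < x2 := inferInstance
theorem a62 {x1 : ℕ} {x2 : Type} [x3 : Field x2] [x4 : Algebra (Vale.Agent.P282.L2.Pol x1) x2] : SubmonoidClass (Subalgebra (Vale.Agent.P282.L2.Pol x1) x2) x2 := inferInstance
theorem a63 : IsTopologicalDivisionRing ℂ := inferInstance
theorem a64 : IsCancelMulZero ℝ := inferInstance
@[reducible] def a65 : NPow ℂ := inferInstance
@[reducible] noncomputable def a66 {x1 : ℕ} {x2 : Type} [x3 : Field x2] [x4 : Algebra (Vale.Agent.P282.L2.Pol x1) x2] : NPow (Vale.Agent.P282.L2.IB x1 x2) := inferInstance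
theorem a67 : IsSemitopologicalSemiring ℂ := inferInstance
theorem a68 {x1 : ℕ} {x2 : Type} [x3 : Field x2] [x4 : Algebra (Vale.Agent.P282.L2.Pol x1) x2] : IsScalarTower (Vale.Agent.P282.L2.IB x1 x2) (Vale.Agent.P282.L2.IB x1 x2) (Vale.Agent.P282.L2.IB x1 x2) := inferInstance
@[reducible] noncomputable def a69 {x1 : ℕ} : Module ℝ (Fin x1 → ℂ) := inferInstance
@[reducible] noncomputable def a70 {x1 : ℕ} {x2 : Type} [x3 : Field x2] [x4 : Algebra (Vale.Agent.P282.L2.Pol x1) x2] : Semiring (Ideal (Vale.Agent.P282.L2.IB x1 x2)) := inferInstance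
theorem a71 : IsLeftCancelMulZero ℝ := inferInstance
theorem a72 : IsSemitopologicalRing ℂ := inferInstance
@[reducible] def a73 {x1 : Type} [x2 : CommRing x1] : NPow (Ideal x1) := inferInstance
theorem a74 : CovariantClass NNReal NNReal (Function.swap fun x1 x2 => x1 * x2) fun x1 x2 => x1 ≤ x2 := inferInstance
@[reducible] def a75 {x1 : Type} [x2 : CommRing x1] : Monoid (Ideal x1) := inferInstance
@[reducible] noncomputable def a76 {x1 : ℕ} {x2 : Type} [x3 : Field x2] [x4 : Algebra (Vale.Agent.P282.L2.Pol x1) x2] : Pow (Ideal (Vale.Agent.P282.L2.IB x1 x2)) ℕ := inferInstance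
@[reducible] def a77 {x1 : Type} [x2 : CommRing x1] : Pow (Ideal x1) ℕ := inferInstance
end AFastb7eaeex9a
attribute [local instance] AFastb7eaeex9a.a0 AFastb7eaeex9a.a1 AFastb7eaeex9a.a2 AFastb7eaeex9a.a3
  AFastb7eaeex9a.a4 AFastb7eaeex9a.a5 AFastb7eaeex9a.a6 AFastb7eaeex9a.a7 AFastb7eaeex9a.a8
  AFastb7eaeex9a.a9 AFastb7eaeex9a.a10 AFastb7eaeex9a.a11 AFastb7eaeex9a.a12 AFastb7eaeex9a.a13
  AFastb7eaeex9a.a14 AFastb7eaeex9a.a15 AFastb7eaeex9a.a16 AFastb7eaeex9a.a17 AFastb7eaeex9a.a18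
  AFastb7eaeex9a.a19 AFastb7eaeex9a.a20 AFastb7eaeex9a.a21 AFastb7eaeex9a.a22 AFastb7eaeex9a.a23
  AFastb7eaeex9a.a24 AFastb7eaeex9a.a25 AFastb7eaeex9a.a26 AFastb7eaeex9a.a27 AFastb7eaeex9a.a28
  AFastb7eaeex9a.a29 AFastb7eaeex9a.a30 AFastb7eaeex9a.a31 AFastb7eaeex9a.a32 AFastb7eaeex9a.a33
  AFastb7eaeex9a.a34 AFastb7eaeex9a.a35 AFastb7eaeex9a.a36 AFastb7eaeex9a.a37 AFastb7eaeex9a.a38
  AFastb7eaeex9a.a39 AFastb7eaeex9a.a40 AFastb7eaeex9a.a41 AFastb7eaeex9a.a42 AFastb7eaeex9a.a43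
  AFastb7eaeex9a.a44 AFastb7eaeex9a.a45 AFastb7eaeex9a.a46 AFastb7eaeex9a.a47 AFastb7eaeex9a.a48
  AFastb7eaeex9a.a49 AFastb7eaeex9a.a50 AFastb7eaeex9a.a51 AFastb7eaeex9a.a52 AFastb7eaeex9a.a53
  AFastb7eaeex9a.a54 AFastb7eaeex9a.a55 AFastb7eaeex9a.a56 AFastb7eaeex9a.a57 AFastb7eaeex9a.a58
  AFastb7eaeex9a.a59 AFastb7eaeex9a.a60 AFastb7eaeex9a.a61 AFastb7eaeex9a.a62 AFastb7eaeex9a.a63
  AFastb7eaeex9a.a64 AFastb7eaeex9a.a65 AFastb7eaeex9a.a66 AFastb7eaeex9a.a67 AFastb7eaeex9a.a68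
  AFastb7eaeex9a.a69 AFastb7eaeex9a.a70 AFastb7eaeex9a.a71 AFastb7eaeex9a.a72 AFastb7eaeex9a.a73
  AFastb7eaeex9a.a74 AFastb7eaeex9a.a75 AFastb7eaeex9a.a76 AFastb7eaeex9a.a77
namespace AFastb7eaeex9b
@[reducible] noncomputable def a0 {x1 : ℕ} {x2 : Type} [x3 : Field x2] [x4 : Algebra (Vale.Agent.P282.L2.Pol x1) x2] : Algebra (Vale.Agent.P282.L2.Pol x1) ↥(integralClosure (Vale.Agent.P282.L2.Pol x1) x2) := inferInstance
@[reducible] def a1 {x1 : ℕ} {x2 : Type} [x3 : Field x2] [x4 : Algebra (Vale.Agent.P282.L2.Pol x1) x2] : SMul (Vale.Agent.P282.L2.Pol x1) x2 := inferInstance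
@[reducible] def a2 {x1 : ℕ} {x2 : Type} [x3 : Field x2] [x4 : Algebra (FractionRing (Vale.Agent.P282.L2.Pol x1)) x2] : SMul (FractionRing (Vale.Agent.P282.L2.Pol x1)) x2 := inferInstance
@[reducible] noncomputable def a3 {x1 : ℕ} {x2 : Type} [x3 : Field x2] [x4 : Algebra (Vale.Agent.P282.L2.Pol x1) x2] : DistribMulAction (Vale.Agent.P282.L2.IB x1 x2) (Vale.Agent.P282.L2.IB x1 x2) := inferInstance
theorem a4 {x1 : Type} {x2 : Type} [x3 : CommRing x1] [x4 : Field x2] : AddHomClass (x1 →+* x2) x1 x2 := inferInstance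
theorem a5 {x1 : ℕ} : AddMonoidHomClass (MvPolynomial (Fin x1) ℂ →+* ℂ) (MvPolynomial (Fin x1) ℂ) ℂ := inferInstance
theorem a6 {x1 : ℕ} {x2 : Type} [x3 : Field x2] [x4 : Algebra (Vale.Agent.P282.L2.Pol x1) x2] : AddMonoidHomClass (Vale.Agent.P282.L2.IB x1 x2 →+* ℂ) (Vale.Agent.P282.L2.IB x1 x2) ℂ := inferInstance
theorem a7 {x1 : Type} {x2 : Type} [x3 : CommRing x1] [x4 : Field x2] : AddMonoidHomClass (x1 →+* x2) x1 x2 := inferInstance
theorem a8 {x1 : ℕ} {x2 : Type} [x3 : Field x2] : AddHomClass (Vale.Agent.P282.L2.Pol x1 →+* x2) (Vale.Agent.P282.L2.Pol x1) x2 := inferInstance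
theorem a9 {x1 : ℕ} : AddHomClass (MvPolynomial (Fin x1) ℂ →+* ℂ) (MvPolynomial (Fin x1) ℂ) ℂ := inferInstance
theorem a10 : MeasurableMul₂ ℂ := inferInstance
theorem a11 {x1 : Type} [x2 : Field x1] [x3 : Algebra ℂ x1] : AddHomClass (Derivation ℂ x1 x1) x1 x1 := inferInstance
@[reducible] noncomputable def a12 {x1 : Type} {x2 : ℕ} [x3 : Field x1] [x4 : Algebra (Vale.Agent.P282.L2.Pol x2) x1] [x5 : Algebra ℂ x1] [x6 : IsScalarTower ℂ (Vale.Agent.P282.L2.Pol x2) x1] : Algebra ℂ ↥(integralClosure (Vale.Agent.P282.L2.Pol x2) x1) := inferInstance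
theorem a13 {x1 : ℕ} {x2 : Type} [x3 : Field x2] : AddMonoidHomClass (Vale.Agent.P282.L2.Pol x1 →+* x2) (Vale.Agent.P282.L2.Pol x1) x2 := inferInstance
theorem a14 : ContinuousSMul ℚ≥0 ℝ := inferInstance
theorem a15 {x1 : ℕ} : OpensMeasurableSpace ((Fin x1 → ℂ) × ℂ) := inferInstance
theorem a16 {x1 : ℕ} : ExistsAddOfLE (Fin x1 →₀ ℕ) := inferInstance
theorem a17 : MeasurablePow ℂ ℕ := inferInstance
theorem a18 : IsScalarTower ℚ≥0 ℚ ℝ := inferInstance
@[reducible] noncomputable def a19 : Module ℚ ℝ := inferInstance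
theorem a20 {x1 : Type} [x2 : CommRing x1] [x3 : Algebra ℂ x1] {x4 : Submodule ℂ x1} : AddMonoidHomClass (x1 →ₗ[ℂ] x1 ⧸ x4) x1 (x1 ⧸ x4) := inferInstance
theorem a21 {x1 : Type} [x2 : CommRing x1] [x3 : Algebra ℂ x1] {x4 : Submodule ℂ x1} : DistribMulActionSemiHomClass (x1 →ₗ[ℂ] x1 ⧸ x4) (⇑(RingHom.id ℂ)) x1 (x1 ⧸ x4) := inferInstance
end AFastb7eaeex9b
attribute [local instance] AFastb7eaeex9b.a0 AFastb7eaeex9b.a1 AFastb7eaeex9b.a2 AFastb7eaeex9b.a3
  AFastb7eaeex9b.a4 AFastb7eaeex9b.a5 AFastb7eaeex9b.a6 AFastb7eaeex9b.a7 AFastb7eaeex9b.a8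
  AFastb7eaeex9b.a9 AFastb7eaeex9b.a10 AFastb7eaeex9b.a11 AFastb7eaeex9b.a12 AFastb7eaeex9b.a13
  AFastb7eaeex9b.a14 AFastb7eaeex9b.a15 AFastb7eaeex9b.a16 AFastb7eaeex9b.a17 AFastb7eaeex9b.a18
  AFastb7eaeex9b.a19 AFastb7eaeex9b.a20 AFastb7eaeex9b.a21
section

/-!
P282, equality case: volumes as lower limits.
-/

open scoped NNReal ENNReal Nat
open IsLocalRing

namespace Vale.Agent.P282.Full

/-- The volume of the real valuation `- log v`, as a lower limit. -/
noncomputable def volI (R : Type) {K : Type} [CommRing R] [Field K] [Algebra R K] (n : ℕ)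
    (v : Valuation K ℝ≥0) : ℝ≥0∞ :=
  Filter.liminf (fun t : ℕ => (n ! : ℝ≥0∞) * (Module.length R (R ⧸ valIdeal R v t) : ℝ≥0∞) /
    (t : ℝ≥0∞) ^ n) Filter.atTop

/-- The lower bound `V` for the normalized volume. -/
def NVolGe (R : Type) {K : Type} [CommRing R] [IsDomain R] [IsLocalRing R] [Algebra ℂ R]
    [Field K] [Algebra ℂ K] [Algebra R K] (n r : ℕ) (ω : (Fin n → Derivation ℂ K K) → K)
    (V : ℝ≥0∞) : Prop :=
  ∀ (v : Valuation K ℝ≥0) (a : ℝ), HasCenter R v (maximalIdeal R) →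
    IsLogDiscrepancy n r ω v a → V ≤ ENNReal.ofReal a ^ n * volI R n v

end Vale.Agent.P282.Full
end

section

/-!
P282, equality case, arbitrary index: invariance of the minimizer.
-/

open scoped NNReal ENNReal Nat WithZero
open IsLocalRing

namespace Vale.Agent.P282.Full

/-- The valuation ideals are given by the obvious condition. -/
theorem ixinv_mem {R K : Type} [CommRing R] [Field K] [Algebra R K]
    {v : Valuation K ℝ≥0} (hv : ∀ f : R, v (algebraMap R K f) ≤ 1) {t : ℝ}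
    {f : R} : f ∈ valIdeal R v t ↔ (v (algebraMap R K f) : ℝ) ≤ Real.exp (-t) := by
  constructor
  · intro hf
    unfold valIdeal at hf
    induction hf using Submodule.span_induction with
    | mem x hx => exact hx
    | zero => simp [Real.exp_nonneg]
    | add x y _ _ hx hy =>
      rw [map_add]
      rcases le_total (v (algebraMap R K x)) (v (algebraMap R K y)) with h | h
      · have h1 := (v.map_add (algebraMap R K x) (algebraMap R K y)).trans (max_le h le_rfl)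
        exact (NNReal.coe_le_coe.mpr h1).trans hy
      · have h1 := (v.map_add (algebraMap R K x) (algebraMap R K y)).trans (max_le le_rfl h)
        exact (NNReal.coe_le_coe.mpr h1).trans hx
    | smul a x _ hx =>
      rw [smul_eq_mul, map_mul, map_mul, NNReal.coe_mul]
      have h1 : (v (algebraMap R K a) : ℝ) ≤ 1 := by exact_mod_cast hv a
      exact (mul_le_of_le_one_left (NNReal.coe_nonneg _) h1).trans hx
  · intro hf
    exact Ideal.subset_span hf

/-- The length of the quotient by the preimage under an automorphism. -/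
theorem ixinv_length_comap {R : Type} [CommRing R] (τ : R ≃+* R) (I : Ideal R) :
    Module.length R (R ⧸ I.comap (τ : R →+* R)) = Module.length R (R ⧸ I) := by
  rw [Module.length_quotient, Module.length_quotient]
  exact Order.coheight_orderIso (RingEquiv.idealComapOrderIso τ) I

/-- The length of the quotient by an intersection. -/
theorem ixinv_length_add {R : Type} [CommRing R] (A B T : Ideal R) (g : R) (hg : g ∈ B)
    (hT : ∀ h, h * g ∈ A → h ∈ T) :
    Module.length R (R ⧸ B) + Module.length R (R ⧸ T) ≤ Module.length R (R ⧸ (A ⊓ B)) := by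
  let ψ : (R ⧸ (A ⊓ B)) →ₗ[R] (R ⧸ B) := Submodule.factor (inf_le_right : A ⊓ B ≤ B)
  have hψ : Function.Surjective ψ := Submodule.factor_surjective _
  rw [Module.length_eq_add_of_exact (LinearMap.ker ψ).subtype ψ
    (Submodule.subtype_injective _) hψ (LinearMap.exact_subtype_ker_map ψ),
    add_comm (Module.length R (R ⧸ B))]
  refine add_le_add ?_ le_rfl
  let ph : R →ₗ[R] (R ⧸ (A ⊓ B)) := (Submodule.mkQ (A ⊓ B)) ∘ₗ (LinearMap.mulRight R g)
  have hph : ∀ h, ph h = Submodule.Quotient.mk (h * g) := fun h => rfl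
  have hmem : ∀ h, ph h ∈ LinearMap.ker ψ := by
    intro h
    rw [LinearMap.mem_ker, hph]
    show (Submodule.Quotient.mk (h * g) : R ⧸ B) = 0
    rw [Submodule.Quotient.mk_eq_zero]
    exact B.mul_mem_left h hg
  let χ : R →ₗ[R] LinearMap.ker ψ := ph.codRestrict _ hmem
  have hχ : LinearMap.ker χ ≤ T := by
    intro h hh
    have h1 : ph h = 0 := congrArg Subtype.val (LinearMap.mem_ker.1 hh)
    rw [hph, Submodule.Quotient.mk_eq_zero] at h1
    exact hT h h1.1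
  have h1 : Module.length R (R ⧸ T) ≤ Module.length R (R ⧸ LinearMap.ker χ) :=
    Module.length_le_of_surjective (Submodule.factor hχ) (Submodule.factor_surjective _)
  have h2 : Module.length R (R ⧸ LinearMap.ker χ) ≤ Module.length R (LinearMap.ker ψ) :=
    Module.length_le_of_injective ((LinearMap.ker χ).liftQ χ le_rfl)
      (LinearMap.ker_eq_bot.1 (Submodule.ker_liftQ_eq_bot _ _ _ le_rfl))
  exact h1.trans h2

/-- The asymptotic contradiction. -/
theorem ixinv_asym {n e : ℕ} (he : 0 < e) {L : ℕ → ℕ∞}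
    (hvol : (e : ℝ≥0∞) ≤ Filter.liminf (fun t : ℕ => (n ! : ℝ≥0∞) * (L t : ℝ≥0∞) /
      (t : ℝ≥0∞) ^ n) Filter.atTop) {η : ℝ} (hη : 0 < η)
    (h : ∀ᶠ k : ℕ in Filter.atTop, L k + L ⌊η * k⌋₊ ≤ (e * Nat.choose (n + k - 1) n : ℕ)) :
    False := by
  have he' : (0 : ℝ) < e := by exact_mod_cast he
  have hηn : 0 < η ^ n := pow_pos hη n
  set c : ℝ := e / (1 + η ^ n / 2) with hc
  have hc0 : 0 < c := by positivity
  have hce : c < e := by
    rw [hc, div_lt_iff₀ (by positivity)]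
    linarith only [mul_pos (sub_pos.2 he') (sub_pos.2 hηn)]
  have hce2 : (e : ℝ) < c * (1 + η ^ n) := by
    rw [hc, div_mul_eq_mul_div, lt_div_iff₀ (by positivity)]
    linarith only [mul_pos (sub_pos.2 hηn) (sub_pos.2 hce), mul_pos (sub_pos.2 hηn) (sub_pos.2 hc0)]
  have hev : ∀ᶠ t : ℕ in Filter.atTop, ENNReal.ofReal c < (n ! : ℝ≥0∞) * (L t : ℝ≥0∞) /
      (t : ℝ≥0∞) ^ n := by
    refine Filter.eventually_lt_of_lt_liminf (lt_of_lt_of_le ?_ hvol)
    rw [← ENNReal.ofReal_natCast]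
    exact (ENNReal.ofReal_lt_ofReal_iff he').2 hce
  have hev2 : ∀ᶠ t : ℕ in Filter.atTop, L t ≠ ⊤ → c * (t : ℝ) ^ n ≤ n ! * ((L t).toNat : ℝ) := by
    filter_upwards [hev, Filter.eventually_gt_atTop 0] with t ht ht0 hfin
    have ht' : (0 : ℝ) < (t : ℝ) ^ n := by
      have : (0 : ℝ) < t := by exact_mod_cast ht0
      positivity
    have e1 : (L t : ℝ≥0∞) = ENNReal.ofReal ((L t).toNat : ℝ) := by
      conv_lhs => rw [← ENat.natCast_toNat hfin]
      rw [ENNReal.ofReal_natCast]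
      rfl
    have e2 : (n ! : ℝ≥0∞) * (L t : ℝ≥0∞) / (t : ℝ≥0∞) ^ n
        = ENNReal.ofReal (n ! * ((L t).toNat : ℝ) / (t : ℝ) ^ n) := by
      rw [ENNReal.ofReal_div_of_pos ht', ENNReal.ofReal_mul (by positivity), e1,
        ENNReal.ofReal_pow (Nat.cast_nonneg t)]
      simp only [ENNReal.ofReal_natCast]
    rw [e2] at ht
    have h1 := (ENNReal.ofReal_lt_ofReal_iff_of_nonneg hc0.le).1 ht
    rw [lt_div_iff₀ ht'] at h1
    exact h1.le
  have hfl : Filter.Tendsto (fun k : ℕ => ⌊η * (k : ℝ)⌋₊) Filter.atTop Filter.atTop :=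
    tendsto_nat_floor_atTop.comp
      ((tendsto_natCast_atTop_atTop (R := ℝ)).const_mul_atTop hη)
  have hev3 := hfl.eventually hev2
  have hlim1 : Filter.Tendsto (fun k : ℕ => c * (1 + (η - 1 / (k : ℝ)) ^ n)) Filter.atTop
      (nhds (c * (1 + (η - 0) ^ n))) :=
    (tendsto_const_nhds.add
      ((tendsto_const_nhds.sub tendsto_one_div_atTop_nhds_zero_nat).pow n)).const_mul c
  have hlim2 : Filter.Tendsto (fun k : ℕ => (e : ℝ) * (1 + n * (1 / (k : ℝ))) ^ n) Filter.atTop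
      (nhds (e * (1 + n * 0) ^ n)) :=
    ((tendsto_const_nhds.add
      (tendsto_one_div_atTop_nhds_zero_nat.const_mul (n : ℝ))).pow n).const_mul _
  have hle : ∀ᶠ k : ℕ in Filter.atTop, c * (1 + (η - 1 / (k : ℝ)) ^ n)
      ≤ (e : ℝ) * (1 + n * (1 / (k : ℝ))) ^ n := by
    filter_upwards [h, hev2, hev3, Filter.eventually_gt_atTop 0,
      Filter.eventually_ge_atTop ⌈1 / η⌉₊] with k hk h2 h3 hk0 hkη
    have hk0' : (0 : ℝ) < k := by exact_mod_cast hk0
    have hkη' : 1 ≤ η * k := by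
      have h1 : 1 / η ≤ k := (Nat.le_ceil _).trans (by exact_mod_cast hkη)
      rw [div_le_iff₀ hη] at h1
      linarith
    have hfin : L k + L ⌊η * k⌋₊ ≠ ⊤ := ne_top_of_le_ne_top (ENat.natCast_ne_top _) hk
    have hf1 : L k ≠ ⊤ := fun h0 => hfin (by rw [h0, top_add])
    have hf2 : L ⌊η * k⌋₊ ≠ ⊤ := fun h0 => hfin (by rw [h0, add_top])
    have h4 : (L k).toNat + (L ⌊η * k⌋₊).toNat ≤ e * Nat.choose (n + k - 1) n := by
      have h5 : ((L k).toNat : ℕ∞) + ((L ⌊η * k⌋₊).toNat : ℕ∞)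
          ≤ (e * Nat.choose (n + k - 1) n : ℕ) := by
        rw [ENat.natCast_toNat hf1, ENat.natCast_toNat hf2]
        exact hk
      exact_mod_cast h5
    have h5 : n ! * Nat.choose (n + k - 1) n ≤ (k + n) ^ n := by
      rw [← Nat.descFactorial_eq_factorial_mul_choose]
      exact (Nat.descFactorial_le_pow _ _).trans (Nat.pow_le_pow_left (by omega) n)
    have h6 : n ! * ((L k).toNat + (L ⌊η * k⌋₊).toNat) ≤ e * (k + n) ^ n := by
      calc n ! * ((L k).toNat + (L ⌊η * k⌋₊).toNat)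
          ≤ n ! * (e * Nat.choose (n + k - 1) n) := Nat.mul_le_mul_left _ h4
        _ = e * (n ! * Nat.choose (n + k - 1) n) := by ring
        _ ≤ e * (k + n) ^ n := Nat.mul_le_mul_left _ h5
    have h7 : (n ! : ℝ) * ((L k).toNat + (L ⌊η * k⌋₊).toNat) ≤ e * ((k : ℝ) + n) ^ n := by
      exact_mod_cast h6
    have h8 := h2 hf1
    have h9 := h3 hf2
    have h10 : η * k - 1 ≤ (⌊η * k⌋₊ : ℝ) := (Nat.sub_one_lt_floor _).le
    have h11 : (η * k - 1) ^ n ≤ (⌊η * k⌋₊ : ℝ) ^ n := pow_le_pow_left₀ (by linarith only [hkη']) h10 n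
    have h12 : c * (η * k - 1) ^ n ≤ c * (⌊η * k⌋₊ : ℝ) ^ n := mul_le_mul_of_nonneg_left h11 hc0.le
    have h13 : c * ((k : ℝ) ^ n + (η * k - 1) ^ n) ≤ e * ((k : ℝ) + n) ^ n := by
      rw [mul_add] at h7 ⊢
      linarith only [h12, h9, h8, h7]
    have e3 : η * k - 1 = k * (η - 1 / k) := by field_simp
    have e4 : (k : ℝ) + n = k * (1 + n * (1 / k)) := by field_simp
    rw [e3, e4, mul_pow, mul_pow] at h13
    have hkn : (0 : ℝ) < (k : ℝ) ^ n := by positivity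
    have h14 : (k : ℝ) ^ n * (c * (1 + (η - 1 / k) ^ n))
        ≤ (k : ℝ) ^ n * (e * (1 + n * (1 / k)) ^ n) := by
      linarith only [h13]
    exact le_of_mul_le_mul_left h14 hkn
  have hfinal := le_of_tendsto_of_tendsto hlim1 hlim2 hle
  rw [sub_zero, mul_zero, add_zero, one_pow, mul_one] at hfinal
  linarith

/-- A homomorphism of the fraction field which preserves the ring. -/
theorem ixinv_lift {R K : Type} [CommRing R] [IsDomain R] [Field K] [Algebra R K]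
    [IsFractionRing R K] (ρ : K →+* K)
    (hρ : ∀ a : R, ∃ b : R, algebraMap R K b = ρ (algebraMap R K a)) :
    ∃ τ : R →+* R, ∀ a, algebraMap R K (τ a) = ρ (algebraMap R K a) := by
  choose t ht using hρ
  have hinj : Function.Injective (algebraMap R K) := IsFractionRing.injective R K
  exact ⟨{ toFun := t
           map_one' := hinj (by rw [ht, map_one, map_one])
           map_mul' := fun a b => hinj (by rw [ht, map_mul, map_mul, map_mul, ht, ht])
           map_zero' := hinj (by rw [ht, map_zero, map_zero])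
           map_add' := fun a b => hinj (by rw [ht, map_add, map_add, map_add, ht, ht]) }, ht⟩

/-- The automorphism of the ring. -/
theorem ixinv_equiv {R K : Type} [CommRing R] [IsDomain R] [Algebra ℂ R] [Field K] [Algebra ℂ K]
    [Algebra R K] [IsFractionRing R K] {σ : K ≃ₐ[ℂ] K} (hσo : IsOfFinOrder σ)
    (hσ : ∀ a : R, ∃ b : R, algebraMap R K b = σ (algebraMap R K a)) :
    ∃ τ : R ≃+* R, ∀ a, algebraMap R K (τ a) = σ (algebraMap R K a) := by
  have hinj : Function.Injective (algebraMap R K) := IsFractionRing.injective R K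
  have hpow : ∀ (j : ℕ) (a : R), ∃ b : R, algebraMap R K b = (σ ^ j) (algebraMap R K a) := by
    intro j
    induction j with
    | zero => exact fun a => ⟨a, rfl⟩
    | succ j ih =>
      intro a
      obtain ⟨b, hb⟩ := hσ a
      obtain ⟨c, hc⟩ := ih b
      refine ⟨c, ?_⟩
      rw [hc, hb, pow_succ]
      rfl
  obtain ⟨τ, hτ⟩ := ixinv_lift (σ : K →+* K) hσ
  have hN := hσo.orderOf_pos
  have hinv : σ ^ (orderOf σ - 1) * σ = 1 := by
    rw [← pow_succ, Nat.sub_add_cancel hN, pow_orderOf_eq_one]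
  have hinv' : σ * σ ^ (orderOf σ - 1) = 1 := by
    rw [← pow_succ', Nat.sub_add_cancel hN, pow_orderOf_eq_one]
  obtain ⟨τ', hτ'⟩ := ixinv_lift ((σ ^ (orderOf σ - 1) : K ≃ₐ[ℂ] K) : K →+* K)
    (hpow (orderOf σ - 1))
  refine ⟨RingEquiv.ofRingHom τ τ' ?_ ?_, fun a => hτ a⟩
  · ext a
    apply hinj
    show algebraMap R K (τ (τ' a)) = algebraMap R K a
    rw [hτ, hτ']
    show (σ * σ ^ (orderOf σ - 1)) (algebraMap R K a) = _
    rw [hinv']
    rfl
  · ext a
    apply hinj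
    show algebraMap R K (τ' (τ a)) = algebraMap R K a
    rw [hτ', hτ]
    show (σ ^ (orderOf σ - 1) * σ) (algebraMap R K a) = _
    rw [hinv]
    rfl

/-- The choice of the exponents. -/
theorem ixinv_real {μ μ' : ℝ} (hμ : 0 < μ) (hμ' : μ < μ') (k : ℕ) :
    ∃ j i : ℕ, i ≤ k ∧ (i : ℝ) ≤ j * μ' ∧
      ((μ' - μ + 1) / ((μ' - μ) / (4 * μ')) ≤ k →
        j * μ - i ≤ -((μ' - μ) / (4 * μ') * k)) := by
  have h0 : 0 < μ' := hμ.trans hμ'
  have hd : 0 < μ' - μ := sub_pos.2 hμ'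
  have hj1 : (⌊(k : ℝ) / (2 * μ')⌋₊ : ℝ) ≤ (k : ℝ) / (2 * μ') := Nat.floor_le (by positivity)
  have hj2 : (k : ℝ) / (2 * μ') - 1 < (⌊(k : ℝ) / (2 * μ')⌋₊ : ℝ) := Nat.sub_one_lt_floor _
  generalize (⌊(k : ℝ) / (2 * μ')⌋₊ : ℕ) = j at hj1 hj2
  have hi1 : (⌊(j : ℝ) * μ'⌋₊ : ℝ) ≤ (j : ℝ) * μ' := Nat.floor_le (by positivity)
  have hi2 : (j : ℝ) * μ' - 1 < (⌊(j : ℝ) * μ'⌋₊ : ℝ) := Nat.sub_one_lt_floor _
  generalize (⌊(j : ℝ) * μ'⌋₊ : ℕ) = i at hi1 hi2
  have hk0 : (0 : ℝ) ≤ k := Nat.cast_nonneg k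
  refine ⟨j, i, ?_, hi1, fun hk => ?_⟩
  · have h1 : (j : ℝ) * μ' ≤ (k : ℝ) / (2 * μ') * μ' := mul_le_mul_of_nonneg_right hj1 h0.le
    have h2 : (k : ℝ) / (2 * μ') * μ' = k / 2 := by field_simp
    have h3 : (i : ℝ) ≤ k := by linarith only [h2, h1, hk0, hi1]
    exact_mod_cast h3
  · rw [div_le_iff₀ (by positivity)] at hk
    have h1 : ((k : ℝ) / (2 * μ') - 1) * (μ' - μ) ≤ j * (μ' - μ) :=
      mul_le_mul_of_nonneg_right hj2.le hd.le
    have h2 : (k : ℝ) / (2 * μ') * (μ' - μ) = 2 * ((μ' - μ) / (4 * μ') * k) := by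
      field_simp
      ring
    rw [sub_mul, h2] at h1
    linarith only [h1, hk, hi2]

/-- A valuation with the volume of the maximal ideal does not decrease under automorphisms. -/
theorem ixinv_key {n : ℕ} {R K : Type} [CommRing R] [IsDomain R] [IsLocalRing R]
    [Algebra ℂ R] [Field K] [Algebra ℂ K] [Algebra R K] [IsFractionRing R K] {e : ℕ}
    (he : 0 < e)
    (hlen : ∀ k : ℕ, Module.length R (R ⧸ maximalIdeal R ^ k) ≤ (e * Nat.choose (n + k - 1) n : ℕ))
    {v : Valuation K ℝ≥0} (hv : HasCenter R v (maximalIdeal R))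
    (hm : ∀ f ∈ maximalIdeal R, v (algebraMap R K f) ≤ (Real.exp (-1)).toNNReal)
    (hm' : ∃ f ∈ maximalIdeal R, v (algebraMap R K f) = (Real.exp (-1)).toNNReal)
    (hvol : (e : ℝ≥0∞) ≤ volI R n v) {σ : K ≃ₐ[ℂ] K} (τ : R ≃+* R)
    (hτ : ∀ a, algebraMap R K (τ a) = σ (algebraMap R K a)) (f : R) :
    v (algebraMap R K f) ≤ v (σ (algebraMap R K f)) := by
  by_contra hlt
  push Not at hlt
  have hv1 : ∀ f : R, v (algebraMap R K f) ≤ 1 := fun f => (hv f).1
  have hτm : ∀ h, h ∈ maximalIdeal R ↔ τ h ∈ maximalIdeal R := by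
    intro h
    rw [mem_maximalIdeal, mem_maximalIdeal, mem_nonunits_iff, mem_nonunits_iff,
      MulEquiv.isUnit_map τ]
  have hfm : f ∈ maximalIdeal R := by
    by_contra hf
    have h1 : τ f ∉ maximalIdeal R := fun h => hf ((hτm f).2 h)
    apply h1
    rw [← (hv (τ f)).2, hτ]
    exact hlt.trans_le (hv1 f)
  have hU1 : (v (algebraMap R K f) : ℝ) < 1 := by exact_mod_cast ((hv f).2).2 hfm
  have hf0 : algebraMap R K f ≠ 0 := by
    intro h0
    rw [h0, map_zero] at hlt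
    exact lt_irrefl _ hlt
  have hW0 : (0 : ℝ) < v (σ (algebraMap R K f)) := by
    have h1 : v (σ (algebraMap R K f)) ≠ 0 :=
      (v.ne_zero_iff).2 ((map_ne_zero σ).2 hf0)
    exact_mod_cast pos_iff_ne_zero.2 h1
  have hWU : (v (σ (algebraMap R K f)) : ℝ) < v (algebraMap R K f) := by exact_mod_cast hlt
  have hU0 : (0 : ℝ) < v (algebraMap R K f) := hW0.trans hWU
  obtain ⟨μ, hμ⟩ : ∃ μ, μ = -Real.log (v (algebraMap R K f)) := ⟨_, rfl⟩
  obtain ⟨μ', hμ'⟩ : ∃ μ', μ' = -Real.log (v (σ (algebraMap R K f))) := ⟨_, rfl⟩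
  have hμ0 : 0 < μ := by
    rw [hμ, neg_pos]
    exact Real.log_neg hU0 hU1
  have hμμ : μ < μ' := by
    rw [hμ, hμ', neg_lt_neg_iff]
    exact Real.log_lt_log hW0 hWU
  have hUe : (v (algebraMap R K f) : ℝ) = Real.exp (-μ) := by
    rw [hμ, neg_neg, Real.exp_log hU0]
  have hWe : (v (σ (algebraMap R K f)) : ℝ) = Real.exp (-μ') := by
    rw [hμ', neg_neg, Real.exp_log hW0]
  obtain ⟨z, hz, hvz⟩ := hm'
  have hze : (v (algebraMap R K z) : ℝ) = Real.exp (-1) := by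
    rw [hvz, Real.coe_toNNReal _ (Real.exp_pos _).le]
  have hzs : (v (σ (algebraMap R K z)) : ℝ) ≤ Real.exp (-1) := by
    rw [← hτ]
    have h1 := NNReal.coe_le_coe.2 (hm (τ z) ((hτm z).1 hz))
    rwa [Real.coe_toNNReal _ (Real.exp_pos _).le] at h1
  have hpowA : ∀ k : ℕ, maximalIdeal R ^ k ≤ valIdeal R v k := by
    intro k
    induction k with
    | zero =>
      intro h _
      rw [ixinv_mem hv1, Nat.cast_zero, neg_zero, Real.exp_zero]
      exact_mod_cast hv1 h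
    | succ k ih =>
      rw [pow_succ', Ideal.mul_le]
      intro r hr s hs
      have h1 := (ixinv_mem hv1).1 (ih hs)
      have h2 := NNReal.coe_le_coe.2 (hm r hr)
      rw [Real.coe_toNNReal _ (Real.exp_pos _).le] at h2
      rw [ixinv_mem hv1, map_mul, map_mul, NNReal.coe_mul, Nat.cast_succ,
        show -((k : ℝ) + 1) = -1 + -(k : ℝ) by ring, Real.exp_add]
      exact mul_le_mul h2 h1 (NNReal.coe_nonneg _) (Real.exp_pos _).le
  have hpowB : ∀ k : ℕ, maximalIdeal R ^ k ≤ (valIdeal R v k).comap (τ : R →+* R) := by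
    intro k
    have h1 : maximalIdeal R ≤ (maximalIdeal R).comap (τ : R →+* R) := fun h hh =>
      (hτm h).1 hh
    exact (Ideal.pow_right_mono h1 k).trans ((Ideal.le_comap_pow _ k).trans
      (Ideal.comap_mono (hpowA k)))
  have hd : 0 < μ' - μ := sub_pos.2 hμμ
  have h0 : 0 < μ' := hμ0.trans hμμ
  refine ixinv_asym (n := n) he hvol (η := (μ' - μ) / (4 * μ')) (by positivity) ?_
  filter_upwards [Filter.eventually_ge_atTop ⌈(μ' - μ + 1) / ((μ' - μ) / (4 * μ'))⌉₊] with k hk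
  have hk' : (μ' - μ + 1) / ((μ' - μ) / (4 * μ')) ≤ k :=
    (Nat.le_ceil _).trans (by exact_mod_cast hk)
  obtain ⟨j, i, hik, hi1, hi2⟩ := ixinv_real hμ0 hμμ k
  have hi2' := hi2 hk'
  have hki : ((k - i : ℕ) : ℝ) = k - i := Nat.cast_sub hik
  have hfl : (⌊(μ' - μ) / (4 * μ') * (k : ℝ)⌋₊ : ℝ) ≤ (μ' - μ) / (4 * μ') * k :=
    Nat.floor_le (by (clear * - hμμ h0; positivity))
  have h1 := ixinv_length_add (valIdeal R v k) ((valIdeal R v k).comap (τ : R →+* R))
    (valIdeal R v (⌊(μ' - μ) / (4 * μ') * (k : ℝ)⌋₊ : ℕ)) (f ^ j * z ^ (k - i)) ?_ ?_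
  · rw [ixinv_length_comap] at h1
    refine h1.trans (le_trans ?_ (hlen k))
    exact Module.length_le_of_surjective (Submodule.factor (le_inf (hpowA k) (hpowB k)))
      (Submodule.factor_surjective _)
  · rw [Ideal.mem_comap, ixinv_mem hv1]
    show (v (algebraMap R K (τ (f ^ j * z ^ (k - i)))) : ℝ) ≤ _
    rw [hτ, map_mul, map_mul, map_pow, map_pow, map_pow, map_pow, map_mul, map_pow, map_pow,
      NNReal.coe_mul, NNReal.coe_pow, NNReal.coe_pow, hWe]
    calc Real.exp (-μ') ^ j * (v (σ (algebraMap R K z)) : ℝ) ^ (k - i)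
        ≤ Real.exp (-μ') ^ j * Real.exp (-1) ^ (k - i) :=
          mul_le_mul_of_nonneg_left (pow_le_pow_left₀ (NNReal.coe_nonneg _) hzs _) (by positivity)
      _ = Real.exp (j * -μ' + ((k - i : ℕ) : ℝ) * -1) := by
          rw [Real.exp_add, Real.exp_nat_mul, Real.exp_nat_mul]
      _ ≤ Real.exp (-k) := by
          apply Real.exp_le_exp.2
          rw [hki]
          linarith only [hi1]
  · intro h hh
    rw [ixinv_mem hv1] at hh ⊢
    simp only [map_mul, map_pow, NNReal.coe_mul, NNReal.coe_pow] at hh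
    rw [hUe, hze] at hh
    have h2 : Real.exp (-μ) ^ j * Real.exp (-1) ^ (k - i)
        = Real.exp (j * -μ + ((k - i : ℕ) : ℝ) * -1) := by
      rw [Real.exp_add, Real.exp_nat_mul, Real.exp_nat_mul]
    rw [h2, ← le_div_iff₀ (Real.exp_pos _), ← Real.exp_sub] at hh
    refine hh.trans (Real.exp_le_exp.2 ?_)
    rw [hki]
    linarith only [hfl, hi2']

/-- A valuation with the volume of the maximal ideal is invariant under automorphisms. -/
theorem val_invariant {n : ℕ} (hn : 1 ≤ n) {R K : Type} [CommRing R] [IsDomain R] [IsLocalRing R]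
    [Algebra ℂ R] [Field K] [Algebra ℂ K] [Algebra R K] [IsScalarTower ℂ R K] [IsFractionRing R K]
    [IsNoetherianRing R] (hres : Function.Surjective (algebraMap ℂ (ResidueField R))) {e : ℕ}
    (he : 0 < e)
    (hlen : ∀ k : ℕ, Module.length R (R ⧸ maximalIdeal R ^ k) ≤ (e * Nat.choose (n + k - 1) n : ℕ))
    {v : Valuation K ℝ≥0} (hv : HasCenter R v (maximalIdeal R))
    (hm : ∀ f ∈ maximalIdeal R, v (algebraMap R K f) ≤ (Real.exp (-1)).toNNReal)
    (hm' : ∃ f ∈ maximalIdeal R, v (algebraMap R K f) = (Real.exp (-1)).toNNReal)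
    (hvol : (e : ℝ≥0∞) ≤ volI R n v) {σ : K ≃ₐ[ℂ] K} (hσo : IsOfFinOrder σ)
    (hσ : ∀ a : R, ∃ b : R, algebraMap R K b = σ (algebraMap R K a)) (a : K) :
    v (σ a) = v a := by
  obtain ⟨τ, hτ⟩ := ixinv_equiv hσo hσ
  have key := ixinv_key he hlen hv hm hm' hvol τ hτ
  have hinj : Function.Injective (algebraMap R K) := IsFractionRing.injective R K
  have hR : ∀ f : R, v (σ (algebraMap R K f)) = v (algebraMap R K f) := by
    intro f
    have hj : ∀ j : ℕ, algebraMap R K (τ^[j] f) = (σ ^ j) (algebraMap R K f) := by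
      intro j
      induction j with
      | zero => rfl
      | succ j ih =>
        rw [Function.iterate_succ_apply', hτ, ih, pow_succ']
        rfl
    have hmono : Monotone fun j : ℕ => v (algebraMap R K (τ^[j] f)) := by
      refine monotone_nat_of_le_succ fun j => ?_
      rw [Function.iterate_succ_apply', hτ]
      exact key _
    have h1 := hmono (Nat.one_le_iff_ne_zero.2 hσo.orderOf_pos.ne')
    simp only [hj, pow_orderOf_eq_one, pow_one] at h1
    exact le_antisymm h1 (key f)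
  obtain ⟨p, q, -, rfl⟩ := IsFractionRing.div_surjective (A := R) a
  rw [map_div₀, map_div₀, map_div₀, hR, hR]

end Vale.Agent.P282.Full
end

section

set_option linter.all false

open scoped NNReal ENNReal Nat WithZero
open IsLocalRing

namespace Vale.Agent.P282.Full

/-- Generators of the maximal ideal descend. -/
private theorem decomp_spanFinrank {R R' : Type} [CommRing R] [IsLocalRing R] [CommRing R']
    [IsLocalRing R'] [IsNoetherianRing R'] [Algebra R R']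
    (hmap : (maximalIdeal R).map (algebraMap R R') = maximalIdeal R')
    (hcontr : ∀ a : Ideal R, (a.map (algebraMap R R')).comap (algebraMap R R') = a) :
    (maximalIdeal R).spanFinrank ≤ (maximalIdeal R').spanFinrank := by
  classical
  have hf : ∀ x : maximalIdeal R, algebraMap R R' x ∈ maximalIdeal R' := fun x => by
    rw [← hmap]
    exact Ideal.mem_map_of_mem _ x.2
  let f : maximalIdeal R → maximalIdeal R' := fun x => ⟨algebraMap R R' x, hf x⟩
  let g : maximalIdeal R → (maximalIdeal R').Cotangent := fun x =>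
    (maximalIdeal R').toCotangent (f x)
  have hspan : ∀ X : Set (maximalIdeal R), (Ideal.span (Subtype.val '' X)).map (algebraMap R R') =
      (Submodule.span R' (f '' X)).map (Submodule.subtype (maximalIdeal R')) := by
    intro X
    rw [Ideal.map_span, Submodule.map_span, Set.image_image, Set.image_image]
    rfl
  have htop : Submodule.span R' (f '' Set.univ) = ⊤ := by
    have h1 := hspan Set.univ
    have h0 : Subtype.val '' (Set.univ : Set (maximalIdeal R)) = (maximalIdeal R : Set R) := by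
      rw [Set.image_univ, Subtype.range_coe]
    rw [h0, Ideal.span_eq (maximalIdeal R), hmap] at h1
    apply Submodule.map_injective_of_injective (Submodule.injective_subtype (maximalIdeal R'))
    rw [← h1, Submodule.map_top, Submodule.range_subtype]
  have htop2 : Submodule.span (ResidueField R') (Set.range g) = ⊤ := by
    have h1 : Set.range g = (maximalIdeal R').toCotangent '' (f '' Set.univ) := by
      rw [Set.image_univ, ← Set.range_comp]
      rfl
    rw [h1]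
    exact CotangentSpace.span_image_eq_top_iff.2 htop
  obtain ⟨t, ht, hsp, hli⟩ := exists_linearIndependent (ResidueField R') (Set.range g)
  obtain ⟨X, hX, hbij⟩ := Set.exists_subset_bijOn (g ⁻¹' t) g
  rw [Set.image_preimage_eq_of_subset ht] at hbij
  have hfin : t.Finite := hli.setFinite
  have hcard : t.ncard ≤ Module.finrank (ResidueField R') (CotangentSpace R') := by
    have := hfin.fintype
    rw [Set.ncard_eq_toFinset_card', Set.toFinset_card]
    exact hli.fintype_card_le_finrank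
  have hXt : X.ncard = t.ncard := by
    rw [← hbij.image_eq, Set.ncard_image_of_injOn hbij.injOn]
  have hXfin : X.Finite := by
    rw [← hbij.image_eq] at hfin
    exact Set.Finite.of_finite_image hfin hbij.injOn
  have h3 : Submodule.span R' (f '' X) = ⊤ := by
    have h5 : t = (maximalIdeal R').toCotangent '' (f '' X) := by
      rw [← hbij.image_eq, Set.image_image]
    apply CotangentSpace.span_image_eq_top_iff.1
    rw [← h5, hsp]
    exact htop2
  have h4 : Ideal.span (Subtype.val '' X) = maximalIdeal R := by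
    rw [← hcontr (Ideal.span (Subtype.val '' X)), hspan, h3, Submodule.map_top,
      Submodule.range_subtype, ← hmap, hcontr]
  rw [spanFinrank_maximalIdeal_eq_finrank_cotangentSpace R', ← h4]
  refine (Submodule.spanFinrank_span_le_ncard_of_finite (hXfin.image _)).trans ?_
  rw [Set.ncard_image_of_injective _ Subtype.val_injective, hXt]
  exact hcard

variable {n r : ℕ} {R K R' K' : Type} [CommRing R] [IsDomain R] [IsLocalRing R] [Algebra ℂ R]
  [Field K] [Algebra ℂ K] [Algebra R K] [IsScalarTower ℂ R K] [IsFractionRing R K]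
  [CommRing R'] [IsDomain R'] [IsLocalRing R'] [Algebra ℂ R']
  [Field K'] [Algebra ℂ K'] [Algebra R' K'] [IsScalarTower ℂ R' K'] [IsFractionRing R' K']
  [Algebra K K'] [IsScalarTower ℂ K K'] [Algebra R R'] [Algebra R K'] [IsScalarTower R R' K']
  [IsScalarTower R K K'] [IsScalarTower ℂ R R']

private theorem decomp_dim {g : K} {ε : K'} (hc : IsCover (R := R) (R' := R') n r g ε) :
    ringKrullDim R' ≤ ringKrullDim R := by
  refine Order.krullDim_le_of_strictMono (fun I => PrimeSpectrum.comap (algebraMap R R') I) ?_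
  intro I J hIJ
  have h1 : I.asIdeal < J.asIdeal := hIJ
  obtain ⟨b, hbJ, hbI⟩ := Set.exists_of_ssubset (SetLike.coe_ssubset_coe.mpr h1)
  obtain ⟨s, hs, hsi, hsb⟩ := hc.integral b
  have := Ideal.comap_lt_comap_of_integral_mem_sdiff (R := R) (I := I.asIdeal) (J := J.asIdeal)
    h1.le (x := s * b) ⟨J.asIdeal.mul_mem_left _ hbJ, fun h => by
      rcases I.isPrime.mem_or_mem h with h | h
      · exact I.isPrime.ne_top (Ideal.eq_top_of_isUnit_mem _ h hs)
      · exact hbI h⟩ hsb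
  exact this

/-- The conjugates of integral elements of `R'` are in `R'`. -/
private theorem decomp_conj {g : K} {ε : K'} (hc : IsCover (R := R) (R' := R') n r g ε)
    (σ : K' ≃ₐ[K] K') {x : R'} (hx : IsIntegral R x) :
    ∃ y : R', IsIntegral R y ∧ algebraMap R' K' y = σ (algebraMap R' K' x) := by
  have hnorm := hc.normal
  have h1 : IsIntegral R (algebraMap R' K' x) := hx.algebraMap
  have h2 : IsIntegral R (σ (algebraMap R' K' x)) :=
    h1.map ((σ : K' →ₐ[K] K').restrictScalars R)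
  obtain ⟨y, hy⟩ := IsIntegrallyClosed.isIntegral_iff.1 (h2.tower_top (A := R'))
  refine ⟨y, ?_, hy⟩
  rw [← hy] at h2
  exact (isIntegral_algebraMap_iff (FaithfulSMul.algebraMap_injective R' K')).1 h2

/-- The trace of an integral element. -/
private theorem decomp_trace (hnorm : IsIntegrallyClosed R) {g : K} {ε : K'}
    (hc : IsCover (R := R) (R' := R') n r g ε) {x : R'} (hx : IsIntegral R x) :
    ∃ y : R, algebraMap R K y = Algebra.trace K K' (algebraMap R' K' x) := by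
  have := hc.finite
  have h1 : IsIntegral R (algebraMap R' K' x) := hx.algebraMap
  exact IsIntegrallyClosed.isIntegral_iff.1 (Algebra.isIntegral_trace h1)

private theorem decomp_trace_mul (x : R') (y : R) :
    Algebra.trace K K' (algebraMap R' K' (x * algebraMap R R' y)) =
      Algebra.trace K K' (algebraMap R' K' x) * algebraMap R K y := by
  rw [map_mul, ← IsScalarTower.algebraMap_apply R R' K', IsScalarTower.algebraMap_apply R K K',
    mul_comm (algebraMap R' K' x), ← Algebra.smul_def, map_smul, smul_eq_mul, mul_comm]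

/-- If the decomposition group is trivial and `R'` is regular then `R` is regular. -/
theorem regular_of_trivial (hess : Algebra.EssFiniteType ℂ R) (hnorm : IsIntegrallyClosed R)
    (hres : Function.Surjective (algebraMap ℂ (ResidueField R))) (hdim : Algebra.trdeg ℂ R = n)
    {g : K} {ε : K'} (hc : IsCover (R := R) (R' := R') n r g ε) (hreg : IsRegularLocalRing R')
    (htriv : ∀ σ : K' ≃ₐ[K] K', (∀ a : R', ∃ b : R', algebraMap R' K' b =
      σ (algebraMap R' K' a)) → σ = 1) : IsRegularLocalRing R := by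
  classical
  have hnoeth : IsNoetherianRing R := Algebra.EssFiniteType.isNoetherianRing ℂ R
  have hfin := hc.finite
  have hgal := hc.galois
  have hinjR : Function.Injective (algebraMap R' K') := FaithfulSMul.algebraMap_injective R' K'
  have hinj : Function.Injective (algebraMap R K') := by
    rw [IsScalarTower.algebraMap_eq R K K']
    exact (algebraMap K K').injective.comp (IsFractionRing.injective R K)
  -- the separating elements
  have h1 : ∀ σ : K' ≃ₐ[K] K', ∃ s : R', IsUnit s ∧ IsIntegral R s ∧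
      (σ ≠ 1 → ∃ y ∈ maximalIdeal R', algebraMap R' K' y = σ (algebraMap R' K' s)) := by
    intro σ
    by_cases hσ : σ = 1
    · exact ⟨1, isUnit_one, isIntegral_one, fun h => absurd hσ h⟩
    have h2 : ∃ a : R', ∀ b : R', algebraMap R' K' b ≠ σ (algebraMap R' K' a) := by
      by_contra hcon
      push Not at hcon
      exact hσ (htriv σ hcon)
    obtain ⟨a, ha⟩ := h2
    obtain ⟨s, hs, hsi, hsa⟩ := hc.integral a
    refine ⟨s, hs, hsi, fun _ => ?_⟩
    obtain ⟨y, -, hy⟩ := decomp_conj hc σ hsi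
    obtain ⟨z, -, hz⟩ := decomp_conj hc σ hsa
    refine ⟨y, ?_, hy⟩
    rw [mem_maximalIdeal, mem_nonunits_iff]
    intro hu
    obtain ⟨u, rfl⟩ := hu
    apply ha ((↑u⁻¹ : R') * z)
    rw [map_mul, hz, map_mul, map_mul, ← hy, ← mul_assoc, ← map_mul, Units.inv_mul, map_one,
      one_mul]
  choose s hsu hsi hs using h1
  let e : R' := ∏ σ : K' ≃ₐ[K] K', s σ
  have heu : IsUnit e := by
    rw [IsUnit.prod_univ_iff]
    exact hsu
  have hei : IsIntegral R e := IsIntegral.prod _ fun σ _ => hsi σ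
  -- conjugates of `e`
  have hconj : ∀ (σ : K' ≃ₐ[K] K'), σ ≠ 1 →
      ∃ y ∈ maximalIdeal R', algebraMap R' K' y = σ (algebraMap R' K' e) := by
    intro σ hσ
    obtain ⟨y, hy, hy2⟩ := hs σ hσ
    have hpi : IsIntegral R (∏ τ ∈ Finset.univ.erase σ, s τ) :=
      IsIntegral.prod _ fun τ _ => hsi τ
    obtain ⟨z, -, hz⟩ := decomp_conj hc σ hpi
    refine ⟨y * z, Ideal.mul_mem_right _ _ hy, ?_⟩
    have he : e = s σ * ∏ τ ∈ Finset.univ.erase σ, s τ :=
      (Finset.mul_prod_erase _ _ (Finset.mem_univ σ)).symm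
    rw [he, map_mul, map_mul, map_mul, hy2, hz]
  -- trace formula modulo `I`
  have htr : ∀ (I : Ideal R') (c : R'), IsIntegral R c → (∀ σ : K' ≃ₐ[K] K', σ ≠ 1 →
      ∃ y ∈ I, algebraMap R' K' y = σ (algebraMap R' K' c)) →
      ∃ y : R, algebraMap R K y = Algebra.trace K K' (algebraMap R' K' c) ∧
        algebraMap R R' y - c ∈ I := by
    intro I c hci hcI
    obtain ⟨y, hy⟩ := decomp_trace hnorm hc hci
    refine ⟨y, hy, ?_⟩
    have h3 : ∀ σ : K' ≃ₐ[K] K', ∃ z : R', (σ ≠ 1 → z ∈ I ∧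
        algebraMap R' K' z = σ (algebraMap R' K' c)) := by
      intro σ
      by_cases hσ : σ = 1
      · exact ⟨0, fun h => absurd hσ h⟩
      · obtain ⟨z, hz, hz2⟩ := hcI σ hσ
        exact ⟨z, fun _ => ⟨hz, hz2⟩⟩
    choose z hz using h3
    have h4 : algebraMap R R' y - c = ∑ σ ∈ Finset.univ.erase (1 : K' ≃ₐ[K] K'), z σ := by
      apply hinjR
      rw [map_sub, ← IsScalarTower.algebraMap_apply, IsScalarTower.algebraMap_apply R K K', hy,
        trace_eq_sum_automorphisms, ← Finset.add_sum_erase _ _ (Finset.mem_univ 1), map_sum]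
      have h5 : ∑ σ ∈ Finset.univ.erase (1 : K' ≃ₐ[K] K'), σ (algebraMap R' K' c) =
          ∑ σ ∈ Finset.univ.erase (1 : K' ≃ₐ[K] K'), algebraMap R' K' (z σ) :=
        Finset.sum_congr rfl fun σ hσ => ((hz σ (Finset.ne_of_mem_erase hσ)).2).symm
      rw [h5, AlgEquiv.one_apply]
      ring
    rw [h4]
    exact Ideal.sum_mem _ fun σ hσ => (hz σ (Finset.ne_of_mem_erase hσ)).1
  -- (a) contraction
  have hcontr : ∀ a : Ideal R, (a.map (algebraMap R R')).comap (algebraMap R R') = a := by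
    intro a
    refine le_antisymm ?_ Ideal.le_comap_map
    intro f hf
    rw [Ideal.mem_comap] at hf
    have key : ∀ x ∈ a.map (algebraMap R R'), ∃ s : R', IsUnit s ∧ IsIntegral R s ∧
        ∀ c : R', IsIntegral R c → ∃ y ∈ a, algebraMap R K y =
          Algebra.trace K K' (algebraMap R' K' (c * (s * x))) := by
      intro x hx
      induction hx using Submodule.span_induction with
      | mem x hx =>
        obtain ⟨y, hy, rfl⟩ := hx
        refine ⟨1, isUnit_one, isIntegral_one, fun c hci => ?_⟩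
        obtain ⟨z, hz⟩ := decomp_trace hnorm hc hci
        refine ⟨y * z, Ideal.mul_mem_right _ _ hy, ?_⟩
        rw [one_mul, decomp_trace_mul, ← hz, map_mul, mul_comm]
      | zero =>
        refine ⟨1, isUnit_one, isIntegral_one, fun c hci => ⟨0, a.zero_mem, ?_⟩⟩
        simp
      | add x y _ _ hx hy =>
        obtain ⟨s, hs, hsi, hsx⟩ := hx
        obtain ⟨t, ht, hti, hty⟩ := hy
        refine ⟨s * t, hs.mul ht, hsi.mul hti, fun c hci => ?_⟩
        obtain ⟨p, hp, hp2⟩ := hsx (c * t) (hci.mul hti)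
        obtain ⟨q, hq, hq2⟩ := hty (c * s) (hci.mul hsi)
        refine ⟨p + q, a.add_mem hp hq, ?_⟩
        rw [map_add, hp2, hq2, ← map_add, ← map_add]
        congr 2
        ring
      | smul b x _ hx =>
        obtain ⟨s, hs, hsi, hsx⟩ := hx
        obtain ⟨t, ht, hti, htb⟩ := hc.integral b
        refine ⟨t * s, ht.mul hs, hti.mul hsi, fun c hci => ?_⟩
        obtain ⟨p, hp, hp2⟩ := hsx (c * (t * b)) (hci.mul htb)
        refine ⟨p, hp, ?_⟩
        rw [hp2, smul_eq_mul]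
        congr 2
        ring
    obtain ⟨s, hs, hsi, hsf⟩ := key _ hf
    obtain ⟨y, hy, hy2⟩ := hsf e hei
    -- the trace of `e * s` is a unit of `R`
    obtain ⟨u, hu, hu2⟩ := htr (maximalIdeal R') (e * s) (hei.mul hsi) (by
      intro σ hσ
      obtain ⟨p, hp, hp2⟩ := hconj σ hσ
      obtain ⟨q, -, hq⟩ := decomp_conj hc σ hsi
      refine ⟨p * q, Ideal.mul_mem_right _ _ hp, ?_⟩
      rw [map_mul, map_mul, map_mul, hp2, hq])
    have huu : IsUnit u := by
      by_contra hcon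
      have h5 : u ∈ maximalIdeal R := by rwa [mem_maximalIdeal, mem_nonunits_iff]
      have h6 := (hc.mem_iff u).2 h5
      have h7 : e * s ∈ maximalIdeal R' := by
        have := Ideal.sub_mem _ h6 hu2
        rwa [sub_sub_cancel] at this
      rw [mem_maximalIdeal, mem_nonunits_iff] at h7
      exact h7 (heu.mul hs)
    have h8 : y = u * f := by
      apply IsFractionRing.injective R K
      rw [hy2, ← mul_assoc, decomp_trace_mul, ← hu, map_mul]
    rw [h8] at hy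
    exact (Ideal.unit_mul_mem_iff_mem a huu).1 hy
  -- (b) `m' = m R'`
  have hmap : (maximalIdeal R).map (algebraMap R R') = maximalIdeal R' := by
    apply le_antisymm
    · rw [Ideal.map_le_iff_le_comap]
      intro f hf
      exact (hc.mem_iff f).2 hf
    · refine Submodule.le_of_le_smul_of_le_jacobson_bot (I := maximalIdeal R')
        (IsNoetherian.noetherian _) (IsLocalRing.maximalIdeal_le_jacobson _) ?_
      intro f hf
      obtain ⟨s, hs, hsi, hsf⟩ := hc.integral f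
      obtain ⟨u, hu, hu2⟩ := htr (maximalIdeal R' ^ 2) (e * e * (s * f))
        ((hei.mul hei).mul hsf) (by
        intro σ hσ
        obtain ⟨p, hp, hp2⟩ := hconj σ hσ
        obtain ⟨q, -, hq⟩ := decomp_conj hc σ hsf
        refine ⟨p * p * q, Ideal.mul_mem_right _ _ ?_, ?_⟩
        · rw [pow_two]
          exact Ideal.mul_mem_mul hp hp
        · rw [map_mul, map_mul, map_mul, map_mul, map_mul, map_mul, hp2, hq])
      have hsq : maximalIdeal R' ^ 2 ≤ maximalIdeal R' := Ideal.pow_le_self two_ne_zero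
      have h9 : e * e * (s * f) ∈ maximalIdeal R' :=
        Ideal.mul_mem_left _ _ (Ideal.mul_mem_left _ _ hf)
      have h10 : algebraMap R R' u ∈ maximalIdeal R' := by
        have := Ideal.add_mem _ (hsq hu2) h9
        rwa [sub_add_cancel] at this
      have h11 : u ∈ maximalIdeal R := (hc.mem_iff u).1 h10
      have h12 : e * e * (s * f) ∈ (maximalIdeal R).map (algebraMap R R') ⊔
          maximalIdeal R' • maximalIdeal R' := by
        have h13 : e * e * (s * f) = algebraMap R R' u - (algebraMap R R' u - e * e * (s * f)) := by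
          ring
        rw [h13]
        apply Ideal.sub_mem
        · exact Ideal.mem_sup_left (Ideal.mem_map_of_mem _ h11)
        · apply Ideal.mem_sup_right
          rw [smul_eq_mul, ← pow_two]
          exact hu2
      rw [← mul_assoc] at h12
      exact (Ideal.unit_mul_mem_iff_mem _ ((heu.mul heu).mul hs)).1 h12
  apply IsRegularLocalRing.of_spanFinrank_maximalIdeal_le
  calc ((maximalIdeal R).spanFinrank : WithBot ℕ∞) ≤ ((maximalIdeal R').spanFinrank : WithBot ℕ∞) := by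
        exact_mod_cast decomp_spanFinrank hmap hcontr
    _ = ringKrullDim R' := hreg.spanFinrank_maximalIdeal
    _ ≤ ringKrullDim R := decomp_dim hc

end Vale.Agent.P282.Full
end

section

open MeasureTheory Filter Topology
open scoped ENNReal NNReal ComplexConjugate

namespace Vale.Agent.P282.L2

variable {n N : ℕ} {K : Type} [Field K] [Algebra ℂ K] [Algebra (Pol n) K]
  [IsScalarTower ℂ (Pol n) K] [FaithfulSMul (Pol n) K]

/-- A real valuation of the integral closure which may take the value `0` at nonzero elements. -/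
structure SemiVal (x : Pt n K) (v : IB n K → ℝ≥0) : Prop where
  zero : v 0 = 0
  mul : ∀ a b, v (a * b) = v a * v b
  add : ∀ a b, v (a + b) ≤ max (v a) (v b)
  le_one : ∀ a, v a ≤ 1
  unit : ∀ a, x.toFun a ≠ 0 → v a = 1

theorem SemiVal.one {x : Pt n K} {v : IB n K → ℝ≥0} (h : SemiVal x v) : v 1 = 1 :=
  h.unit 1 (by rw [map_one]; exact one_ne_zero)

theorem SemiVal.const {x : Pt n K} {v : IB n K → ℝ≥0} (h : SemiVal x v) {c : ℂ} (hc : c ≠ 0) :
    v (algebraMap (Pol n) (IB n K) (MvPolynomial.C c)) = 1 :=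
  h.unit _ (by rw [x.map_alg, MvPolynomial.eval_C]; exact hc)

theorem totalDegree_pderiv_lt' {f : Pol n} {j : Fin n} (h : MvPolynomial.pderiv j f ≠ 0) :
    (MvPolynomial.pderiv j f).totalDegree < f.totalDegree := by
  have key : ∀ m ∈ (MvPolynomial.pderiv j f).support,
      (m.sum fun _ e => e) + 1 ≤ f.totalDegree := by
    intro m hm
    rw [MvPolynomial.mem_support_iff, MvPolynomial.coeff_pderiv] at hm
    have h1 : m + Finsupp.single j 1 ∈ f.support := by
      rw [MvPolynomial.mem_support_iff]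
      intro h0
      exact hm (by rw [h0]; simp)
    have h2 := MvPolynomial.le_totalDegree h1
    rwa [Finsupp.sum_add_index' (fun _ => rfl) (fun _ _ _ => rfl),
      Finsupp.sum_single_index rfl] at h2
  obtain ⟨m₀, hm₀⟩ := MvPolynomial.support_nonempty.2 h
  have hpos : 0 < f.totalDegree := lt_of_lt_of_le (Nat.succ_pos _) (key m₀ hm₀)
  rw [MvPolynomial.totalDegree, Finset.sup_lt_iff hpos]
  intro m hm
  exact Nat.lt_of_succ_le (key m hm)

theorem exists_pderiv_ne_zero {f : Pol n} (h : ∀ c : ℂ, f ≠ MvPolynomial.C c) :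
    ∃ j, MvPolynomial.pderiv j f ≠ 0 := by
  by_contra hcon
  push Not at hcon
  apply h (f.coeff 0)
  ext m
  rw [MvPolynomial.coeff_C]
  split_ifs with hm
  · rw [hm]
  · by_contra hne
    have : ∃ j, m j ≠ 0 := by
      by_contra h0
      push Not at h0
      exact hm (by ext j; simp [h0 j])
    obtain ⟨j, hj⟩ := this
    have h1 : m - Finsupp.single j 1 + Finsupp.single j 1 = m := by
      apply tsub_add_cancel_of_le
      rw [Finsupp.single_le_iff]
      exact Nat.one_le_iff_ne_zero.2 hj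
    have h2 := MvPolynomial.coeff_pderiv (i := j) f (m - Finsupp.single j 1)
    rw [hcon j, h1, MvPolynomial.coeff_zero] at h2
    have h3 := mul_ne_zero hne (Nat.cast_add_one_ne_zero (R := ℂ) ((m - Finsupp.single j 1 : Fin n →₀ ℕ) j))
    exact h3 h2.symm

/-- Chart for a valuation with nontrivial kernel. -/
theorem SemiVal.exists_chart (E : Prim n K) {x : Pt n K} {v : IB n K → ℝ≥0} (h : SemiVal x v)
    {b : IB n K} (hb : b ≠ 0) (hvb : v b = 0) : ∃ (f : Pol n) (j : Fin n),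
      v (algebraMap (Pol n) (IB n K) f) = 0 ∧
      v (algebraMap (Pol n) (IB n K) (MvPolynomial.pderiv j f)) ≠ 0 := by
  classical
  have hb' : (b : K) ≠ 0 := fun h0 => hb (Subtype.ext h0)
  obtain ⟨a', c, ha', hc, hbc⟩ := E.exists_mul_eq_alg hb'
  have hvc : v (algebraMap (Pol n) (IB n K) c) = 0 := by
    have h1 : b * ⟨a', ha'⟩ = algebraMap (Pol n) (IB n K) c := Subtype.ext hbc
    rw [← h1, h.mul, hvb, zero_mul]
  have hex : ∃ d : ℕ, ∃ f : Pol n, f ≠ 0 ∧ v (algebraMap (Pol n) (IB n K) f) = 0 ∧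
      f.totalDegree = d := ⟨_, c, hc, hvc, rfl⟩
  obtain ⟨f, hf0, hvf, hfd⟩ := Nat.find_spec hex
  have hconst : ∀ c : ℂ, f ≠ MvPolynomial.C c := by
    intro c hfc
    have hc0 : c ≠ 0 := by
      intro h0
      exact hf0 (by rw [hfc, h0, map_zero])
    have := h.const hc0
    rw [← hfc, hvf] at this
    exact zero_ne_one this
  obtain ⟨j, hj⟩ := exists_pderiv_ne_zero hconst
  refine ⟨f, j, hvf, fun h0 => ?_⟩
  have hlt := totalDegree_pderiv_lt' hj
  rw [hfd] at hlt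
  exact Nat.find_min hex hlt ⟨_, hj, h0, rfl⟩

/-- The logarithmic Jacobian. -/
noncomputable def ljac (d : Fin n → Derivation ℂ K K) (b : Fin n → K) : K :=
  Matrix.det (Matrix.of fun i j => d i (b j) / b j)

theorem jac_eq_ljac (d : Fin n → Derivation ℂ K K) {b : Fin n → K} (hb : ∀ i, b i ≠ 0) :
    jac d b = (∏ i, b i) * ljac d b := by
  rw [jac, ljac, ← Matrix.det_mul_row]
  congr 1
  ext i j
  simp only [Matrix.of_apply]
  rw [mul_div_cancel₀ _ (hb j)]

theorem ljac_update (d : Fin n → Derivation ℂ K K) (b : Fin n → K) (j : Fin n) {a c : K}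
    (ha : a ≠ 0) (hc : c ≠ 0) (h : c * b j = a) :
    ljac d b = ljac d (Function.update b j a) - ljac d (Function.update b j c) := by
  have hM : ∀ u : K, (Matrix.of fun i k => d i (Function.update b j u k) /
      Function.update b j u k) =
      (Matrix.of fun i k => d i (b k) / b k).updateCol j (fun i => d i u / u) := by
    intro u
    ext i k
    rw [Matrix.updateCol_apply]
    by_cases hk : k = j
    · subst hk
      simp
    · simp [hk]
  have hbj : b j ≠ 0 := by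
    rintro h0
    rw [h0, mul_zero] at h
    exact ha h.symm
  have h1 : ljac d b = Matrix.det ((Matrix.of fun i k => d i (b k) / b k).updateCol j
      ((fun i => d i a / a) + (-1 : K) • (fun i => d i c / c))) := by
    rw [ljac]
    congr 1
    ext i k
    rw [Matrix.updateCol_apply]
    by_cases hk : k = j
    · subst hk
      simp only [Matrix.of_apply, if_true, Pi.add_apply, Pi.smul_apply, smul_eq_mul]
      rw [← h, Derivation.leibniz]
      simp only [smul_eq_mul]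
      field_simp
      ring
    · simp [hk]
  rw [h1, Matrix.det_updateCol_add, Matrix.det_updateCol_smul, ljac, ljac, hM, hM]
  ring

/-- It is enough to take `b₁, …, bₙ` in the integral closure. -/
theorem exists_hfun_le (E : Prim n K) (d : Fin n → Derivation ℂ K K) {J : K} (hJ : J ≠ 0)
    (v : Valuation K ℝ≥0) {b : Fin n → K} (hb : ∀ i, b i ≠ 0) (hj : jac d b ≠ 0) :
    ∃ b' : Fin n → IB n K, (∀ i, b' i ≠ 0) ∧ jac d (fun i => (b' i : K)) ≠ 0 ∧
      v (hfun d J (fun i => (b' i : K))) ≤ v (hfun d J b) := by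
  classical
  have hac : ∀ j, ∃ a c : IB n K, a ≠ 0 ∧ c ≠ 0 ∧ (c : K) * b j = a := by
    intro j
    obtain ⟨f, c, hc, hfc⟩ := E.gen (b j)
    have hcK : algebraMap (Pol n) K c ≠ 0 := by
      intro h0
      exact hc (FaithfulSMul.algebraMap_injective (Pol n) K (by rw [h0, map_zero]))
    have hint : IsIntegral (Pol n) (Polynomial.aeval E.y f) := by
      have : Polynomial.aeval E.y f ∈ Algebra.adjoin (Pol n) {E.y} := by
        exact Polynomial.aeval_mem_adjoin_singleton (Pol n) E.y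
      exact IsIntegral.of_mem_of_fg _ E.integral.fg_adjoin_singleton _ this
    refine ⟨⟨_, hint⟩, algebraMap (Pol n) (IB n K) c, ?_, ?_, hfc⟩
    · intro h0
      have h1 : Polynomial.aeval E.y f = 0 := congrArg Subtype.val h0
      rw [h1] at hfc
      exact mul_ne_zero hcK (hb j) hfc
    · intro h0
      exact hcK (congrArg Subtype.val h0)
  choose a c ha hc hac using hac
  have haK : ∀ j, (a j : K) ≠ 0 := fun j h0 => ha j (Subtype.ext h0)
  have hcK : ∀ j, (c j : K) ≠ 0 := fun j h0 => hc j (Subtype.ext h0)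
  have main : ∀ s : Finset (Fin n), ∃ b' : Fin n → K, (∀ j ∈ s, b' j = a j ∨ b' j = c j) ∧
      (∀ j ∉ s, b' j = b j) ∧ v (ljac d b) ≤ v (ljac d b') := by
    intro s
    induction s using Finset.induction_on with
    | empty => exact ⟨b, fun j hj => absurd hj (Finset.notMem_empty j), fun _ _ => rfl, le_rfl⟩
    | insert j s hjs ih =>
      obtain ⟨b', h1, h2, h3⟩ := ih
      have hbj : (c j : K) * b' j = a j := by rw [h2 j hjs, hac j]
      have h4 := ljac_update d b' j (haK j) (hcK j) hbj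
      have h5 : v (ljac d b') ≤ max (v (ljac d (Function.update b' j (a j))))
          (v (ljac d (Function.update b' j (c j)))) := by
        rw [h4]
        exact v.map_sub _ _
      have h6 : ∀ u : K, (u = a j ∨ u = c j) →
          (∀ k ∈ insert j s, Function.update b' j u k = a k ∨ Function.update b' j u k = c k) ∧
          (∀ k ∉ insert j s, Function.update b' j u k = b k) := by
        intro u hu
        constructor
        · intro k hk
          by_cases hkj : k = j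
          · subst hkj
            simpa using hu
          · rw [Function.update_of_ne hkj]
            exact h1 k ((Finset.mem_insert.1 hk).resolve_left hkj)
        · intro k hk
          rw [Finset.mem_insert, not_or] at hk
          rw [Function.update_of_ne hk.1]
          exact h2 k hk.2
      rcases le_max_iff.1 h5 with h7 | h7
      · exact ⟨_, (h6 _ (Or.inl rfl)).1, (h6 _ (Or.inl rfl)).2, h3.trans h7⟩
      · exact ⟨_, (h6 _ (Or.inr rfl)).1, (h6 _ (Or.inr rfl)).2, h3.trans h7⟩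
  obtain ⟨b', h1, -, h3⟩ := main Finset.univ
  have h4 : ∀ j, ∃ e : IB n K, e ≠ 0 ∧ (e : K) = b' j := by
    intro j
    rcases h1 j (Finset.mem_univ j) with h5 | h5
    · exact ⟨a j, ha j, h5.symm⟩
    · exact ⟨c j, hc j, h5.symm⟩
  choose e he0 he using h4
  have heK : ∀ j, (e j : K) ≠ 0 := fun j h0 => he0 j (Subtype.ext h0)
  have hfe : (fun i => (e i : K)) = b' := funext he
  have hl : ljac d b ≠ 0 := by
    intro h0
    exact hj (by rw [jac_eq_ljac d hb, h0, mul_zero])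
  have hvl : 0 < v (ljac d b) := (Valuation.pos_iff v).2 hl
  have hl' : ljac d b' ≠ 0 := (Valuation.pos_iff v).1 (hvl.trans_le h3)
  have hb'0 : ∀ i, b' i ≠ 0 := fun i => by rw [← he i]; exact heK i
  have hh : ∀ u : Fin n → K, (∀ i, u i ≠ 0) → hfun d J u = (J * ljac d u)⁻¹ := by
    intro u hu
    have hp : ∏ i, u i ≠ 0 := Finset.prod_ne_zero_iff.2 fun i _ => hu i
    rw [hfun, jac_eq_ljac d hu, mul_left_comm, ← div_div, div_self hp, one_div]
  refine ⟨e, he0, ?_, ?_⟩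
  · rw [hfe, jac_eq_ljac d hb'0]
    exact mul_ne_zero (Finset.prod_ne_zero_iff.2 fun i _ => hb'0 i) hl'
  · rw [hfe, hh b' hb'0, hh b hb, map_inv₀, map_inv₀, map_mul, map_mul]
    have hvJ : 0 < v J := (Valuation.pos_iff v).2 hJ
    gcongr

/-- The special chart `(f, 1 + z₂, …, 1 + zₙ)`. -/
theorem jac_chart {d : Fin n → Derivation ℂ K K} (hd : IsPartials d) (f : Pol n) (j : Fin n) :
    jac d (fun i => algebraMap (Pol n) K (if i = j then f else 1 + MvPolynomial.X i)) =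
      algebraMap (Pol n) K (MvPolynomial.pderiv j f) := by
  have h1 : (Matrix.of fun i k => d i (algebraMap (Pol n) K
      (if k = j then f else 1 + MvPolynomial.X k))) =
      (1 : Matrix (Fin n) (Fin n) K).updateCol j
        (fun i => algebraMap (Pol n) K (MvPolynomial.pderiv i f)) := by
    ext i k
    rw [Matrix.updateCol_apply, Matrix.of_apply]
    by_cases hk : k = j
    · rw [if_pos hk, if_pos hk, d_alg hd]
    · rw [if_neg hk, if_neg hk, map_add, map_add, map_one, Derivation.map_one_eq_zero, zero_add,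
        hd, Matrix.one_apply]
  rw [jac, h1, ← Matrix.cramer_apply, Matrix.cramer_one]
  rfl

section

variable [Algebra (FractionRing (Pol n)) K] [IsScalarTower (Pol n) (FractionRing (Pol n)) K]
  [FiniteDimensional (FractionRing (Pol n)) K]

/-- Extension to the field of fractions. -/
theorem SemiVal.exists_valuation {x : Pt n K} {v : IB n K → ℝ≥0} (h : SemiVal x v)
    (hne : ∀ b : IB n K, b ≠ 0 → v b ≠ 0) :
    ∃ w : Valuation K ℝ≥0, (∀ b : IB n K, w (b : K) = v b) ∧ Over x w := by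
  have : IsFractionRing (IB n K) K := ib_isFractionRing
  let v' : Valuation (IB n K) ℝ≥0 :=
    { toFun := v
      map_zero' := h.zero
      map_one' := h.one
      map_mul' := h.mul
      map_add_le_max' := h.add }
  have hS : nonZeroDivisors (IB n K) ≤ v'.supp.primeCompl := by
    intro s hs hs'
    exact hne s (nonZeroDivisors.ne_zero hs) hs'
  have hw : ∀ b : IB n K, v'.extendToLocalization hS K (b : K) = v b := fun b =>
    Valuation.extendToLocalization_apply_map_apply v' hS K b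
  refine ⟨v'.extendToLocalization hS K, hw, fun b => ?_, fun b hb => ?_⟩
  · rw [hw]; exact h.le_one b
  · rw [hw]; exact h.unit b hb

/-- Limits of valuations. -/
theorem exists_limit_valuation {I : Type} (U : Ultrafilter I) {x : Pt n K}
    (v : I → Valuation K ℝ≥0) (hv : ∀ i, Over x (v i)) : ∃ w : IB n K → ℝ≥0, SemiVal x w ∧
      (∀ b : IB n K, Tendsto (fun i => v i (b : K)) U (𝓝 (w b))) := by
  have hlim : ∀ b : IB n K, ∃ c : ℝ≥0, c ≤ 1 ∧ Tendsto (fun i => v i (b : K)) U (𝓝 c) := by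
    intro b
    have hc : IsCompact (Set.Icc (0 : ℝ≥0) 1) := isCompact_Icc
    have hmem : ∀ i, v i (b : K) ∈ Set.Icc (0 : ℝ≥0) 1 := fun i => ⟨zero_le, (hv i).1 b⟩
    obtain ⟨c, hc1, hc2⟩ := isCompact_iff_ultrafilter_le_nhds.1 hc
      (U.map (fun i => v i (b : K))) (by
        rw [Ultrafilter.coe_map, le_principal_iff, Filter.mem_map]
        exact Filter.univ_mem' hmem)
    exact ⟨c, hc1.2, hc2⟩
  choose w hw1 hw using hlim
  refine ⟨w, ⟨?_, ?_, ?_, hw1, ?_⟩, hw⟩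
  · refine tendsto_nhds_unique (hw 0) ?_
    simp
  · intro a b
    refine tendsto_nhds_unique (hw (a * b)) ?_
    have := (hw a).mul (hw b)
    simpa using this
  · intro a b
    refine le_of_tendsto_of_tendsto (hw (a + b)) ((hw a).max (hw b)) ?_
    exact Filter.Eventually.of_forall fun i => (v i).map_add _ _
  · intro a ha
    refine tendsto_nhds_unique (hw a) ?_
    have : (fun i => v i (a : K)) = fun _ => 1 := funext fun i => (hv i).2 a ha
    rw [this]
    exact tendsto_const_nhds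

/-- If the limit is a valuation of `K` then there is convergence on `K`. -/
theorem tendsto_of_limit {I : Type} (U : Ultrafilter I) {x : Pt n K}
    (v : I → Valuation K ℝ≥0) (w : Valuation K ℝ≥0)
    (h : ∀ b : IB n K, Tendsto (fun i => v i (b : K)) U (𝓝 (w (b : K)))) (a : K) :
    Tendsto (fun i => v i a) U (𝓝 (w a)) := by
  have : IsFractionRing (IB n K) K := ib_isFractionRing
  obtain ⟨b, s, hs, rfl⟩ := IsFractionRing.div_surjective (A := IB n K) a
  have hs0 : (s : K) ≠ 0 := by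
    intro h0
    exact nonZeroDivisors.ne_zero hs (Subtype.ext h0)
  have h1 : ∀ u : Valuation K ℝ≥0, u (algebraMap (IB n K) K b / algebraMap (IB n K) K s) =
      u (b : K) / u (s : K) := fun u => map_div₀ u _ _
  simp only [h1]
  exact (h b).div (h s) (fun h0 => hs0 ((Valuation.zero_iff w).1 h0))

end

end Vale.Agent.P282.L2
end

section

open MeasureTheory Filter Topology
open scoped ENNReal NNReal ComplexConjugate

namespace Vale.Agent.P282.L2

variable {n N : ℕ} {K : Type} [Field K] [Algebra ℂ K] [Algebra (Pol n) K]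
  [IsScalarTower ℂ (Pol n) K] [FaithfulSMul (Pol n) K]

theorem uva_eventually_M {E : Prim n K} {S : Sheets n N} {x : Pt n K}
    {F : Filter ((Fin n → ℂ) × ℂ)} (hF : F ≤ E.nhd S x) : ∀ᶠ q in F, q ∈ S.M :=
  hF (Prim.M_mem_nhd E S x)

theorem uva_inv_tendsto {F : Filter ((Fin n → ℂ) × ℂ)} {ν : (Fin n → ℂ) × ℂ → ℝ}
    (hν : Tendsto ν F atTop) : Tendsto (fun q => 1 / ν q) F (𝓝 0) := by
  simp only [one_div]
  exact tendsto_inv_atTop_zero.comp hν

/-- The valuation attached to an ultrafilter on `M`. -/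
theorem exists_limit_ev {E : Prim n K} {S : Sheets n N} (hS : E.IsSheets S) {x : Pt n K}
    (U : Ultrafilter ((Fin n → ℂ) × ℂ)) (hU : (U : Filter ((Fin n → ℂ) × ℂ)) ≤ E.nhd S x)
    {ν : (Fin n → ℂ) × ℂ → ℝ} (hν : Tendsto ν U atTop) :
    ∃ w : IB n K → ℝ≥0, SemiVal x w ∧
      ∀ b : IB n K, Tendsto (fun q => ‖E.ev (b : K) q‖₊ ^ (1 / ν q)) U (𝓝 (w b)) := by
  have hM : ∀ᶠ q in (U : Filter ((Fin n → ℂ) × ℂ)), q ∈ S.M := uva_eventually_M hU
  have hinv := uva_inv_tendsto hν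
  have hν1 : ∀ᶠ q in (U : Filter ((Fin n → ℂ) × ℂ)), 1 ≤ ν q := hν.eventually_ge_atTop 1
  have hev : ∀ b : IB n K, Tendsto (fun q => ‖E.ev (b : K) q‖₊) U (𝓝 ‖x.toFun b‖₊) := fun b =>
    ((Prim.tendsto_ev_nhd E S x b).mono_left hU).nnnorm
  have hbd : ∀ b : IB n K, ∀ᶠ q in (U : Filter ((Fin n → ℂ) × ℂ)),
      ‖E.ev (b : K) q‖₊ ≤ ‖x.toFun b‖₊ + 1 := fun b =>
    ((hev b).eventually_lt_const (lt_add_one _)).mono fun q hq => hq.le
  have hpow : ∀ b : IB n K, ∀ᶠ q in (U : Filter ((Fin n → ℂ) × ℂ)),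
      ‖E.ev (b : K) q‖₊ ^ (1 / ν q) ≤ (‖x.toFun b‖₊ + 1) ^ (1 / ν q) := by
    intro b
    filter_upwards [hbd b, hν1] with q hq h1
    exact NNReal.rpow_le_rpow hq (by positivity)
  have hlim : ∀ b : IB n K, ∃ w : ℝ≥0,
      Tendsto (fun q => ‖E.ev (b : K) q‖₊ ^ (1 / ν q)) U (𝓝 w) := by
    intro b
    have h1 : ((U.map (fun q => ‖E.ev (b : K) q‖₊ ^ (1 / ν q)) : Ultrafilter ℝ≥0) :
        Filter ℝ≥0) ≤ 𝓟 (Set.Icc 0 (‖x.toFun b‖₊ + 1)) := by
      rw [le_principal_iff]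
      have h2 : ∀ᶠ q in (U : Filter ((Fin n → ℂ) × ℂ)),
          ‖E.ev (b : K) q‖₊ ^ (1 / ν q) ∈ Set.Icc 0 (‖x.toFun b‖₊ + 1) := by
        filter_upwards [hpow b, hν1] with q hq h1
        refine ⟨zero_le, hq.trans ?_⟩
        have h3 : (‖x.toFun b‖₊ + 1) ^ (1 / ν q) ≤ (‖x.toFun b‖₊ + 1) ^ (1 : ℝ) := by
          apply NNReal.rpow_le_rpow_of_exponent_le (by simp)
          rw [div_le_one (by linarith)]
          exact h1
        rwa [NNReal.rpow_one] at h3
      exact h2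
    obtain ⟨w, -, hw⟩ := isCompact_Icc.ultrafilter_le_nhds _ h1
    exact ⟨w, hw⟩
  choose w hw using hlim
  refine ⟨w, ⟨?_, ?_, ?_, ?_, ?_⟩, hw⟩
  · refine tendsto_nhds_unique (hw 0) ?_
    refine tendsto_const_nhds.congr' ?_
    filter_upwards [hM, hν1] with q hq h1
    rw [ZeroMemClass.coe_zero, Prim.ev_zero hS hq, nnnorm_zero, NNReal.zero_rpow]
    have : 0 < ν q := by linarith
    positivity
  · intro a b
    refine tendsto_nhds_unique (hw (a * b)) ?_
    refine ((hw a).mul (hw b)).congr' ?_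
    filter_upwards [hM] with q hq
    rw [MulMemClass.coe_mul, Prim.ev_mul hS hq (Prim.isReg_ib a) (Prim.isReg_ib b), nnnorm_mul,
      NNReal.mul_rpow]
  · intro a b
    have h2 : Tendsto (fun q => (2 : ℝ≥0) ^ (1 / ν q) *
        max (‖E.ev (a : K) q‖₊ ^ (1 / ν q)) (‖E.ev (b : K) q‖₊ ^ (1 / ν q))) U
        (𝓝 (1 * max (w a) (w b))) := by
      refine Tendsto.mul ?_ ((hw a).max (hw b))
      have := (tendsto_const_nhds (x := (2 : ℝ≥0))).nnrpow hinv (Or.inl two_ne_zero)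
      rwa [NNReal.rpow_zero] at this
    rw [one_mul] at h2
    refine le_of_tendsto_of_tendsto (hw (a + b)) h2 ?_
    filter_upwards [hM, hν1] with q hq h1
    have hpos : 0 ≤ 1 / ν q := by positivity
    rw [AddMemClass.coe_add, Prim.ev_add hS hq (Prim.isReg_ib a) (Prim.isReg_ib b)]
    have h3 : ‖E.ev (a : K) q + E.ev (b : K) q‖₊ ≤
        2 * max ‖E.ev (a : K) q‖₊ ‖E.ev (b : K) q‖₊ := by
      refine (nnnorm_add_le _ _).trans ?_
      rw [two_mul]
      exact add_le_add (le_max_left _ _) (le_max_right _ _)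
    refine (NNReal.rpow_le_rpow h3 hpos).trans ?_
    rw [NNReal.mul_rpow, (NNReal.monotone_rpow_of_nonneg hpos).map_max]
  · intro a
    have h2 : Tendsto (fun q => (‖x.toFun a‖₊ + 1) ^ (1 / ν q)) U (𝓝 1) := by
      have := (tendsto_const_nhds (x := ‖x.toFun a‖₊ + 1)).nnrpow hinv
        (Or.inl (by positivity))
      rwa [NNReal.rpow_zero] at this
    exact le_of_tendsto_of_tendsto (hw a) h2 (hpow a)
  · intro a ha
    refine tendsto_nhds_unique (hw a) ?_
    have := (hev a).nnrpow hinv (Or.inl (by simpa using ha))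
    rwa [NNReal.rpow_zero] at this

theorem uva_aemeas {E : Prim n K} {S : Sheets n N} (hS : E.IsSheets S) {a : K}
    (ha : E.IsReg a) : AEMeasurable (fun q => ‖E.ev a q‖) S.μ :=
  (Sheets.aestronglyMeasurable_of_CD ((Prim.holo_ev hS ha).CD 0)).norm.aemeasurable

theorem uva_ball {S : Sheets n N} : S.μ {q | ‖q.1‖ < 1} < ⊤ := by
  have hmeas : MeasurableSet {q : (Fin n → ℂ) × ℂ | ‖q.1‖ < 1} :=
    (isOpen_lt continuous_fst.norm continuous_const).measurableSet
  have hmeasb : MeasurableSet (Metric.ball (0 : Fin n → ℂ) 1) := Metric.isOpen_ball.measurableSet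
  have h1 : S.μ {q | ‖q.1‖ < 1} =
      ∫⁻ q, Set.indicator {q : (Fin n → ℂ) × ℂ | ‖q.1‖ < 1} (fun _ => (1 : ℝ≥0∞)) q ∂S.μ := by
    rw [lintegral_indicator hmeas, lintegral_const, Measure.restrict_apply_univ, one_mul]
  rw [h1, Sheets.lintegral_μ (measurable_const.indicator hmeas)]
  have h2 : ∫⁻ z in S.V, ∑ w ∈ S.fib z,
      Set.indicator {q : (Fin n → ℂ) × ℂ | ‖q.1‖ < 1} (fun _ => (1 : ℝ≥0∞)) (z, w) ≤
      ∫⁻ z in S.V, Set.indicator (Metric.ball (0 : Fin n → ℂ) 1) (fun _ => (N : ℝ≥0∞)) z := by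
    refine setLIntegral_mono (measurable_const.indicator hmeasb) ?_
    intro z hz
    by_cases h : ‖z‖ < 1
    · rw [Set.indicator_of_mem (by simpa using h)]
      have : ∀ w ∈ S.fib z, Set.indicator {q : (Fin n → ℂ) × ℂ | ‖q.1‖ < 1}
          (fun _ => (1 : ℝ≥0∞)) (z, w) = 1 := fun w _ => Set.indicator_of_mem
            (show (z, w) ∈ {q : (Fin n → ℂ) × ℂ | ‖q.1‖ < 1} from h) _
      rw [Finset.sum_congr rfl this, Finset.sum_const, Sheets.card_fib hz, nsmul_eq_mul, mul_one]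
    · have : ∀ w ∈ S.fib z, Set.indicator {q : (Fin n → ℂ) × ℂ | ‖q.1‖ < 1}
          (fun _ => (1 : ℝ≥0∞)) (z, w) = 0 := fun w _ => Set.indicator_of_notMem
            (show (z, w) ∉ {q : (Fin n → ℂ) × ℂ | ‖q.1‖ < 1} from h) _
      rw [Finset.sum_congr rfl this, Finset.sum_const_zero]
      exact zero_le
  refine h2.trans_lt ?_
  rw [lintegral_indicator hmeasb, lintegral_const]
  refine ENNReal.mul_lt_top (ENNReal.natCast_lt_top N) ?_
  rw [Measure.restrict_apply_univ]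
  exact (Measure.restrict_apply_le _ _).trans_lt measure_ball_lt_top

section small

variable (E : Prim n K) (S : Sheets n N) (x : Pt n K) (J : K)

/-- Sets near which the integral converges. -/
def UvaSmall (O : Set ((Fin n → ℂ) × ℂ)) : Prop :=
  ∃ η : ℝ, 0 < η ∧ ∃ W ∈ E.nhd S x,
    ∫⁻ q in O ∩ W, ENNReal.ofReal (‖E.ev J⁻¹ q‖ ^ (2 + 2 * η)) ∂S.μ < ⊤

variable {E S x J}

theorem UvaSmall.mono {O O' : Set ((Fin n → ℂ) × ℂ)} (h : UvaSmall E S x J O)
    (hle : O' ⊆ O) : UvaSmall E S x J O' := by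
  obtain ⟨η, hη, W, hW, hlt⟩ := h
  exact ⟨η, hη, W, hW, (lintegral_mono_set (Set.inter_subset_inter_left W hle)).trans_lt hlt⟩

theorem UvaSmall.of_null {O : Set ((Fin n → ℂ) × ℂ)} {W : Set ((Fin n → ℂ) × ℂ)}
    (hW : W ∈ E.nhd S x) (h : S.μ (O ∩ W) = 0) : UvaSmall E S x J O := by
  refine ⟨1, one_pos, W, hW, ?_⟩
  rw [setLIntegral_measure_zero _ _ h]
  exact ENNReal.zero_lt_top

theorem UvaSmall.union (hS : E.IsSheets S) (hJr : E.IsReg J⁻¹)
    (hnear : ∀ᶠ q in E.nhd S x, 1 ≤ ‖E.ev J⁻¹ q‖) {O O' : Set ((Fin n → ℂ) × ℂ)}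
    (h : UvaSmall E S x J O) (h' : UvaSmall E S x J O') : UvaSmall E S x J (O ∪ O') := by
  obtain ⟨η, hη, W, hW, hlt⟩ := h
  obtain ⟨η', hη', W', hW', hlt'⟩ := h'
  have key : ∀ (a b : ℝ) (O₁ : Set ((Fin n → ℂ) × ℂ)), a ≤ b →
      ∫⁻ q in O₁ ∩ {q | 1 ≤ ‖E.ev J⁻¹ q‖}, ENNReal.ofReal (‖E.ev J⁻¹ q‖ ^ (2 + 2 * a)) ∂S.μ ≤
      ∫⁻ q in O₁, ENNReal.ofReal (‖E.ev J⁻¹ q‖ ^ (2 + 2 * b)) ∂S.μ := by
    intro a b O₁ hab
    refine (setLIntegral_mono_ae ?_ ?_).trans (lintegral_mono_set Set.inter_subset_left)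
    · exact ((uva_aemeas hS hJr).pow_const _).ennreal_ofReal.restrict
    · refine Filter.Eventually.of_forall fun q hq => ENNReal.ofReal_le_ofReal ?_
      exact Real.rpow_le_rpow_of_exponent_le hq.2 (by linarith)
  refine ⟨min η η', lt_min hη hη', W ∩ W' ∩ {q | 1 ≤ ‖E.ev J⁻¹ q‖},
    inter_mem (inter_mem hW hW') hnear, ?_⟩
  have h1 : (O ∪ O') ∩ (W ∩ W' ∩ {q | 1 ≤ ‖E.ev J⁻¹ q‖}) ⊆
      ((O ∩ W) ∩ {q | 1 ≤ ‖E.ev J⁻¹ q‖}) ∪ ((O' ∩ W') ∩ {q | 1 ≤ ‖E.ev J⁻¹ q‖}) := by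
    rintro q ⟨hq | hq, ⟨h2, h3⟩, h4⟩
    · exact Or.inl ⟨⟨hq, h2⟩, h4⟩
    · exact Or.inr ⟨⟨hq, h3⟩, h4⟩
  refine (lintegral_mono_set h1).trans_lt ((lintegral_union_le _ _ _).trans_lt ?_)
  refine ENNReal.add_lt_top.mpr ⟨?_, ?_⟩
  · exact (key _ _ _ (min_le_left η η')).trans_lt hlt
  · exact (key _ _ _ (min_le_right η η')).trans_lt hlt'

/-- Comparison of integrals over a set on which `‖ev J⁻¹‖ ^ (2 + 2 η) ≤ g`. -/
theorem UvaSmall.of_le (hMn : S.M ∈ E.nhd S x) {O : Set ((Fin n → ℂ) × ℂ)} {η : ℝ} (hη : 0 < η)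
    {g : (Fin n → ℂ) × ℂ → ℝ} (hg : AEMeasurable g S.μ) {A : Set ((Fin n → ℂ) × ℂ)}
    (hOA : O ⊆ A) (hA : ∫⁻ q in A, ENNReal.ofReal (g q) ∂S.μ < ⊤)
    (hle : ∀ q ∈ O, q ∈ S.M → ‖E.ev J⁻¹ q‖ ^ (2 + 2 * η) ≤ g q) : UvaSmall E S x J O := by
  refine ⟨η, hη, S.M, hMn, ?_⟩
  refine (setLIntegral_mono_ae (g := fun q => ENNReal.ofReal (g q)) ?_ ?_).trans_lt
    ((lintegral_mono_set (Set.inter_subset_left.trans hOA)).trans_lt hA)
  · exact hg.ennreal_ofReal.restrict
  · exact Filter.Eventually.of_forall fun q hq => ENNReal.ofReal_le_ofReal (hle q hq.1 hq.2)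

end small

theorem uva_ineqA {t F D C : ℝ} (ht : 0 < t) (hF : 0 < F) (hFt : F ≤ t ^ (4 + 2 * C))
    (hD : t ^ C ≤ D) : t⁻¹ ^ (2 + 2 * (1 : ℝ)) ≤ F⁻¹ * D ^ 2 := by
  have h1 : t⁻¹ ^ (2 + 2 * (1 : ℝ)) = (t ^ (4 + 2 * C))⁻¹ * (t ^ C) ^ 2 := by
    rw [Real.inv_rpow ht.le, ← Real.rpow_neg ht.le, ← Real.rpow_neg ht.le,
      ← Real.rpow_natCast (t ^ C) 2, ← Real.rpow_mul ht.le, ← Real.rpow_add ht]
    congr 1
    push_cast
    ring
  rw [h1]
  have h2 : 0 < t ^ C := Real.rpow_pos_of_pos ht _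
  have h3 : (t ^ (4 + 2 * C))⁻¹ ≤ F⁻¹ := inv_anti₀ hF hFt
  exact mul_le_mul h3 (pow_le_pow_left₀ h2.le hD 2) (by positivity) (by positivity)

theorem uva_ineqB {t P D δ : ℝ} (ht : 0 < t) (hP : 0 < P)
    (hPD : P ≤ t ^ (1 + δ) * D) :
    t⁻¹ ^ (2 + 2 * (δ / 2)) ≤ t ^ (2 * (δ / 2)) * (P ^ 2)⁻¹ * D ^ 2 := by
  have h1 : P ^ 2 ≤ (t ^ (1 + δ)) ^ 2 * D ^ 2 := by
    rw [← mul_pow]
    exact pow_le_pow_left₀ hP.le hPD 2
  have h2 : t⁻¹ ^ (2 + 2 * (δ / 2)) * P ^ 2 ≤ t ^ (2 * (δ / 2)) * D ^ 2 := by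
    have h3 : t ^ (2 * (δ / 2)) = t⁻¹ ^ (2 + 2 * (δ / 2)) * (t ^ (1 + δ)) ^ 2 := by
      rw [Real.inv_rpow ht.le, ← Real.rpow_neg ht.le,
        ← Real.rpow_natCast (t ^ (1 + δ)) 2, ← Real.rpow_mul ht.le, ← Real.rpow_add ht]
      congr 1
      push_cast
      ring
    rw [h3, mul_assoc]
    exact mul_le_mul_of_nonneg_left h1 (by positivity)
  rw [mul_right_comm, ← div_eq_mul_inv, le_div_iff₀ (by positivity)]
  exact h2

variable [Algebra (FractionRing (Pol n)) K] [IsScalarTower (Pol n) (FractionRing (Pol n)) K]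
  [FiniteDimensional (FractionRing (Pol n)) K]

theorem uva_contra {E : Prim n K} {S : Sheets n N} (hS : E.IsSheets S) {x : Pt n K}
    {d : Fin n → Derivation ℂ K K} (hd : IsPartials d) {J : K} (hJ0 : J ≠ 0)
    (hJ : IsIntegral (Pol n) J) (hJr : E.IsReg J⁻¹) (hklt : Klt x d J)
    (hx : x.toFun ⟨J, hJ⟩ = 0) (U : Ultrafilter ((Fin n → ℂ) × ℂ))
    (hU : (U : Filter ((Fin n → ℂ) × ℂ)) ≤ E.nhd S x)
    (hsm : ∀ O : Set ((Fin n → ℂ) × ℂ), UvaSmall E S x J O →
      ¬ ∀ᶠ q in (U : Filter ((Fin n → ℂ) × ℂ)), q ∈ O) : False := by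
  have hJreg : E.IsReg J := Prim.isReg_of_integral hJ
  have hMn : S.M ∈ E.nhd S x := Prim.M_mem_nhd E S x
  have hM : ∀ᶠ q in (U : Filter ((Fin n → ℂ) × ℂ)), q ∈ S.M := hU hMn
  have hJne : ∀ q ∈ S.M, 0 < ‖E.ev J q‖ := fun q hq =>
    norm_pos_iff.mpr (Prim.ev_ne_zero_of_inv hS hq hJ0 hJreg hJr)
  have hJinv : ∀ q ∈ S.M, ‖E.ev J⁻¹ q‖ = ‖E.ev J q‖⁻¹ := fun q hq => by
    rw [Prim.ev_inv hS hq hJreg hJr, norm_inv]
  have hJt : Tendsto (fun q => ‖E.ev J q‖) U (𝓝 0) := by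
    have h1 := ((Prim.tendsto_ev_nhd E S x ⟨J, hJ⟩).mono_left hU).norm
    rwa [hx, norm_zero] at h1
  have hJ1 : ∀ᶠ q in (U : Filter ((Fin n → ℂ) × ℂ)), ‖E.ev J q‖ < 1 :=
    hJt.eventually_lt_const one_pos
  set ν : (Fin n → ℂ) × ℂ → ℝ := fun q => - Real.log ‖E.ev J q‖ with hνdef
  have hν : Tendsto ν U atTop := by
    have h1 : Tendsto (fun q => ‖E.ev J q‖) U (𝓝[>] 0) :=
      tendsto_nhdsWithin_iff.mpr ⟨hJt, hM.mono fun q hq => hJne q hq⟩
    exact tendsto_neg_atBot_atTop.comp (Real.tendsto_log_nhdsGT_zero.comp h1)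
  have hνpos : ∀ᶠ q in (U : Filter ((Fin n → ℂ) × ℂ)), 0 < ν q := hν.eventually_gt_atTop 0
  obtain ⟨w, hw, hlim⟩ := exists_limit_ev hS U hU hν
  have hlimR : ∀ b : IB n K, Tendsto (fun q => ‖E.ev (b : K) q‖ ^ (1 / ν q)) U
      (𝓝 (w b : ℝ)) := by
    intro b
    have h1 := NNReal.tendsto_coe.mpr (hlim b)
    simpa only [NNReal.coe_rpow, coe_nnnorm] using h1
  -- `‖a‖ ^ (1 / ν) > exp (-C)` gives `‖a‖ > |J| ^ C`
  have hpow : ∀ q ∈ S.M, 0 < ν q → ∀ C : ℝ, ‖E.ev J q‖ ^ C = Real.exp (-C) ^ ν q := by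
    intro q hq hq' C
    rw [← Real.exp_mul, Real.rpow_def_of_pos (hJne q hq)]
    congr 1
    simp only [hνdef]
    ring
  have hlow : ∀ (a : (Fin n → ℂ) × ℂ → ℝ) (C : ℝ), (∀ q, 0 ≤ a q) →
      (∀ᶠ q in (U : Filter ((Fin n → ℂ) × ℂ)), Real.exp (-C) < a q ^ (1 / ν q)) →
      ∀ᶠ q in (U : Filter ((Fin n → ℂ) × ℂ)), ‖E.ev J q‖ ^ C < a q := by
    intro a C ha h
    filter_upwards [h, hM, hνpos] with q h1 h2 h3
    rw [hpow q h2 h3]
    rw [one_div] at h1
    exact (Real.lt_rpow_inv_iff_of_pos (Real.exp_pos _).le (ha q) h3).mp h1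
  have hupp : ∀ (a : (Fin n → ℂ) × ℂ → ℝ) (C : ℝ), (∀ q, 0 ≤ a q) →
      (∀ᶠ q in (U : Filter ((Fin n → ℂ) × ℂ)), a q ^ (1 / ν q) < Real.exp (-C)) →
      ∀ᶠ q in (U : Filter ((Fin n → ℂ) × ℂ)), a q < ‖E.ev J q‖ ^ C := by
    intro a C ha h
    filter_upwards [h, hM, hνpos] with q h1 h2 h3
    rw [hpow q h2 h3]
    rw [one_div] at h1
    exact (Real.rpow_inv_lt_iff_of_pos (ha q) (Real.exp_pos _).le h3).mp h1
  have hwJ : (w ⟨J, hJ⟩ : ℝ) = Real.exp (-1) := by
    refine tendsto_nhds_unique (hlimR ⟨J, hJ⟩) ?_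
    refine tendsto_const_nhds.congr' ?_
    filter_upwards [hM, hνpos] with q hq h3
    rw [Real.rpow_def_of_pos (hJne q hq)]
    congr 1
    have h4 : Real.log ‖E.ev J q‖ = - ν q := by simp only [hνdef, neg_neg]
    change -1 = Real.log ‖E.ev J q‖ * (1 / ν q)
    rw [h4]
    field_simp
  by_cases hcase : ∃ b : IB n K, b ≠ 0 ∧ w b = 0
  · obtain ⟨b, hb, hwb⟩ := hcase
    obtain ⟨f, j, hf, hdf⟩ := hw.exists_chart E hb hwb
    have hf0 : f ≠ 0 := by
      rintro rfl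
      apply hdf
      rw [map_zero, map_zero]
      exact hw.zero
    have hevf : ∀ (g : Pol n), ∀ q ∈ S.M,
        E.ev ((algebraMap (Pol n) (IB n K) g : IB n K) : K) q = MvPolynomial.eval q.1 g := by
      intro g q hq
      exact Prim.ev_alg hS hq g
    have hlimf : ∀ (g : Pol n), Tendsto (fun q => ‖MvPolynomial.eval q.1 g‖ ^ (1 / ν q)) U
        (𝓝 (w (algebraMap (Pol n) (IB n K) g) : ℝ)) := by
      intro g
      refine (hlimR (algebraMap (Pol n) (IB n K) g)).congr' ?_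
      filter_upwards [hM] with q hq
      rw [hevf g q hq]
    obtain ⟨C, hC0, hC⟩ : ∃ C : ℝ, 0 < C ∧ Real.exp (-C) <
        (w (algebraMap (Pol n) (IB n K) (MvPolynomial.pderiv j f)) : ℝ) := by
      have h1 : Tendsto (fun C : ℝ => Real.exp (-C)) atTop (𝓝 0) :=
        Real.tendsto_exp_neg_atTop_nhds_zero
      have h2 : (0 : ℝ) < w (algebraMap (Pol n) (IB n K) (MvPolynomial.pderiv j f)) := by
        exact_mod_cast pos_iff_ne_zero.mpr hdf
      exact ((eventually_gt_atTop 0).and (h1.eventually_lt_const h2)).exists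
    have e1 := hlow (fun q => ‖MvPolynomial.eval q.1 (MvPolynomial.pderiv j f)‖) C
      (fun q => norm_nonneg _) ((hlimf _).eventually_const_lt hC)
    have e2 := hupp (fun q => ‖MvPolynomial.eval q.1 f‖) (4 + 2 * C)
      (fun q => norm_nonneg _) ((hlimf f).eventually_lt_const (by
        rw [hf, NNReal.coe_zero]
        exact Real.exp_pos _))
    have e3 : ∀ᶠ q in (U : Filter ((Fin n → ℂ) × ℂ)), MvPolynomial.eval q.1 f ≠ 0 := by
      by_contra hcon
      rw [← Ultrafilter.eventually_not] at hcon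
      simp only [not_not] at hcon
      refine hsm {q | MvPolynomial.eval q.1 f = 0} ?_ hcon
      refine UvaSmall.of_null hMn ?_
      have h1 : algebraMap (Pol n) K f ≠ 0 := by
        rw [Ne, map_eq_zero_iff _ (FaithfulSMul.algebraMap_injective (Pol n) K)]
        exact hf0
      have h2 := Prim.ae_ev_ne_zero hS (Prim.isReg_alg f) h1
      refine measure_mono_null ?_ (MeasureTheory.ae_iff.mp h2)
      rintro q ⟨hq1, hq2⟩
      change ¬ E.ev (algebraMap (Pol n) K f) q ≠ 0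
      rw [Prim.ev_alg hS hq2, not_not]
      exact hq1
    have e4 : ∀ᶠ q in (U : Filter ((Fin n → ℂ) × ℂ)), ‖q.1‖ < 1 := by
      have h1 := ((Prim.tendsto_fst_nhd hS x).mono_left hU).norm
      rw [norm_zero] at h1
      exact h1.eventually_lt_const one_pos
    refine hsm {q | q ∈ S.M ∧ ‖q.1‖ < 1 ∧ MvPolynomial.eval q.1 f ≠ 0 ∧ ‖E.ev J q‖ < 1 ∧
      ‖MvPolynomial.eval q.1 f‖ ≤ ‖E.ev J q‖ ^ (4 + 2 * C) ∧
      ‖E.ev J q‖ ^ C ≤ ‖MvPolynomial.eval q.1 (MvPolynomial.pderiv j f)‖} ?_ ?_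
    · refine UvaSmall.of_le hMn one_pos ?_ ?_ (Prim.lintegral_log_sing hS hd f j) ?_
      · have m1 : ∀ g : Pol n, Measurable fun q : (Fin n → ℂ) × ℂ =>
            ‖MvPolynomial.eval q.1 g‖ := fun g =>
          ((MvPolynomial.continuous_eval g).comp continuous_fst).norm.measurable
        exact ((m1 f).inv.mul ((m1 (MvPolynomial.pderiv j f)).pow_const 2)).aemeasurable
      · rintro q ⟨h1, h2, h3, h4, h5, h6⟩
        refine ⟨h2, h3, h5.trans ?_⟩
        exact Real.rpow_le_one (norm_nonneg _) h4.le (by linarith)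
      · rintro q ⟨h1, h2, h3, h4, h5, h6⟩ -
        rw [hJinv q h1]
        exact uva_ineqA (hJne q h1) (norm_pos_iff.mpr h3) h5 h6
    · filter_upwards [hM, e4, e3, hJ1, e2, e1] with q h1 h2 h3 h4 h5 h6
      exact ⟨h1, h2, h3, h4, h5.le, h6.le⟩
  · push Not at hcase
    obtain ⟨v, hv, hover⟩ := hw.exists_valuation hcase
    obtain ⟨b₀, hb₀, hj₀, hlt₀⟩ := hklt v hover ⟨⟨J, hJ⟩, by
      intro h
      exact hJ0 h, by
      rw [hv]
      have : (w ⟨J, hJ⟩ : ℝ) < 1 := by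
        rw [hwJ]
        exact Real.exp_lt_one_iff.mpr (by norm_num)
      exact_mod_cast this⟩
    obtain ⟨b, hb, hj, hle⟩ := exists_hfun_le E d hJ0 v hb₀ hj₀
    have hlt := hle.trans_lt hlt₀
    have hbr : ∀ i, E.IsReg (b i : K) := fun i => Prim.isReg_ib (b i)
    have har : E.IsReg (jac d fun i => (b i : K)) := Prim.IsReg.jac hd hbr
    -- convergence for the Jacobian
    have hlimj : Tendsto (fun q => ‖E.ev (jac d fun i => (b i : K)) q‖ ^ (1 / ν q)) U
        (𝓝 (v (jac d fun i => (b i : K)) : ℝ)) := by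
      obtain ⟨f, k, hfk⟩ := har
      set e : IB n K := Polynomial.aeval (⟨E.y, E.integral⟩ : IB n K) f with he
      have hecoe : (e : K) = Polynomial.aeval E.y f := by
        rw [he]
        exact Polynomial.aeval_subalgebra_coe f _ _
      set hh : IB n K := algebraMap (Pol n) (IB n K) E.h with hhdef
      have hhcoe : (hh : K) = algebraMap (Pol n) K E.h := rfl
      have hh0 : hh ≠ 0 := by
        intro h
        have h1 : algebraMap (Pol n) K E.h = 0 := by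
          rw [← hhcoe, h, ZeroMemClass.coe_zero]
        rw [map_eq_zero_iff _ (FaithfulSMul.algebraMap_injective (Pol n) K)] at h1
        exact E.h0 h1
      have hwh : (0 : ℝ) < w hh := by exact_mod_cast pos_iff_ne_zero.mpr (hcase hh hh0)
      have hval : (v (jac d fun i => (b i : K)) : ℝ) = (w e : ℝ) / (w hh : ℝ) ^ k := by
        rw [eq_div_iff (pow_pos hwh k).ne', mul_comm, ← hv e, ← hv hh, hecoe, ← hfk, map_mul,
          map_pow, NNReal.coe_mul, NNReal.coe_pow, hhcoe]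
      rw [hval]
      refine ((hlimR e).div ((hlimR hh).pow k) (pow_pos hwh k).ne').congr' ?_
      filter_upwards [hM, hνpos] with q hq hq'
      have hhq : E.ev (hh : K) q = MvPolynomial.eval q.1 E.h := Prim.ev_alg hS hq E.h
      have hhne : (0 : ℝ) < ‖E.ev (hh : K) q‖ := by
        rw [hhq]
        exact norm_pos_iff.mpr (Prim.ev_h_ne_zero hS hq)
      have h1 : ‖E.ev (e : K) q‖ = ‖E.ev (hh : K) q‖ ^ k *
          ‖E.ev (jac d fun i => (b i : K)) q‖ := by
        rw [hecoe, ← hfk, Prim.ev_mul hS hq ((Prim.isReg_alg E.h).pow k) ⟨f, k, hfk⟩,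
          Prim.ev_pow hS hq (Prim.isReg_alg E.h), norm_mul, norm_pow]
        rfl
      change ‖E.ev (e : K) q‖ ^ (1 / ν q) / (‖E.ev (hh : K) q‖ ^ (1 / ν q)) ^ k =
        ‖E.ev (jac d fun i => (b i : K)) q‖ ^ (1 / ν q)
      rw [h1, Real.mul_rpow (by positivity) (norm_nonneg _), ← Real.rpow_natCast,
        ← Real.rpow_natCast, ← Real.rpow_mul (norm_nonneg _), ← Real.rpow_mul (norm_nonneg _),
        mul_comm (k : ℝ), mul_div_cancel_left₀]
      exact (Real.rpow_pos_of_pos hhne _).ne'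
    have hjpos : (0 : ℝ) < v (jac d fun i => (b i : K)) := by
      exact_mod_cast pos_iff_ne_zero.mpr ((Valuation.ne_zero_iff v).mpr hj)
    have hprod : (∏ i, (w (b i) : ℝ)) < Real.exp (-1) * v (jac d fun i => (b i : K)) := by
      have h1 : v J * v (jac d fun i => (b i : K)) ≠ 0 :=
        mul_ne_zero ((Valuation.ne_zero_iff v).mpr hJ0) ((Valuation.ne_zero_iff v).mpr hj)
      rw [hfun, map_div₀, map_mul, map_prod, div_lt_one₀ (pos_iff_ne_zero.mpr h1)] at hlt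
      rw [← hwJ, ← hv ⟨J, hJ⟩]
      have h2 : ∀ i, (w (b i) : ℝ) = (v (b i : K) : ℝ) := fun i => by rw [hv]
      rw [Finset.prod_congr rfl fun i _ => h2 i]
      exact_mod_cast hlt
    have hwpos : ∀ i, (0 : ℝ) < w (b i) := fun i => by
      exact_mod_cast pos_iff_ne_zero.mpr (hcase (b i) (hb i))
    obtain ⟨δ, hδ, hδ'⟩ : ∃ δ : ℝ, 0 < δ ∧ (∏ i, (w (b i) : ℝ)) <
        Real.exp (-(1 + δ)) * v (jac d fun i => (b i : K)) := by
      have h1 : Tendsto (fun δ : ℝ => Real.exp (-(1 + δ)) *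
          (v (jac d fun i => (b i : K)) : ℝ)) (𝓝[>] 0)
          (𝓝 (Real.exp (-(1 + 0)) * (v (jac d fun i => (b i : K)) : ℝ))) := by
        refine Tendsto.mono_left ?_ nhdsWithin_le_nhds
        exact Continuous.tendsto (by fun_prop) 0
      rw [add_zero] at h1
      have h2 : ∀ᶠ δ : ℝ in 𝓝[>] 0, 0 < δ := self_mem_nhdsWithin
      exact (h2.and (h1.eventually_const_lt hprod)).exists
    have e1 : ∀ᶠ q in (U : Filter ((Fin n → ℂ) × ℂ)), (∏ i, ‖E.ev (b i : K) q‖) ≤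
        ‖E.ev J q‖ ^ (1 + δ) * ‖E.ev (jac d fun i => (b i : K)) q‖ := by
      have h1 : Tendsto (fun q => ∏ i, ‖E.ev (b i : K) q‖ ^ (1 / ν q)) U
          (𝓝 (∏ i, (w (b i) : ℝ))) := tendsto_finsetProd _ fun i _ => hlimR (b i)
      have h2 := (h1.eventually_lt (hlimj.const_mul (Real.exp (-(1 + δ)))) hδ')
      filter_upwards [h2, hM, hνpos] with q h3 h4 h5
      rw [Real.finsetProd_rpow _ _ fun i _ => norm_nonneg _] at h3
      have h6 := Real.rpow_le_rpow (by (clear * -; positivity)) h3.le h5.le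
      rw [Real.mul_rpow (by positivity) (by positivity), ← Real.rpow_mul (by (clear * -; positivity)),
        ← Real.rpow_mul (by positivity), one_div_mul_cancel h5.ne', Real.rpow_one,
        Real.rpow_one, ← hpow q h4 h5] at h6
      exact h6
    have e2 : ∀ i, ∃ C : ℝ, ∀ᶠ q in (U : Filter ((Fin n → ℂ) × ℂ)), E.ev (b i : K) q ≠ 0 ∧
        |Real.log ‖E.ev (b i : K) q‖| ≤ C * |Real.log ‖E.ev J q‖| := by
      intro i
      obtain ⟨C, hC0, hC⟩ : ∃ C : ℝ, 0 < C ∧ Real.exp (-C) < (w (b i) : ℝ) := by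
        have h1 : Tendsto (fun C : ℝ => Real.exp (-C)) atTop (𝓝 0) :=
          Real.tendsto_exp_neg_atTop_nhds_zero
        exact ((eventually_gt_atTop 0).and (h1.eventually_lt_const (hwpos i))).exists
      have g1 := hlow (fun q => ‖E.ev (b i : K) q‖) C (fun q => norm_nonneg _)
        ((hlimR (b i)).eventually_const_lt hC)
      have g2 := hupp (fun q => ‖E.ev (b i : K) q‖) (-C) (fun q => norm_nonneg _)
        ((hlimR (b i)).eventually_lt_const (by
          have h1 : (w (b i) : ℝ) ≤ 1 := by exact_mod_cast hw.le_one (b i)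
          rw [neg_neg]
          exact h1.trans_lt (Real.one_lt_exp_iff.mpr hC0)))
      refine ⟨C, ?_⟩
      filter_upwards [g1, g2, hM, hJ1] with q h1 h2 h3 h4
      have hpos : 0 < ‖E.ev (b i : K) q‖ := (Real.rpow_pos_of_pos (hJne q h3) C).trans h1
      refine ⟨norm_pos_iff.mp hpos, ?_⟩
      have h5 := Real.log_lt_log (Real.rpow_pos_of_pos (hJne q h3) C) h1
      have h6 := Real.log_lt_log hpos h2
      rw [Real.log_rpow (hJne q h3)] at h5 h6
      have h7 : Real.log ‖E.ev J q‖ < 0 := Real.log_neg (hJne q h3) h4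
      rw [abs_of_neg h7, abs_le]
      constructor <;> linarith
    choose C hC using e2
    have e3 : ∀ᶠ q in (U : Filter ((Fin n → ℂ) × ℂ)), ∀ i, E.ev (b i : K) q ≠ 0 ∧
        |Real.log ‖E.ev (b i : K) q‖| ≤ (∑ i, |C i|) * |Real.log ‖E.ev J q‖| := by
      rw [Filter.eventually_all]
      intro i
      filter_upwards [hC i] with q hq
      refine ⟨hq.1, hq.2.trans ?_⟩
      refine mul_le_mul_of_nonneg_right ?_ (abs_nonneg _)
      exact (le_abs_self _).trans
        (Finset.single_le_sum (f := fun i => |C i|) (fun i _ => abs_nonneg _)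
          (Finset.mem_univ i))
    refine hsm {q | q ∈ S.M ∧ ‖E.ev J q‖ < 1 ∧ (∀ i, E.ev (b i : K) q ≠ 0 ∧
        |Real.log ‖E.ev (b i : K) q‖| ≤ (∑ i, |C i|) * |Real.log ‖E.ev J q‖|) ∧
        (∏ i, ‖E.ev (b i : K) q‖) ≤
          ‖E.ev J q‖ ^ (1 + δ) * ‖E.ev (jac d fun i => (b i : K)) q‖} ?_ ?_
    · refine UvaSmall.of_le hMn (half_pos hδ) ?_ ?_
        (Prim.lintegral_shell hS hd hbr hj (uva_aemeas hS hJreg) (C := ∑ i, |C i|)
          (half_pos hδ)) ?_
      · refine (((uva_aemeas hS hJreg).pow_const _).mul ?_).mul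
          ((uva_aemeas hS har).pow_const 2)
        exact (Finset.aemeasurable_fun_prod _ fun i _ =>
          (uva_aemeas hS (hbr i)).pow_const 2).inv
      · rintro q ⟨h1, h2, h3, h4⟩
        exact ⟨hJne q h1, h2, h3⟩
      · rintro q ⟨h1, h2, h3, h4⟩ -
        rw [hJinv q h1, Finset.prod_pow]
        exact uva_ineqB (hJne q h1)
          (Finset.prod_pos fun i _ => norm_pos_iff.mpr (h3 i).1) h4
    · filter_upwards [hM, hJ1, e3, e1] with q h1 h2 h3 h4
      exact ⟨h1, h2, h3, h4⟩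

/-- Uniform klt: integrability of `|J| ^ (-2 - 2 η)` near `x`. -/
theorem uniform_klt {E : Prim n K} {S : Sheets n N} (hS : E.IsSheets S) {x : Pt n K}
    {d : Fin n → Derivation ℂ K K} (hd : IsPartials d) {J : K} (hJ0 : J ≠ 0)
    (hJ : IsIntegral (Pol n) J) (hJr : E.IsReg J⁻¹) (hklt : Klt x d J) :
    ∃ η : ℝ, 0 < η ∧ ∃ W ∈ E.nhd S x,
      ∫⁻ q in W, ENNReal.ofReal (‖E.ev J⁻¹ q‖ ^ (2 + 2 * η)) ∂S.μ < ⊤ := by
  have hJreg : E.IsReg J := Prim.isReg_of_integral hJ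
  have hMn : S.M ∈ E.nhd S x := Prim.M_mem_nhd E S x
  have hJne : ∀ q ∈ S.M, 0 < ‖E.ev J q‖ := fun q hq =>
    norm_pos_iff.mpr (Prim.ev_ne_zero_of_inv hS hq hJ0 hJreg hJr)
  have hJinv : ∀ q ∈ S.M, ‖E.ev J⁻¹ q‖ = ‖E.ev J q‖⁻¹ := fun q hq => by
    rw [Prim.ev_inv hS hq hJreg hJr, norm_inv]
  have hJt : Tendsto (fun q => ‖E.ev J q‖) (E.nhd S x) (𝓝 ‖x.toFun ⟨J, hJ⟩‖) :=
    (Prim.tendsto_ev_nhd E S x ⟨J, hJ⟩).norm
  by_cases hx : x.toFun ⟨J, hJ⟩ = 0
  · rw [hx, norm_zero] at hJt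
    have hnear : ∀ᶠ q in E.nhd S x, 1 ≤ ‖E.ev J⁻¹ q‖ := by
      filter_upwards [hJt.eventually_lt_const one_pos, hMn] with q h1 hq
      rw [hJinv q hq]
      exact (one_le_inv₀ (hJne q hq)).mpr h1.le
    by_contra hcon
    have hnot : ¬ UvaSmall E S x J Set.univ := by
      rintro ⟨η, hη, W, hW, hlt⟩
      rw [Set.univ_inter] at hlt
      exact hcon ⟨η, hη, W, hW, hlt⟩
    let G : Filter ((Fin n → ℂ) × ℂ) :=
      { sets := {A | UvaSmall E S x J Aᶜ}
        univ_sets := by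
          change UvaSmall E S x J Set.univᶜ
          refine UvaSmall.of_null hMn ?_
          rw [Set.compl_univ, Set.empty_inter, measure_empty]
        sets_of_superset := fun {A B} hA hAB =>
          UvaSmall.mono (show UvaSmall E S x J Aᶜ from hA) (Set.compl_subset_compl.mpr hAB)
        inter_sets := fun {A B} hA hB => by
          change UvaSmall E S x J (A ∩ B)ᶜ
          rw [Set.compl_inter]
          exact UvaSmall.union hS hJr hnear hA hB }
    have hG : ∀ A, A ∈ G ↔ UvaSmall E S x J Aᶜ := fun A => Iff.rfl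
    have hne : G.NeBot := by
      refine ⟨fun h => hnot ?_⟩
      have h1 : (∅ : Set ((Fin n → ℂ) × ℂ)) ∈ G := by
        rw [h]
        exact mem_bot
      rwa [hG, Set.compl_empty] at h1
    have hle : G ≤ E.nhd S x := by
      intro W hW
      rw [hG]
      refine UvaSmall.of_null hW ?_
      rw [Set.compl_inter_self, measure_empty]
    refine uva_contra hS hd hJ0 hJ hJr hklt hx (Ultrafilter.of G)
      ((Ultrafilter.of_le G).trans hle) ?_
    intro O hO hOU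
    have h1 : Oᶜ ∈ G := by
      rw [hG, compl_compl]
      exact hO
    have h2 : Oᶜ ∈ Ultrafilter.of G := (Ultrafilter.of_le G) h1
    have h3 : O ∈ Ultrafilter.of G := hOU
    exact (Ultrafilter.compl_mem_iff_notMem.mp h2) h3
  · have hpos : 0 < ‖x.toFun ⟨J, hJ⟩‖ := norm_pos_iff.mpr hx
    refine ⟨1, one_pos, S.M ∩ {q | ‖x.toFun ⟨J, hJ⟩‖ / 2 < ‖E.ev J q‖} ∩ {q | ‖q.1‖ < 1},
      inter_mem (inter_mem hMn (hJt.eventually_const_lt (half_lt_self hpos))) ?_, ?_⟩
    · have h1 := (Prim.tendsto_fst_nhd hS x).norm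
      rw [norm_zero] at h1
      exact h1.eventually_lt_const one_pos
    · have h1 : ∫⁻ q in S.M ∩ {q | ‖x.toFun ⟨J, hJ⟩‖ / 2 < ‖E.ev J q‖} ∩ {q | ‖q.1‖ < 1},
          ENNReal.ofReal (‖E.ev J⁻¹ q‖ ^ (2 + 2 * (1 : ℝ))) ∂S.μ ≤
          ∫⁻ q in {q | ‖q.1‖ < 1},
            ENNReal.ofReal ((‖x.toFun ⟨J, hJ⟩‖ / 2)⁻¹ ^ (2 + 2 * (1 : ℝ))) ∂S.μ := by
        refine (setLIntegral_mono measurable_const ?_).trans
          (lintegral_mono_set Set.inter_subset_right)
        rintro q ⟨⟨h2, h3⟩, -⟩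
        refine ENNReal.ofReal_le_ofReal ?_
        refine Real.rpow_le_rpow (norm_nonneg _) ?_ (by norm_num)
        rw [hJinv q h2]
        exact inv_anti₀ (half_pos hpos) (le_of_lt h3)
      refine h1.trans_lt ?_
      rw [lintegral_const, Measure.restrict_apply_univ]
      exact ENNReal.mul_lt_top ENNReal.ofReal_lt_top uva_ball

end Vale.Agent.P282.L2
end

section
set_option linter.all false

open MeasureTheory Filter Topology
open scoped ENNReal NNReal ComplexConjugate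

namespace Vale.Agent.P282.L2

namespace UVbAux

theorem exists_ultra {α : Type*} {P : Set α → Prop} (h0 : P ∅)
    (hm : ∀ A B, A ⊆ B → P B → P A) (hu : ∀ A B, P A → P B → P (A ∪ B)) (h1 : ¬ P Set.univ) :
    ∃ U : Ultrafilter α, ∀ A, P A → Aᶜ ∈ U := by
  let G : Filter α :=
    { sets := {A | P Aᶜ}
      univ_sets := by simpa using h0
      sets_of_superset := fun {A B} hA hAB => hm _ _ (Set.compl_subset_compl.2 hAB) hA
      inter_sets := fun {A B} hA hB => by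
        simp only [Set.mem_setOf_eq] at *
        rw [Set.compl_inter]; exact hu _ _ hA hB }
  have hmem : ∀ A, A ∈ G ↔ P Aᶜ := fun A => Iff.rfl
  haveI : G.NeBot := by
    rw [Filter.neBot_iff]
    intro h
    apply h1
    have : (∅ : Set α) ∈ G := by rw [h]; trivial
    simpa [hmem] using this
  refine ⟨Ultrafilter.of G, fun A hA => ?_⟩
  apply Ultrafilter.of_le G
  rw [hmem, compl_compl]; exact hA

theorem rate_lt {I : Type*} {U : Filter I} {f : I → ℝ≥0} {ρ : I → ℝ} {a : ℝ≥0} {s : ℝ}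
    (hρ : ∀ᶠ q in U, 0 < ρ q ∧ ρ q < 1)
    (h : Tendsto (fun q => f q ^ (1 / (-Real.log (ρ q)))) U (𝓝 a))
    (ha : (a : ℝ) < Real.exp (-s)) : ∀ᶠ q in U, (f q : ℝ) < ρ q ^ s := by
  have h' : Tendsto (fun q => ((f q ^ (1 / (-Real.log (ρ q))) : ℝ≥0) : ℝ)) U (𝓝 (a : ℝ)) :=
    (NNReal.continuous_coe.tendsto a).comp h
  filter_upwards [hρ, h'.eventually (gt_mem_nhds ha)] with q hq h2
  have hν : 0 < -Real.log (ρ q) := by
    have := Real.log_neg hq.1 hq.2; linarith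
  rw [NNReal.coe_rpow] at h2
  have h3 := Real.rpow_lt_rpow (by positivity) h2 hν
  rw [← Real.rpow_mul (NNReal.coe_nonneg _), one_div, inv_mul_cancel₀ hν.ne', Real.rpow_one,
    ← Real.exp_mul] at h3
  rw [Real.rpow_def_of_pos hq.1]
  calc (f q : ℝ) < _ := h3
    _ = _ := by congr 1; ring

theorem lt_rate {I : Type*} {U : Filter I} {f : I → ℝ≥0} {ρ : I → ℝ} {a : ℝ≥0} {s : ℝ}
    (hρ : ∀ᶠ q in U, 0 < ρ q ∧ ρ q < 1)
    (h : Tendsto (fun q => f q ^ (1 / (-Real.log (ρ q)))) U (𝓝 a))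
    (ha : Real.exp (-s) < a) : ∀ᶠ q in U, ρ q ^ s < (f q : ℝ) := by
  have h' : Tendsto (fun q => ((f q ^ (1 / (-Real.log (ρ q))) : ℝ≥0) : ℝ)) U (𝓝 (a : ℝ)) :=
    (NNReal.continuous_coe.tendsto a).comp h
  filter_upwards [hρ, h'.eventually (lt_mem_nhds ha)] with q hq h2
  have hν : 0 < -Real.log (ρ q) := by
    have := Real.log_neg hq.1 hq.2; linarith
  rw [NNReal.coe_rpow] at h2
  have h3 := Real.rpow_lt_rpow (by positivity) h2 hν
  rw [← Real.rpow_mul (NNReal.coe_nonneg _), one_div, inv_mul_cancel₀ hν.ne', Real.rpow_one,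
    ← Real.exp_mul] at h3
  rw [Real.rpow_def_of_pos hq.1]
  calc _ = _ := by congr 1; ring
    _ < (f q : ℝ) := h3

theorem lintegral_aux {α : Type*} [MeasurableSpace α] {μ : Measure α} {T s : Set α}
    {f G : α → ℝ≥0∞} (hG : AEMeasurable G μ) (hs : s ⊆ T) {C : ℝ≥0∞} (hC : C ≠ ⊤)
    (hT : ∫⁻ q in T, G q ∂μ < ⊤) (h : ∀ᵐ q ∂μ, q ∈ s → f q ≤ C * G q) :
    ∫⁻ q in s, f q ∂μ < ⊤ := by
  calc ∫⁻ q in s, f q ∂μ ≤ ∫⁻ q in s, C * G q ∂μ :=
        setLIntegral_mono_ae ((hG.const_mul C).restrict) h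
    _ ≤ ∫⁻ q in T, C * G q ∂μ := lintegral_mono_set hs
    _ = C * ∫⁻ q in T, G q ∂μ := lintegral_const_mul' _ _ hC
    _ < ⊤ := ENNReal.mul_lt_top hC.lt_top hT

end UVbAux

variable {n N : ℕ} {K : Type} [Field K] [Algebra ℂ K] [Algebra (Pol n) K]
  [IsScalarTower ℂ (Pol n) K] [FaithfulSMul (Pol n) K]

theorem UVbAux.rate_reg {E : Prim n K} {S : Sheets n N} (hS : E.IsSheets S)
    {U : Filter ((Fin n → ℂ) × ℂ)} (hM : S.M ∈ U) {ν : (Fin n → ℂ) × ℂ → ℝ}
    (v : Valuation K ℝ≥0)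
    (h : ∀ b : IB n K, Tendsto (fun q => ‖E.ev (b : K) q‖₊ ^ (1 / ν q)) U (𝓝 (v (b : K))))
    {a : K} (ha : E.IsReg a) : Tendsto (fun q => ‖E.ev a q‖₊ ^ (1 / ν q)) U (𝓝 (v a)) := by
  obtain ⟨f, k, hfk⟩ := ha
  let yy : IB n K := ⟨E.y, E.integral⟩
  let bb : IB n K := Polynomial.aeval yy f
  have hbb : (bb : K) = Polynomial.aeval E.y f := (Subalgebra.aeval_coe _ yy f).symm
  let hh : IB n K := algebraMap (Pol n) (IB n K) E.h
  have hhh : (hh : K) = algebraMap (Pol n) K E.h := rfl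
  have hh0 : (hh : K) ≠ 0 := by
    rw [hhh]
    exact (map_ne_zero_iff _ (FaithfulSMul.algebraMap_injective (Pol n) K)).2 E.h0
  have hv0 : v (hh : K) ≠ 0 := (Valuation.ne_zero_iff v).2 hh0
  have hva : v a = v (bb : K) / v (hh : K) ^ k := by
    rw [eq_div_iff (pow_ne_zero _ hv0), hbb, ← hfk, map_mul, map_pow, hhh, mul_comm]
  rw [hva]
  have h1 := (h bb).div ((h hh).pow k) (pow_ne_zero k hv0)
  refine h1.congr' ?_
  filter_upwards [hM] with q hq
  have hreg : E.IsReg a := ⟨f, k, hfk⟩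
  have h2 : E.ev (bb : K) q = E.ev (hh : K) q ^ k * E.ev a q := by
    rw [← Prim.ev_pow hS hq (Prim.isReg_ib hh), ← Prim.ev_mul hS hq ((Prim.isReg_ib hh).pow k) hreg,
      hbb, ← hfk, hhh]
  have h3 : E.ev (hh : K) q ≠ 0 := by
    rw [hhh, Prim.ev_alg hS hq]; exact Prim.ev_h_ne_zero hS hq
  have h4 : ‖E.ev a q‖₊ = ‖E.ev (bb : K) q‖₊ / ‖E.ev (hh : K) q‖₊ ^ k := by
    rw [h2, nnnorm_mul, nnnorm_pow, mul_comm, mul_div_assoc, div_self, mul_one]
    exact pow_ne_zero _ (nnnorm_ne_zero_iff.2 h3)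
  simp only [Pi.div_apply, Pi.pow_apply]
  rw [h4, NNReal.div_rpow, ← NNReal.rpow_natCast (‖E.ev (hh : K) q‖₊) k, ← NNReal.rpow_mul,
    mul_comm (k : ℝ), NNReal.rpow_mul, NNReal.rpow_natCast]

theorem UVbAux.aemeasurable_ev {E : Prim n K} {S : Sheets n N} (hS : E.IsSheets S) {a : K}
    (ha : E.IsReg a) : AEMeasurable (E.ev a) S.μ :=
  (Sheets.aestronglyMeasurable_of_CD ((Prim.holo_ev hS ha).CD 0)).aemeasurable

variable [Algebra (FractionRing (Pol n)) K] [IsScalarTower (Pol n) (FractionRing (Pol n)) K]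
  [FiniteDimensional (FractionRing (Pol n)) K]

namespace UVbAux

/-- The integrand. -/
noncomputable def Iq (E : Prim n K) (J : K) (g : IB n K) {r : ℕ} (F : Fin r → IB n K) (c : ℝ)
    (q : (Fin n → ℂ) × ℂ) : ℝ :=
  ‖E.ev (g : K) q‖ ^ 2 * (∑ j, ‖E.ev (F j : K) q‖ ^ 2) ^ (-c) * ‖E.ev J⁻¹ q‖ ^ 2

/-- Small sets. -/
def Small (E : Prim n K) (S : Sheets n N) (x : Pt n K) (I : (Fin n → ℂ) × ℂ → ℝ)
    (O : Set ((Fin n → ℂ) × ℂ)) : Prop :=
  ∃ W ∈ E.nhd S x, ∫⁻ q in O ∩ W, ENNReal.ofReal (I q) ∂S.μ < ⊤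

omit [IsScalarTower ℂ (Pol n) K] [FaithfulSMul (Pol n) K]
  [Algebra (FractionRing (Pol n)) K] [IsScalarTower (Pol n) (FractionRing (Pol n)) K]
  [FiniteDimensional (FractionRing (Pol n)) K] in
theorem exists_U {E : Prim n K} {S : Sheets n N} {x : Pt n K} {I : (Fin n → ℂ) × ℂ → ℝ}
    (hinf : ∀ W ∈ E.nhd S x, ∫⁻ q in W, ENNReal.ofReal (I q) ∂S.μ = ⊤) :
    ∃ U : Ultrafilter ((Fin n → ℂ) × ℂ), (U : Filter ((Fin n → ℂ) × ℂ)) ≤ E.nhd S x ∧
      (∀ p : (Fin n → ℂ) × ℂ → Prop, (∀ᵐ q ∂S.μ, p q) →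
        ∀ᶠ q in (U : Filter ((Fin n → ℂ) × ℂ)), p q) ∧
      ∀ O ∈ (U : Filter ((Fin n → ℂ) × ℂ)), ¬ Small E S x I O := by
  obtain ⟨U, hU⟩ : ∃ U : Ultrafilter ((Fin n → ℂ) × ℂ), ∀ A, Small E S x I A → Aᶜ ∈ U := by
    apply exists_ultra
    · exact ⟨Set.univ, univ_mem, by simp⟩
    · rintro A B hAB ⟨W, hW, h⟩
      exact ⟨W, hW, lt_of_le_of_lt (lintegral_mono_set (Set.inter_subset_inter_left _ hAB)) h⟩
    · rintro A B ⟨W, hW, h⟩ ⟨W', hW', h'⟩
      refine ⟨W ∩ W', inter_mem hW hW', ?_⟩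
      have hsub : (A ∪ B) ∩ (W ∩ W') ⊆ (A ∩ W) ∪ (B ∩ W') := by
        rintro q ⟨h1 | h1, h2, h3⟩
        · exact Or.inl ⟨h1, h2⟩
        · exact Or.inr ⟨h1, h3⟩
      exact lt_of_le_of_lt ((lintegral_mono_set hsub).trans (lintegral_union_le _ _ _))
        (ENNReal.add_lt_top.2 ⟨h, h'⟩)
    · rintro ⟨W, hW, h⟩
      rw [Set.univ_inter, hinf W hW] at h
      exact lt_irrefl _ h
  refine ⟨U, ?_, ?_, ?_⟩
  · intro W hW
    have : Small E S x I Wᶜ := ⟨W, hW, by simp⟩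
    simpa using hU _ this
  · intro p hp
    have : Small E S x I {q | p q}ᶜ := by
      refine ⟨Set.univ, univ_mem, ?_⟩
      rw [Set.inter_univ, setLIntegral_measure_zero _ _ hp]
      exact ENNReal.zero_lt_top
    have h2 := hU _ this
    rw [compl_compl] at h2
    exact h2
  · intro O hO hP
    have h1 := hU O hP
    have h2 : O ∩ Oᶜ ∈ (U : Filter ((Fin n → ℂ) × ℂ)) := inter_mem hO h1
    rw [Set.inter_compl_self] at h2
    exact U.neBot.ne (Filter.empty_mem_iff_bot.1 h2)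

/-- Lower bound for the sum. -/
theorem sum_bound {E : Prim n K} {S : Sheets n N} (hS : E.IsSheets S) (hn : 0 < n) {r : ℕ}
    (F : Fin r → IB n K) {m : ℕ}
    (hz : ∀ i : Fin n, ∃ j, F j = algebraMap (Pol n) (IB n K) (MvPolynomial.X i) ^ m)
    {c : ℝ} (hc : 0 < c) : ∀ q ∈ S.M, 0 < ‖q.1‖ → (∑ j, ‖E.ev (F j : K) q‖ ^ 2) ^ (-c) ≤
      ‖q.1‖ ^ (-(2 * c * m)) := by
  intro q hq hpos
  haveI : Nonempty (Fin n) := ⟨⟨0, hn⟩⟩
  obtain ⟨i, hi⟩ : ∃ i, ‖q.1 i‖ = ‖q.1‖ := by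
    obtain ⟨i, -, hi⟩ := Finset.exists_mem_eq_sup' (Finset.univ_nonempty (α := Fin n)) (fun i => ‖q.1 i‖₊)
    refine ⟨i, ?_⟩
    rw [Pi.norm_def]
    rw [← Finset.sup'_eq_sup (Finset.univ_nonempty (α := Fin n)), hi]
    rfl
  obtain ⟨j, hj⟩ := hz i
  have h1 : ‖E.ev (F j : K) q‖ = ‖q.1‖ ^ m := by
    have : (F j : K) = (algebraMap (Pol n) K (MvPolynomial.X i)) ^ m := by rw [hj]; rfl
    rw [this, Prim.ev_pow hS hq (Prim.isReg_alg _), Prim.ev_alg hS hq, norm_pow,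
      MvPolynomial.eval_X, hi]
  have h2 : (‖q.1‖ ^ m) ^ 2 ≤ ∑ j, ‖E.ev (F j : K) q‖ ^ 2 := by
    rw [← h1]
    exact Finset.single_le_sum (f := fun j => ‖E.ev (F j : K) q‖ ^ 2)
      (fun _ _ => by positivity) (Finset.mem_univ j)
  calc (∑ j, ‖E.ev (F j : K) q‖ ^ 2) ^ (-c) ≤ ((‖q.1‖ ^ m) ^ 2) ^ (-c) :=
        Real.rpow_le_rpow_of_nonpos (by positivity) h2 (by linarith)
    _ = ‖q.1‖ ^ (-(2 * c * m)) := by
        rw [← pow_mul, ← Real.rpow_natCast, ← Real.rpow_mul (norm_nonneg _)]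
        congr 1; push_cast; ring

/-- Step 1: the value of `J` is not zero. -/
theorem step_J {E : Prim n K} {S : Sheets n N} (hS : E.IsSheets S)
    {x : Pt n K} {d : Fin n → Derivation ℂ K K} (hd : IsPartials d) {J : K} (hJ0 : J ≠ 0)
    (hJ : IsIntegral (Pol n) J) (hJr : E.IsReg J⁻¹) (hklt : Klt x d J) (hn : 0 < n)
    (g : IB n K) {r : ℕ} (F : Fin r → IB n K) {m : ℕ}
    (hz : ∀ i : Fin n, ∃ j, F j = algebraMap (Pol n) (IB n K) (MvPolynomial.X i) ^ m)
    {c : ℝ} (hc : 0 < c) {U : Ultrafilter ((Fin n → ℂ) × ℂ)}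
    (hM : S.M ∈ (U : Filter ((Fin n → ℂ) × ℂ)))
    (hsmall : ∀ O ∈ (U : Filter ((Fin n → ℂ) × ℂ)), ¬ Small E S x (Iq E J g F c) O)
    (hρ : ∀ᶠ q in (U : Filter ((Fin n → ℂ) × ℂ)), 0 < ‖q.1‖ ∧ ‖q.1‖ < 1)
    (hwt : Tendsto (fun q => ‖E.ev J q‖₊ ^ (1 / (-Real.log ‖q.1‖))) U (𝓝 0)) : False := by
  obtain ⟨η, hη, W₁, hW₁, hWint⟩ := uniform_klt hS hd hJ0 hJ hJr hklt
  have hJreg : E.IsReg J := Prim.isReg_of_integral hJ
  have hJne : ∀ q ∈ S.M, E.ev J q ≠ 0 := fun q hq => Prim.ev_ne_zero_of_inv hS hq hJ0 hJreg hJr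
  have hJinv : ∀ q ∈ S.M, E.ev J⁻¹ q = (E.ev J q)⁻¹ := fun q hq => Prim.ev_inv hS hq hJreg hJr
  set Cg : ℝ := ‖x.toFun g‖ + 1 with hCg
  have hCg0 : 0 < Cg := by positivity
  have hgb : ∀ᶠ q in E.nhd S x, ‖E.ev (g : K) q‖ < Cg :=
    (Prim.tendsto_ev_nhd E S x g).norm.eventually (gt_mem_nhds (by linarith))
  have hsum := sum_bound hS hn F hz hc
  have hev : ∀ᶠ q in (U : Filter ((Fin n → ℂ) × ℂ)), (‖E.ev J q‖₊ : ℝ) < ‖q.1‖ ^ (c * m / η) := by
    apply UVbAux.rate_lt hρ hwt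
    simpa using Real.exp_pos _
  refine hsmall {q | q ∈ S.M ∧ (0 < ‖q.1‖ ∧ ‖q.1‖ < 1) ∧
    (‖E.ev J q‖₊ : ℝ) < ‖q.1‖ ^ (c * m / η)} ?_ ⟨W₁ ∩ {q | ‖E.ev (g : K) q‖ < Cg},
      inter_mem hW₁ hgb, ?_⟩
  · filter_upwards [hM, hρ, hev] with q h1 h2 h3
    exact ⟨h1, h2, h3⟩
  · refine UVbAux.lintegral_aux (T := W₁) (C := ENNReal.ofReal (Cg ^ 2))
      (G := fun q => ENNReal.ofReal (‖E.ev J⁻¹ q‖ ^ (2 + 2 * η)))
      (((UVbAux.aemeasurable_ev hS hJr).norm.pow_const _).ennreal_ofReal)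
      (fun q hq => hq.2.1) ENNReal.ofReal_ne_top hWint ?_
    refine Filter.Eventually.of_forall fun q hq => ?_
    obtain ⟨⟨hqM, ⟨hp, hlt⟩, hJs⟩, -, hgq⟩ := hq
    rw [← ENNReal.ofReal_mul (by positivity)]
    apply ENNReal.ofReal_le_ofReal
    have ht : 0 < ‖E.ev J q‖ := norm_pos_iff.2 (hJne q hqM)
    set t := ‖E.ev J q‖ with htdef
    have hJs' : t < ‖q.1‖ ^ (c * m / η) := hJs
    have e1 : ‖E.ev J⁻¹ q‖ = t⁻¹ := by rw [hJinv q hqM, norm_inv]
    have e2 : ‖q.1‖ ^ (-(2 * c * m)) ≤ (t⁻¹) ^ (2 * η) := by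
      have h5 : t ^ (2 * η) ≤ ‖q.1‖ ^ (2 * c * m) := by
        calc t ^ (2 * η) ≤ (‖q.1‖ ^ (c * m / η)) ^ (2 * η) :=
              Real.rpow_le_rpow ht.le hJs'.le (by positivity)
          _ = ‖q.1‖ ^ (2 * c * m) := by
              rw [← Real.rpow_mul hp.le]; congr 1; field_simp
      rw [Real.inv_rpow ht.le, Real.rpow_neg hp.le]
      exact inv_anti₀ (Real.rpow_pos_of_pos ht _) h5
    have e3 : (t⁻¹) ^ (2 + 2 * η) = (t⁻¹) ^ 2 * (t⁻¹) ^ (2 * η) := by
      rw [Real.rpow_add (by positivity)]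
      norm_num
    have e4 : ‖E.ev (g : K) q‖ ^ 2 ≤ Cg ^ 2 := pow_le_pow_left₀ (norm_nonneg _) (le_of_lt hgq) 2
    have e5 := hsum q hqM hp
    rw [Iq, e1, e3]
    calc ‖E.ev (g : K) q‖ ^ 2 * (∑ j, ‖E.ev (F j : K) q‖ ^ 2) ^ (-c) * t⁻¹ ^ 2
        ≤ Cg ^ 2 * (t⁻¹) ^ (2 * η) * t⁻¹ ^ 2 := by
          apply mul_le_mul_of_nonneg_right _ (by positivity)
          exact mul_le_mul e4 (e5.trans e2) (by (clear * -; positivity)) (by positivity)
      _ = Cg ^ 2 * (t⁻¹ ^ 2 * t⁻¹ ^ (2 * η)) := by ring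

theorem exists_exp_lt {a b : ℝ≥0} (ha : a ≠ 0) (hb : b ≠ 0) :
    ∃ C : ℝ, 0 < C ∧ Real.exp (-C) < a ∧ Real.exp (-C) < b := by
  have p1 : (0 : ℝ) < a := by positivity
  have p2 : (0 : ℝ) < b := by positivity
  refine ⟨max 0 (max (-Real.log a) (-Real.log b)) + 1, by positivity, ?_, ?_⟩
  · rw [← Real.lt_log_iff_exp_lt p1]
    have := le_max_left (-Real.log a) (-Real.log b)
    have := le_max_right 0 (max (-Real.log a) (-Real.log b))
    linarith
  · rw [← Real.lt_log_iff_exp_lt p2]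
    have := le_max_right (-Real.log a) (-Real.log b)
    have := le_max_right 0 (max (-Real.log a) (-Real.log b))
    linarith

/-- Step 2: there is no chart in which the limit vanishes. -/
theorem step_chart {E : Prim n K} {S : Sheets n N} (hS : E.IsSheets S)
    {x : Pt n K} {d : Fin n → Derivation ℂ K K} (hd : IsPartials d) {J : K} (hJ0 : J ≠ 0)
    (hJ : IsIntegral (Pol n) J) (hJr : E.IsReg J⁻¹) (hn : 0 < n)
    (g : IB n K) {r : ℕ} (F : Fin r → IB n K) {m : ℕ}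
    (hz : ∀ i : Fin n, ∃ j, F j = algebraMap (Pol n) (IB n K) (MvPolynomial.X i) ^ m)
    {c : ℝ} (hc : 0 < c) {U : Ultrafilter ((Fin n → ℂ) × ℂ)}
    (hM : S.M ∈ (U : Filter ((Fin n → ℂ) × ℂ)))
    (hUae : ∀ p : (Fin n → ℂ) × ℂ → Prop, (∀ᵐ q ∂S.μ, p q) →
        ∀ᶠ q in (U : Filter ((Fin n → ℂ) × ℂ)), p q)
    (hsmall : ∀ O ∈ (U : Filter ((Fin n → ℂ) × ℂ)), ¬ Small E S x (Iq E J g F c) O)
    (hρ : ∀ᶠ q in (U : Filter ((Fin n → ℂ) × ℂ)), 0 < ‖q.1‖ ∧ ‖q.1‖ < 1)
    {wJ wf : ℝ≥0} (hwJ : wJ ≠ 0)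
    (hJt : Tendsto (fun q => ‖E.ev J q‖₊ ^ (1 / (-Real.log ‖q.1‖))) U (𝓝 wJ))
    {f : Pol n} (hf0 : f ≠ 0) {j : Fin n}
    (hft : Tendsto (fun q => ‖E.ev (algebraMap (Pol n) K f) q‖₊ ^ (1 / (-Real.log ‖q.1‖)))
      U (𝓝 0)) (hwf : wf ≠ 0)
    (hfjt : Tendsto (fun q => ‖E.ev (algebraMap (Pol n) K (MvPolynomial.pderiv j f)) q‖₊ ^
      (1 / (-Real.log ‖q.1‖))) U (𝓝 wf)) : False := by
  have hJreg : E.IsReg J := Prim.isReg_of_integral hJ
  have hJne : ∀ q ∈ S.M, E.ev J q ≠ 0 := fun q hq => Prim.ev_ne_zero_of_inv hS hq hJ0 hJreg hJr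
  have hJinv : ∀ q ∈ S.M, E.ev J⁻¹ q = (E.ev J q)⁻¹ := fun q hq => Prim.ev_inv hS hq hJreg hJr
  set Cg : ℝ := ‖x.toFun g‖ + 1 with hCg
  have hCg0 : 0 < Cg := by positivity
  have hgb : ∀ᶠ q in E.nhd S x, ‖E.ev (g : K) q‖ < Cg :=
    (Prim.tendsto_ev_nhd E S x g).norm.eventually (gt_mem_nhds (by linarith))
  have hsum := sum_bound hS hn F hz hc
  set fj : Pol n := MvPolynomial.pderiv j f with hfjdef
  obtain ⟨C, hC0, hC1, hC2⟩ := exists_exp_lt hwf hwJ
  have hevf : ∀ᶠ q in (U : Filter ((Fin n → ℂ) × ℂ)),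
      (‖E.ev (algebraMap (Pol n) K f) q‖₊ : ℝ) < ‖q.1‖ ^ (2 * c * m + 4 * C) := by
    apply UVbAux.rate_lt hρ hft
    simpa using Real.exp_pos _
  have hevfj := UVbAux.lt_rate hρ hfjt hC1
  have hevJ := UVbAux.lt_rate hρ hJt hC2
  have hfne : ∀ᵐ q ∂S.μ, E.ev (algebraMap (Pol n) K f) q ≠ 0 :=
    Prim.ae_ev_ne_zero hS (Prim.isReg_alg f)
      ((map_ne_zero_iff _ (FaithfulSMul.algebraMap_injective (Pol n) K)).2 hf0)
  refine hsmall {q | q ∈ S.M ∧ (0 < ‖q.1‖ ∧ ‖q.1‖ < 1) ∧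
    ‖MvPolynomial.eval q.1 f‖ < ‖q.1‖ ^ (2 * c * m + 4 * C) ∧
    ‖q.1‖ ^ C < ‖MvPolynomial.eval q.1 fj‖ ∧ ‖q.1‖ ^ C < ‖E.ev J q‖ ∧
    MvPolynomial.eval q.1 f ≠ 0} ?_ ⟨{q | ‖E.ev (g : K) q‖ < Cg}, hgb, ?_⟩
  · filter_upwards [hM, hρ, hevf, hevfj, hevJ, hUae _ hfne] with q h1 h2 h3 h4 h5 h6
    rw [Prim.ev_alg hS h1] at h3 h4 h6
    exact ⟨h1, h2, h3, h4, h5, h6⟩
  · have hmeas : ∀ p : Pol n, Measurable fun q : (Fin n → ℂ) × ℂ => ‖MvPolynomial.eval q.1 p‖ :=
      fun p => (((MvPolynomial.continuous_eval p).comp continuous_fst).norm).measurable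
    have hGm : AEMeasurable (fun q : (Fin n → ℂ) × ℂ =>
        ENNReal.ofReal (‖MvPolynomial.eval q.1 f‖⁻¹ *
          ‖MvPolynomial.eval q.1 (MvPolynomial.pderiv j f)‖ ^ 2)) S.μ :=
      ((hmeas f).inv.mul ((hmeas _).pow_const 2)).ennreal_ofReal.aemeasurable
    have hls := Prim.lintegral_log_sing hS hd f j
    refine UVbAux.lintegral_aux (C := ENNReal.ofReal (Cg ^ 2)) hGm ?_ ENNReal.ofReal_ne_top hls ?_
    · rintro q ⟨⟨h1, ⟨h2, h3⟩, h4, -, -, h6⟩, -⟩
      refine ⟨h3, h6, h4.le.trans ?_⟩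
      exact Real.rpow_le_one h2.le h3.le (by positivity)
    refine Filter.Eventually.of_forall fun q hq => ?_
    obtain ⟨⟨hqM, ⟨hp, hlt⟩, hfs, hfjs, hJs, hfn⟩, hgq⟩ := hq
    rw [← ENNReal.ofReal_mul (by positivity)]
    apply ENNReal.ofReal_le_ofReal
    have ht : 0 < ‖E.ev J q‖ := norm_pos_iff.2 (hJne q hqM)
    have hfp : 0 < ‖MvPolynomial.eval q.1 f‖ := norm_pos_iff.2 hfn
    have hzC : 0 < ‖q.1‖ ^ C := Real.rpow_pos_of_pos hp _
    have e1 : ‖E.ev J⁻¹ q‖ = ‖E.ev J q‖⁻¹ := by rw [hJinv q hqM, norm_inv]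
    have e4 : ‖E.ev (g : K) q‖ ^ 2 ≤ Cg ^ 2 := pow_le_pow_left₀ (norm_nonneg _) (le_of_lt hgq) 2
    have e5 := hsum q hqM hp
    have e6 : ‖E.ev J q‖⁻¹ ^ 2 ≤ ((‖q.1‖ ^ C)⁻¹) ^ 2 :=
      pow_le_pow_left₀ (by positivity) (inv_anti₀ hzC hJs.le) 2
    have e7 : (‖q.1‖ ^ (2 * c * m + 4 * C))⁻¹ ≤ ‖MvPolynomial.eval q.1 f‖⁻¹ :=
      inv_anti₀ hfp hfs.le
    have e8 : (‖q.1‖ ^ C) ^ 2 ≤ ‖MvPolynomial.eval q.1 fj‖ ^ 2 :=
      pow_le_pow_left₀ hzC.le hfjs.le 2
    have e9 : ‖q.1‖ ^ (-(2 * c * m)) * ((‖q.1‖ ^ C)⁻¹) ^ 2 =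
        (‖q.1‖ ^ (2 * c * m + 4 * C))⁻¹ * (‖q.1‖ ^ C) ^ 2 := by
      rw [← Real.rpow_neg hp.le, ← Real.rpow_neg hp.le, ← Real.rpow_natCast (‖q.1‖ ^ (-C)),
        ← Real.rpow_natCast (‖q.1‖ ^ C), ← Real.rpow_mul hp.le, ← Real.rpow_mul hp.le,
        ← Real.rpow_add hp, ← Real.rpow_add hp]
      congr 1; push_cast; ring
    rw [Iq, e1]
    calc ‖E.ev (g : K) q‖ ^ 2 * (∑ j, ‖E.ev (F j : K) q‖ ^ 2) ^ (-c) * ‖E.ev J q‖⁻¹ ^ 2
        ≤ Cg ^ 2 * ‖q.1‖ ^ (-(2 * c * m)) * ((‖q.1‖ ^ C)⁻¹) ^ 2 :=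
          mul_le_mul (mul_le_mul e4 e5 (by (clear * -; positivity)) (by positivity)) e6 (by positivity)
            (by positivity)
      _ = Cg ^ 2 * ((‖q.1‖ ^ (2 * c * m + 4 * C))⁻¹ * (‖q.1‖ ^ C) ^ 2) := by
          rw [mul_assoc, e9]
      _ ≤ Cg ^ 2 * (‖MvPolynomial.eval q.1 f‖⁻¹ * ‖MvPolynomial.eval q.1 fj‖ ^ 2) := by
          apply mul_le_mul_of_nonneg_left _ (by positivity)
          exact mul_le_mul e7 e8 (by positivity) (by positivity)

/-- The quotient of the two sides. -/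
noncomputable def Phi (E : Prim n K) (J jb : K) (g : IB n K) (F0 : IB n K) (b : Fin n → IB n K)
    (c : ℝ) (q : (Fin n → ℂ) × ℂ) : ℝ≥0 :=
  ‖E.ev (g : K) q‖₊ * (∏ i, ‖E.ev (b i : K) q‖₊) *
      ‖E.ev (F0 : K) q‖₊ ^ (-c) * ‖E.ev J q‖₊⁻¹ * ‖E.ev jb q‖₊⁻¹

theorem tendsto_Phi {E : Prim n K} {S : Sheets n N} (hS : E.IsSheets S)
    {U : Ultrafilter ((Fin n → ℂ) × ℂ)}
    (hM : S.M ∈ (U : Filter ((Fin n → ℂ) × ℂ))) {v : Valuation K ℝ≥0}
    {ν : (Fin n → ℂ) × ℂ → ℝ}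
    (hvt : ∀ b : IB n K, Tendsto (fun q => ‖E.ev (b : K) q‖₊ ^ (1 / ν q)) U
      (𝓝 (v (b : K)))) {J jb : K} (hJ : IsIntegral (Pol n) J) (hJ0 : J ≠ 0)
    (hjb : jb ≠ 0) (hjreg : E.IsReg jb) (g F0 : IB n K) (hF0 : v (F0 : K) ≠ 0)
    (b : Fin n → IB n K) (c : ℝ) :
    Tendsto (fun q => Phi E J jb g F0 b c q ^ (1 / ν q)) U
      (𝓝 (v (g : K) * (∏ i, v (b i : K)) * v (F0 : K) ^ (-c) * (v J)⁻¹ * (v jb)⁻¹)) := by
  have hvJ : v J ≠ 0 := (Valuation.ne_zero_iff v).2 hJ0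
  have hvjb : v jb ≠ 0 := (Valuation.ne_zero_iff v).2 hjb
  have t1 := hvt g
  have t2 : Tendsto (fun q => (∏ i, ‖E.ev (b i : K) q‖₊) ^ (1 / ν q)) U
      (𝓝 (∏ i, v (b i : K))) := by
    have := tendsto_finsetProd Finset.univ (fun i _ => hvt (b i))
    exact this.congr (fun q => NNReal.finsetProd_rpow _ _ _)
  have t3 : Tendsto (fun q => (‖E.ev (F0 : K) q‖₊ ^ (-c)) ^ (1 / ν q)) U
      (𝓝 (v (F0 : K) ^ (-c))) := by
    have := (NNReal.continuousAt_rpow_const (y := -c) (Or.inl hF0)).tendsto.comp (hvt F0)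
    refine this.congr (fun q => ?_)
    simp only [Function.comp]
    rw [← NNReal.rpow_mul, ← NNReal.rpow_mul, mul_comm]
  have t4 : Tendsto (fun q => (‖E.ev J q‖₊⁻¹) ^ (1 / ν q)) U (𝓝 (v J)⁻¹) := by
    have := (hvt ⟨J, hJ⟩).inv₀ hvJ
    exact this.congr (fun q => (NNReal.inv_rpow _ _).symm)
  have t5 : Tendsto (fun q => (‖E.ev jb q‖₊⁻¹) ^ (1 / ν q)) U (𝓝 (v jb)⁻¹) := by
    have := (UVbAux.rate_reg hS hM v hvt hjreg).inv₀ hvjb
    exact this.congr (fun q => (NNReal.inv_rpow _ _).symm)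
  refine ((((t1.mul t2).mul t3).mul t4).mul t5).congr (fun q => ?_)
  rw [Phi, ← NNReal.mul_rpow, ← NNReal.mul_rpow, ← NNReal.mul_rpow, ← NNReal.mul_rpow]

/-- The pointwise inequality in the last step. -/
theorem pointwise_Phi {E : Prim n K} {J jb : K} {g : IB n K} {r : ℕ} {F : Fin r → IB n K}
    {b : Fin n → IB n K} {j0 : Fin r} {c δ : ℝ} (hc : 0 < c)
    {q : (Fin n → ℂ) × ℂ} (hp : 0 < ‖q.1‖) (hJne : E.ev J q ≠ 0)
    (e1 : ‖E.ev J⁻¹ q‖ = ‖E.ev J q‖⁻¹) (hbq : ∀ i, E.ev (b i : K) q ≠ 0)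
    (hjq : E.ev jb q ≠ 0) (hFq : E.ev (F j0 : K) q ≠ 0)
    (hΦq : (Phi E J jb g (F j0) b c q : ℝ) < ‖q.1‖ ^ δ) :
    Iq E J g F c q ≤ ‖q.1‖ ^ (2 * δ) * (∏ i, ‖E.ev (b i : K) q‖ ^ 2)⁻¹ * ‖E.ev jb q‖ ^ 2 := by
  have ht : 0 < ‖E.ev J q‖ := norm_pos_iff.2 hJne
  have htj : 0 < ‖E.ev jb q‖ := norm_pos_iff.2 hjq
  have htF : 0 < ‖E.ev (F j0 : K) q‖ := norm_pos_iff.2 hFq
  have htB : 0 < ∏ i, ‖E.ev (b i : K) q‖ := Finset.prod_pos fun i _ => norm_pos_iff.2 (hbq i)
  have hFc : 0 < ‖E.ev (F j0 : K) q‖ ^ (-c) := Real.rpow_pos_of_pos htF _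
  have hΦr : (Phi E J jb g (F j0) b c q : ℝ) = ‖E.ev (g : K) q‖ * (∏ i, ‖E.ev (b i : K) q‖) *
      ‖E.ev (F j0 : K) q‖ ^ (-c) * ‖E.ev J q‖⁻¹ * ‖E.ev jb q‖⁻¹ := by
    simp [Phi, NNReal.coe_prod]
  have e2 : (∑ j, ‖E.ev (F j : K) q‖ ^ 2) ^ (-c) ≤ (‖E.ev (F j0 : K) q‖ ^ (-c)) ^ 2 := by
    have h2 : ‖E.ev (F j0 : K) q‖ ^ 2 ≤ ∑ j, ‖E.ev (F j : K) q‖ ^ 2 :=
      Finset.single_le_sum (f := fun j => ‖E.ev (F j : K) q‖ ^ 2)
        (fun _ _ => by positivity) (Finset.mem_univ j0)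
    calc (∑ j, ‖E.ev (F j : K) q‖ ^ 2) ^ (-c) ≤ (‖E.ev (F j0 : K) q‖ ^ 2) ^ (-c) :=
          Real.rpow_le_rpow_of_nonpos (by positivity) h2 (by linarith)
      _ = (‖E.ev (F j0 : K) q‖ ^ (-c)) ^ 2 := by
          rw [← Real.rpow_natCast, ← Real.rpow_natCast, ← Real.rpow_mul htF.le,
            ← Real.rpow_mul htF.le, mul_comm]
  have e3 : ‖q.1‖ ^ (2 * δ) = (‖q.1‖ ^ δ) ^ 2 := by
    rw [← Real.rpow_natCast, ← Real.rpow_mul hp.le]; congr 1; push_cast; ring
  have e4 : ((Phi E J jb g (F j0) b c q : ℝ)) ^ 2 ≤ (‖q.1‖ ^ δ) ^ 2 :=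
    pow_le_pow_left₀ (NNReal.coe_nonneg _) hΦq.le 2
  rw [e3, Finset.prod_pow, Iq, e1]
  set A := ‖E.ev (g : K) q‖ with hA
  set B := ∏ i, ‖E.ev (b i : K) q‖ with hB
  set Fc := ‖E.ev (F j0 : K) q‖ ^ (-c) with hFcdef
  set T := ‖E.ev J q‖ with hT
  set Jb := ‖E.ev jb q‖ with hJb
  set Ss := (∑ j, ‖E.ev (F j : K) q‖ ^ 2) ^ (-c) with hSs
  set Z := (‖q.1‖ ^ δ) ^ 2 with hZ
  rw [hΦr] at e4
  calc A ^ 2 * Ss * T⁻¹ ^ 2 ≤ A ^ 2 * Fc ^ 2 * T⁻¹ ^ 2 := by
        apply mul_le_mul_of_nonneg_right _ (by positivity)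
        exact mul_le_mul_of_nonneg_left e2 (by positivity)
    _ = (A * B * Fc * T⁻¹ * Jb⁻¹) ^ 2 * (B ^ 2)⁻¹ * Jb ^ 2 := by
        have h1 : B ^ 2 * (B ^ 2)⁻¹ = 1 := mul_inv_cancel₀ (by (clear * - htB; positivity))
        have h2 : Jb⁻¹ ^ 2 * Jb ^ 2 = 1 := by
          rw [← mul_pow, inv_mul_cancel₀ htj.ne', one_pow]
        calc A ^ 2 * Fc ^ 2 * T⁻¹ ^ 2
            = A ^ 2 * Fc ^ 2 * T⁻¹ ^ 2 * (B ^ 2 * (B ^ 2)⁻¹) * (Jb⁻¹ ^ 2 * Jb ^ 2) := by
              rw [h1, h2]; ring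
          _ = _ := by ring
    _ ≤ Z * (B ^ 2)⁻¹ * Jb ^ 2 := by
        apply mul_le_mul_of_nonneg_right _ (by positivity)
        exact mul_le_mul_of_nonneg_right e4 (by (clear * - htB; positivity))

theorem log_bound {I : Type*} {U : Filter I} {f : I → ℝ} {ρ : I → ℝ} {a : ℝ≥0} {C : ℝ}
    (hρ : ∀ᶠ q in U, 0 < ρ q ∧ ρ q < 1) (hf : ∀ᶠ q in U, 0 < f q)
    (h : Tendsto (fun q => f q ^ (1 / (-Real.log (ρ q)))) U (𝓝 (a : ℝ)))
    (ha : a ≠ 0) (hC : |Real.log a| + 1 ≤ C) :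
    ∀ᶠ q in U, |Real.log (f q)| ≤ C * |Real.log (ρ q)| := by
  have hvbi : (a : ℝ) ≠ 0 := by exact_mod_cast ha
  have h2 := ((Real.continuousAt_log hvbi).tendsto.comp h).abs
  have h3 := h2.eventually (gt_mem_nhds (lt_add_one _))
  filter_upwards [h3, hρ, hf] with q h4 h5 h6
  simp only [Function.comp] at h4
  have h7 : Real.log (ρ q) < 0 := Real.log_neg h5.1 h5.2
  rw [Real.log_rpow h6, abs_mul, abs_div, abs_one,
    abs_neg, one_div, inv_mul_lt_iff₀ (abs_pos.2 h7.ne)] at h4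
  refine h4.le.trans ?_
  rw [mul_comm]
  exact mul_le_mul_of_nonneg_right hC (abs_nonneg _)

/-- Step 3. -/
theorem step_val {E : Prim n K} {S : Sheets n N} (hS : E.IsSheets S)
    {x : Pt n K} {d : Fin n → Derivation ℂ K K} (hd : IsPartials d) {J : K} (hJ0 : J ≠ 0)
    (hJ : IsIntegral (Pol n) J) (hJr : E.IsReg J⁻¹)
    (g : IB n K) {r : ℕ} (F : Fin r → IB n K)
    {c : ℝ} (hc : 0 < c) {U : Ultrafilter ((Fin n → ℂ) × ℂ)}
    (hM : S.M ∈ (U : Filter ((Fin n → ℂ) × ℂ)))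
    (hUae : ∀ p : (Fin n → ℂ) × ℂ → Prop, (∀ᵐ q ∂S.μ, p q) →
        ∀ᶠ q in (U : Filter ((Fin n → ℂ) × ℂ)), p q)
    (hsmall : ∀ O ∈ (U : Filter ((Fin n → ℂ) × ℂ)), ¬ Small E S x (Iq E J g F c) O)
    (hρ : ∀ᶠ q in (U : Filter ((Fin n → ℂ) × ℂ)), 0 < ‖q.1‖ ∧ ‖q.1‖ < 1)
    {v : Valuation K ℝ≥0}
    (hvt : ∀ b : IB n K, Tendsto (fun q => ‖E.ev (b : K) q‖₊ ^ (1 / (-Real.log ‖q.1‖))) U
      (𝓝 (v (b : K))))
    {b : Fin n → IB n K} (hb : ∀ i, b i ≠ 0) (hjb : jac d (fun i => (b i : K)) ≠ 0) :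
    (Finset.univ.sup fun j => v (F j : K)) ^ c ≤
      v (g : K) * v (hfun d J fun i => (b i : K)) := by
  by_contra hlt
  rw [not_le] at hlt
  have hJreg : E.IsReg J := Prim.isReg_of_integral hJ
  have hsup0 : (Finset.univ.sup fun j => v (F j : K)) ≠ 0 := by
    intro h
    rw [h, NNReal.zero_rpow hc.ne'] at hlt
    exact absurd hlt (not_lt.2 zero_le)
  have hne : (Finset.univ : Finset (Fin r)).Nonempty := by
    by_contra h
    rw [Finset.not_nonempty_iff_eq_empty] at h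
    apply hsup0; rw [h]; simp
  obtain ⟨j0, -, hj0⟩ := Finset.exists_mem_eq_sup _ hne (fun j => v (F j : K))
  rw [hj0] at hsup0 hlt
  set jb : K := jac d fun i => (b i : K) with hjbdef
  have hjreg : E.IsReg jb := Prim.IsReg.jac hd (fun i => Prim.isReg_ib (b i))
  have hbK : ∀ i, (b i : K) ≠ 0 := fun i => by simpa using hb i
  have hvb : ∀ i, v (b i : K) ≠ 0 := fun i => (Valuation.ne_zero_iff v).2 (hbK i)
  have hΦ := tendsto_Phi hS hM hvt hJ hJ0 hjb hjreg g (F j0) hsup0 b c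
  set L : ℝ≥0 := v (g : K) * (∏ i, v (b i : K)) * v (F j0 : K) ^ (-c) * (v J)⁻¹ * (v jb)⁻¹ with hL
  have hL1 : L < 1 := by
    have h1 : v (hfun d J fun i => (b i : K)) = (∏ i, v (b i : K)) * (v J)⁻¹ * (v jb)⁻¹ := by
      rw [hfun, map_div₀, map_prod, map_mul, div_eq_mul_inv, mul_inv, mul_assoc]
    have h2 : 0 < v (F j0 : K) ^ c := NNReal.rpow_pos (pos_iff_ne_zero.2 hsup0)
    have h3 : L = (v (g : K) * v (hfun d J fun i => (b i : K))) * (v (F j0 : K) ^ c)⁻¹ := by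
      rw [hL, h1, NNReal.rpow_neg]; ring
    rw [h3]
    calc _ < (v (F j0 : K) ^ c) * (v (F j0 : K) ^ c)⁻¹ := by
          exact mul_lt_mul_of_pos_right hlt (inv_pos.2 h2)
      _ = 1 := mul_inv_cancel₀ h2.ne'
  have hL1' : (L : ℝ) < 1 := by exact_mod_cast hL1
  set δ : ℝ := (1 - L) / 2 with hδdef
  have hδ : 0 < δ := by rw [hδdef]; linarith
  have hLδ : (L : ℝ) < Real.exp (-δ) := by
    have := Real.add_one_le_exp (-δ)
    have h5 : (L : ℝ) < -δ + 1 := by rw [hδdef]; linarith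
    linarith
  have hΦlt := UVbAux.rate_lt hρ hΦ hLδ
  set C : ℝ := ∑ i, (|Real.log (v (b i : K))| + 1) with hCdef
  have hlogb : ∀ i, ∀ᶠ q in (U : Filter ((Fin n → ℂ) × ℂ)), E.ev (b i : K) q ≠ 0 ∧
      |Real.log ‖E.ev (b i : K) q‖| ≤ C * |Real.log ‖q.1‖| := by
    intro i
    have h1 : Tendsto (fun q => (‖E.ev (b i : K) q‖ ^ (1 / (-Real.log ‖q.1‖)) : ℝ)) U
        (𝓝 (v (b i : K) : ℝ)) := (NNReal.continuous_coe.tendsto _).comp (hvt (b i))
    have h0 := hUae _ (Prim.ae_ev_ne_zero hS (Prim.isReg_ib (b i)) (hbK i))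
    have h2 := log_bound (C := C) hρ (h0.mono fun q hq => norm_pos_iff.2 hq) h1 (hvb i)
      (Finset.single_le_sum (f := fun i => |Real.log (v (b i : K))| + 1)
      (fun _ _ => by positivity) (Finset.mem_univ i))
    exact h0.and h2
  have hFj0 : (F j0 : K) ≠ 0 := by
    rintro h; apply hsup0; rw [h, map_zero]
  refine hsmall {q | q ∈ S.M ∧ (0 < ‖q.1‖ ∧ ‖q.1‖ < 1) ∧
    (Phi E J jb g (F j0) b c q : ℝ) < ‖q.1‖ ^ δ ∧
    (∀ i, E.ev (b i : K) q ≠ 0 ∧ |Real.log ‖E.ev (b i : K) q‖| ≤ C * |Real.log ‖q.1‖|) ∧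
    E.ev jb q ≠ 0 ∧ E.ev (F j0 : K) q ≠ 0} ?_ ⟨Set.univ, univ_mem, ?_⟩
  · filter_upwards [hM, hρ, hΦlt, Filter.eventually_all.2 hlogb,
      hUae _ (Prim.ae_ev_ne_zero hS hjreg hjb),
      hUae _ (Prim.ae_ev_ne_zero hS (Prim.isReg_ib (F j0)) hFj0)] with q h1 h2 h3 h4 h5 h6
    exact ⟨h1, h2, h3, h4, h5, h6⟩
  · have hmb : ∀ a : K, E.IsReg a → AEMeasurable (fun q => ‖E.ev a q‖ ^ 2) S.μ :=
      fun a ha => ((UVbAux.aemeasurable_ev hS ha).norm.pow_const 2)
    have hmn : Measurable fun q : (Fin n → ℂ) × ℂ => ‖q.1‖ := measurable_fst.norm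
    have hint := Prim.lintegral_shell hS hd (b := fun i => (b i : K)) (fun i => Prim.isReg_ib (b i))
      hjb (ρ := fun q => ‖q.1‖) hmn.aemeasurable (C := C) hδ
    refine UVbAux.lintegral_aux (C := 1)
      (G := fun q => ENNReal.ofReal (‖q.1‖ ^ (2 * δ) * (∏ i, ‖E.ev (b i : K) q‖ ^ 2)⁻¹ *
        ‖E.ev jb q‖ ^ 2)) ?_ ?_ ENNReal.one_ne_top hint ?_
    · refine AEMeasurable.ennreal_ofReal ?_
      refine AEMeasurable.mul (AEMeasurable.mul (hmn.pow_const _).aemeasurable ?_) (hmb _ hjreg)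
      refine AEMeasurable.inv ?_
      exact Finset.aemeasurable_fun_prod _ (fun i _ => hmb _ (Prim.isReg_ib (b i)))
    · rintro q ⟨⟨-, h2, -, h4, -, -⟩, -⟩
      exact ⟨h2.1, h2.2, h4⟩
    refine Filter.Eventually.of_forall fun q hq => ?_
    obtain ⟨⟨hqM, ⟨hp, hlt1⟩, hΦq, hbq, hjq, hFq⟩, -⟩ := hq
    rw [one_mul]
    apply ENNReal.ofReal_le_ofReal
    exact pointwise_Phi hc hp (Prim.ev_ne_zero_of_inv hS hqM hJ0 hJreg hJr)
      (by rw [Prim.ev_inv hS hqM hJreg hJr, norm_inv]) (fun i => (hbq i).1) hjq hFq hΦq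

theorem rpow_log {ρ : ℝ} (h1 : 0 < ρ) (h2 : ρ < 1) :
    ρ ^ (1 / (-Real.log ρ)) = Real.exp (-1) := by
  have h3 : Real.log ρ < 0 := Real.log_neg h1 h2
  rw [Real.rpow_def_of_pos h1]
  congr 1
  rw [one_div, inv_neg, mul_neg, mul_inv_cancel₀ h3.ne]

end UVbAux

/-- Divergent integrals produce valuations. -/
theorem exists_valuation_of_divergent {E : Prim n K} {S : Sheets n N} (hS : E.IsSheets S)
    {x : Pt n K} {d : Fin n → Derivation ℂ K K} (hd : IsPartials d) {J : K} (hJ0 : J ≠ 0)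
    (hJ : IsIntegral (Pol n) J) (hJr : E.IsReg J⁻¹) (hklt : Klt x d J) (hn : 0 < n)
    (g : IB n K) {r : ℕ} (F : Fin r → IB n K) {m : ℕ} (hm : 0 < m)
    (hz : ∀ i : Fin n, ∃ j, F j = algebraMap (Pol n) (IB n K) (MvPolynomial.X i) ^ m)
    {c : ℝ} (hc : 0 < c)
    (hinf : ∀ W ∈ E.nhd S x, ∫⁻ q in W, ENNReal.ofReal (‖E.ev (g : K) q‖ ^ 2 *
      (∑ j, ‖E.ev (F j : K) q‖ ^ 2) ^ (-c) * ‖E.ev J⁻¹ q‖ ^ 2) ∂S.μ = ⊤) :
    ∃ v : Valuation K ℝ≥0, Over x v ∧
      (∀ i : Fin n, v (algebraMap (Pol n) K (MvPolynomial.X i)) ≤ (Real.exp (-1)).toNNReal) ∧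
      (∃ i : Fin n, v (algebraMap (Pol n) K (MvPolynomial.X i)) = (Real.exp (-1)).toNNReal) ∧
      ∀ b : Fin n → K, (∀ i, b i ≠ 0) → jac d b ≠ 0 →
        (Finset.univ.sup fun j => v (F j : K)) ^ c ≤ v (g : K) * v (hfun d J b) := by
  obtain ⟨U, hUn, hUae, hsmall⟩ := UVbAux.exists_U (I := UVbAux.Iq E J g F c) hinf
  have hM : S.M ∈ (U : Filter ((Fin n → ℂ) × ℂ)) := hUn (Prim.M_mem_nhd E S x)
  have hz0 : ∀ᵐ q ∂S.μ, q.1 ≠ 0 := by
    have hX : algebraMap (Pol n) K (MvPolynomial.X ⟨0, hn⟩) ≠ 0 :=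
      (map_ne_zero_iff _ (FaithfulSMul.algebraMap_injective (Pol n) K)).2 (MvPolynomial.X_ne_zero _)
    filter_upwards [Prim.ae_ev_ne_zero hS (Prim.isReg_alg (MvPolynomial.X ⟨0, hn⟩)) hX,
      Sheets.ae_mem_M] with q hq hqM h
    rw [Prim.ev_alg hS hqM, h] at hq
    simp at hq
  have hfst : Tendsto (fun q : (Fin n → ℂ) × ℂ => q.1) U (𝓝 0) :=
    (Prim.tendsto_fst_nhd hS x).mono_left hUn
  have hnorm : Tendsto (fun q : (Fin n → ℂ) × ℂ => ‖q.1‖) U (𝓝 0) := by
    simpa using hfst.norm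
  have hρ : ∀ᶠ q in (U : Filter ((Fin n → ℂ) × ℂ)), 0 < ‖q.1‖ ∧ ‖q.1‖ < 1 := by
    filter_upwards [hUae _ hz0, hnorm.eventually (gt_mem_nhds one_pos)] with q h1 h2
    exact ⟨norm_pos_iff.2 h1, h2⟩
  have hν : Tendsto (fun q : (Fin n → ℂ) × ℂ => -Real.log ‖q.1‖) U atTop := by
    rw [tendsto_neg_atTop_iff]
    refine Real.tendsto_log_nhdsGT_zero.comp ?_
    rw [tendsto_nhdsWithin_iff]
    exact ⟨hnorm, hρ.mono fun q hq => hq.1⟩
  obtain ⟨w, hw, hwt⟩ := exists_limit_ev hS U hUn hν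
  have hwJ : w ⟨J, hJ⟩ ≠ 0 := by
    intro h0
    have h1 := hwt ⟨J, hJ⟩
    rw [h0] at h1
    exact UVbAux.step_J hS hd hJ0 hJ hJr hklt hn g F hz hc hM hsmall hρ h1
  have hwb : ∀ b : IB n K, b ≠ 0 → w b ≠ 0 := by
    intro b hb h0
    obtain ⟨f, j, hf, hfj⟩ := hw.exists_chart E hb h0
    have hf0 : f ≠ 0 := by
      rintro rfl
      apply hfj
      rw [map_zero, map_zero, hw.zero]
    have h1 := hwt (algebraMap (Pol n) (IB n K) f)
    rw [hf] at h1
    exact UVbAux.step_chart hS hd hJ0 hJ hJr hn g F hz hc hM hUae hsmall hρ hwJ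
      (hwt ⟨J, hJ⟩) hf0 h1 hfj (hwt (algebraMap (Pol n) (IB n K) (MvPolynomial.pderiv j f)))
  obtain ⟨v, hv, hov⟩ := hw.exists_valuation hwb
  have hvt : ∀ b : IB n K, Tendsto (fun q => ‖E.ev (b : K) q‖₊ ^ (1 / (-Real.log ‖q.1‖))) U
      (𝓝 (v (b : K))) := by
    intro b; rw [hv b]; exact hwt b
  have hexp' : ∀ᶠ q in (U : Filter ((Fin n → ℂ) × ℂ)),
      ‖q.1‖₊ ^ (1 / (-Real.log ‖q.1‖)) = (Real.exp (-1)).toNNReal := by
    filter_upwards [hρ] with q hq
    rw [← NNReal.coe_inj, NNReal.coe_rpow, coe_nnnorm, UVbAux.rpow_log hq.1 hq.2,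
      Real.coe_toNNReal _ (Real.exp_pos _).le]
  have hevX : ∀ i : Fin n, ∀ q ∈ S.M,
      ‖E.ev ((algebraMap (Pol n) (IB n K) (MvPolynomial.X i) : IB n K) : K) q‖₊ = ‖q.1 i‖₊ := by
    intro i q hq
    have : ((algebraMap (Pol n) (IB n K) (MvPolynomial.X i) : IB n K) : K) =
      algebraMap (Pol n) K (MvPolynomial.X i) := rfl
    rw [this, Prim.ev_alg hS hq, MvPolynomial.eval_X]
  refine ⟨v, hov, ?_, ?_, ?_⟩
  · intro i
    have h1 := hvt (algebraMap (Pol n) (IB n K) (MvPolynomial.X i))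
    refine le_of_tendsto h1 ?_
    filter_upwards [hexp', hM, hρ] with q h2 h3 h4
    rw [hevX i q h3, ← h2]
    apply NNReal.rpow_le_rpow
    · exact nnnorm_le_pi_nnnorm q.1 i
    · have := Real.log_neg h4.1 h4.2
      have : 0 < -Real.log ‖q.1‖ := by linarith
      positivity
  · haveI : Nonempty (Fin n) := ⟨⟨0, hn⟩⟩
    have hcov : (⋃ i ∈ (Set.univ : Set (Fin n)), {q : (Fin n → ℂ) × ℂ | ‖q.1 i‖₊ = ‖q.1‖₊}) ∈ U := by
      have : (⋃ i ∈ (Set.univ : Set (Fin n)), {q : (Fin n → ℂ) × ℂ | ‖q.1 i‖₊ = ‖q.1‖₊}) =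
          Set.univ := by
        ext q
        simp only [Set.mem_univ, Set.iUnion_true, Set.mem_iUnion, Set.mem_setOf_eq, iff_true]
        obtain ⟨i, -, hi⟩ := Finset.exists_mem_eq_sup' (Finset.univ_nonempty (α := Fin n))
          (fun i => ‖q.1 i‖₊)
        refine ⟨i, ?_⟩
        rw [Pi.nnnorm_def, ← Finset.sup'_eq_sup (Finset.univ_nonempty (α := Fin n)), hi]
      rw [this]; exact univ_mem
    rw [Ultrafilter.finite_biUnion_mem_iff Set.finite_univ] at hcov
    obtain ⟨i, -, hi⟩ := hcov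
    refine ⟨i, ?_⟩
    have h1 := hvt (algebraMap (Pol n) (IB n K) (MvPolynomial.X i))
    refine tendsto_nhds_unique_of_eventuallyEq h1 tendsto_const_nhds ?_
    filter_upwards [hexp', hM, hi] with q h2 h3 h4
    rw [hevX i q h3, h4, h2]
  · intro b₀ hb₀ hjb₀
    obtain ⟨b, hb, hjb, hle⟩ := exists_hfun_le E d hJ0 v hb₀ hjb₀
    refine (UVbAux.step_val hS hd hJ0 hJ hJr g F hc hM hUae hsmall hρ hvt hb hjb).trans ?_
    exact mul_le_mul_right hle _

end Vale.Agent.P282.L2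
end

section

set_option linter.all false

open MeasureTheory Filter Topology
open scoped ENNReal NNReal ComplexConjugate

namespace Vale.Agent.P282.L2

variable {n N : ℕ} {K : Type} [Field K] [Algebra ℂ K] [Algebra (Pol n) K]
  [IsScalarTower ℂ (Pol n) K] [FaithfulSMul (Pol n) K]

/-- A positive real power of a real valuation. -/
noncomputable def powVal (v : Valuation K ℝ≥0) {s : ℝ} (hs : 0 < s) : Valuation K ℝ≥0 where
  toFun a := (v a) ^ s
  map_zero' := by
    simp [NNReal.zero_rpow hs.ne']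
  map_one' := by simp
  map_mul' a b := by
    simp [NNReal.mul_rpow]
  map_add_le_max' a b := by
    rcases le_max_iff.mp (v.map_add a b) with h | h
    · exact le_max_of_le_left (NNReal.rpow_le_rpow h hs.le)
    · exact le_max_of_le_right (NNReal.rpow_le_rpow h hs.le)

theorem powVal_apply (v : Valuation K ℝ≥0) {s : ℝ} (hs : 0 < s) (a : K) :
    powVal v hs a = (v a) ^ s := rfl

theorem over_powVal {x : Pt n K} {v : Valuation K ℝ≥0} (hv : Over x v) {s : ℝ} (hs : 0 < s) :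
    Over x (powVal v hs) := by
  refine ⟨fun b => ?_, fun b hb => ?_⟩
  · rw [powVal_apply]
    exact NNReal.rpow_le_one (hv.1 b) hs.le
  · rw [powVal_apply, hv.2 b hb, NNReal.one_rpow]

theorem coe_algMap (f : Pol n) :
    ((algebraMap (Pol n) (IB n K) f : IB n K) : K) = algebraMap (Pol n) K f := rfl

theorem over_one_add {x : Pt n K} {v : Valuation K ℝ≥0} (hv : Over x v) (i : Fin n) :
    v (algebraMap (Pol n) K (1 + MvPolynomial.X i)) = 1 := by
  have h := hv.2 (algebraMap (Pol n) (IB n K) (1 + MvPolynomial.X i)) (by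
    rw [x.map_alg]; simp)
  rwa [coe_algMap] at h

theorem one_add_X_ne (i : Fin n) : (1 + MvPolynomial.X i : Pol n) ≠ 0 := by
  intro h
  have := congrArg (MvPolynomial.eval (0 : Fin n → ℂ)) h
  simp at this

theorem algMap_ne {f : Pol n} (hf : f ≠ 0) : algebraMap (Pol n) K f ≠ 0 := by
  intro h
  exact hf (FaithfulSMul.algebraMap_injective (Pol n) K (by rw [h, map_zero]))

theorem jac_one_add {d : Fin n → Derivation ℂ K K} (hd : IsPartials d) :
    jac d (fun i => algebraMap (Pol n) K (1 + MvPolynomial.X i)) = 1 := by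
  have : (Matrix.of fun i j => d i (algebraMap (Pol n) K (1 + MvPolynomial.X j))) =
      (1 : Matrix (Fin n) (Fin n) K) := by
    ext i j
    rw [Matrix.of_apply, map_add, map_add, map_one, Derivation.map_one_eq_zero, zero_add, hd i j,
      Matrix.one_apply]
  rw [jac, this, Matrix.det_one]

/-- The trivial bound. -/
theorem le_inv_J {x : Pt n K} {d : Fin n → Derivation ℂ K K}
    (hd : IsPartials d) {J : K} {v : Valuation K ℝ≥0} (hv : Over x v) {t : ℝ≥0}
    (h : ∀ b : Fin n → K, (∀ i, b i ≠ 0) → jac d b ≠ 0 → t ≤ v (hfun d J b)) :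
    t ≤ (v J)⁻¹ := by
  have h1 := h (fun i => algebraMap (Pol n) K (1 + MvPolynomial.X i))
    (fun i => algMap_ne (one_add_X_ne i)) (by rw [jac_one_add hd]; exact one_ne_zero)
  have h2 : v (hfun d J (fun i => algebraMap (Pol n) K (1 + MvPolynomial.X i))) = (v J)⁻¹ := by
    rw [hfun, jac_one_add hd, mul_one, map_div₀, map_prod]
    simp only [over_one_add hv, Finset.prod_const_one, one_div]
  rwa [h2] at h1

section

variable [Algebra (FractionRing (Pol n)) K] [IsScalarTower (Pol n) (FractionRing (Pol n)) K]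
  [FiniteDimensional (FractionRing (Pol n)) K]

/-- Uniform klt (valuative form): `v(J) ≤ C A(v)` in additive notation. -/
theorem valuative_uniform {E : Prim n K} {x : Pt n K} {d : Fin n → Derivation ℂ K K}
    (hd : IsPartials d) {J : K} (hJ0 : J ≠ 0) (hJ : IsIntegral (Pol n) J) (hklt : Klt x d J) :
    ∃ c : ℝ, 0 < c ∧ ∀ v : Valuation K ℝ≥0, Over x v → ∀ t : ℝ≥0,
      (∀ b : Fin n → K, (∀ i, b i ≠ 0) → jac d b ≠ 0 → t ≤ v (hfun d J b)) →
        t ≤ (v J) ^ c := by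
  by_contra hcon
  push Not at hcon
  -- choose the valuations
  have hpos : ∀ i : ℕ, (0 : ℝ) < 1 / ((i : ℝ) + 1) := fun i => by positivity
  choose v hOver t ht hlt using fun i : ℕ => hcon (1 / ((i : ℝ) + 1)) (hpos i)
  set JB : IB n K := ⟨J, hJ⟩ with hJB
  have hJle : ∀ i, v i J ≤ 1 := fun i => (hOver i).1 JB
  have hJ0' : ∀ i, v i J ≠ 0 := fun i => (Valuation.ne_zero_iff _).2 hJ0
  have hJlt : ∀ i, v i J < 1 := by
    intro i
    refine lt_of_le_of_ne (hJle i) fun h1 => ?_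
    have h2 := le_inv_J hd (hOver i) (ht i)
    have h3 := hlt i
    rw [h1] at h2 h3
    rw [inv_one] at h2
    rw [NNReal.one_rpow] at h3
    exact absurd h3 (not_lt.mpr h2)
  -- exponents
  have hlog : ∀ i, Real.log (v i J : ℝ) < 0 := fun i =>
    Real.log_neg (by exact_mod_cast pos_iff_ne_zero.mpr (hJ0' i)) (by exact_mod_cast hJlt i)
  set s : ℕ → ℝ := fun i => (-Real.log (v i J : ℝ))⁻¹ with hs_def
  have hs : ∀ i, 0 < s i := fun i => inv_pos.mpr (by have := hlog i; linarith)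
  set e0 : ℝ≥0 := ⟨Real.exp (-1), (Real.exp_pos _).le⟩ with he0
  have he0pos : e0 ≠ 0 := by
    intro h
    have : (e0 : ℝ) = 0 := by rw [h]; rfl
    exact absurd this (Real.exp_pos _).ne'
  have hJs : ∀ i, (v i J) ^ (s i) = e0 := by
    intro i
    apply NNReal.coe_injective
    rw [NNReal.coe_rpow]
    have h1 : (0 : ℝ) < (v i J : ℝ) := by exact_mod_cast pos_iff_ne_zero.mpr (hJ0' i)
    rw [Real.rpow_def_of_pos h1]
    show Real.exp (Real.log (v i J : ℝ) * s i) = Real.exp (-1)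
    congr 1
    simp only [hs_def]
    have h2 : Real.log (v i J : ℝ) ≠ 0 := (hlog i).ne
    field_simp
  have hU : ((Filter.hyperfilter ℕ : Ultrafilter ℕ) : Filter ℕ) ≤ atTop := by
    rw [← Nat.cofinite_eq_atTop]
    exact Filter.hyperfilter_le_cofinite
  -- lower bounds tend to one
  have hlow : Tendsto (fun i : ℕ => e0 ^ (1 / ((i : ℝ) + 1)))
      ((Filter.hyperfilter ℕ : Ultrafilter ℕ) : Filter ℕ) (𝓝 1) := by
    refine Tendsto.mono_left ?_ hU
    have h1 : Tendsto (fun i : ℕ => 1 / ((i : ℝ) + 1)) atTop (𝓝 0) :=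
      tendsto_one_div_add_atTop_nhds_zero_nat
    have h2 : Tendsto (fun y : ℝ => e0 ^ y) (𝓝 0) (𝓝 (e0 ^ (0 : ℝ))) := by
      have h20 := (NNReal.continuousAt_rpow (x := e0) (y := 0) (Or.inl he0pos)).tendsto
      have h21 : Tendsto (fun y : ℝ => (e0, y)) (𝓝 0) (𝓝 (e0, 0)) :=
        tendsto_const_nhds.prodMk_nhds tendsto_id
      have h22 := h20.comp h21
      exact h22
    rw [NNReal.rpow_zero] at h2
    exact h2.comp h1
  have hts : ∀ i : ℕ, e0 ^ (1 / ((i : ℝ) + 1)) ≤ (t i) ^ (s i) := by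
    intro i
    rw [← hJs i, ← NNReal.rpow_mul, mul_comm, NNReal.rpow_mul]
    exact NNReal.rpow_le_rpow (hlt i).le (hs i).le
  have hts' : ∀ (i : ℕ) (b : Fin n → K), (∀ k, b k ≠ 0) → jac d b ≠ 0 →
      e0 ^ (1 / ((i : ℝ) + 1)) ≤ powVal (v i) (hs i) (hfun d J b) := by
    intro i b hb hj
    rw [powVal_apply]
    exact (hts i).trans (NNReal.rpow_le_rpow (ht i b hb hj) (hs i).le)
  have hOver' : ∀ i, Over x (powVal (v i) (hs i)) := fun i => over_powVal (hOver i) (hs i)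
  obtain ⟨w, hw, hlim⟩ := exists_limit_valuation (Filter.hyperfilter ℕ : Ultrafilter ℕ)
    (fun i => powVal (v i) (hs i)) hOver'
  have hwJ : w JB = e0 := by
    refine tendsto_nhds_unique (hlim JB) ?_
    have : (fun i => powVal (v i) (hs i) (JB : K)) = fun _ => e0 := by
      funext i
      rw [powVal_apply]
      exact hJs i
    rw [this]
    exact tendsto_const_nhds
  have he01 : e0 < 1 := by
    have h1 : Real.exp (-1) < 1 := by
      rw [Real.exp_lt_one_iff]; norm_num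
    show ((e0 : ℝ≥0) : ℝ) < ((1 : ℝ≥0) : ℝ)
    rw [NNReal.coe_one]
    exact h1
  by_cases hzero : ∀ b : IB n K, b ≠ 0 → w b ≠ 0
  · obtain ⟨W, hW, hWO⟩ := hw.exists_valuation hzero
    have hJB0 : (JB : K) ≠ 0 := hJ0
    obtain ⟨b, hb, hjb, hlt1⟩ := hklt W hWO ⟨JB, hJB0, by rw [hW, hwJ]; exact he01⟩
    have h1 := tendsto_of_limit (Filter.hyperfilter ℕ : Ultrafilter ℕ) (x := x)
      (fun i => powVal (v i) (hs i)) W (fun b => by rw [hW]; exact hlim b) (hfun d J b)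
    have h2 : (1 : ℝ≥0) ≤ W (hfun d J b) :=
      le_of_tendsto_of_tendsto' hlow h1 (fun i => hts' i b hb hjb)
    exact absurd hlt1 (not_lt.mpr h2)
  · push Not at hzero
    obtain ⟨b0, hb0, hwb0⟩ := hzero
    obtain ⟨f, j, hf, hfj⟩ := hw.exists_chart E hb0 hwb0
    have hpd : MvPolynomial.pderiv j f ≠ 0 := by
      intro h
      apply hfj
      rw [h, map_zero, hw.zero]
    have hf0 : f ≠ 0 := by
      intro h
      apply hpd
      rw [h, map_zero]
    set b : Fin n → K :=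
      fun i => algebraMap (Pol n) K (if i = j then f else 1 + MvPolynomial.X i) with hb_def
    have hb : ∀ i, b i ≠ 0 := by
      intro i
      apply algMap_ne
      split_ifs
      · exact hf0
      · exact one_add_X_ne i
    have hjac : jac d b = algebraMap (Pol n) K (MvPolynomial.pderiv j f) := jac_chart hd f j
    have hjb : jac d b ≠ 0 := by
      rw [hjac]
      exact algMap_ne hpd
    have hval : ∀ i, powVal (v i) (hs i) (hfun d J b) =
        powVal (v i) (hs i) ((algebraMap (Pol n) (IB n K) f : IB n K) : K) /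
          (e0 * powVal (v i) (hs i)
            ((algebraMap (Pol n) (IB n K) (MvPolynomial.pderiv j f) : IB n K) : K)) := by
      intro i
      rw [hfun, map_div₀, map_mul, map_prod, hjac]
      congr 1
      · rw [Finset.prod_eq_single j]
        · simp only [hb_def, if_true]
          rfl
        · intro k _ hk
          simp only [hb_def, if_neg hk]
          exact over_one_add (hOver' i) k
        · intro h
          exact absurd (Finset.mem_univ j) h
      · rw [powVal_apply (v i) (hs i) J, hJs i]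
        rfl
    have h1 : Tendsto (fun i => powVal (v i) (hs i) (hfun d J b))
        ((Filter.hyperfilter ℕ : Ultrafilter ℕ) : Filter ℕ) (𝓝 0) := by
      simp only [hval]
      have h2 := (hlim (algebraMap (Pol n) (IB n K) f)).div
        ((tendsto_const_nhds (x := e0)).mul
          (hlim (algebraMap (Pol n) (IB n K) (MvPolynomial.pderiv j f))))
        (mul_ne_zero he0pos hfj)
      rw [hf, zero_div] at h2
      exact h2
    have h2 : (1 : ℝ≥0) ≤ 0 :=
      le_of_tendsto_of_tendsto' hlow h1 (fun i => hts' i b hb hjb)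
    exact absurd h2 (by norm_num)

end

end Vale.Agent.P282.L2
end

section

/-!
P282-EQ-5a: the valuation of one ideal with divergent integral.
-/

open MeasureTheory Filter Topology
open scoped ENNReal NNReal ComplexConjugate

namespace Vale.Agent.P282.EQ

open Vale.Agent.P282.L2

variable {n N : ℕ} {K : Type} [Field K] [Algebra ℂ K] [Algebra (Pol n) K]
  [IsScalarTower ℂ (Pol n) K] [FaithfulSMul (Pol n) K]
  [Algebra (FractionRing (Pol n)) K] [IsScalarTower (Pol n) (FractionRing (Pol n)) K]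
  [FiniteDimensional (FractionRing (Pol n)) K]

variable {E : Prim n K} {S : Sheets n N} {x : Pt n K}

/-- The coordinates, as a vector of elements of `B`. -/
noncomputable def zv (n : ℕ) (K : Type) [Field K] [Algebra (Pol n) K] : Fin n → IB n K :=
  fun i => algebraMap (Pol n) (IB n K) (MvPolynomial.X i)

/-- The ideal of the elements of value at most `t`. -/
def lfamA_ideal {x : Pt n K} {v : Valuation K ℝ≥0} (hv : Over x v) (t : ℝ≥0) : Ideal (IB n K) where
  carrier := {b | v (b : K) ≤ t}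
  zero_mem' := by simp
  add_mem' := by
    intro a b ha hb
    exact (v.map_add _ _).trans (max_le ha hb)
  smul_mem' := by
    intro c b hb
    change v ((c : K) * (b : K)) ≤ _
    rw [map_mul]
    calc v (c : K) * v (b : K) ≤ 1 * t := mul_le_mul' (hv.1 c) hb
      _ = _ := one_mul _

omit [Algebra ℂ K] [IsScalarTower ℂ (Pol n) K] [FaithfulSMul (Pol n) K]
  [Algebra (FractionRing (Pol n)) K] [IsScalarTower (Pol n) (FractionRing (Pol n)) K]
  [FiniteDimensional (FractionRing (Pol n)) K] in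
theorem mem_lfamA_ideal {x : Pt n K} {v : Valuation K ℝ≥0} {hv : Over x v} {t : ℝ≥0}
    {b : IB n K} : b ∈ lfamA_ideal hv t ↔ v (b : K) ≤ t := Iff.rfl

omit [Algebra ℂ K] [IsScalarTower ℂ (Pol n) K] [FaithfulSMul (Pol n) K]
  [Algebra (FractionRing (Pol n)) K] [IsScalarTower (Pol n) (FractionRing (Pol n)) K]
  [FiniteDimensional (FractionRing (Pol n)) K] in
theorem lfamA_mul {x : Pt n K} {v : Valuation K ℝ≥0} (hv : Over x v) {t u : ℝ≥0}
    {I I' : Ideal (IB n K)} (h : I ≤ lfamA_ideal hv t) (h' : I' ≤ lfamA_ideal hv u) :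
    I * I' ≤ lfamA_ideal hv (t * u) := by
  rw [Ideal.mul_le]
  intro a ha b hb
  rw [mem_lfamA_ideal]
  change v ((a : K) * (b : K)) ≤ _
  rw [map_mul]
  exact mul_le_mul' (mem_lfamA_ideal.1 (h ha)) (mem_lfamA_ideal.1 (h' hb))

omit [Algebra ℂ K] [IsScalarTower ℂ (Pol n) K] [FaithfulSMul (Pol n) K]
  [Algebra (FractionRing (Pol n)) K] [IsScalarTower (Pol n) (FractionRing (Pol n)) K]
  [FiniteDimensional (FractionRing (Pol n)) K] in
theorem lfamA_pow {x : Pt n K} {v : Valuation K ℝ≥0} (hv : Over x v) {t : ℝ≥0}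
    {I : Ideal (IB n K)} (h : I ≤ lfamA_ideal hv t) (k : ℕ) :
    I ^ k ≤ lfamA_ideal hv (t ^ k) := by
  induction k with
  | zero =>
    intro b _
    rw [mem_lfamA_ideal, pow_zero]
    exact hv.1 b
  | succ k ih =>
    rw [pow_succ, pow_succ]
    exact lfamA_mul hv ih h

omit [Algebra ℂ K] [IsScalarTower ℂ (Pol n) K] [FaithfulSMul (Pol n) K]
  [Algebra (FractionRing (Pol n)) K] [IsScalarTower (Pol n) (FractionRing (Pol n)) K]
  [FiniteDimensional (FractionRing (Pol n)) K] in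
theorem lfamA_span {x : Pt n K} {v : Valuation K ℝ≥0} (hv : Over x v) {r : ℕ}
    (ζ : Fin r → IB n K) :
    Ideal.span (Set.range ζ) ≤ lfamA_ideal hv (Finset.univ.sup fun j => v (ζ j : K)) := by
  rw [Ideal.span_le]
  rintro _ ⟨j, rfl⟩
  exact mem_lfamA_ideal.2 (Finset.le_sup (f := fun j => v (ζ j : K)) (Finset.mem_univ j))

omit [Algebra ℂ K] [IsScalarTower ℂ (Pol n) K] [FaithfulSMul (Pol n) K]
  [Algebra (FractionRing (Pol n)) K] [IsScalarTower (Pol n) (FractionRing (Pol n)) K]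
  [FiniteDimensional (FractionRing (Pol n)) K] in
/-- A reduction computes the value of the maximal ideal. -/
theorem red_val {r : ℕ} {ζ : Fin r → IB n K} (hζ : Red x ζ) {v : Valuation K ℝ≥0}
    (hv : Over x v) (b : IB n K) (hb : x.toFun b = 0) (hne : ∃ i, ζ i ≠ 0) :
    ∃ i, v (b : K) ≤ v (ζ i : K) := by
  obtain ⟨i₁, _⟩ := hne
  obtain ⟨k, hk⟩ := hζ
  set μ : ℝ≥0 := Finset.univ.sup fun j => v (ζ j : K) with hμ
  obtain ⟨i₀, -, hi₀⟩ := Finset.exists_mem_eq_sup (Finset.univ (α := Fin r)) ⟨i₁, Finset.mem_univ _⟩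
    (fun j => v (ζ j : K))
  refine ⟨i₀, ?_⟩
  rw [← hi₀, ← hμ]
  -- the supremum of the values
  set T : Set ℝ≥0 := {t | ∃ c : IB n K, x.toFun c = 0 ∧ v (c : K) = t} with hT
  have hTb : BddAbove T := ⟨1, by rintro _ ⟨c, _, rfl⟩; exact hv.1 c⟩
  have hTne : T.Nonempty := ⟨v (b : K), b, hb, rfl⟩
  set V : ℝ≥0 := sSup T with hV
  have hle : ∀ c : IB n K, x.toFun c = 0 → v (c : K) ≤ V := fun c hc => le_csSup hTb ⟨c, hc, rfl⟩
  have hkx : kx x ≤ lfamA_ideal hv V := fun c hc => mem_lfamA_ideal.2 (hle c (mem_kx.1 hc))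
  have h1 : ∀ c : IB n K, x.toFun c = 0 → v (c : K) ^ (k + 1) ≤ μ * V ^ k := by
    intro c hc
    obtain ⟨s, hs, hsa⟩ := hk (c ^ (k + 1)) (Ideal.pow_mem_pow (mem_kx.2 hc) (k + 1))
    have h2 := lfamA_mul hv (lfamA_span hv ζ) (lfamA_pow hv hkx k) hsa
    rw [mem_lfamA_ideal] at h2
    have h3 : ((s * c ^ (k + 1) : IB n K) : K) = (s : K) * (c : K) ^ (k + 1) := by simp
    rw [h3, map_mul, map_pow, hv.2 s hs, one_mul] at h2
    exact h2
  have h2 : V ^ (k + 1) ≤ μ * V ^ k := by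
    have h3 : V ≤ (μ * V ^ k) ^ (1 / ((k : ℝ) + 1)) := by
      apply csSup_le hTne
      rintro _ ⟨c, hc, rfl⟩
      have h4 := NNReal.rpow_le_rpow (h1 c hc) (z := 1 / ((k : ℝ) + 1)) (by positivity)
      rw [← NNReal.rpow_natCast, ← NNReal.rpow_mul] at h4
      have h5 : ((k + 1 : ℕ) : ℝ) * (1 / ((k : ℝ) + 1)) = 1 := by
        push_cast
        field_simp
      rwa [h5, NNReal.rpow_one] at h4
    calc V ^ (k + 1) ≤ ((μ * V ^ k) ^ (1 / ((k : ℝ) + 1))) ^ (k + 1) :=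
          pow_le_pow_left₀ zero_le h3 _
      _ = μ * V ^ k := by
          rw [← NNReal.rpow_natCast, ← NNReal.rpow_mul]
          have h5 : (1 / ((k : ℝ) + 1)) * ((k + 1 : ℕ) : ℝ) = 1 := by
            push_cast
            field_simp
          rw [h5, NNReal.rpow_one]
  refine (hle b hb).trans ?_
  rcases eq_or_ne V 0 with h0 | h0
  · rw [h0]; exact zero_le
  · have h3 : 0 < V ^ k := pow_pos (pos_iff_ne_zero.2 h0) k
    rw [pow_succ, mul_comm] at h2
    exact le_of_mul_le_mul_right h2 h3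

/-- (L): one ideal of the family (from `exists_valuation_of_divergent`, as in
`Prim.exists_valuation_m`). -/
theorem exists_val_one (hS : E.IsSheets S) {d : Fin n → Derivation ℂ K K} (hd : IsPartials d)
    (hn : 0 < n) {J : K} (hJ0 : J ≠ 0) (hJ : IsIntegral (Pol n) J) (hJr : E.IsReg J⁻¹)
    (hklt : Klt x d J) {I : Ideal (IB n K)} (hI : ∃ L, kx x ^ L ≤ I) (g : IB n K) {c e : ℝ}
    (hc : 0 ≤ c) (he : 0 < e) (hdiv : Div E S x J g I c) :
    ∃ v : Valuation K ℝ≥0, Over x v ∧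
      (∀ i : Fin n, v (algebraMap (Pol n) K (MvPolynomial.X i)) ≤ (Real.exp (-1)).toNNReal) ∧
      (∃ i : Fin n, v (algebraMap (Pol n) K (MvPolynomial.X i)) = (Real.exp (-1)).toNNReal) ∧
      ∃ a : ℝ, 0 ≤ a ∧
        (∀ f ∈ I, v (f : K) ≤ (Real.exp (-a)).toNNReal) ∧
        (∃ f ∈ I, v (f : K) = (Real.exp (-a)).toNNReal) ∧
        ∀ b : Fin n → K, (∀ i, b i ≠ 0) → jac d b ≠ 0 →
          (Real.exp (-((c + e) * a))).toNNReal ≤ v (g : K) * v (hfun d J b) := by
  obtain ⟨M, r₀, hM, hgen⟩ := exists_gen hS x I hI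
  obtain ⟨F, hF, -, hz⟩ := hgen r₀ le_rfl
  have hce : 0 < c + e := by linarith
  obtain ⟨v, hv, hle, ⟨i0, hi0⟩, hb⟩ := exists_valuation_of_divergent hS hd hJ0 hJ hJr hklt hn g F
    hM hz hce (fun W hW => hdiv.lintegral_eq_top hF (by linarith) hW)
  refine ⟨v, hv, hle, ⟨i0, hi0⟩, ?_⟩
  set σ : ℝ≥0 := Finset.univ.sup fun j => v (F j : K) with hσ
  have hσ1 : σ ≤ 1 := Finset.sup_le fun j _ => hv.1 (F j)
  obtain ⟨j0, hj0⟩ := hz i0
  have hσpos : 0 < σ := by
    have h1 : v (F j0 : K) = (Real.exp (-1)).toNNReal ^ M := by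
      rw [hj0]
      have : ((algebraMap (Pol n) (IB n K) (MvPolynomial.X i0) ^ M : IB n K) : K)
          = algebraMap (Pol n) K (MvPolynomial.X i0) ^ M := by simp
      rw [this, map_pow, hi0]
    have h2 : 0 < v (F j0 : K) := by
      rw [h1]
      exact pow_pos (Real.toNNReal_pos.2 (Real.exp_pos _)) _
    exact h2.trans_le (Finset.le_sup (f := fun j => v (F j : K)) (Finset.mem_univ j0))
  have hσ0 : (0 : ℝ) < σ := by exact_mod_cast hσpos
  have hexp : Real.exp (-(-Real.log σ)) = σ := by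
    rw [neg_neg, Real.exp_log hσ0]
  have hIle : I ≤ lfamA_ideal hv σ := by
    rw [← hF]
    exact lfamA_span hv F
  have ha0 : 0 ≤ -Real.log (σ : ℝ) := by
    have : Real.log (σ : ℝ) ≤ 0 := Real.log_nonpos hσ0.le (by exact_mod_cast hσ1)
    linarith
  refine ⟨-Real.log σ, ha0, ?_, ?_, ?_⟩
  · intro f hf
    rw [hexp, Real.toNNReal_coe]
    exact mem_lfamA_ideal.1 (hIle hf)
  · obtain ⟨j₁, -, hj₁⟩ := Finset.exists_mem_eq_sup (Finset.univ (α := Fin r₀))
      ⟨j0, Finset.mem_univ _⟩ (fun j => v (F j : K))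
    refine ⟨F j₁, ?_, ?_⟩
    · rw [← hF]
      exact Ideal.subset_span ⟨j₁, rfl⟩
    · rw [hexp, Real.toNNReal_coe, hσ, hj₁]
  · intro b hb0 hbj
    refine le_trans ?_ (hb b hb0 hbj)
    rw [← NNReal.coe_le_coe, Real.coe_toNNReal _ (Real.exp_nonneg _), NNReal.coe_rpow,
      Real.rpow_def_of_pos hσ0]
    apply le_of_eq
    congr 1
    ring

end Vale.Agent.P282.EQ
end

section

/-!
P282, equality case: choice of coordinates.
-/

open IsLocalRing

namespace Vale.Agent.P282.EQ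

/-- Surjectivity is an open condition in a linear family of linear maps. -/
theorem surj_cofinite {V W : Type} [AddCommGroup V] [Module ℂ V] [AddCommGroup W] [Module ℂ W]
    [FiniteDimensional ℂ W] (A B : V →ₗ[ℂ] W) (hA : Function.Surjective A) :
    {s : ℂ | ¬ Function.Surjective (A + s • B)}.Finite := by
  obtain ⟨C, hC⟩ := A.exists_rightInverse_of_surjective (LinearMap.range_eq_top.2 hA)
  set M : Module.End ℂ W := B ∘ₗ C with hM
  have hfin : (Module.End.HasEigenvalue M : ℂ → Prop) = (Module.End.HasEigenvalue M) := rfl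
  have h1 : {s : ℂ | ¬ Function.Surjective (A + s • B)} ⊆
      (fun μ : ℂ => -μ⁻¹) '' {μ : ℂ | M.HasEigenvalue μ} := by
    intro s hs
    have hs' : ¬ Function.Surjective (A + s • B) := hs
    have h2 : ¬ Function.Surjective ((1 : Module.End ℂ W) + s • M) := by
      intro h3
      apply hs'
      intro y
      obtain ⟨x, hx⟩ := h3 y
      refine ⟨C x, ?_⟩
      have e : A (C x) = x := by
        have := LinearMap.congr_fun hC x
        simpa using this
      have h4 : x + s • B (C x) = y := by simpa [hM] using hx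
      show A (C x) + s • B (C x) = y
      rw [e, h4]
    have h3 : ¬ Function.Injective ((1 : Module.End ℂ W) + s • M) := fun h =>
      h2 (LinearMap.injective_iff_surjective.1 h)
    rw [injective_iff_map_eq_zero] at h3
    push Not at h3
    obtain ⟨x, hx, hx0⟩ := h3
    have hx' : x + s • M x = 0 := by simpa using hx
    have hs0 : s ≠ 0 := by
      rintro rfl
      apply hx0
      simpa using hx'
    refine ⟨-s⁻¹, ?_, ?_⟩
    · apply Module.End.hasEigenvalue_of_hasEigenvector (x := x)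
      refine ⟨Module.End.mem_eigenspace_iff.2 ?_, hx0⟩
      have : s • M x = -x := by rw [add_comm] at hx'; exact eq_neg_of_add_eq_zero_left hx'
      have h5 : M x = s⁻¹ • (s • M x) := by rw [smul_smul, inv_mul_cancel₀ hs0, one_smul]
      rw [h5, this, smul_neg, neg_smul]
    · show -(-s⁻¹)⁻¹ = s
      rw [inv_neg, inv_inv, neg_neg]
  exact ((Module.End.finite_hasEigenvalue M).image _).subset h1

/-- A family of `n` vectors spanning a space of dimension at most `n`. -/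
theorem exists_surj_fin {W : Type} [AddCommGroup W] [Module ℂ W] {n : ℕ}
    (h : Module.rank ℂ W ≤ n) :
    ∃ A : (Fin n → ℂ) →ₗ[ℂ] W, Function.Surjective A := by
  have hfd : FiniteDimensional ℂ W := by
    apply Module.rank_lt_aleph0_iff.1
    exact lt_of_le_of_lt h (Cardinal.natCast_lt_aleph0)
  have hr : Module.finrank ℂ W ≤ n := Module.finrank_le_of_rank_le h
  set b := Module.finBasis ℂ W
  refine ⟨(b.equivFun.symm : (Fin (Module.finrank ℂ W) → ℂ) →ₗ[ℂ] W) ∘ₗ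
    LinearMap.funLeft ℂ ℂ (Fin.castLE hr), ?_⟩
  rw [LinearMap.coe_comp]
  apply Function.Surjective.comp
  · exact b.equivFun.symm.surjective
  · exact LinearMap.funLeft_surjective_of_injective ℂ ℂ _ (Fin.castLE_injective hr)

theorem coord_rank_le {R : Type} [CommRing R] [IsLocalRing R] [Algebra ℂ R] {n : ℕ}
    (Λ : Submodule ℂ R) (hΛ : ∀ f ∈ Λ, f ∈ maximalIdeal R)
    (hdim : ∀ f : Fin (n + 3) → R, ∃ c : Fin (n + 3) → ℂ, c ≠ 0 ∧ ∑ i, c i • f i ∈ Λ)
    (φ : R →ₗ[ℂ] ℂ) (hφ : ∀ f ∈ Λ, φ f = 0) (g : R) (hg : g ∈ maximalIdeal R) (hφg : φ g = 1)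
    (W : Submodule ℂ R) (hW : ∀ f ∈ W, f ∈ maximalIdeal R ∧ φ f = 0) :
    Module.rank ℂ (Submodule.map Λ.mkQ W) ≤ n := by
  by_contra hcon
  have h1 : ((n + 1 : ℕ) : Cardinal) ≤ Module.rank ℂ (Submodule.map Λ.mkQ W) := by
    rw [not_le] at hcon
    have h := Order.succ_le_of_lt hcon
    rwa [Cardinal.succ_natCast, ← Nat.cast_add_one] at h
  obtain ⟨s, hs, hli⟩ := le_rank_iff_exists_linearIndependent_finset.1 h1
  let e : Fin (n + 1) ≃ s := (Fintype.equivFinOfCardEq (by simpa using hs)).symm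
  have hli' : LinearIndependent ℂ (fun i : Fin (n + 1) => ((e i : s) : Submodule.map Λ.mkQ W)) :=
    hli.comp e e.injective
  have hw : ∀ i : Fin (n + 1), ∃ w ∈ W, Λ.mkQ w = (((e i : s) : Submodule.map Λ.mkQ W) : R ⧸ Λ) :=
    fun i => (Submodule.mem_map.1 ((e i : s) : Submodule.map Λ.mkQ W).2)
  choose w hwW hwe using hw
  obtain ⟨c, hc0, hc⟩ := hdim (Fin.cons 1 (Fin.cons g w))
  rw [Fin.sum_univ_succ, Fin.sum_univ_succ] at hc
  simp only [Fin.cons_zero, Fin.cons_succ] at hc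
  set mC := (maximalIdeal R).restrictScalars ℂ with hmC
  have hsum : ∑ i : Fin (n + 1), c i.succ.succ • w i ∈ mC :=
    mC.sum_mem fun i _ => mC.smul_mem _ (hW _ (hwW i)).1
  have hgm : c (Fin.succ 0) • g ∈ mC := mC.smul_mem _ hg
  have h0 : c 0 = 0 := by
    by_contra hne
    have h2 : c 0 • (1 : R) ∈ mC := by
      have h3 := mC.sub_mem (show _ ∈ mC from hΛ _ hc) (mC.add_mem hgm hsum)
      rwa [add_sub_cancel_right] at h3
    have h4 : (1 : R) ∈ mC := by
      have := mC.smul_mem (c 0)⁻¹ h2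
      rwa [smul_smul, inv_mul_cancel₀ hne, one_smul] at this
    exact (Ideal.ne_top_iff_one _).1 (maximalIdeal.isMaximal R).ne_top h4
  have hφs : φ (∑ i : Fin (n + 1), c i.succ.succ • w i) = 0 := by
    rw [map_sum]
    apply Finset.sum_eq_zero
    intro i _
    rw [map_smul, (hW _ (hwW i)).2, smul_zero]
  have h1' : c (Fin.succ 0) = 0 := by
    have := hφ _ hc
    rw [map_add, map_add, hφs, map_smul, map_smul, h0, hφg] at this
    simpa using this
  rw [h0, h1', zero_smul, zero_smul, zero_add, zero_add] at hc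
  have h5 : ∑ i : Fin (n + 1), c i.succ.succ •
      ((e i : s) : Submodule.map Λ.mkQ W) = 0 := by
    apply Subtype.ext
    rw [Submodule.coe_sum]
    simp only [Submodule.coe_smul, ← hwe]
    have := (Submodule.Quotient.mk_eq_zero Λ).2 hc
    rw [← Submodule.mkQ_apply, map_sum] at this
    simp only [map_smul] at this
    exact this
  have h6 := Fintype.linearIndependent_iff.1 hli' _ h5
  apply hc0
  funext i
  refine Fin.cases h0 (fun j => ?_) i
  refine Fin.cases h1' (fun l => ?_) j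
  exact h6 l

/-- The graded pieces of the maximal ideal are finite dimensional. -/
theorem coord_fd {R : Type} [CommRing R] [IsLocalRing R] [IsNoetherianRing R] [Algebra ℂ R]
    (hres : Function.Surjective (algebraMap ℂ (ResidueField R))) (j : ℕ) :
    FiniteDimensional ℂ (Submodule.map ((maximalIdeal R ^ (j + 1)).restrictScalars ℂ).mkQ
      ((maximalIdeal R ^ j).restrictScalars ℂ)) := by
  obtain ⟨s, hs⟩ := (isNoetherian_def.1 (inferInstance : IsNoetherian R R)) (maximalIdeal R ^ j)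
  have : Submodule.map ((maximalIdeal R ^ (j + 1)).restrictScalars ℂ).mkQ
      ((maximalIdeal R ^ j).restrictScalars ℂ) ≤
      Submodule.span ℂ ((((maximalIdeal R ^ (j + 1)).restrictScalars ℂ).mkQ) '' (s : Set R)) := by
    rintro _ ⟨x, hx, rfl⟩
    have hx' : x ∈ Ideal.span (s : Set R) := by
      have : x ∈ maximalIdeal R ^ j := hx
      rw [← hs] at this
      exact this
    refine Submodule.span_induction (p := fun x _ =>
      (((maximalIdeal R ^ (j + 1)).restrictScalars ℂ).mkQ) x ∈ Submodule.span ℂ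
        ((((maximalIdeal R ^ (j + 1)).restrictScalars ℂ).mkQ) '' (s : Set R)) ∧
        x ∈ maximalIdeal R ^ j) ?_ ?_ ?_ ?_ hx' |>.1
    · intro y hy
      refine ⟨Submodule.subset_span ⟨y, hy, rfl⟩, ?_⟩
      rw [← hs]
      exact Submodule.subset_span hy
    · refine ⟨?_, Submodule.zero_mem _⟩
      rw [map_zero]
      exact Submodule.zero_mem _
    · rintro y z _ _ ⟨hy1, hy2⟩ ⟨hz1, hz2⟩
      refine ⟨?_, Submodule.add_mem _ hy2 hz2⟩
      rw [map_add]
      exact Submodule.add_mem _ hy1 hz1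
    · rintro a y _ ⟨hy1, hy2⟩
      refine ⟨?_, Submodule.smul_mem _ a hy2⟩
      obtain ⟨t, ht⟩ := hres (residue R a)
      have hm : a - algebraMap ℂ R t ∈ maximalIdeal R := by
        rw [← residue_eq_zero_iff, map_sub, ← ht]
        rw [sub_eq_zero]
        rfl
      have e : a • y = t • y + (a - algebraMap ℂ R t) * y := by
        rw [smul_eq_mul, Algebra.smul_def]; ring
      rw [e, map_add, map_smul]
      have hz : (((maximalIdeal R ^ (j + 1)).restrictScalars ℂ).mkQ)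
          ((a - algebraMap ℂ R t) * y) = 0 := by
        rw [Submodule.mkQ_apply, Submodule.Quotient.mk_eq_zero]
        show _ ∈ maximalIdeal R ^ (j + 1)
        rw [pow_succ']
        exact Ideal.mul_mem_mul hm hy2
      rw [hz, add_zero]
      exact Submodule.smul_mem _ _ hy1
  have hfin : FiniteDimensional ℂ (Submodule.span ℂ
      ((((maximalIdeal R ^ (j + 1)).restrictScalars ℂ).mkQ) '' (s : Set R))) :=
    FiniteDimensional.span_of_finite ℂ (s.finite_toSet.image _)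
  exact Submodule.finiteDimensional_of_le this

/-- Nakayama step. -/
theorem coord_nak {R : Type} [CommRing R] [IsLocalRing R] [IsNoetherianRing R] [Algebra ℂ R]
    (hres : Function.Surjective (algebraMap ℂ (ResidueField R))) {n : ℕ}
    (z w : Fin n → R) (hz : ∀ i, z i ∈ maximalIdeal R) (hw : ∀ i, w i ∈ maximalIdeal R) (k : ℕ)
    (hk : maximalIdeal R ^ (k + 1) ≤ Ideal.span (Set.range z) * maximalIdeal R ^ k) :
    {s : ℂ | ¬ (maximalIdeal R ^ (k + 1) ≤
      Ideal.span (Set.range fun i => z i + s • w i) * maximalIdeal R ^ k)}.Finite := by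
  set q := ((maximalIdeal R ^ (k + 1 + 1)).restrictScalars ℂ).mkQ with hq
  set T := Submodule.map q ((maximalIdeal R ^ (k + 1)).restrictScalars ℂ) with hT
  have hfd : FiniteDimensional ℂ T := coord_fd hres (k + 1)
  set mk := (maximalIdeal R ^ k).restrictScalars ℂ with hmk
  have hmem : ∀ (x : Fin n → R), (∀ i, x i ∈ maximalIdeal R) → ∀ a : Fin n → mk,
      q (∑ i, x i * (a i : R)) ∈ T := by
    intro x hx a
    refine ⟨_, ?_, rfl⟩
    show _ ∈ maximalIdeal R ^ (k + 1)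
    refine Submodule.sum_mem _ fun i _ => ?_
    rw [pow_succ']
    exact Ideal.mul_mem_mul (hx i) (a i).2
  let F : (x : Fin n → R) → (∀ i, x i ∈ maximalIdeal R) → ((Fin n → mk) →ₗ[ℂ] T) := fun x hx =>
    { toFun := fun a => ⟨q (∑ i, x i * (a i : R)), hmem x hx a⟩
      map_add' := by
        intro a b
        apply Subtype.ext
        show q (∑ i, x i * ((a i : R) + (b i : R))) = q _ + q _
        rw [← map_add, ← Finset.sum_add_distrib]
        simp only [mul_add]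
      map_smul' := by
        intro c a
        apply Subtype.ext
        show q (∑ i, x i * (c • (a i : R))) = c • q _
        rw [← map_smul, Finset.smul_sum]
        simp only [mul_smul_comm] }
  have hFz : Function.Surjective (F z hz) := by
    rintro ⟨_, x, hx, rfl⟩
    have hx' : x ∈ Ideal.span (Set.range z) * maximalIdeal R ^ k := hk hx
    have : ∃ a : Fin n → mk, x = ∑ i, z i * (a i : R) := by
      refine Submodule.mul_induction_on hx' ?_ ?_
      · intro u hu v hv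
        obtain ⟨c, rfl⟩ := (Submodule.mem_span_range_iff_exists_fun R).1 hu
        refine ⟨fun i => ⟨c i * v, Ideal.mul_mem_left _ _ hv⟩, ?_⟩
        rw [Finset.sum_mul]
        refine Finset.sum_congr rfl fun i _ => ?_
        simp only [smul_eq_mul]
        ring
      · rintro u v ⟨a, rfl⟩ ⟨b, rfl⟩
        refine ⟨a + b, ?_⟩
        rw [← Finset.sum_add_distrib]
        refine Finset.sum_congr rfl fun i _ => ?_
        rw [← mul_add]
        rfl
    obtain ⟨a, rfl⟩ := this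
    exact ⟨a, rfl⟩
  refine (surj_cofinite (F z hz) (F w hw) hFz).subset ?_
  intro s hs hsur
  apply hs
  apply Submodule.le_of_le_smul_of_le_jacobson_bot (I := maximalIdeal R)
    (isNoetherian_def.1 (inferInstance : IsNoetherian R R) _)
    (IsLocalRing.maximalIdeal_le_jacobson ⊥)
  intro x hx
  obtain ⟨a, ha⟩ := hsur ⟨q x, ⟨x, hx, rfl⟩⟩
  have ha' : q (∑ i, z i * (a i : R)) + s • q (∑ i, w i * (a i : R)) = q x :=
    congrArg Subtype.val ha
  rw [← map_smul, ← map_add, ← sub_eq_zero, ← map_sub] at ha'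
  have h1 : (∑ i, z i * (a i : R) + s • ∑ i, w i * (a i : R)) - x ∈ maximalIdeal R ^ (k + 1 + 1) :=
    (Submodule.Quotient.mk_eq_zero _).1 ha'
  have h2 : x = (∑ i, z i * (a i : R) + s • ∑ i, w i * (a i : R)) -
      ((∑ i, z i * (a i : R) + s • ∑ i, w i * (a i : R)) - x) := by ring
  rw [h2]
  refine Submodule.sub_mem _ (Submodule.mem_sup_left ?_) (Submodule.mem_sup_right ?_)
  · have e : ∑ i, z i * (a i : R) + s • ∑ i, w i * (a i : R) = ∑ i, (z i + s • w i) * (a i : R) := by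
      rw [Finset.smul_sum, ← Finset.sum_add_distrib]
      refine Finset.sum_congr rfl fun i _ => ?_
      rw [add_mul, smul_mul_assoc]
    rw [e]
    refine Submodule.sum_mem _ fun i _ => ?_
    exact Ideal.mul_mem_mul (Ideal.subset_span ⟨i, rfl⟩) (a i).2
  · rw [smul_eq_mul, ← pow_succ']
    exact h1

/-- Choice of the coordinates `ζ` and of `y`. -/
theorem exists_coords {R : Type} [CommRing R] [IsLocalRing R] [IsNoetherianRing R] [Algebra ℂ R]
    (hres : Function.Surjective (algebraMap ℂ (ResidueField R))) {n : ℕ}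
    (z : Fin n → R) (hz : ∀ i, z i ∈ maximalIdeal R)
    (hk : ∃ k, maximalIdeal R ^ (k + 1) ≤ Ideal.span (Set.range z) * maximalIdeal R ^ k)
    (Λ : Submodule ℂ R) (hΛ : ∀ f ∈ Λ, f ∈ maximalIdeal R)
    (hprop : ∃ g ∈ maximalIdeal R, g ∉ Λ ⊔ Submodule.span ℂ (Set.range z))
    (hdim : ∀ f : Fin (n + 3) → R, ∃ c : Fin (n + 3) → ℂ, c ≠ 0 ∧ ∑ i, c i • f i ∈ Λ) :
    ∃ (ζ : Fin n → R) (y : R), (∀ i, ζ i ∈ maximalIdeal R) ∧ y ∈ maximalIdeal R ∧
      (∃ k, maximalIdeal R ^ (k + 1) ≤ Ideal.span (Set.range ζ) * maximalIdeal R ^ k) ∧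
      ∀ f ∈ maximalIdeal R, ∃ (c : Fin n → ℂ) (c' : ℂ), f - ∑ i, c i • ζ i - c' • y ∈ Λ := by
  obtain ⟨k, hk⟩ := hk
  obtain ⟨g, hg, hgL⟩ := hprop
  obtain ⟨φ₀, hφ₀g, hφ₀⟩ := Submodule.exists_le_ker_of_notMem hgL
  set φ : R →ₗ[ℂ] ℂ := (φ₀ g)⁻¹ • φ₀ with hφdef
  have hφg : φ g = 1 := by
    rw [hφdef, LinearMap.smul_apply, smul_eq_mul, inv_mul_cancel₀ hφ₀g]
  have hφL : ∀ f ∈ Λ ⊔ Submodule.span ℂ (Set.range z), φ f = 0 := by
    intro f hf
    have : φ₀ f = 0 := hφ₀ hf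
    rw [hφdef, LinearMap.smul_apply, this, smul_zero]
  have hφΛ : ∀ f ∈ Λ, φ f = 0 := fun f hf => hφL f (Submodule.mem_sup_left hf)
  have hφz : ∀ i, φ (z i) = 0 := fun i =>
    hφL _ (Submodule.mem_sup_right (Submodule.subset_span ⟨i, rfl⟩))
  set mC := (maximalIdeal R).restrictScalars ℂ with hmC
  set W : Submodule ℂ R := mC ⊓ LinearMap.ker φ with hWdef
  have hW : ∀ f ∈ W, f ∈ maximalIdeal R ∧ φ f = 0 := fun f hf => ⟨hf.1, hf.2⟩
  have hrank := coord_rank_le Λ hΛ hdim φ hφΛ g hg hφg W hW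
  have hfd : FiniteDimensional ℂ (Submodule.map Λ.mkQ W) := by
    apply Module.rank_lt_aleph0_iff.1
    exact lt_of_le_of_lt hrank (Cardinal.natCast_lt_aleph0)
  obtain ⟨A, hA⟩ := exists_surj_fin hrank
  -- representatives
  have hw : ∀ i : Fin n, ∃ w ∈ W, Λ.mkQ w = ((A (Pi.single i 1) : Submodule.map Λ.mkQ W) : R ⧸ Λ) :=
    fun i => Submodule.mem_map.1 (A (Pi.single i 1)).2
  choose w hwW hwe using hw
  have hzW : ∀ i, z i ∈ W := fun i => ⟨hz i, hφz i⟩
  let G : (x : Fin n → R) → (∀ i, x i ∈ W) → ((Fin n → ℂ) →ₗ[ℂ] Submodule.map Λ.mkQ W) :=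
    fun x hx =>
    { toFun := fun c => ⟨Λ.mkQ (∑ i, c i • x i), ⟨_, W.sum_mem fun i _ => W.smul_mem _ (hx i), rfl⟩⟩
      map_add' := by
        intro a b
        apply Subtype.ext
        show Λ.mkQ (∑ i, (a i + b i) • x i) = Λ.mkQ _ + Λ.mkQ _
        rw [← map_add, ← Finset.sum_add_distrib]
        simp only [add_smul]
      map_smul' := by
        intro c a
        apply Subtype.ext
        show Λ.mkQ (∑ i, (c * a i) • x i) = c • Λ.mkQ _
        rw [← map_smul, Finset.smul_sum]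
        simp only [smul_smul] }
  have hGw : Function.Surjective (G w hwW) := by
    intro y
    obtain ⟨c, hc⟩ := hA y
    refine ⟨c, ?_⟩
    rw [← hc]
    apply Subtype.ext
    show Λ.mkQ (∑ i, c i • w i) = _
    rw [map_sum]
    simp only [map_smul, hwe]
    have e : c = ∑ i, c i • (Pi.single i (1 : ℂ) : Fin n → ℂ) := by
      funext j
      simp [Finset.sum_apply, Pi.single_apply]
    conv_rhs => rw [e]
    rw [map_sum, Submodule.coe_sum]
    simp only [map_smul, Submodule.coe_smul]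
  have hbad1 := surj_cofinite (G w hwW) (G z hzW) hGw
  have hbad2 := coord_nak hres z w hz (fun i => (hW _ (hwW i)).1) k hk
  obtain ⟨t, ht⟩ := (((hbad1.union (hbad2.image fun s : ℂ => s⁻¹)).union
    (Set.finite_singleton (0 : ℂ)))).exists_notMem
  simp only [Set.mem_union, not_or, Set.mem_ofPred_eq, not_not, Set.mem_singleton_iff,
    Set.mem_image, not_exists, not_and] at ht
  obtain ⟨⟨ht1, ht2⟩, ht0⟩ := ht
  have ht3 : maximalIdeal R ^ (k + 1) ≤
      Ideal.span (Set.range fun i => z i + t⁻¹ • w i) * maximalIdeal R ^ k := by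
    by_contra h
    exact ht2 t⁻¹ h (inv_inv t)
  refine ⟨fun i => w i + t • z i, g, ?_, hg, ⟨k, ?_⟩, ?_⟩
  · intro i
    exact mC.add_mem (hW _ (hwW i)).1 (mC.smul_mem _ (hz i))
  · refine ht3.trans (Ideal.mul_mono_left ?_)
    rw [Ideal.span_le]
    rintro _ ⟨i, rfl⟩
    show z i + t⁻¹ • w i ∈ Ideal.span (Set.range fun i => w i + t • z i)
    have e : z i + t⁻¹ • w i = algebraMap ℂ R t⁻¹ * (w i + t • z i) := by
      rw [← Algebra.smul_def, smul_add, smul_smul, inv_mul_cancel₀ ht0, one_smul, add_comm]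
    rw [e]
    exact Ideal.mul_mem_left _ _ (Ideal.subset_span ⟨i, rfl⟩)
  · intro f hf
    have hu : f - φ f • g ∈ W := by
      refine ⟨mC.sub_mem hf (mC.smul_mem _ hg), ?_⟩
      show φ (f - φ f • g) = 0
      rw [map_sub, map_smul, hφg, smul_eq_mul, mul_one, sub_self]
    obtain ⟨c, hc⟩ := ht1 ⟨Λ.mkQ (f - φ f • g), ⟨_, hu, rfl⟩⟩
    have hc' : Λ.mkQ (∑ i, c i • w i) + t • Λ.mkQ (∑ i, c i • z i) = Λ.mkQ (f - φ f • g) :=
      congrArg Subtype.val hc
    refine ⟨c, φ f, ?_⟩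
    rw [← map_smul, ← map_add] at hc'
    have h7 := sub_eq_zero.2 hc'.symm
    rw [← map_sub] at h7
    have h8 := (Submodule.Quotient.mk_eq_zero _).1 h7
    have e : f - ∑ i, c i • (w i + t • z i) - φ f • g =
        f - φ f • g - (∑ i, c i • w i + t • ∑ i, c i • z i) := by
      rw [Finset.smul_sum, ← Finset.sum_add_distrib]
      have : ∀ i, c i • (w i + t • z i) = c i • w i + t • c i • z i := by
        intro i
        rw [smul_add, smul_comm t (c i)]
      simp only [this]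
      ring
    rw [e]
    exact h8

end Vale.Agent.P282.EQ
end

section

/-!
P282, equality case: every neighbourhood of `x` contains points over all `z` near the origin.
-/

open MeasureTheory Filter Topology

namespace Vale.Agent.P282.EQ

open Vale.Agent.P282.L2

variable {n N : ℕ} {K : Type} [Field K] [Algebra ℂ K] [Algebra (Pol n) K]
  [IsScalarTower ℂ (Pol n) K] [FaithfulSMul (Pol n) K]
  [Algebra (FractionRing (Pol n)) K] [IsScalarTower (Pol n) (FractionRing (Pol n)) K]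
  [FiniteDimensional (FractionRing (Pol n)) K]

/-- Elements which are `O(|z|^M)` near the fibre over the origin lie in `(z)`. -/
theorem ab_zI_of_bound {E : Prim n K} {S : Sheets n N} (hS : E.IsSheets S) : ∃ M : ℕ, 1 ≤ M ∧
    ∀ (g : IB n K) (C ε : ℝ), 0 ≤ C → 0 < ε →
      (∀ q ∈ S.M, ‖q.1‖ < ε → ‖q.1‖ ≤ 1 → ‖E.ev (g : K) q‖ ≤ C * ‖q.1‖ ^ M) → g ∈ zI n K := by
  have hδint : IsIntegral (Pol n)
      (Polynomial.aeval E.y (Polynomial.derivative (minpoly (Pol n) E.y))) :=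
    IsIntegral.of_mem_of_fg _ E.integral.fg_adjoin_singleton _
      (Polynomial.aeval_mem_adjoin_singleton (Pol n) E.y)
  obtain ⟨δ, hδ⟩ : ∃ δ : IB n K, (δ : K) =
    Polynomial.aeval E.y (Polynomial.derivative (minpoly (Pol n) E.y)) := ⟨⟨_, hδint⟩, rfl⟩
  have hδ0 : δ ≠ 0 := by
    intro h
    apply Prim.aeval_derivative_ne_zero (E := E)
    rw [← hδ, h]
    rfl
  obtain ⟨M0, hM0⟩ := Prim.pr_artinRees hδ0
  obtain ⟨M, hM1, hM⟩ : ∃ M : ℕ, 1 ≤ M ∧ ∀ g : IB n K, δ * g ∈ (zI n K) ^ M → g ∈ zI n K :=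
    ⟨max 1 M0, le_max_left _ _, fun g hg => hM0 g (Ideal.pow_le_pow_right (le_max_right _ _) hg)⟩
  refine ⟨M, hM1, fun g C ε hC hε hgb => ?_⟩
  have hbd : ∀ b : IB n K, ∃ C : ℝ, 0 ≤ C ∧ ∀ q ∈ S.M, ‖q.1‖ ≤ 1 → ‖E.ev (b : K) q‖ ≤ C := by
    intro b
    obtain ⟨C, hC, h⟩ := Prim.norm_le_of_mem_pow (M := 0) hS
      (show b ∈ (zI n K) ^ 0 by rw [pow_zero, Ideal.one_eq_top]; trivial)
    exact ⟨C, hC, fun q hq hq1 => by simpa using h q hq hq1⟩
  obtain ⟨c, -, hcint, hcexp, -, -, -⟩ := Prim.exists_dual_basis hS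
  have hti : ∀ i : ℕ, ∃ ti : Pol n,
      tr (n := n) ((g : K) * E.y ^ i) = algebraMap (Pol n) (FractionRing (Pol n)) ti ∧
      ti ∈ (Ideal.span (Set.range (MvPolynomial.X : Fin n → Pol n))) ^ M := by
    intro i
    obtain ⟨yB, hyB⟩ : ∃ yB : IB n K, (yB : K) = E.y := ⟨⟨E.y, E.integral⟩, rfl⟩
    obtain ⟨ti, hti, htiz⟩ := Prim.tr_ib hS (g * yB ^ i)
    refine ⟨ti, ?_, ?_⟩
    · rw [← hti]
      congr 1
      rw [← hyB]
      rfl
    · obtain ⟨Cy, hCy, hby⟩ := hbd (yB ^ i)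
      refine mem_pow_of_bound E.h0 ti M (C := N * (C * Cy)) (ε := min ε 1) (by positivity) ?_
      intro z hz hhz
      have hzV : z ∈ S.V := (hS.1 z).2 hhz
      have hz1 : ‖z‖ < ε := lt_of_lt_of_le hz (min_le_left _ _)
      have hz2 : ‖z‖ ≤ 1 := (lt_of_lt_of_le hz (min_le_right _ _)).le
      rw [htiz z hzV, Sheets.fsum]
      have h1 : ∀ w ∈ S.fib z, ‖E.ev ((g * yB ^ i : IB n K) : K) (z, w)‖ ≤
          C * Cy * ‖z‖ ^ M := by
        intro w hw
        have hq : ((z, w) : (Fin n → ℂ) × ℂ) ∈ S.M := ⟨hzV, hw⟩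
        have e1 : ((g * yB ^ i : IB n K) : K) = (g : K) * ((yB ^ i : IB n K) : K) := rfl
        rw [e1, Prim.ev_mul hS hq (Prim.isReg_ib _) (Prim.isReg_ib _), norm_mul]
        calc ‖E.ev (g : K) (z, w)‖ * ‖E.ev ((yB ^ i : IB n K) : K) (z, w)‖
            ≤ (C * ‖z‖ ^ M) * Cy :=
              mul_le_mul (hgb _ hq hz1 hz2) (hby _ hq hz2) (norm_nonneg _) (by positivity)
          _ = C * Cy * ‖z‖ ^ M := by ring
      refine (norm_sum_le _ _).trans ((Finset.sum_le_sum h1).trans ?_)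
      rw [Finset.sum_const, nsmul_eq_mul, Prim.du_card_sheets (S := S) hzV]
      apply le_of_eq
      ring
  refine hM g ?_
  choose ti hti1 hti2 using hti
  choose e he using fun i : Fin N => (⟨⟨_, hcint i⟩, rfl⟩ : ∃ e : IB n K, (e : K) =
    Polynomial.aeval E.y (Polynomial.derivative (minpoly (Pol n) E.y)) * c i)
  have h1 : δ * g = ∑ i : Fin N, algebraMap (Pol n) (IB n K) (ti i) * e i := by
    apply Subtype.ext
    push_cast
    rw [hδ, hcexp (g : K), Finset.mul_sum]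
    refine Finset.sum_congr rfl fun i _ => ?_
    rw [he i, hti1 i, ← IsScalarTower.algebraMap_apply]
    ring
  rw [h1]
  exact Ideal.sum_mem _ fun i _ => Ideal.mul_mem_right _ _ (Prim.pr_map_pow (hti2 i))

/-- Over every `z` near the origin there is a point of `M` near `x`. -/
theorem exists_above {E : Prim n K} {S : Sheets n N} (hS : E.IsSheets S) (x : Pt n K)
    {W : Set ((Fin n → ℂ) × ℂ)} (hW : W ∈ E.nhd S x) :
    ∃ ε > 0, ∀ z ∈ S.V, ‖z‖ < ε → ∃ w, (z, w) ∈ S.M ∧ (z, w) ∈ W := by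
  classical
  obtain ⟨M, hM1, hM⟩ := ab_zI_of_bound hS
  obtain ⟨s, hxs, hss, hloc⟩ := Prim.exists_local_idem hS x M
  obtain ⟨ε, hε, hloc⟩ := hloc W hW
  obtain ⟨t, -, htz⟩ := Prim.tr_ib hS (1 - s)
  obtain ⟨C1, hC1, hb1⟩ := Prim.norm_le_of_mem_pow hS hss
  -- values
  have hval : ∀ q ∈ S.M, E.ev ((1 - s : IB n K) : K) q = 1 - E.ev (s : K) q := by
    intro q hq
    have e1 : ((1 - s : IB n K) : K) = 1 - (s : K) := rfl
    rw [e1, Prim.ev_sub hS hq Prim.isReg_one (Prim.isReg_ib s), Prim.ev_one hS hq]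
  have hvals : ∀ q ∈ S.M, ‖q.1‖ ≤ 1 →
      ‖E.ev (s : K) q‖ * ‖1 - E.ev (s : K) q‖ ≤ C1 * ‖q.1‖ ^ M := by
    intro q hq hq1
    have e1 : ((s ^ 2 - s : IB n K) : K) = (s : K) ^ 2 - (s : K) := rfl
    have e2 : ‖E.ev (s : K) q‖ * ‖1 - E.ev (s : K) q‖ =
      ‖E.ev ((s ^ 2 - s : IB n K) : K) q‖ := by
      rw [e1, Prim.ev_sub hS hq ((Prim.isReg_ib s).pow 2) (Prim.isReg_ib s),
        Prim.ev_pow hS hq (Prim.isReg_ib s), ← norm_mul, ← norm_neg]
      congr 1
      ring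
    rw [e2]
    exact hb1 q hq hq1
  have hlow : ∀ q ∈ S.M, ‖q.1‖ ≤ 1 → ‖E.ev (s : K) q‖ < 1 / 2 →
      ‖1 - E.ev ((1 - s : IB n K) : K) q‖ ≤ 2 * C1 * ‖q.1‖ ^ M := by
    intro q hq hq1 hlt
    have h1 := hvals q hq hq1
    have h2 : 1 / 2 ≤ ‖1 - E.ev (s : K) q‖ := by
      have := norm_sub_norm_le (1 : ℂ) (E.ev (s : K) q)
      rw [norm_one] at this
      linarith
    rw [hval q hq, sub_sub_cancel]
    nlinarith [norm_nonneg (E.ev (s : K) q)]
  have hhigh : ∀ q ∈ S.M, ‖q.1‖ ≤ 1 → 1 / 2 ≤ ‖E.ev (s : K) q‖ →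
      ‖E.ev ((1 - s : IB n K) : K) q‖ ≤ 2 * C1 * ‖q.1‖ ^ M := by
    intro q hq hq1 hge
    have h1 := hvals q hq hq1
    rw [hval q hq]
    linarith only [mul_nonneg (sub_nonneg.2 hge) (sub_nonneg.2 (norm_nonneg (1 - E.ev (s : K) q))), mul_nonneg (mul_self_nonneg (1 : ℝ)) (sub_nonneg.2 h1)]
  by_contra hcon
  push Not at hcon
  -- the trace vanishes at the origin
  have hbad : ∀ z ∈ S.V, ‖z‖ < ε → ‖z‖ ≤ 1 → (∀ w, (z, w) ∈ S.M → (z, w) ∉ W) →
      ‖MvPolynomial.eval z t‖ ≤ N * (2 * C1 * ‖z‖ ^ M) := by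
    intro z hzV hzε hz1 hz
    rw [htz z hzV, Sheets.fsum]
    have h1 : ∀ w ∈ S.fib z, ‖E.ev ((1 - s : IB n K) : K) (z, w)‖ ≤ 2 * C1 * ‖z‖ ^ M := by
      intro w hw
      have hq : ((z, w) : (Fin n → ℂ) × ℂ) ∈ S.M := ⟨hzV, hw⟩
      refine hhigh _ hq hz1 ?_
      by_contra h
      push Not at h
      exact hz w hq (hloc _ hq hzε h)
    refine (norm_sum_le _ _).trans ((Finset.sum_le_sum h1).trans ?_)
    rw [Finset.sum_const, nsmul_eq_mul, Prim.du_card_sheets (S := S) hzV]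
  have hct : Tendsto (fun z : Fin n → ℂ => ‖MvPolynomial.eval z t‖) (𝓝 0)
      (𝓝 ‖MvPolynomial.eval 0 t‖) := ((evHol_cont t).norm).tendsto 0
  have hcN : Tendsto (fun z : Fin n → ℂ => (N : ℝ) * (2 * C1 * ‖z‖ ^ M)) (𝓝 0) (𝓝 0) := by
    have hc : Continuous fun z : Fin n → ℂ => (N : ℝ) * (2 * C1 * ‖z‖ ^ M) := by fun_prop
    have h := hc.tendsto 0
    rw [norm_zero, zero_pow (by omega), mul_zero, mul_zero] at h
    exact h
  have ht0 : MvPolynomial.eval 0 t = (0 : ℂ) := by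
    by_contra hne
    have hpos : 0 < ‖MvPolynomial.eval 0 t‖ := norm_pos_iff.2 hne
    have h1 : ∀ᶠ z in 𝓝 (0 : Fin n → ℂ), ‖MvPolynomial.eval 0 t‖ / 2 < ‖MvPolynomial.eval z t‖ :=
      hct.eventually (lt_mem_nhds (by linarith))
    have h2 : ∀ᶠ z in 𝓝 (0 : Fin n → ℂ), (N : ℝ) * (2 * C1 * ‖z‖ ^ M) <
        ‖MvPolynomial.eval 0 t‖ / 2 :=
      hcN.eventually (gt_mem_nhds (by linarith))
    obtain ⟨r, hr, hball⟩ := Metric.eventually_nhds_iff.1 (h1.and h2)
    obtain ⟨z, hzV, hzr, hz⟩ := hcon (min r (min ε 1)) (by positivity)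
    have h3 := hball (y := z) (by rw [dist_zero_right]; exact hzr.trans_le (min_le_left _ _))
    have h4 := hbad z hzV (hzr.trans_le ((min_le_right _ _).trans (min_le_left _ _)))
      (hzr.trans_le ((min_le_right _ _).trans (min_le_right _ _))).le hz
    linarith only [h3.2, h3.1, h4]
  -- no point near `x` at all
  have h1 : ∀ᶠ z in 𝓝 (0 : Fin n → ℂ), ‖MvPolynomial.eval z t‖ < 1 / 4 := by
    rw [ht0, norm_zero] at hct
    exact hct.eventually (gt_mem_nhds (by norm_num))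
  have h2 : ∀ᶠ z in 𝓝 (0 : Fin n → ℂ), (N : ℝ) * (2 * C1 * ‖z‖ ^ M) < 1 / 4 :=
    hcN.eventually (gt_mem_nhds (by norm_num))
  obtain ⟨r, hr, hball⟩ := Metric.eventually_nhds_iff.1 (h1.and h2)
  have hmem : (1 - s) ∈ zI n K := by
    refine hM (1 - s) (2 * C1) (min r ε) (by positivity) (by positivity) ?_
    intro q hq hqr hq1
    have hqV : q.1 ∈ S.V := hq.1
    refine hhigh q hq hq1 ?_
    by_contra hlt
    push Not at hlt
    have h3 := hball (y := q.1) (by rw [dist_zero_right]; exact hqr.trans_le (min_le_left _ _))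
    -- the number of points near `x`
    obtain ⟨A, hA⟩ : ∃ A : Finset ℂ, A = (S.fib q.1).filter
      (fun w => ‖E.ev (s : K) (q.1, w)‖ < 1 / 2) := ⟨_, rfl⟩
    have hqA : q.2 ∈ A := by
      rw [hA, Finset.mem_filter]
      exact ⟨hq.2, hlt⟩
    have hAc : (1 : ℝ) ≤ (A.card : ℝ) := by
      have : 0 < A.card := Finset.card_pos.2 ⟨_, hqA⟩
      exact_mod_cast this
    have h4 : MvPolynomial.eval q.1 t - (A.card : ℂ) = ∑ w ∈ S.fib q.1,
        (E.ev ((1 - s : IB n K) : K) (q.1, w) -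
          if ‖E.ev (s : K) (q.1, w)‖ < 1 / 2 then 1 else 0) := by
      rw [Finset.sum_sub_distrib, htz q.1 hqV, Sheets.fsum, hA]
      congr 1
      rw [Finset.sum_ite, Finset.sum_const_zero, add_zero, Finset.sum_const, nsmul_eq_mul, mul_one]
    have h5 : ∀ w ∈ S.fib q.1, ‖E.ev ((1 - s : IB n K) : K) (q.1, w) -
          if ‖E.ev (s : K) (q.1, w)‖ < 1 / 2 then 1 else 0‖ ≤ 2 * C1 * ‖q.1‖ ^ M := by
      intro w hw
      have hq' : ((q.1, w) : (Fin n → ℂ) × ℂ) ∈ S.M := ⟨hqV, hw⟩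
      split_ifs with h
      · rw [norm_sub_rev]
        exact hlow _ hq' hq1 h
      · rw [sub_zero]
        exact hhigh _ hq' hq1 (not_lt.1 h)
    have h6 : ‖MvPolynomial.eval q.1 t - (A.card : ℂ)‖ ≤ N * (2 * C1 * ‖q.1‖ ^ M) := by
      rw [h4]
      refine (norm_sum_le _ _).trans ((Finset.sum_le_sum h5).trans ?_)
      rw [Finset.sum_const, nsmul_eq_mul, Prim.du_card_sheets (S := S) hqV]
    have h7 : ‖(A.card : ℂ)‖ = (A.card : ℝ) := by
      rw [Complex.norm_natCast]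
    have h8 := norm_sub_norm_le (A.card : ℂ) (MvPolynomial.eval q.1 t)
    rw [h7, norm_sub_rev] at h8
    linarith only [h3.2, h3.1, h8, h6, hAc]
  have h3 := Prim.pr_x_zI x hmem
  rw [map_sub, map_one, hxs, sub_zero] at h3
  exact one_ne_zero h3

/-- Integrals of functions of `z` over neighbourhoods of `x` diverge. -/
theorem lintegral_above {E : Prim n K} {S : Sheets n N} (hS : E.IsSheets S) (x : Pt n K)
    {W : Set ((Fin n → ℂ) × ℂ)} (hW : W ∈ E.nhd S x) (ρ : (Fin n → ℂ) → ENNReal)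
    (hρ : ∀ ε > 0, ∫⁻ z in Metric.ball (0 : Fin n → ℂ) ε, ρ z = ⊤) :
    ∫⁻ q in W, ρ q.1 ∂S.μ = ⊤ := by
  classical
  -- shrink `W`
  obtain ⟨s, hxs, -, hloc⟩ := Prim.exists_local_idem hS x 1
  obtain ⟨ε, hε, hloc⟩ := hloc W hW
  obtain ⟨W0, hW0⟩ : ∃ W0 : Set ((Fin n → ℂ) × ℂ),
    W0 = {q | q ∈ S.M ∧ ‖q.1‖ < ε ∧ ‖E.ev (s : K) q‖ < 1 / 2} := ⟨_, rfl⟩
  have hW0W : W0 ⊆ W := by
    rw [hW0]
    rintro q ⟨h1, h2, h3⟩
    exact hloc q h1 h2 h3
  have hW0n : W0 ∈ E.nhd S x := by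
    have h1 : ∀ᶠ q in E.nhd S x, ‖q.1‖ < ε := by
      have h := (Prim.tendsto_fst_nhd hS x).norm
      rw [norm_zero] at h
      exact h.eventually (gt_mem_nhds hε)
    have h2 : ∀ᶠ q in E.nhd S x, ‖E.ev (s : K) q‖ < 1 / 2 := by
      have h := (Prim.tendsto_ev_nhd E S x s).norm
      rw [hxs, norm_zero] at h
      exact h.eventually (gt_mem_nhds (by norm_num))
    have h3 : ∀ᶠ q in E.nhd S x, q ∈ S.M := Prim.M_mem_nhd E S x
    rw [hW0]
    filter_upwards [h1, h2, h3] with q a b c using ⟨c, a, b⟩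
  have hW0m : NullMeasurableSet W0 S.μ := by
    have h1 : AEStronglyMeasurable (E.ev (s : K)) S.μ := by
      refine Sheets.aestronglyMeasurable_of_CD ?_
      intro V' σ hσ
      exact contDiffOn_zero.2 (Prim.holo_ev hS (Prim.isReg_ib s) V' σ hσ).continuousOn
    have h2 : NullMeasurableSet {q | ‖E.ev (s : K) q‖ < 1 / 2} S.μ :=
      nullMeasurableSet_lt h1.norm.aemeasurable aemeasurable_const
    have h3 : MeasurableSet {q : (Fin n → ℂ) × ℂ | ‖q.1‖ < ε} :=
      measurableSet_lt measurable_fst.norm measurable_const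
    have h4 : W0 = S.M ∩ ({q : (Fin n → ℂ) × ℂ | ‖q.1‖ < ε} ∩ {q | ‖E.ev (s : K) q‖ < 1 / 2}) := by
      rw [hW0]; rfl
    rw [h4]
    exact Sheets.measurableSet_M.nullMeasurableSet.inter (h3.nullMeasurableSet.inter h2)
  obtain ⟨r, hr, habove⟩ := exists_above hS x hW0n
  obtain ⟨g, hgm, hgle, hgint⟩ := exists_measurable_le_lintegral_eq
    (volume.restrict (Metric.ball (0 : Fin n → ℂ) r)) ρ
  rw [hρ r hr] at hgint
  rw [eq_top_iff]
  have hV0 : volume (S.Vᶜ) = 0 := by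
    have h1 : S.Vᶜ = {z : Fin n → ℂ | MvPolynomial.eval z E.h = 0} := by
      ext z
      rw [Set.mem_compl_iff, hS.1 z, not_not]
      rfl
    rw [h1]
    exact volume_zeros E.h0
  calc (⊤ : ENNReal) = ∫⁻ z in Metric.ball (0 : Fin n → ℂ) r, g z := hgint
    _ = ∫⁻ z, (Metric.ball (0 : Fin n → ℂ) r).indicator g z := by
        rw [lintegral_indicator Metric.isOpen_ball.measurableSet]
    _ = ∫⁻ z in S.V, (Metric.ball (0 : Fin n → ℂ) r).indicator g z := by
        rw [← lintegral_add_compl _ S.isOpen.measurableSet,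
          Measure.restrict_eq_zero.2 hV0, lintegral_zero_measure, add_zero]
    _ ≤ ∫⁻ z in S.V, ∑ w ∈ S.fib z, W0.indicator (fun q => g q.1) (z, w) := by
        refine setLIntegral_mono' S.isOpen.measurableSet fun z hz => ?_
        by_cases hzr : z ∈ Metric.ball (0 : Fin n → ℂ) r
        · rw [Set.indicator_of_mem hzr]
          obtain ⟨w, hwM, hwW⟩ := habove z hz (by simpa using hzr)
          have h1 : g z = W0.indicator (fun q : (Fin n → ℂ) × ℂ => g q.1) (z, w) := by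
            rw [Set.indicator_of_mem hwW]
          rw [h1]
          exact Finset.single_le_sum
            (f := fun w => W0.indicator (fun q : (Fin n → ℂ) × ℂ => g q.1) (z, w))
            (fun _ _ => zero_le) hwM.2
        · rw [Set.indicator_of_notMem hzr]
          exact zero_le
    _ = ∫⁻ q, W0.indicator (fun q : (Fin n → ℂ) × ℂ => g q.1) q ∂S.μ := by
        rw [Sheets.lintegral_μ']
        exact ((hgm.comp measurable_fst).aemeasurable).indicator₀ hW0m
    _ = ∫⁻ q in W0, g q.1 ∂S.μ := by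
        rw [lintegral_indicator₀ hW0m]
    _ ≤ ∫⁻ q in W, g q.1 ∂S.μ := lintegral_mono_set hW0W
    _ ≤ ∫⁻ q in W, ρ q.1 ∂S.μ := lintegral_mono fun q => hgle q.1

end Vale.Agent.P282.EQ
end

section

/-!
P282, equality case: the weighted bound, analytic part.
-/

open MeasureTheory Filter Topology

namespace Vale.Agent.P282.EQ

open Vale.Agent.P282.L2

variable {n N : ℕ} {K : Type} [Field K] [Algebra ℂ K] [Algebra (Pol n) K]
  [IsScalarTower ℂ (Pol n) K] [FaithfulSMul (Pol n) K]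
  [Algebra (FractionRing (Pol n)) K] [IsScalarTower (Pol n) (FractionRing (Pol n)) K]
  [FiniteDimensional (FractionRing (Pol n)) K]

/-- The weighted size of `z`, for linear coordinates with matrix `L`. -/
noncomputable def wrho (L : Matrix (Fin n) (Fin n) ℂ) (w : Fin n → ℕ) (z : Fin n → ℂ) : ℝ :=
  ⨆ i, ‖∑ j, L i j * z j‖ ^ ((w i : ℝ)⁻¹)

theorem bd_wrho_nonneg (L : Matrix (Fin n) (Fin n) ℂ) (w : Fin n → ℕ) (z : Fin n → ℂ) :
    0 ≤ wrho L w z :=
  Real.iSup_nonneg fun _ => Real.rpow_nonneg (norm_nonneg _) _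

theorem bd_le_wrho (L : Matrix (Fin n) (Fin n) ℂ) (w : Fin n → ℕ) (z : Fin n → ℂ) (i : Fin n) :
    ‖∑ j, L i j * z j‖ ^ ((w i : ℝ)⁻¹) ≤ wrho L w z :=
  le_ciSup (f := fun i => ‖∑ j, L i j * z j‖ ^ ((w i : ℝ)⁻¹)) (Set.finite_range _).bddAbove i

theorem bd_lam_le (L : Matrix (Fin n) (Fin n) ℂ) {w : Fin n → ℕ} (hw : ∀ i, 0 < w i)
    (z : Fin n → ℂ) (i : Fin n) : ‖∑ j, L i j * z j‖ ≤ wrho L w z ^ w i := by
  have h1 := pow_le_pow_left₀ (Real.rpow_nonneg (norm_nonneg _) _) (bd_le_wrho L w z i) (w i)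
  rwa [Real.rpow_inv_natCast_pow (norm_nonneg _) (hw i).ne'] at h1

theorem bd_cont_wrho (hn : 0 < n) (L : Matrix (Fin n) (Fin n) ℂ) (w : Fin n → ℕ) :
    Continuous (wrho L w) := by
  have : Nonempty (Fin n) := ⟨⟨0, hn⟩⟩
  have e : wrho L w = fun z => Finset.univ.sup' Finset.univ_nonempty
      (fun i => ‖∑ j, L i j * z j‖ ^ ((w i : ℝ)⁻¹)) := by
    funext z
    rw [Finset.sup'_univ_eq_ciSup, wrho]
  rw [e]
  refine Continuous.finset_sup'_apply _ fun i _ => ?_
  refine Continuous.rpow_const ?_ fun z => Or.inr (by positivity)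
  fun_prop

theorem bd_wrho_zero (hn : 0 < n) (L : Matrix (Fin n) (Fin n) ℂ) {w : Fin n → ℕ}
    (hw : ∀ i, 0 < w i) : wrho L w 0 = 0 := by
  have : Nonempty (Fin n) := ⟨⟨0, hn⟩⟩
  have h1 : ∀ i, ‖∑ j, L i j * (0 : Fin n → ℂ) j‖ ^ ((w i : ℝ)⁻¹) = 0 := by
    intro i
    have h2 : ((w i : ℝ)⁻¹) ≠ 0 := inv_ne_zero (Nat.cast_ne_zero.2 (hw i).ne')
    simp [Real.zero_rpow h2]
  rw [wrho]
  simp only [h1, ciSup_const]

/-- the scaling -/
theorem bd_scal {L : Matrix (Fin n) (Fin n) ℂ} (hL : L.det ≠ 0) {w : Fin n → ℕ}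
    (hw : ∀ i, 0 < w i) : ∃ T : (Fin n → ℂ) →L[ℂ] (Fin n → ℂ),
      LinearMap.det (T : (Fin n → ℂ) →ₗ[ℂ] (Fin n → ℂ)) = (1 / 2 : ℂ) ^ (∑ i, w i) ∧
      ∀ z, wrho L w (T z) = 1 / 2 * wrho L w z := by
  classical
  set D : Matrix (Fin n) (Fin n) ℂ := Matrix.diagonal fun i => (1 / 2 : ℂ) ^ w i with hD
  have hu : IsUnit L.det := hL.isUnit
  refine ⟨LinearMap.toContinuousLinearMap (Matrix.toLin' (L⁻¹ * D * L)), ?_, ?_⟩
  · rw [LinearMap.coe_toContinuousLinearMap, LinearMap.det_toLin', Matrix.det_mul, Matrix.det_mul,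
      Matrix.det_diagonal, mul_right_comm, ← Matrix.det_mul, Matrix.nonsing_inv_mul _ hu,
      Matrix.det_one, one_mul, Finset.prod_pow_eq_pow_sum]
  · intro z
    have h1 : ∀ i, ∑ j, L i j * (LinearMap.toContinuousLinearMap
        (Matrix.toLin' (L⁻¹ * D * L)) z) j = (1 / 2 : ℂ) ^ w i * ∑ j, L i j * z j := by
      intro i
      have h2 : (L.mulVec ((L⁻¹ * D * L).mulVec z)) i = (D.mulVec (L.mulVec z)) i := by
        rw [Matrix.mulVec_mulVec, Matrix.mulVec_mulVec, Matrix.mul_assoc L⁻¹ D L,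
          ← Matrix.mul_assoc L, Matrix.mul_nonsing_inv _ hu, Matrix.one_mul]
      have h3 : (D.mulVec (L.mulVec z)) i = (1 / 2 : ℂ) ^ w i * ∑ j, L i j * z j := by
        rw [hD, Matrix.mulVec_diagonal]
        rfl
      rw [← h3, ← h2]
      rfl
    rw [wrho, wrho, Real.mul_iSup_of_nonneg (by norm_num)]
    congr 1
    funext i
    rw [h1 i, norm_mul, norm_pow, Real.mul_rpow (by positivity) (norm_nonneg _)]
    congr 1
    rw [Real.pow_rpow_inv_natCast (norm_nonneg _) (hw i).ne']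
    simp

/-- small sublevel sets of the weighted size -/
theorem bd_sub {L : Matrix (Fin n) (Fin n) ℂ} (hL : L.det ≠ 0) {w : Fin n → ℕ}
    (hw : ∀ i, 0 < w i) {ε : ℝ} (hε : 0 < ε) : ∃ δ : ℝ, 0 < δ ∧
      {z | wrho L w z ≤ δ} ⊆ Metric.ball (0 : Fin n → ℂ) ε := by
  have hu : IsUnit L.det := hL.isUnit
  have hc : Continuous (fun y : Fin n → ℂ => L⁻¹.mulVec y) :=
    (Matrix.mulVecLin L⁻¹).continuous_of_finiteDimensional
  have h0 : L⁻¹.mulVec (0 : Fin n → ℂ) = 0 := Matrix.mulVec_zero _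
  obtain ⟨η, hη, h1⟩ := Metric.continuous_iff.1 hc 0 ε hε
  refine ⟨min 1 (η / 2), by positivity, fun z hz => ?_⟩
  have hz1 : wrho L w z ≤ 1 := le_trans hz (min_le_left _ _)
  have hz2 : wrho L w z ≤ η / 2 := le_trans hz (min_le_right _ _)
  have h2 : ‖L.mulVec z‖ ≤ η / 2 := by
    rw [pi_norm_le_iff_of_nonneg (by positivity)]
    intro i
    have h3 := bd_lam_le L hw z i
    have h4 : wrho L w z ^ w i ≤ wrho L w z ^ 1 :=
      pow_le_pow_of_le_one (bd_wrho_nonneg L w z) hz1 (hw i)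
    rw [pow_one] at h4
    exact h3.trans (h4.trans hz2)
  have h5 := h1 (L.mulVec z) (by rw [dist_zero_right]; linarith)
  rw [h0, Matrix.mulVec_mulVec, Matrix.nonsing_inv_mul _ hu, Matrix.one_mulVec] at h5
  exact h5

/-- The critical power of the weighted size is not integrable. -/
theorem lintegral_wrho (hn : 0 < n) {L : Matrix (Fin n) (Fin n) ℂ} (hL : L.det ≠ 0) {w : Fin n → ℕ}
    (hw : ∀ i, 0 < w i) {a : ℝ} (ha : 2 * (∑ i, (w i : ℝ)) ≤ a) {ε : ℝ} (hε : 0 < ε) :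
    ∫⁻ z in Metric.ball (0 : Fin n → ℂ) ε, ENNReal.ofReal (wrho L w z ^ (-a)) = ⊤ := by
  by_contra hfin
  obtain ⟨δ, hδ, hsub⟩ := bd_sub hL hw hε
  obtain ⟨T, hdet, hT⟩ := bd_scal hL hw
  set ρ := wrho L w with hρ
  have hρc : Continuous ρ := bd_cont_wrho hn L w
  set f : (Fin n → ℂ) → ENNReal := fun z => ENNReal.ofReal (ρ z ^ (-a)) with hf
  have hfm : Measurable f := (hρc.measurable.pow_const (-a)).ennreal_ofReal
  set B : Set (Fin n → ℂ) := {z | ρ z ≤ δ} with hB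
  set B' : Set (Fin n → ℂ) := {z | ρ z ≤ δ / 2} with hB'
  have mB : MeasurableSet B := (isClosed_le hρc continuous_const).measurableSet
  have mB' : MeasurableSet B' := (isClosed_le hρc continuous_const).measurableSet
  have hBfin : ∫⁻ z in B, f z ≠ ⊤ := fun h => hfin (top_le_iff.1 (h ▸ lintegral_mono_set hsub))
  set s : ℕ := ∑ i, w i with hs
  have hs1 : 0 < s := by
    have : Nonempty (Fin n) := ⟨⟨0, hn⟩⟩
    exact Finset.sum_pos (fun i _ => hw i) Finset.univ_nonempty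
  have ha0 : 0 < a := by
    have : (0 : ℝ) < ∑ i, (w i : ℝ) := by
      rw [← Nat.cast_sum]; exact_mod_cast hs1
    linarith
  -- real determinant
  set T' : (Fin n → ℂ) →ₗ[ℝ] (Fin n → ℂ) :=
    ((T.restrictScalars ℝ : (Fin n → ℂ) →L[ℝ] (Fin n → ℂ)) : (Fin n → ℂ) →ₗ[ℝ] (Fin n → ℂ)) with hT'
  have hdet' : LinearMap.det T' = (1 / 2 : ℝ) ^ (2 * s) := by
    rw [hT', det_restrictScalars_complex, hdet, norm_pow, ← pow_mul, mul_comm s 2]
    simp
  have hmap : Measure.map T' (volume : Measure (Fin n → ℂ)) =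
      ENNReal.ofReal ((2 : ℝ) ^ (2 * s)) • volume := by
    have h1 := Measure.map_linearMap_addHaar_eq_smul_addHaar (volume : Measure (Fin n → ℂ))
      (f := T') (by rw [hdet']; positivity)
    rw [h1, hdet']
    congr 2
    rw [abs_of_pos (by positivity), ← inv_pow]
    norm_num
  have hTm : Measurable (T' : (Fin n → ℂ) → (Fin n → ℂ)) := T.continuous.measurable
  have hTe : ∀ z, T' z = T z := fun z => rfl
  -- the scaling identity
  have key : ENNReal.ofReal ((2 : ℝ) ^ (2 * s)) * ∫⁻ z in B', f z =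
      ENNReal.ofReal ((2 : ℝ) ^ a) * ∫⁻ z in B, f z := by
    have h1 : ∫⁻ z, B'.indicator f z ∂(Measure.map T' volume) =
        ∫⁻ z, B'.indicator f (T' z) := lintegral_map (hfm.indicator mB') hTm
    rw [hmap, lintegral_smul_measure, lintegral_indicator mB'] at h1
    rw [smul_eq_mul] at h1
    rw [h1, ← lintegral_const_mul _ hfm, ← lintegral_indicator mB]
    refine lintegral_congr fun z => ?_
    by_cases hz : z ∈ B
    · have hz' : T' z ∈ B' := by
        rw [hB', Set.mem_ofPred_eq, hTe, hT]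
        have : ρ z ≤ δ := hz
        linarith only [this]
      rw [Set.indicator_of_mem hz, Set.indicator_of_mem hz', hf]
      simp only
      rw [← ENNReal.ofReal_mul (by positivity), hTe, hT, Real.mul_rpow (by norm_num)
        (bd_wrho_nonneg L w z)]
      congr 2
      rw [one_div, Real.inv_rpow (by norm_num), Real.rpow_neg (by norm_num), inv_inv]
    · have hz' : T' z ∉ B' := by
        intro h
        rw [hB', Set.mem_ofPred_eq, hTe, hT] at h
        exact hz (show ρ z ≤ δ by linarith)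
      rw [Set.indicator_of_notMem hz, Set.indicator_of_notMem hz']
  have hpow : ENNReal.ofReal ((2 : ℝ) ^ (2 * s)) ≤ ENNReal.ofReal ((2 : ℝ) ^ a) := by
    refine ENNReal.ofReal_le_ofReal ?_
    rw [← Real.rpow_natCast]
    refine Real.rpow_le_rpow_of_exponent_le (by norm_num) ?_
    rw [hs]
    push_cast
    exact ha
  have hle : ∫⁻ z in B, f z ≤ ∫⁻ z in B', f z := by
    have h1 : ENNReal.ofReal ((2 : ℝ) ^ (2 * s)) * ∫⁻ z in B, f z ≤
        ENNReal.ofReal ((2 : ℝ) ^ (2 * s)) * ∫⁻ z in B', f z := by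
      rw [key]
      exact mul_le_mul_left hpow _
    rwa [ENNReal.mul_le_mul_iff_right (by
      rw [Ne, ENNReal.ofReal_eq_zero, not_le]; positivity) ENNReal.ofReal_ne_top] at h1
  have hsub' : B' ⊆ B := fun z hz => le_trans (show ρ z ≤ δ / 2 from hz) (by linarith only [hδ])
  have hsplit : ∫⁻ z in B, f z = (∫⁻ z in B', f z) + ∫⁻ z in B \ B', f z := by
    have h1 := lintegral_inter_add_sdiff (μ := (volume : Measure (Fin n → ℂ))) f B mB'
    rw [Set.inter_eq_right.2 hsub'] at h1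
    exact h1.symm
  have hzero : ∫⁻ z in B \ B', f z = 0 := by
    have h1 : ∫⁻ z in B', f z ≠ ⊤ := fun h => hBfin (top_le_iff.1 (h ▸ lintegral_mono_set hsub'))
    rw [hsplit] at hle
    have h2 : (∫⁻ z in B', f z) + ∫⁻ z in B \ B', f z ≤ (∫⁻ z in B', f z) + 0 := by
      rwa [add_zero]
    exact le_antisymm ((ENNReal.add_le_add_iff_left h1).1 h2) bot_le
  rw [setLIntegral_eq_zero_iff (mB.diff mB') hfm] at hzero
  -- an open set
  set O : Set (Fin n → ℂ) := {z | δ / 2 < ρ z} ∩ {z | ρ z < δ} with hO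
  have hOo : IsOpen O := (isOpen_lt continuous_const hρc).inter (isOpen_lt hρc continuous_const)
  have hOne : O.Nonempty := by
    classical
    have hu : IsUnit L.det := hL.isUnit
    set i0 : Fin n := ⟨0, hn⟩
    set r : ℝ := 3 / 4 * δ with hr
    have hr0 : 0 < r := by positivity
    set y : Fin n → ℂ := Pi.single i0 ((r : ℂ) ^ w i0) with hy
    refine ⟨L⁻¹.mulVec y, ?_⟩
    have h1 : ∀ i, ∑ j, L i j * (L⁻¹.mulVec y) j = y i := by
      intro i
      have h2 : (L.mulVec (L⁻¹.mulVec y)) i = y i := by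
        rw [Matrix.mulVec_mulVec, Matrix.mul_nonsing_inv _ hu, Matrix.one_mulVec]
      exact h2
    have h3 : ρ (L⁻¹.mulVec y) = r := by
      have h4 : ∀ i, ‖∑ j, L i j * (L⁻¹.mulVec y) j‖ ^ ((w i : ℝ)⁻¹) =
          if i = i0 then r else 0 := by
        intro i
        rw [h1, hy]
        by_cases hi : i = i0
        · subst hi
          rw [if_pos rfl, Pi.single_eq_same, norm_pow, Complex.norm_real, Real.norm_eq_abs,
            abs_of_pos hr0, Real.pow_rpow_inv_natCast hr0.le (hw _).ne']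
        · rw [if_neg hi, Pi.single_eq_of_ne hi, norm_zero,
            Real.zero_rpow (inv_ne_zero (Nat.cast_ne_zero.2 (hw i).ne'))]
      have : Nonempty (Fin n) := ⟨i0⟩
      rw [hρ, wrho]
      simp only [h4]
      refine le_antisymm (ciSup_le fun i => ?_) ?_
      · split_ifs
        · exact le_rfl
        · exact hr0.le
      · have := le_ciSup (f := fun i : Fin n => if i = i0 then r else 0)
          (Set.finite_range _).bddAbove i0
        simpa using this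
    rw [hO]
    refine ⟨?_, ?_⟩
    · rw [Set.mem_ofPred_eq, h3, hr]; linarith only [hr0, hr]
    · rw [Set.mem_ofPred_eq, h3, hr]; linarith only [hr0, hr]
  have hOpos : 0 < volume O := hOo.measure_pos volume hOne
  have hOsub : O ⊆ B \ B' := by
    intro z hz
    have h1 : δ / 2 < ρ z := hz.1
    have h2 : ρ z < δ := hz.2
    exact ⟨h2.le, fun h => absurd (show ρ z ≤ δ / 2 from h) (not_le.2 h1)⟩
  have hOz : volume O = 0 := by
    have h1 : ∀ᵐ z ∂(volume : Measure (Fin n → ℂ)), z ∉ O := by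
      filter_upwards [hzero] with z hz hzO
      have h2 := hz (hOsub hzO)
      change ENNReal.ofReal (ρ z ^ (-a)) = 0 at h2
      rw [ENNReal.ofReal_eq_zero] at h2
      have h3 : 0 < ρ z := lt_trans (by positivity) hzO.1
      exact absurd h2 (not_le.2 (Real.rpow_pos_of_pos h3 _))
    have h2 := ae_iff.1 h1
    simpa using h2
  exact hOpos.ne' hOz


/-- size of a monomial -/
theorem bd_mono {n : ℕ} {W : Fin (n + 1) → ℕ} {v : Fin (n + 1) → ℂ} {Y ρ : ℝ}
    (hY : ‖v 0‖ ≤ Y) (hv : ∀ i : Fin n, ‖v i.succ‖ ≤ ρ ^ W i.succ) (e : Fin (n + 1) → ℕ) :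
    ‖∏ i, v i ^ e i‖ ≤ Y ^ e 0 * ρ ^ (∑ i : Fin n, W i.succ * e i.succ) := by
  rw [Fin.prod_univ_succ, norm_mul, norm_pow, norm_prod, ← Finset.prod_pow_eq_pow_sum]
  refine mul_le_mul (pow_le_pow_left₀ (norm_nonneg _) hY _) ?_
    (Finset.prod_nonneg fun i _ => norm_nonneg _) (pow_nonneg ((norm_nonneg _).trans hY) _)
  refine Finset.prod_le_prod (fun i _ => norm_nonneg _) fun i _ => ?_
  rw [norm_pow, pow_mul]
  exact pow_le_pow_left₀ (norm_nonneg _) (hv i) _

/-- size of a monomial -/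
theorem bd_mono' {n : ℕ} {W : Fin (n + 1) → ℕ} {v : Fin (n + 1) → ℂ} {C ρ : ℝ}
    (hv : ∀ i, ‖v i‖ ≤ C * ρ ^ W i) (e : Fin (n + 1) → ℕ) :
    ‖∏ i, v i ^ e i‖ ≤ C ^ (∑ i, e i) * ρ ^ (∑ i, W i * e i) := by
  rw [norm_prod, ← Finset.prod_pow_eq_pow_sum, ← Finset.prod_pow_eq_pow_sum,
    ← Finset.prod_mul_distrib]
  refine Finset.prod_le_prod (fun i _ => norm_nonneg _) fun i _ => ?_
  rw [norm_pow, pow_mul, ← mul_pow]
  exact pow_le_pow_left₀ (norm_nonneg _) (hv i) _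

/-- the Newton polygon estimate -/
theorem bd_core {n : ℕ} {F : MvPolynomial (Fin (n + 1)) ℂ} {W : Fin (n + 1) → ℕ}
    (hW : ∀ i, 0 < W i) {p : ℕ} (hp : MvPolynomial.coeff (Finsupp.single 0 p) F ≠ 0)
    (hD : ∀ e ∈ F.support, p * W 0 ≤ ∑ i, W i * e i) :
    ∃ T δ : ℝ, 1 ≤ T ∧ 0 < δ ∧ δ ≤ 1 ∧ ∀ (v : Fin (n + 1) → ℂ) (ρ : ℝ), 0 ≤ ρ → ρ ≤ δ →
      ‖v 0‖ ≤ δ → (∀ i : Fin n, ‖v i.succ‖ ≤ ρ ^ W i.succ) → MvPolynomial.eval v F = 0 →
      ‖v 0‖ ≤ T * ρ ^ W 0 := by
  set c0 := MvPolynomial.coeff (Finsupp.single 0 p) F with hc0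
  set A : ℝ := ∑ e ∈ F.support, ‖MvPolynomial.coeff e F‖ with hA
  have hA0 : 0 ≤ A := Finset.sum_nonneg fun _ _ => norm_nonneg _
  have hc : 0 < ‖c0‖ := norm_pos_iff.2 hp
  refine ⟨A / ‖c0‖ + 1, min 1 (‖c0‖ / (A + 1)), by linarith [div_nonneg hA0 hc.le],
    by positivity, min_le_left _ _, ?_⟩
  intro v ρ hρ0 hρ hv0 hv hF
  set T : ℝ := A / ‖c0‖ + 1 with hT
  set δ : ℝ := min 1 (‖c0‖ / (A + 1)) with hδ
  have hT1 : 1 ≤ T := by linarith [div_nonneg hA0 hc.le]
  have hδ0 : 0 < δ := by positivity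
  have hδ1 : δ ≤ 1 := min_le_left _ _
  by_contra hcon
  rw [not_le] at hcon
  set y := ‖v 0‖ with hy
  have hy0 : 0 < y := lt_of_le_of_lt (by positivity) hcon
  set μ : ℝ := max δ T⁻¹ with hμ
  have hμ0 : 0 < μ := lt_of_lt_of_le hδ0 (le_max_left _ _)
  have hAμ : A * μ < ‖c0‖ := by
    have h1 : A * δ < ‖c0‖ := by
      have h2 : δ ≤ ‖c0‖ / (A + 1) := min_le_right _ _
      have h3 : A * δ ≤ A * (‖c0‖ / (A + 1)) := mul_le_mul_of_nonneg_left h2 hA0
      have h4 : A * (‖c0‖ / (A + 1)) < ‖c0‖ := by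
        rw [mul_div_assoc', div_lt_iff₀ (by positivity)]
        linarith only [hc]
      linarith
    have h2 : A * T⁻¹ < ‖c0‖ := by
      rw [← div_eq_mul_inv, div_lt_iff₀ (by positivity), hT]
      have : ‖c0‖ * (A / ‖c0‖ + 1) = A + ‖c0‖ := by field_simp
      rw [this]
      linarith
    rcases max_choice δ T⁻¹ with h | h
    · rw [hμ, h]; exact h1
    · rw [hμ, h]; exact h2
  have hterm : ∀ e ∈ F.support, e ≠ Finsupp.single 0 p → ‖∏ i, v i ^ e i‖ ≤ y ^ p * μ := by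
    intro e he hne
    have h1 := bd_mono (W := W) (le_refl ‖v 0‖) hv e
    rw [← hy] at h1
    refine h1.trans ?_
    have hDe := hD e he
    rw [Fin.sum_univ_succ] at hDe
    set m := ∑ i : Fin n, W i.succ * e i.succ with hm
    have hρ1 : ρ ≤ 1 := hρ.trans hδ1
    have hy1 : y ≤ 1 := hv0.trans hδ1
    rcases lt_trichotomy (e 0) p with h2 | h2 | h2
    · -- e 0 < p
      obtain ⟨d, hd⟩ : ∃ d, p = e 0 + d := ⟨p - e 0, by omega⟩
      have hd0 : 0 < d := by omega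
      have h3 : W 0 * d ≤ m := by
        have : (e 0 + d) * W 0 ≤ W 0 * e 0 + m := by rw [← hd]; exact hDe
        nlinarith
      have h4 : ρ ^ m ≤ (ρ ^ W 0) ^ d := by
        rw [← pow_mul]
        exact pow_le_pow_of_le_one hρ0 hρ1 h3
      have h5 : ρ ^ W 0 ≤ y / T := by
        rw [le_div_iff₀ (by positivity), mul_comm]
        exact hcon.le
      have h6 : (ρ ^ W 0) ^ d ≤ (y / T) ^ d := pow_le_pow_left₀ (by positivity) h5 d
      have h7 : (y / T) ^ d ≤ y ^ d * T⁻¹ := by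
        rw [div_pow, div_eq_mul_inv]
        refine mul_le_mul_of_nonneg_left ?_ (by positivity)
        rw [← inv_pow]
        have h8 : T⁻¹ ^ d ≤ T⁻¹ ^ 1 :=
          pow_le_pow_of_le_one (by positivity) (inv_le_one_of_one_le₀ hT1) hd0
        rwa [pow_one] at h8
      have h9 : y ^ e 0 * ρ ^ m ≤ y ^ e 0 * (y ^ d * T⁻¹) :=
        mul_le_mul_of_nonneg_left (h4.trans (h6.trans h7)) (by positivity)
      refine h9.trans ?_
      rw [← mul_assoc, ← pow_add, ← hd]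
      exact mul_le_mul_of_nonneg_left (le_max_right _ _) (by positivity)
    · -- e 0 = p
      have h3 : 1 ≤ m := by
        by_contra hm0
        have hm1 : m = 0 := by omega
        apply hne
        rw [hm, Finset.sum_eq_zero_iff] at hm1
        ext i
        refine Fin.cases ?_ (fun j => ?_) i
        · rw [Finsupp.single_eq_same, h2]
        · have h4 := hm1 j (Finset.mem_univ _)
          have h5 : e j.succ = 0 := by
            rcases Nat.mul_eq_zero.1 h4 with h | h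
            · exact absurd h (hW _).ne'
            · exact h
          rw [h5, Finsupp.single_apply, if_neg (Fin.succ_ne_zero j).symm]
      have h4 : ρ ^ m ≤ μ := by
        have h5 : ρ ^ m ≤ ρ ^ 1 := pow_le_pow_of_le_one hρ0 hρ1 h3
        rw [pow_one] at h5
        exact h5.trans (hρ.trans (le_max_left _ _))
      rw [h2]
      exact mul_le_mul_of_nonneg_left h4 (by positivity)
    · -- p < e 0
      have h3 : y ^ e 0 ≤ y ^ (p + 1) := pow_le_pow_of_le_one hy0.le hy1 h2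
      have h4 : ρ ^ m ≤ 1 := pow_le_one₀ hρ0 hρ1
      have h5 : y ^ e 0 * ρ ^ m ≤ y ^ (p + 1) * 1 :=
        mul_le_mul h3 h4 (by positivity) (by positivity)
      refine h5.trans ?_
      rw [mul_one, pow_succ]
      exact mul_le_mul_of_nonneg_left (hv0.trans (le_max_left _ _)) (by positivity)
  classical
  have hmem : Finsupp.single 0 p ∈ F.support := MvPolynomial.mem_support_iff.2 hp
  rw [MvPolynomial.eval_eq', ← Finset.add_sum_erase _ _ hmem] at hF
  have hprod : ∏ i, v i ^ (Finsupp.single (0 : Fin (n + 1)) p) i = v 0 ^ p := by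
    rw [Fin.prod_univ_succ, Finsupp.single_eq_same, Finset.prod_eq_one, mul_one]
    intro i _
    rw [Finsupp.single_apply, if_neg (Fin.succ_ne_zero i).symm, pow_zero]
  rw [hprod] at hF
  have h1 : ‖c0‖ * y ^ p ≤ A * (y ^ p * μ) := by
    have h2 : MvPolynomial.coeff (Finsupp.single 0 p) F * v 0 ^ p =
        -∑ e ∈ F.support.erase (Finsupp.single 0 p), MvPolynomial.coeff e F * ∏ i, v i ^ e i :=
      eq_neg_of_add_eq_zero_left hF
    have h3 := congrArg norm h2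
    rw [norm_mul, norm_pow, norm_neg, ← hc0, ← hy] at h3
    rw [h3]
    refine (norm_sum_le _ _).trans ?_
    have h4 : ∑ e ∈ F.support.erase (Finsupp.single 0 p),
        ‖MvPolynomial.coeff e F * ∏ i, v i ^ e i‖ ≤
        ∑ e ∈ F.support.erase (Finsupp.single 0 p), ‖MvPolynomial.coeff e F‖ * (y ^ p * μ) := by
      refine Finset.sum_le_sum fun e he => ?_
      rw [norm_mul]
      exact mul_le_mul_of_nonneg_left (hterm e (Finset.mem_of_mem_erase he)
        (Finset.ne_of_mem_erase he)) (norm_nonneg _)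
    refine h4.trans ?_
    rw [← Finset.sum_mul, hA]
    refine mul_le_mul_of_nonneg_right ?_ (by (clear * - hy0 hp; positivity))
    exact Finset.sum_le_sum_of_subset_of_nonneg (Finset.erase_subset _ _)
      fun _ _ _ => norm_nonneg _
  have hyp : 0 < y ^ p := by positivity
  linarith only [mul_pos (sub_pos.2 hAμ) (sub_pos.2 hyp), mul_nonneg (le_of_lt (sub_pos.2 hy0)) (sub_nonneg.2 h1), mul_nonneg (sub_nonneg.2 hv0) (sub_nonneg.2 h1), mul_nonneg (sub_nonneg.2 hδ1) (sub_nonneg.2 h1)]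

/-- the derivative -/
theorem bd_core2 {n : ℕ} {F : MvPolynomial (Fin (n + 1)) ℂ} {W : Fin (n + 1) → ℕ} {p : ℕ}
    (hp1 : 0 < p) (hD : ∀ e ∈ F.support, p * W 0 ≤ ∑ i, W i * e i) {C : ℝ} (hC : 0 ≤ C) :
    ∃ A : ℝ, 0 ≤ A ∧ ∀ (v : Fin (n + 1) → ℂ) (ρ : ℝ), 0 ≤ ρ → ρ ≤ 1 →
      (∀ i, ‖v i‖ ≤ C * ρ ^ W i) →
      ‖MvPolynomial.eval v (MvPolynomial.pderiv 0 F)‖ ≤ A * ρ ^ ((p - 1) * W 0) := by
  refine ⟨∑ e ∈ F.support, ‖MvPolynomial.coeff e F * (e 0 : ℂ)‖ *
    C ^ (∑ i, (e - Finsupp.single 0 1 : Fin (n + 1) →₀ ℕ) i),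
    Finset.sum_nonneg fun _ _ => by positivity, ?_⟩
  intro v ρ hρ0 hρ1 hv
  have h1 : MvPolynomial.pderiv 0 F = ∑ e ∈ F.support,
      MvPolynomial.monomial (e - Finsupp.single 0 1) (MvPolynomial.coeff e F * (e 0 : ℂ)) := by
    conv_lhs => rw [MvPolynomial.as_sum F, map_sum]
    refine Finset.sum_congr rfl fun e _ => ?_
    rw [MvPolynomial.pderiv_monomial]
  rw [h1, map_sum, Finset.sum_mul]
  refine (norm_sum_le _ _).trans (Finset.sum_le_sum fun e he => ?_)
  rw [MvPolynomial.eval_monomial, norm_mul, mul_assoc]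
  rcases Nat.eq_zero_or_pos (e 0) with h0 | h0
  · rw [h0, Nat.cast_zero, mul_zero, norm_zero, zero_mul, zero_mul]
  refine mul_le_mul_of_nonneg_left ?_ (norm_nonneg _)
  rw [Finsupp.prod_fintype _ _ (fun i => pow_zero _)]
  refine (bd_mono' hv _).trans ?_
  refine mul_le_mul_of_nonneg_left ?_ (by positivity)
  refine pow_le_pow_of_le_one hρ0 hρ1 ?_
  have h2 := hD e he
  rw [Fin.sum_univ_succ] at h2
  rw [Fin.sum_univ_succ]
  have h3 : (e - Finsupp.single 0 1 : Fin (n + 1) →₀ ℕ) 0 = e 0 - 1 := by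
    rw [Finsupp.tsub_apply, Finsupp.single_eq_same]
  have h4 : ∀ i : Fin n, (e - Finsupp.single 0 1 : Fin (n + 1) →₀ ℕ) i.succ = e i.succ := by
    intro i
    rw [Finsupp.tsub_apply, Finsupp.single_apply, if_neg (Fin.succ_ne_zero i).symm, Nat.sub_zero]
  simp only [h3, h4]
  obtain ⟨p', rfl⟩ : ∃ p', p = p' + 1 := ⟨p - 1, by omega⟩
  obtain ⟨f, hf⟩ : ∃ f, e 0 = f + 1 := ⟨e 0 - 1, by omega⟩
  rw [hf] at h2 ⊢
  rw [Nat.add_sub_cancel, Nat.add_sub_cancel]
  nlinarith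


section nbhd

set_option linter.unusedSectionVars false
set_option linter.unusedVariables false

variable {E : Prim n K} {S : Sheets n N} {x : Pt n K}

/-- values of the linear coordinates -/
theorem bd_ev_succ (hS : E.IsSheets S) {u : Fin (n + 1) → IB n K}
    {L : Matrix (Fin n) (Fin n) ℂ} (hu : ∀ i : Fin n, u i.succ =
      algebraMap (Pol n) (IB n K) (∑ j, MvPolynomial.C (L i j) * MvPolynomial.X j))
    {q : (Fin n → ℂ) × ℂ} (hq : q ∈ S.M) (i : Fin n) :
    E.ev (u i.succ : K) q = ∑ j, L i j * q.1 j := by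
  rw [hu i, Prim.nbh_coe_alg, Prim.ev_alg hS hq, map_sum]
  refine Finset.sum_congr rfl fun j _ => ?_
  rw [map_mul, MvPolynomial.eval_C, MvPolynomial.eval_X]

/-- evaluation of polynomials in elements of the integral closure -/
theorem bd_ev_aeval (hS : E.IsSheets S) {q : (Fin n → ℂ) × ℂ} (hq : q ∈ S.M)
    (u : Fin (n + 1) → IB n K) (G : MvPolynomial (Fin (n + 1)) ℂ) :
    E.ev ((MvPolynomial.aeval u G : IB n K) : K) q =
      MvPolynomial.eval (fun i => E.ev (u i : K) q) G := by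
  obtain ⟨φ, hφ⟩ := Prim.exists_evHom hS hq
  rw [← hφ, MvPolynomial.map_aeval]
  have h1 : φ.comp (algebraMap ℂ (IB n K)) = RingHom.id ℂ := by
    ext1 c
    rw [RingHom.comp_apply, hφ, RingHom.id_apply]
    exact Prim.ev_const hS hq c
  rw [h1]
  have h2 : (fun i => φ (u i)) = fun i => E.ev (u i : K) q := funext fun i => hφ (u i)
  rw [h2]
  rfl

theorem bd_tendsto_wrho (hS : E.IsSheets S) (x : Pt n K) (hn : 0 < n)
    (L : Matrix (Fin n) (Fin n) ℂ) {w : Fin n → ℕ} (hw : ∀ i, 0 < w i) :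
    Tendsto (fun q : (Fin n → ℂ) × ℂ => wrho L w q.1) (E.nhd S x) (𝓝 0) := by
  have h1 := (bd_cont_wrho hn L w).tendsto 0
  rw [bd_wrho_zero hn L hw] at h1
  exact h1.comp (Prim.tendsto_fst_nhd hS x)

theorem bd_wrho_le (hS : E.IsSheets S) (x : Pt n K) (hn : 0 < n)
    (L : Matrix (Fin n) (Fin n) ℂ) {w : Fin n → ℕ} (hw : ∀ i, 0 < w i) {δ : ℝ} (hδ : 0 < δ) :
    ∀ᶠ q in E.nhd S x, wrho L w q.1 ≤ δ := by
  filter_upwards [(bd_tendsto_wrho hS x hn L hw).eventually (gt_mem_nhds hδ)] with q hq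
  exact le_of_lt hq

theorem bd_ev_bdd (E : Prim n K) (S : Sheets n N) (x : Pt n K) (b : IB n K) :
    ∀ᶠ q in E.nhd S x, ‖E.ev (b : K) q‖ ≤ ‖x.toFun b‖ + 1 := by
  have h1 := (Prim.tendsto_ev_nhd E S x b).norm
  filter_upwards [h1.eventually (gt_mem_nhds (lt_add_one ‖x.toFun b‖))] with q hq
  exact le_of_lt hq

/-- The size of the coordinates near `x`. -/
theorem norm_coord_le {E : Prim n K} {S : Sheets n N} (hS : E.IsSheets S) {x : Pt n K} {J : K}
    {u : Fin (n + 1) → IB n K} {F : MvPolynomial (Fin (n + 1)) ℂ} (h : Hyp x J u F)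
    {L : Matrix (Fin n) (Fin n) ℂ} (hL : L.det ≠ 0) (hu : ∀ i : Fin n, u i.succ =
      algebraMap (Pol n) (IB n K) (∑ j, MvPolynomial.C (L i j) * MvPolynomial.X j))
    {W : Fin (n + 1) → ℕ} (hW : ∀ i, 0 < W i) {p : ℕ}
    (hp : MvPolynomial.coeff (Finsupp.single 0 p) F ≠ 0)
    (hD : ∀ e ∈ F.support, p * W 0 ≤ ∑ i, W i * e i) (hn : 0 < n) :
    ∃ C : ℝ, ∀ᶠ q in E.nhd S x, ∀ i, ‖E.ev (u i : K) q‖ ≤
      C * wrho L (fun i => W i.succ) q.1 ^ (W i : ℝ) := by
  obtain ⟨T, δ, hT, hδ, hδ1, key⟩ := bd_core hW hp hD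
  refine ⟨T, ?_⟩
  have hW' : ∀ i : Fin n, 0 < (fun i : Fin n => W i.succ) i := fun i => hW _
  have h0 : Tendsto (E.ev (u 0 : K)) (E.nhd S x) (𝓝 0) := by
    have := Prim.tendsto_ev_nhd E S x (u 0)
    rwa [h.zero] at this
  have h0' : ∀ᶠ q in E.nhd S x, ‖E.ev (u 0 : K) q‖ ≤ δ := by
    have h1 := h0.norm
    rw [norm_zero] at h1
    filter_upwards [h1.eventually (gt_mem_nhds hδ)] with q hq using le_of_lt hq
  filter_upwards [Prim.M_mem_nhd E S x, bd_wrho_le hS x hn L hW' hδ, h0'] with q hq h2 h3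
  have hlam : ∀ i : Fin n, ‖E.ev (u i.succ : K) q‖ ≤ wrho L (fun i => W i.succ) q.1 ^ W i.succ := by
    intro i
    rw [bd_ev_succ hS hu hq i]
    exact bd_lam_le L hW' q.1 i
  have hF : MvPolynomial.eval (fun i => E.ev (u i : K) q) F = 0 := by
    rw [← bd_ev_aeval hS hq, h.eq]
    exact Prim.ev_zero hS hq
  have h4 := key (fun i => E.ev (u i : K) q) (wrho L (fun i => W i.succ) q.1)
    (bd_wrho_nonneg _ _ _) h2 h3 hlam hF
  intro i
  rw [Real.rpow_natCast]
  refine Fin.cases h4 (fun j => ?_) i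
  have h5 : 0 ≤ wrho L (fun i => W i.succ) q.1 ^ W j.succ :=
    pow_nonneg (bd_wrho_nonneg _ _ _) _
  refine (hlam j).trans ?_
  (by_contra nlg; linarith only [nlg, mul_nonneg (sub_nonneg.2 hT) (sub_nonneg.2 h5), mul_nonneg (le_of_lt (sub_pos.2 (not_le.1 nlg))) (sub_nonneg.2 hδ1), mul_pos (sub_pos.2 (not_le.1 nlg)) (sub_pos.2 hδ)])

/-- a nonnegative constant -/
theorem bd_coord {E : Prim n K} {S : Sheets n N} (hS : E.IsSheets S) {x : Pt n K} {J : K}
    {u : Fin (n + 1) → IB n K} {F : MvPolynomial (Fin (n + 1)) ℂ} (h : Hyp x J u F)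
    {L : Matrix (Fin n) (Fin n) ℂ} (hL : L.det ≠ 0) (hu : ∀ i : Fin n, u i.succ =
      algebraMap (Pol n) (IB n K) (∑ j, MvPolynomial.C (L i j) * MvPolynomial.X j))
    {W : Fin (n + 1) → ℕ} (hW : ∀ i, 0 < W i) {p : ℕ}
    (hp : MvPolynomial.coeff (Finsupp.single 0 p) F ≠ 0)
    (hD : ∀ e ∈ F.support, p * W 0 ≤ ∑ i, W i * e i) (hn : 0 < n) :
    ∃ C : ℝ, 0 ≤ C ∧ ∀ᶠ q in E.nhd S x, ∀ i, ‖E.ev (u i : K) q‖ ≤
      C * wrho L (fun i => W i.succ) q.1 ^ W i := by
  obtain ⟨C, hC⟩ := norm_coord_le hS h hL hu hW hp hD hn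
  refine ⟨max C 0, le_max_right _ _, ?_⟩
  filter_upwards [hC] with q hq i
  have h1 := hq i
  rw [Real.rpow_natCast] at h1
  refine h1.trans (mul_le_mul_of_nonneg_right (le_max_left _ _) ?_)
  exact pow_nonneg (bd_wrho_nonneg _ _ _) _

/-- The size of the Jacobian near `x`. -/
theorem norm_jac_le {E : Prim n K} {S : Sheets n N} (hS : E.IsSheets S) {x : Pt n K} {J : K}
    (hJ : IsIntegral (Pol n) J)
    {u : Fin (n + 1) → IB n K} {F : MvPolynomial (Fin (n + 1)) ℂ} (h : Hyp x J u F)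
    {L : Matrix (Fin n) (Fin n) ℂ} (hL : L.det ≠ 0) (hu : ∀ i : Fin n, u i.succ =
      algebraMap (Pol n) (IB n K) (∑ j, MvPolynomial.C (L i j) * MvPolynomial.X j))
    {W : Fin (n + 1) → ℕ} (hW : ∀ i, 0 < W i) {p : ℕ} (hp1 : 0 < p)
    (hp : MvPolynomial.coeff (Finsupp.single 0 p) F ≠ 0)
    (hD : ∀ e ∈ F.support, p * W 0 ≤ ∑ i, W i * e i) (hn : 0 < n) :
    ∃ C : ℝ, ∀ᶠ q in E.nhd S x, ‖E.ev J q‖ ≤
      C * wrho L (fun i => W i.succ) q.1 ^ ((p : ℝ) * W 0 - W 0) := by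
  obtain ⟨C, hC0, hC⟩ := bd_coord hS h hL hu hW hp hD hn
  obtain ⟨A, hA0, hA⟩ := bd_core2 (F := F) hp1 hD hC0
  obtain ⟨s, c, hs, hsc⟩ := h.jac
  have hs0 : 0 < ‖x.toFun s‖ := norm_pos_iff.2 hs
  have hW' : ∀ i : Fin n, 0 < (fun i : Fin n => W i.succ) i := fun i => hW _
  have hslow : ∀ᶠ q in E.nhd S x, ‖x.toFun s‖ / 2 ≤ ‖E.ev (s : K) q‖ := by
    have h1 := (Prim.tendsto_ev_nhd E S x s).norm
    filter_upwards [h1.eventually (lt_mem_nhds (half_lt_self hs0))] with q hq using le_of_lt hq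
  refine ⟨2 * ((‖x.toFun c‖ + 1) * A) / ‖x.toFun s‖, ?_⟩
  have hexp : (p : ℝ) * W 0 - W 0 = (((p - 1) * W 0 : ℕ) : ℝ) := by
    rw [Nat.cast_mul, Nat.cast_sub hp1]
    push_cast
    ring
  filter_upwards [Prim.M_mem_nhd E S x, hC, hslow, bd_ev_bdd E S x c,
    bd_wrho_le hS x hn L hW' zero_lt_one] with q hq h1 h2 h3 h4
  have h5 := hA (fun i => E.ev (u i : K) q) _ (bd_wrho_nonneg _ _ _) h4 h1
  rw [← bd_ev_aeval hS hq] at h5
  have h6 : E.ev (s : K) q * E.ev J q = E.ev (c : K) q *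
      E.ev ((MvPolynomial.aeval u (MvPolynomial.pderiv 0 F) : IB n K) : K) q := by
    rw [← Prim.ev_mul hS hq (Prim.isReg_ib s) (Prim.isReg_of_integral hJ), hsc,
      Prim.ev_mul hS hq (Prim.isReg_ib c) (Prim.isReg_ib _)]
  have h7 := congrArg norm h6
  rw [norm_mul, norm_mul] at h7
  rw [hexp, Real.rpow_natCast, div_mul_eq_mul_div, le_div_iff₀ hs0]
  set R := wrho L (fun i => W i.succ) q.1 ^ ((p - 1) * W 0) with hR
  have hR0 : 0 ≤ R := pow_nonneg (bd_wrho_nonneg _ _ _) _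
  have h8 : ‖E.ev (c : K) q‖ * ‖E.ev ((MvPolynomial.aeval u (MvPolynomial.pderiv 0 F) : IB n K) : K) q‖
      ≤ (‖x.toFun c‖ + 1) * (A * R) := mul_le_mul h3 h5 (norm_nonneg _) (by positivity)
  have h9 : ‖x.toFun s‖ / 2 * ‖E.ev J q‖ ≤ ‖E.ev (s : K) q‖ * ‖E.ev J q‖ :=
    mul_le_mul_of_nonneg_right h2 (norm_nonneg _)
  linarith [mul_assoc (‖x.toFun c‖ + 1) A R]

/-- measurability of the values -/
theorem bd_meas_pev (f : Polynomial (Pol n)) : Measurable (pev f) := by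
  induction f using Polynomial.induction_on' with
  | add f g hf hg =>
    have e : pev (f + g) = fun q => pev f q + pev g q := funext fun q => evHol_pev_add f g q
    rw [e]
    exact hf.add hg
  | monomial k a =>
    have e : pev (Polynomial.monomial k a) = fun q : (Fin n → ℂ) × ℂ =>
      MvPolynomial.eval q.1 a * q.2 ^ k := funext fun q => evHol_pev_monomial k a q
    rw [e]
    exact ((MvPolynomial.continuous_eval a).measurable.comp measurable_fst).mul
      (measurable_snd.pow_const k)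

theorem bd_meas_ev (E : Prim n K) (a : K) : Measurable (E.ev a) := by
  by_cases h : E.IsReg a
  · have e : E.ev a = fun q => pev h.choose q /
        (MvPolynomial.eval q.1 E.h) ^ h.choose_spec.choose := by
      funext q
      rw [Prim.ev, dif_pos h]
    rw [e]
    exact (bd_meas_pev _).div
      (((MvPolynomial.continuous_eval E.h).measurable.comp measurable_fst).pow_const _)
  · have e : E.ev a = fun _ => 0 := by
      funext q
      rw [Prim.ev, dif_neg h]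
    rw [e]
    exact measurable_const

/-- measurable neighbourhoods -/
theorem bd_basis (hS : E.IsSheets S) (x : Pt n K) {A : Set ((Fin n → ℂ) × ℂ)}
    (hA : A ∈ E.nhd S x) : ∃ V' ⊆ A, V' ∈ E.nhd S x ∧ MeasurableSet V' := by
  obtain ⟨s, hs0, -, hs⟩ := Prim.exists_local_idem hS x 1
  obtain ⟨ε, hε, hsub⟩ := hs A hA
  refine ⟨S.M ∩ ({q | ‖q.1‖ < ε} ∩ {q | ‖E.ev (s : K) q‖ < 1 / 2}),
    fun q hq => hsub q hq.1 hq.2.1 hq.2.2, ?_, ?_⟩
  · have h1 := (Prim.tendsto_fst_nhd hS x).norm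
    rw [norm_zero] at h1
    have h2 := (Prim.tendsto_ev_nhd E S x s).norm
    rw [hs0, norm_zero] at h2
    exact inter_mem (Prim.M_mem_nhd E S x) (inter_mem (h1.eventually (gt_mem_nhds hε))
      (h2.eventually (gt_mem_nhds (by norm_num))))
  · refine Sheets.measurableSet_M.inter ?_
    exact (measurableSet_lt measurable_fst.norm measurable_const).inter
      (measurableSet_lt (bd_meas_ev E _).norm measurable_const)

/-- size of the elements of the weighted ideals -/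
theorem bd_wIdeal (hS : E.IsSheets S) {J : K}
    {u : Fin (n + 1) → IB n K} {F : MvPolynomial (Fin (n + 1)) ℂ} (h : Hyp x J u F)
    {L : Matrix (Fin n) (Fin n) ℂ} (hL : L.det ≠ 0) (hu : ∀ i : Fin n, u i.succ =
      algebraMap (Pol n) (IB n K) (∑ j, MvPolynomial.C (L i j) * MvPolynomial.X j))
    {W : Fin (n + 1) → ℕ} (hW : ∀ i, 0 < W i) {p : ℕ}
    (hp : MvPolynomial.coeff (Finsupp.single 0 p) F ≠ 0)
    (hD : ∀ e ∈ F.support, p * W 0 ≤ ∑ i, W i * e i) (hn : 0 < n) {k : ℕ} {b : IB n K}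
    (hb : b ∈ wIdeal u W k) :
    ∃ C : ℝ, 0 ≤ C ∧ ∀ᶠ q in E.nhd S x, ‖E.ev (b : K) q‖ ≤
      C * wrho L (fun i => W i.succ) q.1 ^ k := by
  obtain ⟨C, hC0, hC⟩ := bd_coord hS h hL hu hW hp hD hn
  have hW' : ∀ i : Fin n, 0 < (fun i : Fin n => W i.succ) i := fun i => hW _
  have hρ1 := bd_wrho_le hS x hn L hW' zero_lt_one
  refine Submodule.span_induction (p := fun b _ => ∃ C : ℝ, 0 ≤ C ∧ ∀ᶠ q in E.nhd S x,
    ‖E.ev ((b : IB n K) : K) q‖ ≤ C * wrho L (fun i => W i.succ) q.1 ^ k) ?_ ?_ ?_ ?_ hb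
  · rintro _ ⟨e, he, rfl⟩
    refine ⟨C ^ (∑ i, e i), by positivity, ?_⟩
    filter_upwards [Prim.M_mem_nhd E S x, hC, hρ1] with q hq h1 h2
    obtain ⟨φ, hφ⟩ := Prim.exists_evHom hS hq
    have hm : ∏ i, φ (u i ^ e i) = ∏ i, E.ev (u i : K) q ^ e i :=
      Finset.prod_congr rfl fun i _ => by rw [map_pow, hφ]
    rw [← hφ, map_prod, hm]
    refine (bd_mono' h1 e).trans ?_
    refine mul_le_mul_of_nonneg_left ?_ (by positivity)
    exact pow_le_pow_of_le_one (bd_wrho_nonneg _ _ _) h2 he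
  · refine ⟨0, le_rfl, ?_⟩
    filter_upwards [Prim.M_mem_nhd E S x] with q hq
    have : E.ev ((0 : IB n K) : K) q = 0 := Prim.ev_zero hS hq
    rw [this, norm_zero, zero_mul]
  · rintro a b _ _ ⟨C1, hC1, h1⟩ ⟨C2, hC2, h2⟩
    refine ⟨C1 + C2, by positivity, ?_⟩
    filter_upwards [Prim.M_mem_nhd E S x, h1, h2] with q hq h3 h4
    obtain ⟨φ, hφ⟩ := Prim.exists_evHom hS hq
    rw [← hφ, map_add, hφ, hφ, add_mul]
    exact (norm_add_le _ _).trans (add_le_add h3 h4)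
  · rintro a b _ ⟨C1, hC1, h1⟩
    refine ⟨(‖x.toFun a‖ + 1) * C1, by positivity, ?_⟩
    filter_upwards [Prim.M_mem_nhd E S x, h1, bd_ev_bdd E S x a] with q hq h3 h4
    obtain ⟨φ, hφ⟩ := Prim.exists_evHom hS hq
    rw [← hφ, smul_eq_mul, map_mul, hφ, hφ, norm_mul, mul_assoc]
    exact mul_le_mul h4 h3 (norm_nonneg _) (by positivity)

/-- the weighted ideals are not zero -/
theorem bd_exists_ne {u : Fin (n + 1) → IB n K}
    {L : Matrix (Fin n) (Fin n) ℂ} (hL : L.det ≠ 0) (hu : ∀ i : Fin n, u i.succ =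
      algebraMap (Pol n) (IB n K) (∑ j, MvPolynomial.C (L i j) * MvPolynomial.X j))
    {W : Fin (n + 1) → ℕ} (hW : ∀ i, 0 < W i) (hn : 0 < n) {k r : ℕ} (G : Fin r → IB n K)
    (hG : Ideal.span (Set.range G) = wIdeal u W k) : ∃ j, G j ≠ 0 := by
  classical
  by_contra hcon
  push Not at hcon
  have h1 : wIdeal u W k = ⊥ := by
    rw [← hG, Ideal.span_eq_bot]
    rintro _ ⟨j, rfl⟩
    exact hcon j
  set i0 : Fin n := ⟨0, hn⟩ with hi0
  have h2 : u i0.succ ^ k ∈ wIdeal u W k := by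
    refine Ideal.subset_span ⟨Pi.single i0.succ k, ?_, ?_⟩
    · rw [Finset.sum_eq_single i0.succ]
      · rw [Pi.single_eq_same]
        exact Nat.le_mul_of_pos_left k (hW _)
      · intro j _ hj
        rw [Pi.single_eq_of_ne hj, mul_zero]
      · intro hj
        exact absurd (Finset.mem_univ _) hj
    · rw [Finset.prod_eq_single i0.succ]
      · rw [Pi.single_eq_same]
      · intro j _ hj
        rw [Pi.single_eq_of_ne hj, pow_zero]
      · intro hj
        exact absurd (Finset.mem_univ _) hj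
  rw [h1, Ideal.mem_bot] at h2
  have h3 : u i0.succ = 0 := eq_zero_of_pow_eq_zero h2
  rw [hu i0] at h3
  have h4 : (∑ j, MvPolynomial.C (L i0 j) * MvPolynomial.X j : Pol n) = 0 := by
    have h5 : algebraMap (Pol n) K (∑ j, MvPolynomial.C (L i0 j) * MvPolynomial.X j) =
        algebraMap (Pol n) K 0 := by
      rw [map_zero, ← Prim.nbh_coe_alg, h3]
      rfl
    exact FaithfulSMul.algebraMap_injective (Pol n) K h5
  apply hL
  refine Matrix.det_eq_zero_of_row_eq_zero i0 fun j => ?_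
  have h6 := congrArg (MvPolynomial.eval (Pi.single j (1 : ℂ))) h4
  rw [map_sum, map_zero, Finset.sum_eq_single j] at h6
  · rwa [map_mul, MvPolynomial.eval_C, MvPolynomial.eval_X, Pi.single_eq_same, mul_one] at h6
  · intro l _ hl
    rw [map_mul, MvPolynomial.eval_X, Pi.single_eq_of_ne hl, mul_zero]
  · intro hl
    exact absurd (Finset.mem_univ _) hl

/-- the arithmetic of the exponents -/
theorem bd_arith {s ρ C1 C2 c e b : ℝ} {k : ℕ} {y : ℝ} (hk : 0 < k) (hs : 0 < s) (hρ : 0 < ρ)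
    (hC1 : 0 < C1) (hC2 : 0 < C2) (hc : 0 < c) (he : 0 < e) (h1 : s ≤ C2 * (ρ ^ k) ^ 2)
    (hy0 : 0 < y) (hy : y ≤ C1 * ρ ^ b) :
    C2 ^ (-(c / k + e)) * (C1 ^ 2)⁻¹ * ρ ^ (-(2 * c + 2 * k * e + 2 * b)) ≤
      s ^ (-(c / k + e)) * (y⁻¹) ^ 2 := by
  have hk' : (0 : ℝ) < k := Nat.cast_pos.2 hk
  have hce : 0 < c / k + e := by positivity
  have h2 : C2 ^ (-(c / k + e)) * ρ ^ (-(2 * c + 2 * k * e)) ≤ s ^ (-(c / k + e)) := by
    have h3 := Real.rpow_le_rpow_of_nonpos hs h1 (neg_nonpos.2 hce.le)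
    rw [Real.mul_rpow hC2.le (by positivity)] at h3
    refine le_trans (le_of_eq ?_) h3
    congr 1
    rw [← Real.rpow_natCast, ← Real.rpow_natCast, ← Real.rpow_mul hρ.le, ← Real.rpow_mul hρ.le]
    congr 1
    push_cast
    field_simp
  have h4 : (C1 ^ 2)⁻¹ * ρ ^ (-(2 * b)) ≤ (y⁻¹) ^ 2 := by
    have h5 : (C1 ^ 2)⁻¹ * ρ ^ (-(2 * b)) = ((C1 * ρ ^ b) ^ 2)⁻¹ := by
      rw [mul_pow, mul_inv, ← Real.rpow_natCast (ρ ^ b) 2, ← Real.rpow_mul hρ.le,
        ← Real.rpow_neg hρ.le]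
      congr 2
      push_cast
      ring
    rw [h5, inv_pow]
    exact inv_anti₀ (by positivity) (pow_le_pow_left₀ hy0.le hy 2)
  calc C2 ^ (-(c / k + e)) * (C1 ^ 2)⁻¹ * ρ ^ (-(2 * c + 2 * k * e + 2 * b)) =
      (C2 ^ (-(c / k + e)) * ρ ^ (-(2 * c + 2 * k * e))) * ((C1 ^ 2)⁻¹ * ρ ^ (-(2 * b))) := by
        have : ρ ^ (-(2 * c + 2 * k * e + 2 * b)) =
            ρ ^ (-(2 * c + 2 * k * e)) * ρ ^ (-(2 * b)) := by
          rw [← Real.rpow_add hρ]
          congr 1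
          ring
        rw [this]
        ring
    _ ≤ s ^ (-(c / k + e)) * (y⁻¹) ^ 2 :=
        mul_le_mul h2 h4 (by positivity) (by positivity)

/-- Divergence of the integrals of the weighted ideals. -/
theorem bound_div (hn : 0 < n) {E : Prim n K} {S : Sheets n N} (hS : E.IsSheets S) {x : Pt n K}
    {J : K} (hJ0 : J ≠ 0) (hJ : IsIntegral (Pol n) J) (hJr : E.IsReg J⁻¹)
    {u : Fin (n + 1) → IB n K} {F : MvPolynomial (Fin (n + 1)) ℂ} (h : Hyp x J u F)
    {W : Fin (n + 1) → ℕ} (hW : ∀ i, 0 < W i) {p : ℕ} (hp1 : 0 < p)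
    (hp : MvPolynomial.coeff (Finsupp.single 0 p) F ≠ 0)
    (hD : ∀ e ∈ F.support, p * W 0 ≤ ∑ i, W i * e i)
    {c : ℝ} (hc : 0 < c) (hc' : (∑ i : Fin n, (W i.succ : ℝ)) + W 0 - p * W 0 ≤ c)
    {k : ℕ} (hk : 0 < k) {r : ℕ} (G : Fin r → IB n K)
    (hG : Ideal.span (Set.range G) = wIdeal u W k) {e : ℝ} (he : 0 < e)
    {V : Set ((Fin n → ℂ) × ℂ)} (hV : V ∈ E.nhd S x) :
    ∫⁻ q in V, ENNReal.ofReal ((∑ j, ‖E.ev (G j : K) q‖ ^ 2) ^ (-(c / k + e)) *
      ‖E.ev J⁻¹ q‖ ^ 2) ∂S.μ = ⊤ := by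
  obtain ⟨L, hL, hu⟩ := h.lin
  have hW' : ∀ i : Fin n, 0 < (fun i : Fin n => W i.succ) i := fun i => hW _
  set w : Fin n → ℕ := fun i => W i.succ with hw
  -- the Jacobian
  obtain ⟨C1', hC1'⟩ := norm_jac_le hS hJ h hL hu hW hp1 hp hD hn
  set C1 : ℝ := max C1' 1 with hC1
  have hC10 : 0 < C1 := lt_of_lt_of_le one_pos (le_max_right _ _)
  set b : ℝ := (p : ℝ) * W 0 - W 0 with hb
  -- the generators
  have hGm : ∀ j, ∃ C : ℝ, 0 ≤ C ∧ ∀ᶠ q in E.nhd S x, ‖E.ev (G j : K) q‖ ≤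
      C * wrho L w q.1 ^ k := fun j =>
    bd_wIdeal hS h hL hu hW hp hD hn (hG ▸ Ideal.subset_span ⟨j, rfl⟩)
  choose Cj hCj0 hCj using hGm
  set C2 : ℝ := ∑ j, Cj j ^ 2 + 1 with hC2
  have hC20 : 0 < C2 := by positivity
  have hev : ∀ᶠ q in E.nhd S x, q ∈ V ∧ ‖E.ev J q‖ ≤ C1' * wrho L w q.1 ^ b ∧
      ∀ j, ‖E.ev (G j : K) q‖ ≤ Cj j * wrho L w q.1 ^ k := by
    filter_upwards [hV, hC1', eventually_all.2 hCj] with q h1 h2 h3
    exact ⟨h1, h2, h3⟩
  obtain ⟨V', hV'sub, hV'mem, hV'meas⟩ := bd_basis hS x hev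
  set κ : ℝ := C2 ^ (-(c / k + e)) * (C1 ^ 2)⁻¹ with hκ
  have hκ0 : 0 < κ := by (clear * -; positivity)
  set a : ℝ := 2 * c + 2 * k * e + 2 * b with ha
  have ha' : 2 * (∑ i, (w i : ℝ)) ≤ a := by
    have h1 : 0 < 2 * (k : ℝ) * e := by positivity
    have h2 : (∑ i : Fin n, (w i : ℝ)) = ∑ i : Fin n, (W i.succ : ℝ) := rfl
    rw [h2, ha, hb]
    linarith only [h1, hc']
  have htop : ∫⁻ q in V', ENNReal.ofReal κ * ENNReal.ofReal (wrho L w q.1 ^ (-a)) ∂S.μ = ⊤ := by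
    refine lintegral_above hS x hV'mem
      (fun z => ENNReal.ofReal κ * ENNReal.ofReal (wrho L w z ^ (-a))) fun ε hε => ?_
    rw [lintegral_const_mul' _ _ ENNReal.ofReal_ne_top, lintegral_wrho hn hL hW' ha' hε,
      ENNReal.mul_top]
    rw [Ne, ENNReal.ofReal_eq_zero, not_le]
    exact hκ0
  obtain ⟨j0, hj0⟩ := bd_exists_ne hL hu hW hn G hG
  have hj0' : (G j0 : K) ≠ 0 := fun h1 => hj0 (Subtype.ext h1)
  have hae : ∀ᵐ q ∂S.μ, q ∈ V' →
      ENNReal.ofReal κ * ENNReal.ofReal (wrho L w q.1 ^ (-a)) ≤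
      ENNReal.ofReal ((∑ j, ‖E.ev (G j : K) q‖ ^ 2) ^ (-(c / k + e)) * ‖E.ev J⁻¹ q‖ ^ 2) := by
    filter_upwards [Sheets.ae_mem_M (S := S), Prim.ae_ev_ne_zero hS (Prim.isReg_ib (G j0)) hj0']
      with q hqM hq0 hqV
    obtain ⟨-, h1, h2⟩ := hV'sub hqV
    have hρ0 := bd_wrho_nonneg L w q.1
    set ρ := wrho L w q.1 with hρ
    set s := ∑ j, ‖E.ev (G j : K) q‖ ^ 2 with hs
    have hs0 : 0 < s := by
      have h3 : ‖E.ev (G j0 : K) q‖ ^ 2 ≤ s :=
        Finset.single_le_sum (f := fun j => ‖E.ev (G j : K) q‖ ^ 2)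
          (fun j _ => sq_nonneg _) (Finset.mem_univ j0)
      have h4 : 0 < ‖E.ev (G j0 : K) q‖ := norm_pos_iff.2 hq0
      have h5 : 0 < ‖E.ev (G j0 : K) q‖ ^ 2 := by positivity
      linarith only [h5, h3]
    have hs1 : s ≤ C2 * (ρ ^ k) ^ 2 := by
      have h3 : s ≤ ∑ j, Cj j ^ 2 * (ρ ^ k) ^ 2 := by
        refine Finset.sum_le_sum fun j _ => ?_
        rw [← mul_pow]
        exact pow_le_pow_left₀ (norm_nonneg _) (h2 j) 2
      rw [← Finset.sum_mul] at h3
      have h4 : 0 ≤ (ρ ^ k) ^ 2 := by (clear * -; positivity)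
      rw [hC2, add_mul]
      linarith only [h4, h3]
    have hρpos : 0 < ρ := by
      rcases hρ0.eq_or_lt with h3 | h3
      · rw [← h3, zero_pow hk.ne', zero_pow two_ne_zero, mul_zero] at hs1
        exact absurd hs0 (not_lt.2 hs1)
      · exact h3
    have hJq : E.ev J q ≠ 0 :=
      Prim.ev_ne_zero_of_inv hS hqM hJ0 (Prim.isReg_of_integral hJ) hJr
    have hy0 : 0 < ‖E.ev J q‖ := norm_pos_iff.2 hJq
    have hy : ‖E.ev J q‖ ≤ C1 * ρ ^ b := by
      refine h1.trans (mul_le_mul_of_nonneg_right (le_max_left _ _) ?_)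
      positivity
    have h3 := bd_arith (c := c) (e := e) hk hs0 hρpos hC10 hC20 hc he hs1 hy0 hy
    have h4 : ‖E.ev J⁻¹ q‖ = ‖E.ev J q‖⁻¹ := by
      rw [Prim.ev_inv hS hqM (Prim.isReg_of_integral hJ) hJr, norm_inv]
    rw [← ENNReal.ofReal_mul hκ0.le, h4]
    exact ENNReal.ofReal_le_ofReal h3
  refine top_le_iff.1 ?_
  calc ⊤ = ∫⁻ q in V', ENNReal.ofReal κ * ENNReal.ofReal (wrho L w q.1 ^ (-a)) ∂S.μ :=
        htop.symm
    _ ≤ ∫⁻ q in V', ENNReal.ofReal ((∑ j, ‖E.ev (G j : K) q‖ ^ 2) ^ (-(c / k + e)) *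
      ‖E.ev J⁻¹ q‖ ^ 2) ∂S.μ := setLIntegral_mono_ae' hV'meas hae
    _ ≤ _ := lintegral_mono_set fun q hq => (hV'sub hq).1

end nbhd

end Vale.Agent.P282.EQ
end

section

/-!
P282-WR-1: counting monomials.
-/

open scoped NNReal Nat

namespace Vale.Agent.P282.WR

variable {n : ℕ}

theorem cnt_mon_zero : mon n 0 = ∅ := by
  ext α
  rw [mem_mon]
  simp

theorem cnt_mon_succ (d : ℕ) :
    mon n (d + 1) = Finset.finsuppAntidiag Finset.univ d ∪ mon n d := by
  unfold mon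
  rw [Finset.range_add_one, Finset.biUnion_insert]

theorem cnt_mon_disj (d : ℕ) :
    Disjoint (Finset.finsuppAntidiag (Finset.univ : Finset (Fin n)) d) (mon n d) := by
  rw [Finset.disjoint_left]
  intro α h1 h2
  rw [mem_mon] at h2
  rw [Finset.mem_finsuppAntidiag] at h1
  have : α.degree = d := by
    rw [Finsupp.degree_eq_sum]; exact h1.1
  omega

theorem card_mon (hn : 0 < n) (d : ℕ) : (mon n d).card = (n + d - 1).choose n := by
  induction d with
  | zero =>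
    rw [cnt_mon_zero, Finset.card_empty]
    exact (Nat.choose_eq_zero_of_lt (by omega)).symm
  | succ d ih =>
    rw [cnt_mon_succ, Finset.card_union_of_disjoint (cnt_mon_disj d), ih,
      Finset.card_finsuppAntidiag_nat_eq_choose, Finset.card_univ, Fintype.card_fin]
    obtain ⟨m, rfl⟩ : ∃ m, n = m + 1 := ⟨n - 1, by omega⟩
    have e1 : m + 1 + d - 1 = m + d := by omega
    have e2 : m + 1 + (d + 1) - 1 = m + d + 1 := by omega
    rw [e1, e2, Nat.choose_succ_succ (m + d) m, Nat.choose_symm_add]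

theorem cnt_sum_exp_succ (i : Fin n) (d : ℕ) :
    ∑ α ∈ mon n (d + 1), α i = ∑ β ∈ mon n d, (β i + 1) := by
  symm
  refine Finset.sum_of_injOn (fun β => β + Finsupp.single i 1) ?_ ?_ ?_ ?_
  · intro a _ b _ h
    exact add_right_cancel h
  · intro β hβ
    have hβ' : β.degree < d := mem_mon.1 (Finset.mem_coe.1 hβ)
    refine Finset.mem_coe.2 (mem_mon.2 ?_)
    rw [map_add, Finsupp.degree_single]
    omega
  · intro α hα hα'
    by_contra h0
    apply hα'
    have h1 : Finsupp.single i 1 ≤ α := by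
      rw [Finsupp.single_le_iff]
      omega
    refine ⟨α - Finsupp.single i 1, ?_, tsub_add_cancel_of_le h1⟩
    refine Finset.mem_coe.2 (mem_mon.2 ?_)
    have h2 : (α - Finsupp.single i 1).degree + 1 = α.degree := by
      conv_rhs => rw [← tsub_add_cancel_of_le h1, map_add, Finsupp.degree_single]
    have h3 := mem_mon.1 hα
    omega
  · intro β _
    simp

theorem sum_exp (i : Fin n) (d : ℕ) : ∑ α ∈ mon n d, α i = (n + d - 1).choose (n + 1) := by
  have hn : 0 < n := lt_of_le_of_lt (Nat.zero_le _) i.2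
  induction d with
  | zero =>
    rw [cnt_mon_zero, Finset.sum_empty]
    exact (Nat.choose_eq_zero_of_lt (by omega)).symm
  | succ d ih =>
    rw [cnt_sum_exp_succ, Finset.sum_add_distrib, ih, Finset.sum_const, card_mon hn,
      smul_eq_mul, mul_one]
    have e2 : n + (d + 1) - 1 = (n + d - 1) + 1 := by omega
    rw [e2, Nat.choose_succ_succ (n + d - 1) n, add_comm]

theorem cnt_codeg_succ (d : ℕ) :
    ∑ γ ∈ mon n (d + 1), (d - γ.degree) = ∑ γ ∈ mon n d, (d - γ.degree) := by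
  rw [cnt_mon_succ, Finset.sum_union (cnt_mon_disj d)]
  have : ∑ γ ∈ Finset.finsuppAntidiag (Finset.univ : Finset (Fin n)) d, (d - γ.degree) = 0 := by
    refine Finset.sum_eq_zero fun γ hγ => ?_
    rw [Finset.mem_finsuppAntidiag] at hγ
    have : γ.degree = d := by
      rw [Finsupp.degree_eq_sum]; exact hγ.1
    omega
  rw [this, zero_add]

theorem sum_codeg (hn : 0 < n) (d : ℕ) :
    ∑ γ ∈ mon n d, (d - γ.degree) = (n + d).choose (n + 1) := by
  induction d with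
  | zero =>
    rw [cnt_mon_zero, Finset.sum_empty]
    exact (Nat.choose_eq_zero_of_lt (by omega)).symm
  | succ d ih =>
    have h1 : ∑ γ ∈ mon n (d + 1), (d + 1 - γ.degree)
        = ∑ γ ∈ mon n (d + 1), ((d - γ.degree) + 1) := by
      refine Finset.sum_congr rfl fun γ hγ => ?_
      have := mem_mon.1 hγ
      omega
    rw [h1, Finset.sum_add_distrib, cnt_codeg_succ, ih, Finset.sum_const, card_mon hn,
      smul_eq_mul, mul_one]
    have e1 : n + (d + 1) - 1 = n + d := by omega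
    rw [e1, ← add_assoc, Nat.choose_succ_succ (n + d) n, add_comm]

theorem sum_codeg' (hn : 0 < n) (d : ℕ) :
    ∑ γ ∈ mon n d, (d - γ.degree - 1) = (n + d - 1).choose (n + 1) := by
  cases d with
  | zero =>
    rw [cnt_mon_zero, Finset.sum_empty]
    exact (Nat.choose_eq_zero_of_lt (by omega)).symm
  | succ d =>
    have h1 : ∑ γ ∈ mon n (d + 1), (d + 1 - γ.degree - 1)
        = ∑ γ ∈ mon n (d + 1), (d - γ.degree) := by
      refine Finset.sum_congr rfl fun γ hγ => ?_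
      have := mem_mon.1 hγ
      omega
    rw [h1, cnt_codeg_succ, sum_codeg hn]
    have e1 : n + (d + 1) - 1 = n + d := by omega
    rw [e1]

/-- `M_d = binom (n + d) n + binom (n + d - 1) n`. -/
theorem card_idx (hn : 0 < n) (d : ℕ) :
    Fintype.card (Idx n d) = (n + d).choose n + (n + d - 1).choose n := by
  rw [Fintype.card_sum, Fintype.card_coe, Fintype.card_coe, card_mon hn, card_mon hn]
  rfl

end Vale.Agent.P282.WR
end

section

/-!
P282-WR-2: the determinant of an affine substitution on the polynomials of degree `< d`.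
-/

open scoped NNReal Nat
open MvPolynomial

namespace Vale.Agent.P282.WR

variable {n : ℕ} {F : Type} [Field F]

/-- The matrix of the substitution `Xᵢ ↦ Lᵢ`. -/
noncomputable def w2S (d : ℕ) (L : Fin n → MvPolynomial (Fin n) F) :
    Matrix ↥(mon n d) ↥(mon n d) F :=
  Matrix.of fun α β => coeff β.1 (∏ i, L i ^ (α.1 i))

theorem w2_bind (L : Fin n → MvPolynomial (Fin n) F) (α : Fin n →₀ ℕ) (c : F) :
    bind₁ L (monomial α c) = C c * ∏ i, L i ^ (α i) := by
  show aeval L (monomial α c) = _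
  rw [aeval_monomial, Finsupp.prod_fintype _ _ fun i => pow_zero _]
  rfl

theorem w2_deg (L : Fin n → MvPolynomial (Fin n) F) (hL : ∀ i, (L i).totalDegree ≤ 1)
    (α : Fin n →₀ ℕ) : (∏ i, L i ^ (α i)).totalDegree ≤ α.degree := by
  rw [Finsupp.degree_eq_sum]
  refine (totalDegree_finsetProd _ _).trans (Finset.sum_le_sum fun i _ => ?_)
  refine (totalDegree_pow _ _).trans ?_
  calc α i * (L i).totalDegree ≤ α i * 1 := Nat.mul_le_mul_left _ (hL i)
    _ = α i := mul_one _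

theorem w2_mul (d : ℕ) (L L' : Fin n → MvPolynomial (Fin n) F)
    (hL : ∀ i, (L i).totalDegree ≤ 1) :
    w2S d L * w2S d L' = w2S d (fun i => bind₁ L' (L i)) := by
  ext α γ
  rw [Matrix.mul_apply]
  show ∑ β : ↥(mon n d), coeff β.1 (∏ i, L i ^ (α.1 i)) * coeff γ.1 (∏ i, L' i ^ (β.1 i)) =
    coeff γ.1 (∏ i, bind₁ L' (L i) ^ (α.1 i))
  have h1 : ∏ i, bind₁ L' (L i) ^ (α.1 i) = bind₁ L' (∏ i, L i ^ (α.1 i)) := by
    rw [map_prod]
    exact Finset.prod_congr rfl fun i _ => (map_pow _ _ _).symm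
  have h2 := w2_deg L hL α.1
  set P := ∏ i, L i ^ (α.1 i) with hP
  have h3 : bind₁ L' P = ∑ β ∈ mon n d, C (coeff β P) * ∏ i, L' i ^ (β i) := by
    conv_lhs => rw [as_sum P]
    rw [map_sum]
    rw [Finset.sum_congr rfl fun β _ => w2_bind L' β (coeff β P)]
    apply Finset.sum_subset
    · intro β hβ
      rw [mem_mon]
      have h4 := le_totalDegree hβ
      have h5 := mem_mon.1 α.2
      have h6 : β.degree = β.sum fun _ e => e := rfl
      omega
    · intro β _ hβ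
      rw [notMem_support_iff.1 hβ, C_0, zero_mul]
  rw [h1, h3, coeff_sum, ← Finset.sum_coe_sort (mon n d)]
  exact Finset.sum_congr rfl fun β _ => (coeff_C_mul _ _ _).symm

/-- The affine forms. -/
noncomputable def w2L (A : Matrix (Fin n) (Fin n) F) (τ : Fin n → F) (i : Fin n) :
    MvPolynomial (Fin n) F :=
  ∑ j, C (A i j) * X j + C (τ i)

theorem w2L_deg (A : Matrix (Fin n) (Fin n) F) (τ : Fin n → F) (i : Fin n) :
    (w2L A τ i).totalDegree ≤ 1 := by
  refine (totalDegree_add _ _).trans (max_le ?_ ?_)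
  · refine (totalDegree_finsetSum _ _).trans (Finset.sup_le fun j _ => ?_)
    refine (totalDegree_mul _ _).trans ?_
    rw [totalDegree_C, totalDegree_X]
  · rw [totalDegree_C]
    exact Nat.zero_le _

theorem w2L_bind (A A' : Matrix (Fin n) (Fin n) F) (τ τ' : Fin n → F) (i : Fin n) :
    bind₁ (w2L A' τ') (w2L A τ i) = w2L (A * A') (A.mulVec τ' + τ) i := by
  rw [w2L, w2L, map_add, map_sum]
  simp only [map_mul, bind₁_C_right, bind₁_X_right]
  have h1 : ∀ j, C (A i j) * w2L A' τ' j =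
      ∑ k, C (A i j * A' j k) * X k + C (A i j * τ' j) := by
    intro j
    rw [w2L, mul_add, Finset.mul_sum, ← C_mul]
    simp only [← mul_assoc, ← C_mul]
  rw [Finset.sum_congr rfl fun j _ => h1 j, Finset.sum_add_distrib, Finset.sum_comm, add_assoc]
  congr 1
  · refine Finset.sum_congr rfl fun k _ => ?_
    rw [← Finset.sum_mul, ← map_sum, Matrix.mul_apply]
  · rw [Pi.add_apply, C_add, Matrix.mulVec, dotProduct, map_sum]

/-- The matrix of the affine substitution. -/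
noncomputable def w2M (d : ℕ) (A : Matrix (Fin n) (Fin n) F) (τ : Fin n → F) :
    Matrix ↥(mon n d) ↥(mon n d) F :=
  w2S d (w2L A τ)

theorem w2M_mul (d : ℕ) (A A' : Matrix (Fin n) (Fin n) F) (τ τ' : Fin n → F) :
    w2M d A τ * w2M d A' τ' = w2M d (A * A') (A.mulVec τ' + τ) := by
  rw [w2M, w2M, w2_mul d _ _ (w2L_deg A τ), w2M]
  congr 1
  funext i
  exact w2L_bind A A' τ τ' i

theorem w2M_diag (d : ℕ) (D : Fin n → F) :
    w2M d (Matrix.diagonal D) 0 = Matrix.diagonal fun α : ↥(mon n d) => ∏ i, D i ^ (α.1 i) := by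
  have h1 : ∀ i, w2L (Matrix.diagonal D) 0 i = C (D i) * X i := by
    intro i
    rw [w2L, Finset.sum_eq_single i]
    · rw [Matrix.diagonal_apply_eq, Pi.zero_apply, C_0, add_zero]
    · intro j _ hj
      rw [Matrix.diagonal_apply_ne _ hj.symm, C_0, zero_mul]
    · intro h
      exact absurd (Finset.mem_univ i) h
  ext α β
  show coeff β.1 (∏ i, w2L (Matrix.diagonal D) 0 i ^ (α.1 i)) = _
  have h2 : ∏ i, w2L (Matrix.diagonal D) 0 i ^ (α.1 i) =
      C (∏ i, D i ^ (α.1 i)) * monomial α.1 1 := by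
    rw [map_prod, monomial_eq, C_1, one_mul, Finsupp.prod_fintype _ _ fun i => pow_zero _,
      ← Finset.prod_mul_distrib]
    refine Finset.prod_congr rfl fun i _ => ?_
    rw [h1, mul_pow, C_pow]
  rw [h2, coeff_C_mul, coeff_monomial, Matrix.diagonal_apply]
  by_cases h : α = β
  · rw [if_pos h, if_pos (congrArg Subtype.val h), mul_one]
  · rw [if_neg h, if_neg (fun h' => h (Subtype.ext h')), mul_zero]

theorem w2M_one (d : ℕ) : w2M d (1 : Matrix (Fin n) (Fin n) F) 0 = 1 := by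
  rw [← Matrix.diagonal_one, w2M_diag, ← Matrix.diagonal_one]
  congr 1
  funext α
  simp

theorem w2M_det_diag (d : ℕ) (D : Fin n → F) :
    (w2M d (Matrix.diagonal D) 0).det =
      (Matrix.diagonal D).det ^ (n + d - 1).choose (n + 1) := by
  rw [w2M_diag, Matrix.det_diagonal, Matrix.det_diagonal, Finset.prod_comm, ← Finset.prod_pow]
  refine Finset.prod_congr rfl fun i _ => ?_
  rw [Finset.prod_pow_eq_pow_sum, ← sum_exp i d, ← Finset.sum_coe_sort (mon n d)]

/-- conjugation trick -/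
theorem w2_trick {δ ε ε' : F} (h1 : ε * δ * ε' = δ * δ) (h2 : ε * ε' = 1) (h3 : δ ≠ 0) :
    δ = 1 := by
  have : δ * δ = δ * 1 := by
    rw [← h1, mul_one]
    calc ε * δ * ε' = δ * (ε * ε') := by ring
      _ = δ := by rw [h2, mul_one]
  exact mul_left_cancel₀ h3 this

theorem w2M_det_ne (d : ℕ) (A B : Matrix (Fin n) (Fin n) F) (τ σ : Fin n → F) (h : A * B = 1)
    (h' : A.mulVec σ + τ = 0) : (w2M d A τ).det ≠ 0 := by
  have h1 := w2M_mul d A B τ σ
  rw [h, h', w2M_one] at h1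
  have h2 := congrArg Matrix.det h1
  rw [Matrix.det_mul, Matrix.det_one] at h2
  exact left_ne_zero_of_mul_eq_one h2

theorem w2M_det_trans [CharZero F] (d : ℕ) (τ : Fin n → F) :
    (w2M d (1 : Matrix (Fin n) (Fin n) F) τ).det = 1 := by
  have h2 : (2 : F) ≠ 0 := two_ne_zero
  have hD : (Matrix.diagonal fun _ : Fin n => (2 : F)) * Matrix.diagonal (fun _ => (2 : F)⁻¹) =
      1 := by
    rw [Matrix.diagonal_mul_diagonal, ← Matrix.diagonal_one]
    congr 1
    funext i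
    exact mul_inv_cancel₀ h2
  refine w2_trick (ε := (w2M d (Matrix.diagonal fun _ : Fin n => (2 : F)) 0).det)
    (ε' := (w2M d (Matrix.diagonal fun _ : Fin n => (2 : F)⁻¹) 0).det) ?_ ?_ ?_
  · rw [← Matrix.det_mul, ← Matrix.det_mul, ← Matrix.det_mul, w2M_mul, w2M_mul, w2M_mul]
    congr 2
    · rw [mul_one, hD, mul_one]
    · rw [Matrix.mulVec_zero, zero_add, add_zero, Matrix.one_mulVec]
      funext i
      rw [Matrix.mulVec_diagonal, Pi.add_apply, two_mul]
  · rw [← Matrix.det_mul, w2M_mul, hD, Matrix.mulVec_zero, zero_add, w2M_one, Matrix.det_one]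
  · exact w2M_det_ne d 1 1 τ (-τ) (mul_one _) (by rw [Matrix.one_mulVec, neg_add_cancel])

theorem w2M_det_transvection [CharZero F] (d : ℕ) (t : Matrix.TransvectionStruct (Fin n) F) :
    (w2M d t.toMatrix 0).det = 1 := by
  have h2 : (2 : F) ≠ 0 := two_ne_zero
  obtain ⟨i, j, hij, c⟩ := t
  rw [Matrix.TransvectionStruct.toMatrix_mk]
  let D : Fin n → F := fun k => if k = i then 2 else 1
  let E : Fin n → F := fun k => if k = i then 2⁻¹ else 1
  have hD : Matrix.diagonal D * Matrix.diagonal E = 1 := by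
    rw [Matrix.diagonal_mul_diagonal, ← Matrix.diagonal_one]
    congr 1
    funext k
    by_cases hk : k = i
    · simp only [D, E, hk, if_true]
      exact mul_inv_cancel₀ h2
    · simp only [D, E, hk, if_false, mul_one]
  have hT : Matrix.diagonal D * Matrix.transvection i j c * Matrix.diagonal E =
      Matrix.transvection i j c * Matrix.transvection i j c := by
    rw [Matrix.transvection_mul_transvection_same i j hij]
    ext p q
    rw [Matrix.mul_diagonal, Matrix.diagonal_mul, Matrix.transvection, Matrix.transvection,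
      Matrix.add_apply, Matrix.add_apply, Matrix.one_apply, Matrix.single_apply,
      Matrix.single_apply]
    by_cases hp : p = i
    · by_cases hq : q = i
      · subst hp
        subst hq
        have : ¬ (j = q) := fun h => hij h.symm
        simp only [D, E, if_true, this, and_false, if_false, add_zero, mul_one]
        exact mul_inv_cancel₀ h2
      · subst hp
        have hq' : ¬ (p = q) := fun h => hq h.symm
        simp only [D, E, if_true, hq, hq', if_false, true_and, zero_add, mul_one]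
        by_cases hj : j = q
        · simp only [hj, if_true]
          ring
        · simp only [hj, if_false, mul_zero]
    · have hp' : ¬ (i = p) := fun h => hp h.symm
      simp only [D, E, hp, hp', if_false, false_and, add_zero, one_mul]
      by_cases hpq : p = q
      · subst hpq
        simp only [hp, if_true, if_false, mul_one]
      · simp only [hpq, if_false, zero_mul]
  refine w2_trick (ε := (w2M d (Matrix.diagonal D) 0).det)
    (ε' := (w2M d (Matrix.diagonal E) 0).det) ?_ ?_ ?_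
  · rw [← Matrix.det_mul, ← Matrix.det_mul, ← Matrix.det_mul, w2M_mul, w2M_mul, w2M_mul, hT]
    simp only [Matrix.mulVec_zero, zero_add]
  · rw [← Matrix.det_mul, w2M_mul, hD, Matrix.mulVec_zero, zero_add, w2M_one, Matrix.det_one]
  · refine w2M_det_ne d _ (Matrix.transvection i j (-c)) 0 0 ?_ ?_
    · rw [Matrix.transvection_mul_transvection_same i j hij, add_neg_cancel, Matrix.transvection_zero]
    · rw [Matrix.mulVec_zero, zero_add]

/-- The determinant of the substitution `Xᵢ ↦ ∑ⱼ Aᵢⱼ Xⱼ + τᵢ` on the polynomials of degree `< d`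
is `det A ^ binom (n + d - 1) (n + 1)`. -/
theorem det_affine [CharZero F] (A : Matrix (Fin n) (Fin n) F) (hA : A.det ≠ 0) (τ : Fin n → F)
    (d : ℕ) :
    (Matrix.of fun α β : ↥(mon n d) =>
      coeff β.1 (∏ i, (∑ j, C (A i j) * X j + C (τ i)) ^ (α.1 i))).det =
      A.det ^ (n + d - 1).choose (n + 1) := by
  show (w2M d A τ).det = _
  have h1 : w2M d A τ = w2M d 1 τ * w2M d A 0 := by
    rw [w2M_mul, one_mul, Matrix.mulVec_zero, zero_add]
  rw [h1, Matrix.det_mul, w2M_det_trans, one_mul]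
  refine Matrix.diagonal_transvection_induction_of_det_ne_zero
    (fun B => (w2M d B 0).det = B.det ^ (n + d - 1).choose (n + 1)) A hA ?_ ?_ ?_
  · intro D _
    exact w2M_det_diag d D
  · intro t
    rw [w2M_det_transvection, Matrix.TransvectionStruct.det, one_pow]
  · intro B C _ _ hB hC
    have h2 : w2M d (B * C) 0 = w2M d B 0 * w2M d C 0 := by
      rw [w2M_mul, Matrix.mulVec_zero, zero_add]
    beta_reduce at hB hC ⊢
    rw [h2, Matrix.det_mul, hB, hC, Matrix.det_mul, mul_pow]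

end Vale.Agent.P282.WR
end
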