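import Mathlib
import Vale.Agent.P282.Bd3.B6
import Vale.Agent.P282.Bd3.B5
import Vale.Agent.P282.Bd3.B4
import Vale.Agent.P282.Bd3.B1
import Vale.Agent.P282.Bd3.B2
import Vale.Agent.P282.Full.Germ
import Vale.Agent.P282.Bd3.B7

set_option linter.all false

namespace AFast402e89x11a
@[reducible] noncomputable def a0 {x1 : ℕ} {x2 : Type} [x3 : Field x2] [x4 : Algebra (FractionRing (Vale.Agent.P282.L2.Pol x1)) x2] : Module (FractionRing (Vale.Agent.P282.L2.Pol x1)) x2 := inferInstance
theorem a1 {x1 : Type} [x2 : Field x1] : MulHomClass (Valuation x1 NNReal) x1 NNReal := inferInstance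
@[reducible] noncomputable def a2 {x1 : ℕ} : Algebra (Vale.Agent.P282.L2.Pol x1) (OreLocalization (nonZeroDivisors (Vale.Agent.P282.L2.Pol x1)) (Vale.Agent.P282.L2.Pol x1)) := inferInstance
@[reducible] noncomputable def a3 {x1 : ℕ} : SMul (Vale.Agent.P282.L2.Pol x1) (OreLocalization (nonZeroDivisors (Vale.Agent.P282.L2.Pol x1)) (Vale.Agent.P282.L2.Pol x1)) := inferInstance
@[reducible] noncomputable def a4 {x1 : ℕ} : DivisionRing (OreLocalization (nonZeroDivisors (Vale.Agent.P282.L2.Pol x1)) (Vale.Agent.P282.L2.Pol x1)) := inferInstance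
@[reducible] def a5 {x1 : Type} [x2 : CommRing x1] : Pow (Submodule x1 x1) ℕ := inferInstance
theorem a6 {x1 : Type} {x2 : Type} [x3 : CommRing x1] [x4 : Field x2] : MulHomClass (x1 →+* x2) x1 x2 := inferInstance
theorem a7 {x1 : ℕ} : MulHomClass (MvPolynomial (Fin (x1 + 1)) ℂ →+* ℂ) (MvPolynomial (Fin (x1 + 1)) ℂ) ℂ := inferInstance
@[reducible] noncomputable def a8 {x1 : ℕ} : CommSemiring (OreLocalization (nonZeroDivisors (Vale.Agent.P282.L2.Pol x1)) (Vale.Agent.P282.L2.Pol x1)) := inferInstance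
@[reducible] def a9 {x1 : Type} [x2 : CommRing x1] : NPow (Ideal x1) := inferInstance
theorem a10 {x1 : ℕ} {x2 : Type} [x3 : Field x2] [x4 : Algebra (Vale.Agent.P282.L2.Pol x1) x2] [x5 : Algebra ℂ x2] [x6 : IsScalarTower ℂ (Vale.Agent.P282.L2.Pol x1) x2] : MulHomClass (MvPolynomial (Fin (x1 + 1)) ℂ →ₐ[ℂ] Vale.Agent.P282.L2.IB x1 x2) (MvPolynomial (Fin (x1 + 1)) ℂ) (Vale.Agent.P282.L2.IB x1 x2) := inferInstance
@[reducible] noncomputable def a11 {x1 : ℕ} : OreLocalization.OreSet (nonZeroDivisors (Vale.Agent.P282.L2.Pol x1)) := inferInstance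
@[reducible] def a12 {x1 : Type} [x2 : CommRing x1] : Monoid (Ideal x1) := inferInstance
@[reducible] noncomputable def a13 {x1 : Type} {x2 : ℕ} [x3 : Field x1] [x4 : Algebra (Vale.Agent.P282.L2.Pol x2) x1] : Zero ↥(integralClosure (Vale.Agent.P282.L2.Pol x2) x1) := inferInstance
@[reducible] def a14 {x1 : Type} [x2 : CommRing x1] : Pow (Ideal x1) ℕ := inferInstance
theorem a15 {x1 : ℕ} {x2 : Type} [x3 : Field x2] [x4 : Algebra (Vale.Agent.P282.L2.Pol x1) x2] [x5 : Algebra ℂ x2] [x6 : IsScalarTower ℂ (Vale.Agent.P282.L2.Pol x1) x2] : NonUnitalAlgHomClass (MvPolynomial (Fin (x1 + 1)) ℂ →ₐ[ℂ] Vale.Agent.P282.L2.IB x1 x2) ℂ (MvPolynomial (Fin (x1 + 1)) ℂ) (Vale.Agent.P282.L2.IB x1 x2) := inferInstance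
theorem a16 {x1 : ℕ} {x2 : Type} [x3 : Field x2] [x4 : Algebra (Vale.Agent.P282.L2.Pol x1) x2] : MulHomClass (Vale.Agent.P282.L2.IB x1 x2 →+* ℂ) (Vale.Agent.P282.L2.IB x1 x2) ℂ := inferInstance
@[reducible] noncomputable def a17 {x1 : ℕ} : Pow (Submodule (MvPolynomial (Fin (x1 + 1)) ℂ) (MvPolynomial (Fin (x1 + 1)) ℂ)) ℕ := inferInstance
@[reducible] noncomputable def a18 {x1 : ℕ} {x2 : Type} [x3 : Field x2] [x4 : Algebra (Vale.Agent.P282.L2.Pol x1) x2] : Zero (Vale.Agent.P282.L2.IB x1 x2) := inferInstance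
theorem a19 {x1 : Type} {x2 : Type} [x3 : CommRing x1] [x4 : Field x2] : NonUnitalRingHomClass (x1 →+* x2) x1 x2 := inferInstance
@[reducible] noncomputable def a20 {x1 : ℕ} : Algebra (Vale.Agent.P282.L2.Pol x1) (Polynomial (Vale.Agent.P282.L2.Pol x1)) := inferInstance
@[reducible] noncomputable def a21 {x1 : ℕ} : CommMonoid (Vale.Agent.P282.L2.Pol x1) := inferInstance
theorem a22 {x1 : ℕ} : NonUnitalRingHomClass (MvPolynomial (Fin (x1 + 1)) ℂ →+* ℂ) (MvPolynomial (Fin (x1 + 1)) ℂ) ℂ := inferInstance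
theorem a23.{u1, u2} {x1 : Type u1} {x2 : Type u2} [x3 : CommRing x1] [x4 : CommRing x2] : MulHomClass (x1 →+* x2) x1 x2 := inferInstance
theorem a24 {x1 : Type} [x2 : Field x1] : MonoidHomClass (Valuation x1 NNReal) x1 NNReal := inferInstance
@[reducible] def a25 : Monoid ℂ := inferInstance
@[reducible] noncomputable def a26 {x1 : ℕ} : Monoid (Vale.Agent.P282.L2.Pol x1) := inferInstance
@[reducible] noncomputable def a27 {x1 : ℕ} {x2 : Type} [x3 : Field x2] [x4 : Algebra (Vale.Agent.P282.L2.Pol x1) x2] : Pow (Vale.Agent.P282.L2.IB x1 x2) ℕ := inferInstance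
theorem a28 {x1 : ℕ} : NoZeroDivisors (MvPolynomial (Fin x1) ℂ) := inferInstance
theorem a29 {x1 : ℕ} : IsScalarTower (Vale.Agent.P282.L2.Pol x1) (Vale.Agent.P282.L2.Pol x1) (Vale.Agent.P282.L2.Pol x1) := inferInstance
theorem a30 {x1 : ℕ} : IsLocalization (nonZeroDivisors (Vale.Agent.P282.L2.Pol x1)) (Localization (nonZeroDivisors (Vale.Agent.P282.L2.Pol x1))) := inferInstance
@[reducible] def a31 {x1 : Type} [x2 : CommRing x1] : Semiring (Ideal x1) := inferInstance
theorem a32 {x1 : ℕ} {x2 : Type} [x3 : Field x2] [x4 : Algebra (Vale.Agent.P282.L2.Pol x1) x2] : NonUnitalRingHomClass (Vale.Agent.P282.L2.IB x1 x2 →+* ℂ) (Vale.Agent.P282.L2.IB x1 x2) ℂ := inferInstance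
@[reducible] noncomputable def a33 {x1 : ℕ} {x2 : Type} [x3 : Field x2] [x4 : Algebra (Vale.Agent.P282.L2.Pol x1) x2] : Monoid (Vale.Agent.P282.L2.IB x1 x2) := inferInstance
theorem a34 {x1 : ℕ} {x2 : Type} [x3 : Field x2] [x4 : Algebra (Vale.Agent.P282.L2.Pol x1) x2] : ZeroMemClass (Subalgebra (Vale.Agent.P282.L2.Pol x1) x2) x2 := inferInstance
theorem a35 {x1 : ℕ} {x2 : Type} [x3 : Field x2] [x4 : Algebra (Vale.Agent.P282.L2.Pol x1) x2] : MulHomClass (Vale.Agent.P282.L2.Pol x1 →+* Vale.Agent.P282.L2.IB x1 x2) (Vale.Agent.P282.L2.Pol x1) (Vale.Agent.P282.L2.IB x1 x2) := inferInstance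
@[reducible] noncomputable def a36 {x1 : ℕ} {x2 : Type} [x3 : Field x2] [x4 : Algebra (Vale.Agent.P282.L2.Pol x1) x2] : NPow (Vale.Agent.P282.L2.IB x1 x2) := inferInstance
theorem a37 {x1 : ℕ} {x2 : Type} [x3 : Field x2] [x4 : Algebra (Vale.Agent.P282.L2.Pol x1) x2] : AddSubmonoidClass (Subalgebra (Vale.Agent.P282.L2.Pol x1) x2) x2 := inferInstance
@[reducible] def a38 {x1 : Type} [x2 : CommRing x1] : MulOne (Ideal x1) := inferInstance
theorem a39 {x1 : ℕ} : IsDomain (MvPolynomial (Fin x1) ℂ) := inferInstance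
@[reducible] def a40 {x1 : Type} [x2 : CommRing x1] : MulOneClass (Ideal x1) := inferInstance
@[reducible] noncomputable def a41 {x1 : ℕ} {x2 : Type} [x3 : Field x2] [x4 : Algebra (Vale.Agent.P282.L2.Pol x1) x2] : Mul (Submodule (Vale.Agent.P282.L2.IB x1 x2) (Vale.Agent.P282.L2.IB x1 x2)) := inferInstance
theorem a42 {x1 : ℕ} {x2 : Type} [x3 : CommRing x2] : MulHomClass (Vale.Agent.P282.L2.Pol x1 →+* x2) (Vale.Agent.P282.L2.Pol x1) x2 := inferInstance
@[reducible] noncomputable def a43 {x1 : Nat} : Semiring (@HasQuotient.Quotient (MvPowerSeries (Fin (@HAdd.hAdd Nat Nat Nat (@instHAdd Nat instAddNat) x1 (@OfNat.ofNat Nat (nat_lit 1) (instOfNatNat (nat_lit 1))))) Complex) (@Ideal (MvPowerSeries (Fin (@HAdd.hAdd Nat Nat Nat (@instHAdd Nat instAddNat) x1 (@OfNat.ofNat Nat (nat_lit 1) (instOfNatNat (nat_lit 1))))) Complex) (@CommSemiring.toSemiring (MvPowerSeries (Fin (@HAdd.hAdd Nat Nat Nat (@instHAdd Nat instAddNat) x1 (@OfNat.ofNat Nat (nat_lit 1) (instOfNatNat (nat_lit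 1))))) Complex) (@CommRing.toCommSemiring (MvPowerSeries (Fin (@HAdd.hAdd Nat Nat Nat (@instHAdd Nat instAddNat) x1 (@OfNat.ofNat Nat (nat_lit 1) (instOfNatNat (nat_lit 1))))) Complex) (@MvPowerSeries.instCommRing (Fin (@HAdd.hAdd Nat Nat Nat (@instHAdd Nat instAddNat) x1 (@OfNat.ofNat Nat (nat_lit 1) (instOfNatNat (nat_lit 1))))) Complex Complex.commRing)))) (@Ideal.instHasQuotient_1 (MvPowerSeries (Fin (@HAdd.hAdd Nat Nat Nat (@instHAdd Nat instAddNat) x1 (@OfNat.ofNat Nat (nat_lit 1) (instOfNatNat (nat_lit 1))))) Complex) (@MvPowerSeries.instCommRing (Fin (@HAdd.hAdd Nat Nat Nat (@instHAdd Nat instAddNat) x1 (@OfNat.ofNat Nat (nat_lit 1) (instOfNatNat (nat_lit 1))))) Complex Complex.commRing)) (@Ideal.span (MvPowerSeries (Fin (@HAdd.hAdd Nat Nat Nat (@instHAdd Nat instAddNat) x1 (@OfNat.ofNat Nat (nat_lit 1) (instOfNatNat (nat_lit 1))))) Complex) (@MvPowerSeries.instSemiring (Fin (@HAdd.hAdd Nat Nat Nat (@instHAdd Nat instAddNat) x1 (@OfNat.ofNat Nat (nat_lit 1) (instOfNatNat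 (nat_lit 1))))) Complex Complex.instSemiring) (@singleton (MvPowerSeries (Fin (@HAdd.hAdd Nat Nat Nat (@instHAdd Nat instAddNat) x1 (@OfNat.ofNat Nat (nat_lit 1) (instOfNatNat (nat_lit 1))))) Complex) (Set (MvPowerSeries (Fin (@HAdd.hAdd Nat Nat Nat (@instHAdd Nat instAddNat) x1 (@OfNat.ofNat Nat (nat_lit 1) (instOfNatNat (nat_lit 1))))) Complex)) (@Set.instSingletonSet (MvPowerSeries (Fin (@HAdd.hAdd Nat Nat Nat (@instHAdd Nat instAddNat) x1 (@OfNat.ofNat Nat (nat_lit 1) (instOfNatNat (nat_lit 1))))) Complex)) (∑ i, @HPow.hPow (MvPowerSeries (Fin (@HAdd.hAdd Nat Nat Nat (@instHAdd Nat instAddNat) x1 (@OfNat.ofNat Nat (nat_lit 1) (instOfNatNat (nat_lit 1))))) Complex) Nat (MvPowerSeries (Fin (@HAdd.hAdd Nat Nat Nat (@instHAdd Nat instAddNat) x1 (@OfNat.ofNat Nat (nat_lit 1) (instOfNatNat (nat_lit 1))))) Complex) (@instHPow (MvPowerSeries (Fin (@HAdd.hAdd Nat Nat Nat (@instHAdd Nat instAddNat) x1 (@OfNat.ofNat Nat (nat_lit 1) (instOfNatNat (nat_lit 1))))) Complex) Nat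 (@NPow.toPow (MvPowerSeries (Fin (@HAdd.hAdd Nat Nat Nat (@instHAdd Nat instAddNat) x1 (@OfNat.ofNat Nat (nat_lit 1) (instOfNatNat (nat_lit 1))))) Complex) (@Monoid.toNPow (MvPowerSeries (Fin (@HAdd.hAdd Nat Nat Nat (@instHAdd Nat instAddNat) x1 (@OfNat.ofNat Nat (nat_lit 1) (instOfNatNat (nat_lit 1))))) Complex) (@Semiring.toMonoid (MvPowerSeries (Fin (@HAdd.hAdd Nat Nat Nat (@instHAdd Nat instAddNat) x1 (@OfNat.ofNat Nat (nat_lit 1) (instOfNatNat (nat_lit 1))))) Complex) (@MvPowerSeries.instSemiring (Fin (@HAdd.hAdd Nat Nat Nat (@instHAdd Nat instAddNat) x1 (@OfNat.ofNat Nat (nat_lit 1) (instOfNatNat (nat_lit 1))))) Complex Complex.instSemiring))))) (@MvPowerSeries.X (Fin (@HAdd.hAdd Nat Nat Nat (@instHAdd Nat instAddNat) x1 (@OfNat.ofNat Nat (nat_lit 1) (instOfNatNat (nat_lit 1))))) Complex Complex.instSemiring i) (@OfNat.ofNat Nat (nat_lit 2) (instOfNatNat (nat_lit 2))))))) := inferInstance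
theorem a44.{u1, u2} {x1 : Type u1} {x2 : Type u2} [x3 : CommRing x1] [x4 : CommRing x2] : NonUnitalRingHomClass (x1 →+* x2) x1 x2 := inferInstance
theorem a45 {x1 : ℕ} : MulHomClass (MvPolynomial (Fin (x1 + 1)) ℂ ≃ₐ[ℂ] Polynomial (MvPolynomial (Fin x1) ℂ)) (MvPolynomial (Fin (x1 + 1)) ℂ) (Polynomial (MvPolynomial (Fin x1) ℂ)) := inferInstance
@[reducible] noncomputable def a46 {x1 : ℕ} : Monoid (Vale.Agent.P282.CV.Q x1) := inferInstance
@[reducible] noncomputable def a47 {x1 : ℕ} : NPow (Ideal (Vale.Agent.P282.CV.Q x1)) := inferInstance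
theorem a48 {x1 : Type} {x2 : ℕ} [x3 : CommRing x1] [x4 : Algebra ℂ x1] : AddMonoidHomClass (x1 →ₐ[ℂ] Vale.Agent.P282.CV.Q x2) x1 (Vale.Agent.P282.CV.Q x2) := inferInstance
@[reducible] noncomputable def a49 {x1 : ℕ} : Monoid (Ideal (Vale.Agent.P282.CV.Q x1)) := inferInstance
theorem a50 {x1 : ℕ} : NonUnitalAlgHomClass (MvPolynomial (Fin (x1 + 1)) ℂ →ₐ[ℂ] MvPolynomial (Fin (x1 + 1)) ℂ) ℂ (MvPolynomial (Fin (x1 + 1)) ℂ) (MvPolynomial (Fin (x1 + 1)) ℂ) := inferInstance
theorem a51 {x1 : ℕ} : NonUnitalAlgHomClass (MvPolynomial (Fin (x1 + 1)) ℂ ≃ₐ[ℂ] Polynomial (MvPolynomial (Fin x1) ℂ)) ℂ (MvPolynomial (Fin (x1 + 1)) ℂ) (Polynomial (MvPolynomial (Fin x1) ℂ)) := inferInstance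
theorem a52 {x1 : ℕ} : MulHomClass (MvPolynomial (Fin x1) ℂ →+* ℂ) (MvPolynomial (Fin x1) ℂ) ℂ := inferInstance
@[reducible] def a53 {x1 : Type} [x2 : CommRing x1] : Mul (Ideal x1) := inferInstance
end AFast402e89x11a
attribute [local instance] AFast402e89x11a.a0 AFast402e89x11a.a1 AFast402e89x11a.a2
  AFast402e89x11a.a3 AFast402e89x11a.a4 AFast402e89x11a.a5 AFast402e89x11a.a6 AFast402e89x11a.a7
  AFast402e89x11a.a8 AFast402e89x11a.a9 AFast402e89x11a.a10 AFast402e89x11a.a11
  AFast402e89x11a.a12 AFast402e89x11a.a13 AFast402e89x11a.a14 AFast402e89x11a.a15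
  AFast402e89x11a.a16 AFast402e89x11a.a17 AFast402e89x11a.a18 AFast402e89x11a.a19
  AFast402e89x11a.a20 AFast402e89x11a.a21 AFast402e89x11a.a22 AFast402e89x11a.a23
  AFast402e89x11a.a24 AFast402e89x11a.a25 AFast402e89x11a.a26 AFast402e89x11a.a27
  AFast402e89x11a.a28 AFast402e89x11a.a29 AFast402e89x11a.a30 AFast402e89x11a.a31
  AFast402e89x11a.a32 AFast402e89x11a.a33 AFast402e89x11a.a34 AFast402e89x11a.a35
  AFast402e89x11a.a36 AFast402e89x11a.a37 AFast402e89x11a.a38 AFast402e89x11a.a39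
  AFast402e89x11a.a40 AFast402e89x11a.a41 AFast402e89x11a.a42 AFast402e89x11a.a43
  AFast402e89x11a.a44 AFast402e89x11a.a45 AFast402e89x11a.a46 AFast402e89x11a.a47
  AFast402e89x11a.a48 AFast402e89x11a.a49 AFast402e89x11a.a50 AFast402e89x11a.a51
  AFast402e89x11a.a52 AFast402e89x11a.a53
namespace AFast402e89x11b
@[reducible] def a0 {x1 : ℕ} {x2 : Type} [x3 : Field x2] [x4 : Algebra (Vale.Agent.P282.L2.Pol x1) x2] : SMul (Vale.Agent.P282.L2.Pol x1) x2 := inferInstance
@[reducible] noncomputable def a1 {x1 : ℕ} {x2 : Type} [x3 : Field x2] [x4 : Algebra (Vale.Agent.P282.L2.Pol x1) x2] : Algebra (Vale.Agent.P282.L2.Pol x1) ↥(integralClosure (Vale.Agent.P282.L2.Pol x1) x2) := inferInstance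
theorem a2 {x1 : ℕ} {x2 : Type} [x3 : Field x2] [x4 : Algebra (Vale.Agent.P282.L2.Pol x1) x2] [x5 : Algebra ℂ x2] [x6 : IsScalarTower ℂ (Vale.Agent.P282.L2.Pol x1) x2] : AddHomClass (MvPolynomial (Fin (x1 + 1)) ℂ →ₐ[ℂ] Vale.Agent.P282.L2.IB x1 x2) (MvPolynomial (Fin (x1 + 1)) ℂ) (Vale.Agent.P282.L2.IB x1 x2) := inferInstance
theorem a3 {x1 : ℕ} {x2 : Type} [x3 : Field x2] [x4 : Algebra (Vale.Agent.P282.L2.Pol x1) x2] [x5 : Algebra ℂ x2] [x6 : IsScalarTower ℂ (Vale.Agent.P282.L2.Pol x1) x2] : LinearMapClass (MvPolynomial (Fin (x1 + 1)) ℂ →ₐ[ℂ] Vale.Agent.P282.L2.IB x1 x2) ℂ (MvPolynomial (Fin (x1 + 1)) ℂ) (Vale.Agent.P282.L2.IB x1 x2) := inferInstance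
@[reducible] noncomputable def a4 {x1 : ℕ} {x2 : Type} [x3 : Field x2] [x4 : Algebra (Vale.Agent.P282.L2.Pol x1) x2] [x5 : Algebra ℂ x2] [x6 : IsScalarTower ℂ (Vale.Agent.P282.L2.Pol x1) x2] : Module ℂ (Vale.Agent.P282.L2.IB x1 x2) := inferInstance
@[reducible] noncomputable def a5 {x1 : Type} {x2 : ℕ} [x3 : Field x1] [x4 : Algebra (Vale.Agent.P282.L2.Pol x2) x1] [x5 : Algebra ℂ x1] [x6 : IsScalarTower ℂ (Vale.Agent.P282.L2.Pol x2) x1] : Algebra ℂ ↥(integralClosure (Vale.Agent.P282.L2.Pol x2) x1) := inferInstance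
@[reducible] def a6 {x1 : ℕ} {x2 : Type} [x3 : Field x2] [x4 : Algebra (FractionRing (Vale.Agent.P282.L2.Pol x1)) x2] : SMul (FractionRing (Vale.Agent.P282.L2.Pol x1)) x2 := inferInstance
@[reducible] noncomputable def a7 {x1 : ℕ} : Pow (Submodule (Vale.Agent.P282.CV.Q x1) (Vale.Agent.P282.CV.Q x1)) ℕ := inferInstance
theorem a8 {x1 : ℕ} : IsScalarTower (Vale.Agent.P282.CV.Q x1) (Vale.Agent.P282.CV.Q x1) (Vale.Agent.P282.CV.Q x1) := inferInstance
@[reducible] noncomputable def a9 {x1 : ℕ} {x2 : Type} [x3 : Field x2] [x4 : Algebra (Vale.Agent.P282.L2.Pol x1) x2] {x5 : Fin (x1 + 1) → Vale.Agent.P282.L2.IB x1 x2} {x6 : ℕ} [x7 : Algebra ℂ x2] [x8 : IsScalarTower ℂ (Vale.Agent.P282.L2.Pol x1) x2] : Module ℂ (Vale.Agent.P282.L2.IB x1 x2 ⧸ Vale.Agent.P282.EQ.wIdeal x5 (fun x => 1) x6) := inferInstance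
theorem a10 {x1 : Type} {x2 : Type} [x3 : CommRing x1] [x4 : Field x2] : AddMonoidHomClass (x1 →+* x2) x1 x2 := inferInstance
@[reducible] noncomputable def a11 {x1 : ℕ} : Pow (Ideal (Vale.Agent.P282.CV.Q x1)) ℕ := inferInstance
theorem a12 {x1 : Type} {x2 : Type} [x3 : CommRing x1] [x4 : Field x2] : AddHomClass (x1 →+* x2) x1 x2 := inferInstance
theorem a13 {x1 : ℕ} {x2 : Type} [x3 : Field x2] [x4 : Algebra (Vale.Agent.P282.L2.Pol x1) x2] : AddHomClass (Vale.Agent.P282.L2.IB x1 x2 →+* ℂ) (Vale.Agent.P282.L2.IB x1 x2) ℂ := inferInstance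
theorem a14 {x1 : ℕ} : IsIntegrallyClosed (Vale.Agent.P282.L2.Pol x1) := inferInstance
theorem a15 {x1 : ℕ} : IsIntegralClosure (Vale.Agent.P282.L2.Pol x1) (Vale.Agent.P282.L2.Pol x1) (FractionRing (Vale.Agent.P282.L2.Pol x1)) := inferInstance
theorem a16 {x1 : ℕ} {x2 : Type} [x3 : Field x2] [x4 : Algebra (FractionRing (Vale.Agent.P282.L2.Pol x1)) x2] [x5 : FiniteDimensional (FractionRing (Vale.Agent.P282.L2.Pol x1)) x2] : Algebra.IsAlgebraic (FractionRing (Vale.Agent.P282.L2.Pol x1)) x2 := inferInstance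
theorem a17 {x1 : ℕ} {x2 : Type} [x3 : CommRing x2] : AddHomClass (Vale.Agent.P282.L2.Pol x1 →+* x2) (Vale.Agent.P282.L2.Pol x1) x2 := inferInstance
theorem a18 {x1 : ℕ} {x2 : Type} [x3 : CommRing x2] : AddMonoidHomClass (Vale.Agent.P282.L2.Pol x1 →+* x2) (Vale.Agent.P282.L2.Pol x1) x2 := inferInstance
theorem a19 {x1 : ℕ} {x2 : Type} [x3 : Field x2] [x4 : Algebra (Vale.Agent.P282.L2.Pol x1) x2] : AddMonoidHomClass (Vale.Agent.P282.L2.Pol x1 →+* Vale.Agent.P282.L2.IB x1 x2) (Vale.Agent.P282.L2.Pol x1) (Vale.Agent.P282.L2.IB x1 x2) := inferInstance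
theorem a20 {x1 : ℕ} {x2 : Type} [x3 : Field x2] [x4 : Algebra (Vale.Agent.P282.L2.Pol x1) x2] : AddMonoidHomClass (Vale.Agent.P282.L2.IB x1 x2 →+* ℂ) (Vale.Agent.P282.L2.IB x1 x2) ℂ := inferInstance
@[reducible] noncomputable def a21 {x1 : ℕ} : SMulZeroClass (MvPolynomial (Fin (x1 + 1)) ℂ) (MvPolynomial (Fin (x1 + 1)) ℂ) := inferInstance
@[reducible] noncomputable def a22 {x1 : ℕ} : DistribMulAction (Vale.Agent.P282.L2.Pol x1) (Vale.Agent.P282.L2.Pol x1) := inferInstance
@[reducible] noncomputable def a23 {x1 : ℕ} : DistribMulAction (MvPolynomial (Fin (x1 + 1)) ℂ) (MvPolynomial (Fin (x1 + 1)) ℂ) := inferInstance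
@[reducible] noncomputable def a24 {x1 : ℕ} : DistribSMul (MvPolynomial (Fin (x1 + 1)) ℂ) (MvPolynomial (Fin (x1 + 1)) ℂ) := inferInstance
@[reducible] noncomputable def a25 {x1 : ℕ} : Mul (Submodule (Vale.Agent.P282.CV.Q x1) (Vale.Agent.P282.CV.Q x1)) := inferInstance
theorem a26.{u1, u2} {x1 : Type u1} {x2 : Type u2} [x3 : CommRing x1] [x4 : CommRing x2] : AddMonoidHomClass (x1 →+* x2) x1 x2 := inferInstance
theorem a27 {x1 : ℕ} : AddMonoidHomClass (ℂ →+* MvPolynomial (Fin (x1 + 1)) ℂ) ℂ (MvPolynomial (Fin (x1 + 1)) ℂ) := inferInstance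
theorem a28 {x1 : Type} [x2 : CommRing x1] [x3 : IsLocalRing x1] : AddMonoidHomClass (x1 →+* IsLocalRing.ResidueField x1) x1 (IsLocalRing.ResidueField x1) := inferInstance
theorem a29 {x1 : ℕ} : AddMonoidHomClass (MvPolynomial (Fin x1) ℂ →+* ℂ) (MvPolynomial (Fin x1) ℂ) ℂ := inferInstance
theorem a30 {x1 : ℕ} : AddMonoidHomClass (MvPolynomial (Fin (x1 + 1)) ℂ →+* ℂ) (MvPolynomial (Fin (x1 + 1)) ℂ) ℂ := inferInstance
@[reducible] noncomputable def a31 {x1 : ℕ} {x2 : Type} [x3 : Field x2] [x4 : Algebra (Vale.Agent.P282.L2.Pol x1) x2] : Algebra (MvPolynomial (Fin x1) ℂ) ↥(integralClosure (Vale.Agent.P282.L2.Pol x1) x2) := inferInstance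
theorem a32 {x1 : ℕ} : AddHomClass (MvPolynomial (Fin (x1 + 1)) ℂ →+* ℂ) (MvPolynomial (Fin (x1 + 1)) ℂ) ℂ := inferInstance
theorem a33 {x1 : ℕ} {x2 : Type} [x3 : Field x2] [x4 : Algebra (FractionRing (Vale.Agent.P282.L2.Pol x1)) x2] [x5 : FiniteDimensional (FractionRing (Vale.Agent.P282.L2.Pol x1)) x2] : Algebra.IsIntegral (FractionRing (Vale.Agent.P282.L2.Pol x1)) x2 := inferInstance
theorem a34 {x1 : ℕ} {x2 : Type} [x3 : Field x2] [x4 : Algebra (FractionRing (Vale.Agent.P282.L2.Pol x1)) x2] [x5 : FiniteDimensional (FractionRing (Vale.Agent.P282.L2.Pol x1)) x2] : Algebra.IsSeparable (FractionRing (Vale.Agent.P282.L2.Pol x1)) x2 := inferInstance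
theorem a35 {x1 : Type} [x2 : Field x1] [x3 : Algebra ℂ x1] : AddHomClass (Derivation ℂ x1 x1) x1 x1 := inferInstance
theorem a36 {x1 : ℕ} : AddHomClass (MvPolynomial (Fin (x1 + 1)) ℂ ≃ₐ[ℂ] Polynomial (MvPolynomial (Fin x1) ℂ)) (MvPolynomial (Fin (x1 + 1)) ℂ) (Polynomial (MvPolynomial (Fin x1) ℂ)) := inferInstance
theorem a37 {x1 : ℕ} : LinearMapClass (MvPolynomial (Fin (x1 + 1)) ℂ ≃ₐ[ℂ] Polynomial (MvPolynomial (Fin x1) ℂ)) ℂ (MvPolynomial (Fin (x1 + 1)) ℂ) (Polynomial (MvPolynomial (Fin x1) ℂ)) := inferInstance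
theorem a38 {x1 : ℕ} : AddMonoidHomClass (ℂ →+* MvPolynomial (Fin x1) ℂ) ℂ (MvPolynomial (Fin x1) ℂ) := inferInstance
theorem a39 {x1 : ℕ} : AddHomClass (Derivation ℂ (MvPolynomial (Fin (x1 + 1)) ℂ) (MvPolynomial (Fin (x1 + 1)) ℂ)) (MvPolynomial (Fin (x1 + 1)) ℂ) (MvPolynomial (Fin (x1 + 1)) ℂ) := inferInstance
theorem a40 {x1 : ℕ} : AddHomClass ((Fin (x1 + 1) →₀ ℕ) →+ ℕ) (Fin (x1 + 1) →₀ ℕ) ℕ := inferInstance
theorem a41 {x1 : ℕ} : AddHomClass (MvPolynomial (Fin (x1 + 1)) ℂ →ₐ[ℂ] MvPolynomial (Fin (x1 + 1)) ℂ) (MvPolynomial (Fin (x1 + 1)) ℂ) (MvPolynomial (Fin (x1 + 1)) ℂ) := inferInstance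
theorem a42 {x1 : ℕ} : LinearMapClass (MvPolynomial (Fin (x1 + 1)) ℂ →ₐ[ℂ] MvPolynomial (Fin (x1 + 1)) ℂ) ℂ (MvPolynomial (Fin (x1 + 1)) ℂ) (MvPolynomial (Fin (x1 + 1)) ℂ) := inferInstance
@[reducible] noncomputable def a43 {x1 : ℕ} {x2 : Type} [x3 : Field x2] [x4 : Algebra (Vale.Agent.P282.L2.Pol x1) x2] {x5 : Fin (x1 + 1) → Vale.Agent.P282.L2.IB x1 x2} {x6 : ℕ} : AddCommGroup (Vale.Agent.P282.L2.IB x1 x2 ⧸ Vale.Agent.P282.EQ.wIdeal x5 (fun x => 1) x6) := inferInstance
theorem a44 {x1 : ℕ} : ExistsAddOfLE (Fin (x1 + 1) →₀ ℕ) := inferInstance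
@[reducible] def a45 {x1 : Type} [x2 : CommRing x1] [x3 : Algebra (Vale.Agent.P282.L2.Pol 2) x1] : SMul (Vale.Agent.P282.L2.Pol 2) x1 := inferInstance
end AFast402e89x11b
attribute [local instance] AFast402e89x11b.a0 AFast402e89x11b.a1 AFast402e89x11b.a2
  AFast402e89x11b.a3 AFast402e89x11b.a4 AFast402e89x11b.a5 AFast402e89x11b.a6 AFast402e89x11b.a7
  AFast402e89x11b.a8 AFast402e89x11b.a9 AFast402e89x11b.a10 AFast402e89x11b.a11
  AFast402e89x11b.a12 AFast402e89x11b.a13 AFast402e89x11b.a14 AFast402e89x11b.a15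
  AFast402e89x11b.a16 AFast402e89x11b.a17 AFast402e89x11b.a18 AFast402e89x11b.a19
  AFast402e89x11b.a20 AFast402e89x11b.a21 AFast402e89x11b.a22 AFast402e89x11b.a23
  AFast402e89x11b.a24 AFast402e89x11b.a25 AFast402e89x11b.a26 AFast402e89x11b.a27
  AFast402e89x11b.a28 AFast402e89x11b.a29 AFast402e89x11b.a30 AFast402e89x11b.a31
  AFast402e89x11b.a32 AFast402e89x11b.a33 AFast402e89x11b.a34 AFast402e89x11b.a35
  AFast402e89x11b.a36 AFast402e89x11b.a37 AFast402e89x11b.a38 AFast402e89x11b.a39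
  AFast402e89x11b.a40 AFast402e89x11b.a41 AFast402e89x11b.a42 AFast402e89x11b.a43
  AFast402e89x11b.a44 AFast402e89x11b.a45
section

open scoped NNReal ENNReal Nat WithZero
open IsLocalRing

namespace Vale.Agent.P282.Full

open Vale.Agent.P282.L2

variable {n r : ℕ} {R K : Type} [CommRing R] [IsDomain R] [IsLocalRing R] [Algebra ℂ R]
  [Field K] [Algebra ℂ K] [Algebra R K] [IsScalarTower ℂ R K] [IsFractionRing R K]

/-- Regular parameters. -/
theorem exists_regular_params (hess : Algebra.EssFiniteType ℂ R)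
    (hres : Function.Surjective (algebraMap ℂ (ResidueField R))) (hdim : Algebra.trdeg ℂ R = n)
    (hreg : IsRegularLocalRing R) : ∃ x : Fin n → R, Ideal.span (Set.range x) = maximalIdeal R := by
  classical
  have hnoeth : IsNoetherianRing R := Algebra.EssFiniteType.isNoetherianRing ℂ R
  obtain ⟨y, hy, k, hk⟩ := exists_reduction R hres n hdim
  -- the Krull dimension is at most `n`
  have hht : (maximalIdeal R).height ≤ (n : ℕ∞) := by
    have hmin : maximalIdeal R ∈ (Ideal.span (Set.range y)).minimalPrimes := by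
      refine ⟨⟨inferInstance, ?_⟩, ?_⟩
      · rw [Ideal.span_le]
        rintro _ ⟨i, rfl⟩
        exact hy i
      · rintro P ⟨hP, hle⟩ -
        have h1 : maximalIdeal R ^ (k + 1) ≤ P := (hk.trans Ideal.mul_le_left).trans hle
        exact hP.le_of_pow_le h1
    have hmin' : maximalIdeal R ∈ (Ideal.span ((Finset.univ.image y : Finset R) : Set R)).minimalPrimes := by
      rw [Finset.coe_image, Finset.coe_univ, Set.image_univ]
      exact hmin
    refine (Ideal.height_le_card_of_mem_minimalPrimes_span_finset hmin').trans ?_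
    have h1 : (Finset.univ.image y : Finset R).card ≤ n := Finset.card_image_le.trans (by simp)
    exact_mod_cast h1
  have hfr : (maximalIdeal R).spanFinrank ≤ n := by
    have h1 := hreg.spanFinrank_maximalIdeal
    rw [← IsLocalRing.maximalIdeal_height_eq_ringKrullDim] at h1
    have h2 : (((maximalIdeal R).spanFinrank : ℕ∞) : WithBot ℕ∞) ≤ ((n : ℕ∞) : WithBot ℕ∞) := by
      calc (((maximalIdeal R).spanFinrank : ℕ∞) : WithBot ℕ∞)
          = ((maximalIdeal R).height : WithBot ℕ∞) := by exact_mod_cast h1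
        _ ≤ ((n : ℕ∞) : WithBot ℕ∞) := by exact_mod_cast hht
    exact_mod_cast h2
  have hfg : Submodule.FG (maximalIdeal R) := IsNoetherian.noetherian _
  obtain ⟨s, hs1, hs2⟩ : ∃ s : Finset R, s.card ≤ n ∧ Ideal.span (s : Set R) = maximalIdeal R := by
    refine ⟨(Submodule.FG.finite_generators hfg).toFinset, ?_, ?_⟩
    · rw [← Set.ncard_eq_toFinset_card _ (Submodule.FG.finite_generators hfg), Submodule.FG.generators_ncard hfg]
      exact hfr
    · rw [Set.Finite.coe_toFinset]
      exact Submodule.span_generators _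
  let e : Fin s.card ≃ s := s.equivFin.symm
  refine ⟨fun i => if h : (i : ℕ) < s.card then ((e ⟨i, h⟩ : s) : R) else 0, ?_⟩
  apply le_antisymm
  · rw [Ideal.span_le]
    rintro _ ⟨i, rfl⟩
    by_cases h : (i : ℕ) < s.card
    · simp only [h, dif_pos]
      rw [← hs2]
      exact Ideal.subset_span (e ⟨i, h⟩).2
    · simp only [h, dif_neg, not_false_eq_true]
      exact Ideal.zero_mem _
  · rw [← hs2, Ideal.span_le]
    intro a ha
    apply Ideal.subset_span
    refine ⟨⟨(e.symm ⟨a, ha⟩ : ℕ), lt_of_lt_of_le (e.symm ⟨a, ha⟩).2 hs1⟩, ?_⟩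
    have h : ((e.symm ⟨a, ha⟩ : Fin s.card) : ℕ) < s.card := (e.symm ⟨a, ha⟩).2
    simp only [h, dif_pos, Fin.eta, Equiv.apply_symm_apply]

/-- A nontrivial form in generators of the maximal ideal which vanishes to higher order gives a
smaller reduction. -/
theorem red_of_form {R : Type} [CommRing R] [IsDomain R] [IsLocalRing R] [IsNoetherianRing R]
    [Algebra ℂ R] {N : ℕ} {x : Fin (N + 1) → R} (hx : ∀ i, x i ∈ maximalIdeal R)
    {k : ℕ} (hk : maximalIdeal R ^ (k + 1) ≤ Ideal.span (Set.range x) * maximalIdeal R ^ k)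
    {F : MvPolynomial (Fin (N + 1)) ℂ} {j : ℕ} (hF : F.IsHomogeneous j) (hj : F ≠ 0)
    (hFx : MvPolynomial.aeval x F ∈ maximalIdeal R ^ (j + 1)) : IsRed R N := by
  obtain ⟨a, ha⟩ : ∃ a : Fin (N + 1) → ℂ, MvPolynomial.eval a F ≠ 0 := by
    by_contra hcon
    push Not at hcon
    exact hj (hF.eq_zero_of_forall_eval_eq_zero hcon)
  -- `j` is positive
  have hunit : ∀ z : ℂ, z ≠ 0 → IsUnit (algebraMap ℂ R z) := fun z hz =>
    (IsUnit.mk0 z hz).map _
  have hj1 : 1 ≤ j := by
    by_contra hj0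
    have hj0' : j = 0 := by omega
    subst hj0'
    have h1 : F = MvPolynomial.C (MvPolynomial.coeff 0 F) :=
      (MvPolynomial.totalDegree_eq_zero_iff_eq_C).mp (Nat.le_zero.mp hF.totalDegree_le)
    have h2 : MvPolynomial.coeff 0 F ≠ 0 := by
      intro h3
      rw [h3, map_zero] at h1
      exact hj h1
    rw [h1, MvPolynomial.aeval_C] at hFx
    simp only [zero_add, pow_one] at hFx
    exact (mem_maximalIdeal _).mp hFx (hunit _ h2)
  obtain ⟨i0, hi0⟩ : ∃ i0, a i0 ≠ 0 := by
    by_contra hcon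
    push Not at hcon
    apply ha
    have h1 : a = 0 := _root_.funext hcon
    rw [h1, MvPolynomial.eval_zero, MvPolynomial.constantCoeff_eq]
    exact hF.coeff_eq_zero (by simp; omega)
  obtain ⟨i, hi⟩ : ∃ i, j = i + 1 := ⟨j - 1, by omega⟩
  -- new coordinates
  let a' : Fin (N + 1) → ℂ := fun l => a l / a i0
  have ha' : MvPolynomial.eval a' F ≠ 0 := by
    have h1 := aeval_smul a' (a i0) F j hF
    have h2 : (fun l => algebraMap ℂ ℂ (a' l) * a i0) = a := by
      funext l
      simp [a', hi0]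
    rw [h2] at h1
    intro h3
    rw [h3, map_zero, zero_mul] at h1
    apply ha
    rw [← h1, MvPolynomial.aeval_eq_eval]
  let u := x i0
  let x' : Fin N → R := fun l => x (i0.succAbove l) - algebraMap ℂ R (a' (i0.succAbove l)) * u
  let J := Ideal.span (Set.range x')
  have hx' : ∀ l, x' l ∈ maximalIdeal R := fun l =>
    Ideal.sub_mem _ (hx _) (Ideal.mul_mem_left _ _ (hx i0))
  have hJ : J ≤ maximalIdeal R := by
    rw [Ideal.span_le]
    rintro _ ⟨l, rfl⟩
    exact hx' l
  have hxq : ∀ l, x l - algebraMap ℂ R (a' l) * u ∈ J := by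
    intro l
    rcases Fin.eq_self_or_eq_succAbove i0 l with h1 | ⟨l', h1⟩
    · have h2 : x l - algebraMap ℂ R (a' l) * u = 0 := by
        rw [h1]
        simp [a', u, div_self hi0]
      rw [h2]
      exact Ideal.zero_mem _
    · rw [h1]
      exact Ideal.subset_span ⟨l', rfl⟩
  have hu : u ^ (i + 1) ∈ J * maximalIdeal R ^ i ⊔ maximalIdeal R ^ (i + 2) := by
    have h1 := aeval_sub_mem x (fun l => algebraMap ℂ R (a' l) * u) hx
      (fun l => Ideal.mul_mem_left _ _ (hx i0)) hxq F j hF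
    rw [aeval_smul a' u F j hF] at h1
    have h2 : algebraMap ℂ R (MvPolynomial.eval a' F) * u ^ j ∈
        J * maximalIdeal R ^ i ⊔ maximalIdeal R ^ (i + 2) := by
      have h3 : algebraMap ℂ R (MvPolynomial.eval a' F) * u ^ j =
          -(MvPolynomial.aeval x F - algebraMap ℂ R (MvPolynomial.eval a' F) * u ^ j) +
            MvPolynomial.aeval x F := by ring
      rw [h3]
      apply Ideal.add_mem
      · apply Ideal.mem_sup_left
        rw [hi] at h1 ⊢
        exact (Ideal.neg_mem_iff _).mpr h1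
      · apply Ideal.mem_sup_right
        rw [hi] at hFx
        exact hFx
    rw [Ideal.unit_mul_mem_iff_mem _ (hunit _ ha'), hi] at h2
    exact h2
  have hspan : Ideal.span (Set.range x) ≤ J ⊔ Ideal.span {u} := by
    rw [Ideal.span_le]
    rintro _ ⟨l, rfl⟩
    have h1 : x l = (x l - algebraMap ℂ R (a' l) * u) + algebraMap ℂ R (a' l) * u := by ring
    rw [h1]
    apply Ideal.add_mem
    · exact Ideal.mem_sup_left (hxq l)
    · exact Ideal.mem_sup_right (Ideal.mul_mem_left _ _ (Ideal.mem_span_singleton_self u))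
  refine ⟨x', hx', k + i, ?_⟩
  apply nak
  have h1 : Ideal.span (Set.range x) ^ (i + 1) ≤
      J * maximalIdeal R ^ i ⊔ maximalIdeal R ^ (i + 2) := by
    refine (Ideal.pow_right_mono hspan (i + 1)).trans ?_
    refine (pow_sup_le (maximalIdeal R) J u hJ (hx i0) i).trans ?_
    apply sup_le le_sup_left
    rw [Ideal.span_le]
    simpa using hu
  calc maximalIdeal R ^ (k + i + 1) = maximalIdeal R ^ (k + (i + 1)) := by ring
    _ ≤ Ideal.span (Set.range x) ^ (i + 1) * maximalIdeal R ^ k :=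
        pow_red _ _ k hk (i + 1)
    _ ≤ (J * maximalIdeal R ^ i ⊔ maximalIdeal R ^ (i + 2)) * maximalIdeal R ^ k :=
        Ideal.mul_mono_left h1
    _ = J * maximalIdeal R ^ (k + i) ⊔ maximalIdeal R * maximalIdeal R ^ (k + i + 1) := by
        rw [Ideal.sup_mul]
        congr 1 <;> ring

/-- Forms in regular parameters do not vanish to higher order. -/
theorem form_not_mem (hess : Algebra.EssFiniteType ℂ R)
    (hres : Function.Surjective (algebraMap ℂ (ResidueField R))) (hdim : Algebra.trdeg ℂ R = n)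
    {x : Fin n → R} (hx : Ideal.span (Set.range x) = maximalIdeal R) {k : ℕ}
    {H : MvPolynomial (Fin n) ℂ} (hH : H.IsHomogeneous k) (h0 : H ≠ 0) :
    MvPolynomial.aeval x H ∉ maximalIdeal R ^ (k + 1) := by
  have hnoeth : IsNoetherianRing R := Algebra.EssFiniteType.isNoetherianRing ℂ R
  intro hmem
  rcases n with _ | N
  · -- no variables: a nonzero constant
    have h1 : H = MvPolynomial.C (MvPolynomial.coeff 0 H) := MvPolynomial.eq_C_of_isEmpty H
    have h2 : MvPolynomial.coeff 0 H ≠ 0 := by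
      intro h3
      rw [h3, map_zero] at h1
      exact h0 h1
    rw [h1, MvPolynomial.aeval_C] at hmem
    exact (mem_maximalIdeal _).mp (Ideal.pow_le_self (Nat.succ_ne_zero k) hmem)
      ((IsUnit.mk0 _ h2).map _)
  · have hxm : ∀ i, x i ∈ maximalIdeal R := fun i => by
      rw [← hx]
      exact Ideal.subset_span ⟨i, rfl⟩
    obtain ⟨y, hy, l, hl⟩ := red_of_form hxm (k := 0) (by simp [hx]) hH h0 hmem
    have h1 := trdeg_le_of_pow_le hres hess y hy ⟨l + 1, hl.trans Ideal.mul_le_left⟩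
    rw [hdim, Nat.cast_le] at h1
    omega

/-- Elements of `𝔪 ^ k` are forms of degree `k` modulo `𝔪 ^ (k + 1)`. -/
theorem exists_form (hres : Function.Surjective (algebraMap ℂ (ResidueField R)))
    {x : Fin n → R} (hx : Ideal.span (Set.range x) = maximalIdeal R) {k : ℕ} {f : R}
    (hf : f ∈ maximalIdeal R ^ k) : ∃ H : MvPolynomial (Fin n) ℂ, H.IsHomogeneous k ∧
      f - MvPolynomial.aeval x H ∈ maximalIdeal R ^ (k + 1) := by
  classical
  have hxm : ∀ i, x i ∈ maximalIdeal R := fun i => by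
    rw [← hx]
    exact Ideal.subset_span ⟨i, rfl⟩
  have hf' : f ∈ Ideal.span (Set.range x) ^ k := by rwa [hx]
  obtain ⟨p, hp, hpf⟩ := (Ideal.mem_span_pow_iff_exists_isHomogeneous x f).mp hf'
  have hlift : ∀ a : R, ∃ c : ℂ, a - algebraMap ℂ R c ∈ maximalIdeal R := by
    intro a
    obtain ⟨c, hc⟩ := hres (residue R a)
    refine ⟨c, ?_⟩
    rw [← residue_eq_zero_iff, map_sub, ← hc, sub_eq_zero]
    rw [IsScalarTower.algebraMap_apply ℂ R (ResidueField R)]
    rfl
  choose γ hγ using hlift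
  refine ⟨∑ d ∈ p.support, MvPolynomial.monomial d (γ (p.coeff d)), ?_, ?_⟩
  · apply MvPolynomial.IsHomogeneous.sum
    intro d hd
    apply MvPolynomial.isHomogeneous_monomial
    by_contra h
    exact (MvPolynomial.mem_support_iff.mp hd) (hp.coeff_eq_zero h)
  · rw [← hpf, MvPolynomial.eval_eq', map_sum, ← Finset.sum_sub_distrib]
    apply Ideal.sum_mem
    intro d hd
    have hdk : d.degree = k := by
      by_contra h
      exact (MvPolynomial.mem_support_iff.mp hd) (hp.coeff_eq_zero h)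
    have h1 : MvPolynomial.aeval x (MvPolynomial.monomial d (γ (p.coeff d))) =
        algebraMap ℂ R (γ (p.coeff d)) * ∏ i, x i ^ d i := by
      rw [MvPolynomial.aeval_monomial, Finsupp.prod_fintype _ _ (fun i => pow_zero _)]
    rw [h1, ← sub_mul, pow_succ']
    refine Ideal.mul_mem_mul (hγ _) ?_
    rw [← hdk]
    exact prod_pow_mem x hxm d

/-- The order valuation of a regular local ring. -/
theorem exists_ord (hess : Algebra.EssFiniteType ℂ R)
    (hres : Function.Surjective (algebraMap ℂ (ResidueField R))) (hdim : Algebra.trdeg ℂ R = n)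
    {x : Fin n → R} (hx : Ideal.span (Set.range x) = maximalIdeal R) :
    ∃ w : Valuation K ℝ≥0, ∀ (f : R) (k : ℕ),
      (w (algebraMap R K f) : ℝ) ≤ Real.exp (-k) ↔ f ∈ maximalIdeal R ^ k := by
  classical
  have hnoeth : IsNoetherianRing R := Algebra.EssFiniteType.isNoetherianRing ℂ R
  have hxm : ∀ i, x i ∈ maximalIdeal R := fun i => by
    rw [← hx]
    exact Ideal.subset_span ⟨i, rfl⟩
  -- the order of a nonzero element
  have hex : ∀ f : R, f ≠ 0 → ∃ k : ℕ, f ∉ maximalIdeal R ^ (k + 1) := by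
    intro f hf
    by_contra hcon
    push Not at hcon
    apply hf
    have h1 : f ∈ (⨅ i : ℕ, maximalIdeal R ^ i : Ideal R) := by
      rw [Submodule.mem_iInf]
      intro i
      exact Ideal.pow_le_pow_right (Nat.le_succ i) (hcon i)
    rw [Ideal.iInf_pow_eq_bot_of_isLocalRing _ (maximalIdeal.isMaximal R).ne_top] at h1
    exact h1
  have hord : ∀ f : R, f ≠ 0 → ∃ k : ℕ, f ∈ maximalIdeal R ^ k ∧ f ∉ maximalIdeal R ^ (k + 1) := by
    intro f hf
    refine ⟨Nat.find (hex f hf), ?_, Nat.find_spec (hex f hf)⟩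
    rcases Nat.eq_zero_or_pos (Nat.find (hex f hf)) with h | h
    · rw [h]; simp
    · have h1 := Nat.find_min (hex f hf) (m := Nat.find (hex f hf) - 1) (by omega)
      rw [not_not, Nat.sub_add_cancel h] at h1
      exact h1
  choose! o ho1 ho2 using hord
  -- characterization
  have hmem : ∀ (f : R), f ≠ 0 → ∀ k : ℕ, f ∈ maximalIdeal R ^ k ↔ k ≤ o f := by
    intro f hf k
    constructor
    · intro h
      by_contra hlt
      exact ho2 f hf (Ideal.pow_le_pow_right (by omega) h)
    · intro h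
      exact Ideal.pow_le_pow_right h (ho1 f hf)
  have hmul : ∀ f g : R, f ≠ 0 → g ≠ 0 → o (f * g) = o f + o g := by
    intro f g hf hg
    have hfg : f * g ≠ 0 := mul_ne_zero hf hg
    apply le_antisymm
    · by_contra hlt
      obtain ⟨H, hH, hH'⟩ := exists_form hres hx (ho1 f hf)
      obtain ⟨G, hG, hG'⟩ := exists_form hres hx (ho1 g hg)
      have hH0 : H ≠ 0 := by
        rintro rfl
        rw [map_zero, sub_zero] at hH'
        exact ho2 f hf hH'
      have hG0 : G ≠ 0 := by
        rintro rfl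
        rw [map_zero, sub_zero] at hG'
        exact ho2 g hg hG'
      apply form_not_mem hess hres hdim hx (hH.mul hG) (mul_ne_zero hH0 hG0)
      rw [map_mul]
      have h1 : f * g ∈ maximalIdeal R ^ (o f + o g + 1) := by
        rw [hmem _ hfg]
        omega
      have hHm : MvPolynomial.aeval x H ∈ maximalIdeal R ^ o f :=
        aeval_mem_pow x hxm H _ (fun d hd => (by
          by_contra h
          exact (MvPolynomial.mem_support_iff.mp hd) (hH.coeff_eq_zero (by omega))))
      have h2 : (f - MvPolynomial.aeval x H) * g ∈ maximalIdeal R ^ (o f + o g + 1) := by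
        have := Ideal.mul_mem_mul hH' (ho1 g hg)
        rw [← pow_add] at this
        exact Ideal.pow_le_pow_right (by omega) this
      have h3 : MvPolynomial.aeval x H * (g - MvPolynomial.aeval x G) ∈
          maximalIdeal R ^ (o f + o g + 1) := by
        have := Ideal.mul_mem_mul hHm hG'
        rw [← pow_add] at this
        exact Ideal.pow_le_pow_right (by omega) this
      have h4 : MvPolynomial.aeval x H * MvPolynomial.aeval x G = f * g -
          (f - MvPolynomial.aeval x H) * g -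
          MvPolynomial.aeval x H * (g - MvPolynomial.aeval x G) := by ring
      rw [h4]
      exact Ideal.sub_mem _ (Ideal.sub_mem _ h1 h2) h3
    · rw [← hmem _ hfg, pow_add]
      exact Ideal.mul_mem_mul (ho1 f hf) (ho1 g hg)
  let ev : R → ℝ≥0 := fun f => if f = 0 then 0 else ⟨Real.exp (-(o f)), (Real.exp_pos _).le⟩
  have hev0 : ev 0 = 0 := by simp [ev]
  have hev : ∀ f : R, f ≠ 0 → ((ev f : ℝ≥0) : ℝ) = Real.exp (-(o f)) := by
    intro f hf
    simp only [ev, hf, if_false]
    rfl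
  have hevk : ∀ (f : R) (k : ℕ), ((ev f : ℝ≥0) : ℝ) ≤ Real.exp (-k) ↔ f ∈ maximalIdeal R ^ k := by
    intro f k
    by_cases hf : f = 0
    · subst hf
      rw [hev0]
      simp [(Real.exp_pos _).le]
    · rw [hev f hf, Real.exp_le_exp, hmem f hf, neg_le_neg_iff, Nat.cast_le]
  have ho1' : o (1 : R) = 0 := by
    have h1 : ¬ (1 : R) ∈ maximalIdeal R ^ 1 := by
      rw [pow_one]
      exact (Ideal.ne_top_iff_one _).mp (maximalIdeal.isMaximal R).ne_top
    rw [hmem 1 one_ne_zero] at h1
    omega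
  let V : Valuation R ℝ≥0 :=
    { toFun := ev
      map_zero' := hev0
      map_one' := by
        apply NNReal.coe_injective
        rw [hev 1 one_ne_zero, ho1']
        simp
      map_mul' := by
        intro f g
        apply NNReal.coe_injective
        by_cases hf : f = 0
        · subst hf
          simp [hev0]
        by_cases hg : g = 0
        · subst hg
          simp [hev0]
        rw [NNReal.coe_mul, hev f hf, hev g hg, hev _ (mul_ne_zero hf hg), ← Real.exp_add,
          hmul f g hf hg]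
        congr 1
        push_cast
        ring
      map_add_le_max' := by
        intro f g
        by_cases hf : f = 0
        · subst hf
          simp
        by_cases hg : g = 0
        · subst hg
          simp
        rw [← NNReal.coe_le_coe, NNReal.coe_max, hev f hf, hev g hg]
        rcases le_total (o f) (o g) with h | h
        · have h1 : f + g ∈ maximalIdeal R ^ (o f) :=
            Ideal.add_mem _ (ho1 f hf) ((hmem g hg _).mpr h)
          exact ((hevk _ _).mpr h1).trans (le_max_left _ _)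
        · have h1 : f + g ∈ maximalIdeal R ^ (o g) :=
            Ideal.add_mem _ ((hmem f hf _).mpr h) (ho1 g hg)
          exact ((hevk _ _).mpr h1).trans (le_max_right _ _) }
  have hS : nonZeroDivisors R ≤ V.supp.primeCompl := by
    intro s hs hs'
    have h1 : ev s = 0 := hs'
    have h2 := hev s (nonZeroDivisors.ne_zero hs)
    rw [h1] at h2
    exact absurd h2.symm (Real.exp_pos _).ne'
  refine ⟨V.extendToLocalization hS K, fun f k => ?_⟩
  rw [Valuation.extendToLocalization_apply_map_apply]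
  exact hevk f k

/-- The length of `R / 𝔪 ^ k`. -/
theorem length_pow_le (hess : Algebra.EssFiniteType ℂ R)
    (hres : Function.Surjective (algebraMap ℂ (ResidueField R)))
    {x : Fin n → R} (hx : Ideal.span (Set.range x) = maximalIdeal R) (k : ℕ) :
    Module.length R (R ⧸ maximalIdeal R ^ k) ≤ Nat.choose (n + k - 1) n := by
  rcases k with _ | k
  · have : Subsingleton (R ⧸ maximalIdeal R ^ 0) := by
      rw [pow_zero, Ideal.one_eq_top]
      infer_instance
    rw [Module.length_eq_zero]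
    exact zero_le
  · have h1 : Module.length R (R ⧸ Ideal.span (Set.range x)) ≤ ((1 : ℕ) : ℕ∞) := by
      rw [hx]
      have h2 : IsSimpleModule R (R ⧸ maximalIdeal R) := by
        rw [isSimpleModule_iff_isCoatom]
        exact (maximalIdeal.isMaximal R).out
      rw [Module.length_eq_one_iff.mpr h2]
      simp
    have h3 := length_quot_le x 1 h1 k
    rw [hx, one_mul] at h3
    have h4 : n + (k + 1) - 1 = k + n := by omega
    rw [h4]
    exact h3

end Vale.Agent.P282.Full
end

section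

open scoped NNReal ENNReal Nat WithZero
open IsLocalRing

namespace Vale.Agent.P282.Full

open Vale.Agent.P282.L2

variable {n r : ℕ} {R K : Type} [CommRing R] [IsDomain R] [IsLocalRing R] [Algebra ℂ R]
  [Field K] [Algebra ℂ K] [Algebra R K] [IsScalarTower ℂ R K] [IsFractionRing R K]

/-- Evaluation of a polynomial and derivations. -/
theorem ordD_chain {P : Type} [CommRing P] (δ : P → P) (p : Polynomial P) :
    ∃ q : Polynomial P, ∀ (S : Type) [CommRing S] [Algebra ℂ S] [Algebra P S]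
      (d : Derivation ℂ S S), (∀ a, d (algebraMap P S a) = algebraMap P S (δ a)) →
      ∀ s : S, d (Polynomial.aeval s p) =
        Polynomial.aeval s q + Polynomial.aeval s (Polynomial.derivative p) * d s := by
  induction p using Polynomial.induction_on' with
  | add p1 p2 h1 h2 =>
    obtain ⟨q1, h1⟩ := h1
    obtain ⟨q2, h2⟩ := h2
    refine ⟨q1 + q2, fun S _ _ _ d hd s => ?_⟩
    rw [map_add, map_add, h1 S d hd, h2 S d hd, map_add, Polynomial.derivative_add, map_add]
    ring
  | monomial m a =>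
    refine ⟨Polynomial.monomial m (δ a), fun S _ _ _ d hd s => ?_⟩
    rw [Polynomial.aeval_monomial, Derivation.leibniz, Polynomial.aeval_monomial, hd,
      Polynomial.derivative_monomial, Polynomial.aeval_monomial, Derivation.leibniz_pow]
    simp only [smul_eq_mul, nsmul_eq_mul, map_mul, map_natCast]
    ring

/-- Approximation by polynomials. -/
theorem ordD_approx [Algebra (Pol n) R] [IsScalarTower ℂ (Pol n) R]
    (hres : Function.Surjective (algebraMap ℂ (ResidueField R)))
    (hx : Ideal.span (Set.range fun i : Fin n => algebraMap (Pol n) R (MvPolynomial.X i)) =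
      maximalIdeal R) (k : ℕ) (b : R) :
    ∃ Q : Pol n, b - algebraMap (Pol n) R Q ∈ maximalIdeal R ^ k := by
  have hJ : ∀ k : ℕ, maximalIdeal R ^ k =
      Ideal.span ((algebraMap (Pol n) R) '' ((MvPolynomial.idealOfVars (Fin n) ℂ ^ k :
        Ideal (Pol n)) : Set (Pol n))) := by
    intro k
    change _ = Ideal.map (algebraMap (Pol n) R) _
    rw [Ideal.map_pow, ← hx]
    congr 1
    unfold MvPolynomial.idealOfVars
    rw [Ideal.map_span, ← Set.range_comp]
    rfl
  induction k generalizing b with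
  | zero => exact ⟨0, by simp⟩
  | succ k ih =>
    obtain ⟨Q, hQ⟩ := ih b
    have key : ∀ y ∈ maximalIdeal R ^ k, ∃ Q : Pol n,
        y - algebraMap (Pol n) R Q ∈ maximalIdeal R ^ (k + 1) := by
      intro y hy
      rw [hJ k] at hy
      refine Submodule.span_induction (p := fun y _ => ∃ Q : Pol n,
        y - algebraMap (Pol n) R Q ∈ maximalIdeal R ^ (k + 1)) ?_ ?_ ?_ ?_ hy
      · rintro _ ⟨q, _, rfl⟩
        exact ⟨q, by simp⟩
      · exact ⟨0, by simp⟩
      · rintro x y _ _ ⟨w1, h1⟩ ⟨w2, h2⟩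
        refine ⟨w1 + w2, ?_⟩
        have : x + y - algebraMap (Pol n) R (w1 + w2) =
            (x - algebraMap (Pol n) R w1) + (y - algebraMap (Pol n) R w2) := by
          rw [map_add]; ring
        rw [this]
        exact Ideal.add_mem _ h1 h2
      · rintro a x hx' ⟨w, h1⟩
        obtain ⟨c, hc⟩ := hres (residue R a)
        have hac : a - algebraMap ℂ R c ∈ maximalIdeal R := by
          rw [← residue_eq_zero_iff, map_sub, ← hc, sub_eq_zero]
          rw [IsScalarTower.algebraMap_apply ℂ R (ResidueField R)]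
          rfl
        refine ⟨algebraMap ℂ (Pol n) c * w, ?_⟩
        have hx'' : x ∈ maximalIdeal R ^ k := by rw [hJ k]; exact hx'
        have : a • x - algebraMap (Pol n) R (algebraMap ℂ (Pol n) c * w) =
            (a - algebraMap ℂ R c) * x + algebraMap ℂ R c * (x - algebraMap (Pol n) R w) := by
          rw [smul_eq_mul, map_mul, ← IsScalarTower.algebraMap_apply ℂ (Pol n) R]; ring
        rw [this]
        refine Ideal.add_mem _ ?_ (Ideal.mul_mem_left _ _ h1)
        rw [pow_succ']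
        exact Ideal.mul_mem_mul hac hx''
    obtain ⟨Q', hQ'⟩ := key _ hQ
    refine ⟨Q + Q', ?_⟩
    have : b - algebraMap (Pol n) R (Q + Q') =
        b - algebraMap (Pol n) R Q - algebraMap (Pol n) R Q' := by rw [map_add]; ring
    rw [this]
    exact hQ'

theorem ordD_map_mem [Algebra (Pol n) R]
    (hx : Ideal.span (Set.range fun i : Fin n => algebraMap (Pol n) R (MvPolynomial.X i)) =
      maximalIdeal R) (k : ℕ) {Q : Pol n} (hQ : Q ∈ MvPolynomial.idealOfVars (Fin n) ℂ ^ k) :
    algebraMap (Pol n) R Q ∈ maximalIdeal R ^ k := by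
  have h1 : Ideal.map (algebraMap (Pol n) R) (MvPolynomial.idealOfVars (Fin n) ℂ ^ k) =
      maximalIdeal R ^ k := by
    rw [Ideal.map_pow, ← hx]
    congr 1
    unfold MvPolynomial.idealOfVars
    rw [Ideal.map_span, ← Set.range_comp]
    rfl
  rw [← h1]
  exact Ideal.mem_map_of_mem _ hQ

/-- The order of a polynomial in `R`. -/
theorem ordD_mem [Algebra (Pol n) R] [IsScalarTower ℂ (Pol n) R]
    (hess : Algebra.EssFiniteType ℂ R)
    (hres : Function.Surjective (algebraMap ℂ (ResidueField R))) (hdim : Algebra.trdeg ℂ R = n)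
    (hx : Ideal.span (Set.range fun i : Fin n => algebraMap (Pol n) R (MvPolynomial.X i)) =
      maximalIdeal R) (k : ℕ) {Q : Pol n} (hQ : algebraMap (Pol n) R Q ∈ maximalIdeal R ^ k) :
    Q ∈ MvPolynomial.idealOfVars (Fin n) ℂ ^ k := by
  induction k with
  | zero => simp
  | succ k ih =>
    have h1 : Q ∈ MvPolynomial.idealOfVars (Fin n) ℂ ^ k := ih (Ideal.pow_le_pow_right
      (Nat.le_succ k) hQ)
    set H := MvPolynomial.homogeneousComponent k Q with hH
    have h2 : Q - H ∈ MvPolynomial.idealOfVars (Fin n) ℂ ^ (k + 1) := by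
      rw [MvPolynomial.mem_pow_idealOfVars_iff'] at h1 ⊢
      intro m hm
      rw [MvPolynomial.coeff_sub, hH, MvPolynomial.coeff_homogeneousComponent]
      split_ifs with h3
      · rw [sub_self]
      · rw [sub_zero]
        apply h1
        omega
    have h3 : algebraMap (Pol n) R H ∈ maximalIdeal R ^ (k + 1) := by
      have : algebraMap (Pol n) R H = algebraMap (Pol n) R Q - algebraMap (Pol n) R (Q - H) := by
        rw [← map_sub]; congr 1; ring
      rw [this]
      exact Ideal.sub_mem _ hQ (ordD_map_mem hx _ h2)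
    have h4 : H = 0 := by
      by_contra h0
      refine form_not_mem hess hres hdim hx (MvPolynomial.homogeneousComponent_isHomogeneous k Q)
        h0 ?_
      rw [pt_aeval]
      exact h3
    rw [h4, sub_zero] at h2
    exact h2

theorem ordD_pderiv (i : Fin n) (k : ℕ) {Q : Pol n}
    (hQ : Q ∈ MvPolynomial.idealOfVars (Fin n) ℂ ^ (k + 1)) :
    MvPolynomial.pderiv i Q ∈ MvPolynomial.idealOfVars (Fin n) ℂ ^ k := by
  rw [MvPolynomial.mem_pow_idealOfVars_iff'] at hQ ⊢
  intro m hm
  rw [MvPolynomial.coeff_pderiv, hQ _ (by rw [map_add, Finsupp.degree_single]; omega), zero_mul]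

/-- Ideals of a noetherian local ring are closed. -/
theorem ordD_krull [IsNoetherianRing R] (I : Ideal R) (v : R)
    (h : ∀ k : ℕ, v ∈ I ⊔ maximalIdeal R ^ k) : v ∈ I := by
  rw [← Ideal.Quotient.eq_zero_iff_mem]
  have h1 := Ideal.iInf_pow_smul_eq_bot_of_isLocalRing (R := R) (M := R ⧸ I) (maximalIdeal R)
    (Ideal.IsPrime.ne_top inferInstance)
  have h2 : (Ideal.Quotient.mk I v : R ⧸ I) ∈
      (⨅ i : ℕ, maximalIdeal R ^ i • (⊤ : Submodule R (R ⧸ I))) := by
    rw [Submodule.mem_iInf]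
    intro k
    obtain ⟨a, ha, b, hb, hab⟩ := Submodule.mem_sup.1 (h k)
    have h3 : (Ideal.Quotient.mk I v : R ⧸ I) = b • (1 : R ⧸ I) := by
      rw [← hab, map_add, Ideal.Quotient.eq_zero_iff_mem.2 ha, zero_add, Algebra.smul_def, mul_one]
      rfl
    rw [h3]
    exact Submodule.smul_mem_smul hb trivial
  rw [h1] at h2
  exact (Submodule.mem_bot R).1 h2

section

variable [Algebra (Pol n) R] [IsScalarTower ℂ (Pol n) R]
  [Algebra (Pol n) K] [IsScalarTower (Pol n) R K] [IsScalarTower ℂ (Pol n) K]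
  [FaithfulSMul (Pol n) K]
  [Algebra (FractionRing (Pol n)) K] [IsScalarTower (Pol n) (FractionRing (Pol n)) K]
  [FiniteDimensional (FractionRing (Pol n)) K]

omit [IsDomain R] [IsLocalRing R] [Algebra ℂ R] [Algebra R K] [IsScalarTower ℂ R K]
  [IsFractionRing R K] [Algebra (Pol n) R] [IsScalarTower ℂ (Pol n) R]
  [IsScalarTower (Pol n) R K] [FaithfulSMul (Pol n) K]
  [Algebra (FractionRing (Pol n)) K] [IsScalarTower (Pol n) (FractionRing (Pol n)) K]
  [FiniteDimensional (FractionRing (Pol n)) K] in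
theorem ordD_partial_alg {d : Fin n → Derivation ℂ K K} (hd : IsPartials d) (i : Fin n)
    (f : Pol n) : d i (algebraMap (Pol n) K f) = algebraMap (Pol n) K (MvPolynomial.pderiv i f) := by
  induction f using MvPolynomial.induction_on with
  | C a =>
    have h1 : algebraMap (Pol n) K (MvPolynomial.C a) = algebraMap ℂ K a := by
      rw [IsScalarTower.algebraMap_apply ℂ (Pol n) K]; rfl
    rw [h1, Derivation.map_algebraMap, MvPolynomial.pderiv_C, map_zero]
  | add p q hp hq => rw [map_add, map_add, hp, hq, map_add, map_add]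
  | mul_X p j hp =>
    rw [map_mul, Derivation.leibniz, hp, hd i j, MvPolynomial.pderiv_mul, map_add, map_mul,
      map_mul]
    by_cases h : i = j
    · subst h
      simp [mul_comm, add_comm]
    · rw [if_neg h, MvPolynomial.pderiv_X_of_ne (Ne.symm h)]
      simp [mul_comm]

/-- The derivations `∂/∂x_i` preserve a regular local ring with parameters `x`. -/
theorem pderiv_mem (hess : Algebra.EssFiniteType ℂ R)
    (hres : Function.Surjective (algebraMap ℂ (ResidueField R))) (hdim : Algebra.trdeg ℂ R = n)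
    (hx : Ideal.span (Set.range fun i : Fin n => algebraMap (Pol n) R (MvPolynomial.X i)) =
      maximalIdeal R) {d : Fin n → Derivation ℂ K K} (hd : IsPartials d) (i : Fin n) (f : R) :
    ∃ a : R, algebraMap R K a = d i (algebraMap R K f) := by
  classical
  have hnoeth : IsNoetherianRing R := Algebra.EssFiniteType.isNoetherianRing ℂ R
  have hinj : Function.Injective (algebraMap R K) := IsFractionRing.injective R K
  have hinjP : Function.Injective (algebraMap (Pol n) K) := FaithfulSMul.algebraMap_injective _ _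
  have halg : Algebra.IsAlgebraic (Pol n) K :=
    (IsFractionRing.comap_isAlgebraic_iff (A := Pol n) (K := FractionRing (Pol n)) (C := K)).mpr
      inferInstance
  set β := algebraMap R K f with hβ
  -- a polynomial of minimal degree
  have hex : ∃ m : ℕ, ∃ p : Polynomial (Pol n), p ≠ 0 ∧ Polynomial.aeval β p = 0 ∧
      p.natDegree = m := by
    obtain ⟨p, hp, hp0⟩ := halg.isAlgebraic β
    exact ⟨_, p, hp, hp0, rfl⟩
  obtain ⟨p, hp, hp0, hpm⟩ := Nat.find_spec hex
  have hmin : ∀ q : Polynomial (Pol n), q ≠ 0 → Polynomial.aeval β q = 0 →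
      p.natDegree ≤ q.natDegree := by
    intro q hq hq0
    rw [hpm]
    exact Nat.find_min' hex ⟨q, hq, hq0, rfl⟩
  have hdeg : p.natDegree ≠ 0 := by
    intro h0
    rw [Polynomial.eq_C_of_natDegree_eq_zero h0, Polynomial.aeval_C] at hp0
    have h1 : p.coeff 0 = 0 := hinjP (by rw [hp0, map_zero])
    apply hp
    rw [Polynomial.eq_C_of_natDegree_eq_zero h0, h1, Polynomial.C_0]
  have hder : Polynomial.aeval β (Polynomial.derivative p) ≠ 0 := by
    intro h0
    have h1 : Polynomial.derivative p ≠ 0 := by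
      intro h2
      exact hdeg (Polynomial.derivative_eq_zero.1 h2)
    have h2 := hmin _ h1 h0
    have h3 := Polynomial.natDegree_derivative_lt hdeg
    omega
  obtain ⟨q, hq⟩ := ordD_chain (fun a : Pol n => MvPolynomial.pderiv i a) p
  have hK := hq K (d i) (fun a => ordD_partial_alg hd i a) β
  rw [hp0, map_zero] at hK
  have hev : ∀ p : Polynomial (Pol n), algebraMap R K (Polynomial.aeval f p) =
      Polynomial.aeval β p := fun p => (Polynomial.aeval_algebraMap_apply K f p).symm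
  have hf0 : Polynomial.aeval f p = 0 := hinj (by rw [hev, hp0, map_zero])
  set u := Polynomial.aeval f (Polynomial.derivative p) with hu
  set v := Polynomial.aeval f q with hv
  have hsub : ∀ (k : ℕ) (Q : Pol n), f - algebraMap (Pol n) R Q ∈ maximalIdeal R ^ k →
      ∀ p : Polynomial (Pol n), Polynomial.aeval f p - algebraMap (Pol n) R (p.eval Q) ∈
        maximalIdeal R ^ k := by
    intro k Q hQ p
    have h1 : algebraMap (Pol n) R (p.eval Q) =
        Polynomial.eval (algebraMap (Pol n) R Q) (p.map (algebraMap (Pol n) R)) := by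
      rw [Polynomial.eval_map, Polynomial.eval₂_at_apply]
    have h2 : Polynomial.aeval f p = Polynomial.eval f (p.map (algebraMap (Pol n) R)) := by
      rw [Polynomial.eval_map]; rfl
    rw [h1, h2]
    exact Ideal.mem_of_dvd _ (Polynomial.sub_dvd_eval_sub _ _ _) hQ
  have hmem : v ∈ Ideal.span {u} := by
    apply ordD_krull
    intro k
    obtain ⟨Q, hQ⟩ := ordD_approx hres hx (k + 1) f
    have hQk : f - algebraMap (Pol n) R Q ∈ maximalIdeal R ^ k :=
      Ideal.pow_le_pow_right (Nat.le_succ k) hQ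
    have h1 : algebraMap (Pol n) R (p.eval Q) ∈ maximalIdeal R ^ (k + 1) := by
      have := hsub (k + 1) Q hQ p
      rw [hf0, zero_sub] at this
      exact (Ideal.neg_mem_iff _).1 this
    have h2 := ordD_map_mem hx k (ordD_pderiv i k (ordD_mem hess hres hdim hx _ h1))
    have h3 : MvPolynomial.pderiv i (p.eval Q) =
        q.eval Q + (Polynomial.derivative p).eval Q * MvPolynomial.pderiv i Q := by
      have := hq (Pol n) (MvPolynomial.pderiv i) (fun a => rfl) Q
      simpa using this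
    rw [h3, map_add, map_mul] at h2
    have h4 := hsub k Q hQk q
    have h5 := hsub k Q hQk (Polynomial.derivative p)
    rw [← hv] at h4
    rw [← hu] at h5
    refine Submodule.mem_sup.2 ⟨-(u * algebraMap (Pol n) R (MvPolynomial.pderiv i Q)), ?_,
      v + u * algebraMap (Pol n) R (MvPolynomial.pderiv i Q), ?_, by ring⟩
    · exact (Ideal.neg_mem_iff _).2 (Ideal.mul_mem_right _ _ (Ideal.mem_span_singleton_self u))
    · have h6 : v + u * algebraMap (Pol n) R (MvPolynomial.pderiv i Q) =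
          (v - algebraMap (Pol n) R (q.eval Q)) +
          (u - algebraMap (Pol n) R ((Polynomial.derivative p).eval Q)) *
            algebraMap (Pol n) R (MvPolynomial.pderiv i Q) +
          (algebraMap (Pol n) R (q.eval Q) +
            algebraMap (Pol n) R ((Polynomial.derivative p).eval Q) *
              algebraMap (Pol n) R (MvPolynomial.pderiv i Q)) := by ring
      rw [h6]
      exact Ideal.add_mem _ (Ideal.add_mem _ h4 (Ideal.mul_mem_right _ _ h5)) h2
  obtain ⟨c, hc⟩ := Ideal.mem_span_singleton'.1 hmem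
  refine ⟨-c, ?_⟩
  have h1 : Polynomial.aeval β q = algebraMap R K c * Polynomial.aeval β (Polynomial.derivative p) := by
    rw [← hev, ← hev, ← map_mul]
    congr 1
    exact hc.symm
  rw [h1] at hK
  rw [map_neg]
  have h2 : Polynomial.aeval β (Polynomial.derivative p) * (algebraMap R K c + d i β) = 0 := by
    linear_combination -hK
  rcases mul_eq_zero.1 h2 with h3 | h3
  · exact absurd h3 hder
  · linear_combination -h3

end

end Vale.Agent.P282.Full
end

section

/-!
P282, equality case, arbitrary index: valuations of height one primes.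
-/

open scoped NNReal ENNReal Nat WithZero
open IsLocalRing

namespace Vale.Agent.P282.Full

open Vale.Agent.P282.L2

theorem ixr_dvr {R : Type} [CommRing R] [IsDomain R]
    [IsNoetherianRing R] [IsIntegrallyClosed R] (Q : Ideal R) [Q.IsPrime] (hQ : Q.height = 1)
    (V : Type) [CommRing V] [IsDomain V] [Algebra R V] [IsLocalization.AtPrime V Q] :
    IsDiscreteValuationRing V := by
  have _ : IsLocalRing V := IsLocalization.AtPrime.isLocalRing V Q
  have _ : IsNoetherianRing V := IsLocalization.isNoetherianRing Q.primeCompl V inferInstance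
  have _ : IsIntegrallyClosed V := isIntegrallyClosed_of_isLocalization V Q.primeCompl
    Q.primeCompl_le_nonZeroDivisors
  have h1 : ringKrullDim V = 1 := by
    rw [IsLocalization.AtPrime.ringKrullDim_eq_height Q V, hQ]; rfl
  have h2 := ringKrullDim_eq_one_iff_of_isLocalRing_isDomain.mp h1
  have h3 : IsIntegrallyClosed V ∧ ∃! P : Ideal V, P ≠ ⊥ ∧ P.IsPrime := by
    refine ⟨inferInstance, maximalIdeal V, ⟨?_, inferInstance⟩, ?_⟩
    · intro h
      exact h2.1 (IsLocalRing.isField_iff_maximalIdeal_eq.mpr h)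
    · rintro P ⟨hP, hPp⟩
      refine le_antisymm (IsLocalRing.le_maximalIdeal hPp.ne_top) ?_
      obtain ⟨x, hxP, hx0⟩ := Submodule.exists_mem_ne_zero_of_ne_bot hP
      exact (h2.2 x hx0).trans ((Ideal.IsRadical.radical_le_iff hPp.isRadical).mpr
        ((Ideal.span_singleton_le_iff_mem P).mpr hxP))
  exact ((IsDiscreteValuationRing.TFAE V h2.1).out 0 3).mpr h3

/-- The valuation of a prime ideal of height one. -/
theorem ixr_val {R K : Type} [CommRing R] [IsDomain R] [IsNoetherianRing R]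
    [IsIntegrallyClosed R] [Field K] [Algebra ℂ K] [Algebra R K] [IsFractionRing R K]
    (P : Ideal R) [P.IsPrime] (hP : P.height = 1) :
    ∃ v : Valuation K ℝ≥0, IsNormalized v ∧ HasCenter R v P ∧
      (∀ a : K, v a ≤ 1 → ∃ p q : R, q ∉ P ∧ a * algebraMap R K q = algebraMap R K p) ∧
      (∀ a : K, a ≠ 0 → ∃ k : ℤ, (v a : ℝ) = Real.exp k) := by
  let D := Localization.AtPrime P
  have hD : IsDiscreteValuationRing D := ixr_dvr P hP D
  have hunit : ∀ y : P.primeCompl, IsUnit (algebraMap R K y) := by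
    intro y
    have h1 : (y : R) ≠ 0 := by
      intro h
      apply y.2
      rw [h]
      exact P.zero_mem
    exact (IsUnit.mk0 _ (by rwa [Ne, IsFractionRing.to_map_eq_zero_iff]))
  let g : D →+* K := IsLocalization.lift (M := P.primeCompl) (g := algebraMap R K) hunit
  let _ : Algebra D K := g.toAlgebra
  have htow : IsScalarTower R D K := IsScalarTower.of_algebraMap_eq fun x =>
    (IsLocalization.lift_eq (M := P.primeCompl) hunit x).symm
  have hfr : IsFractionRing D K :=
    IsFractionRing.isFractionRing_of_isDomain_of_isLocalization P.primeCompl D K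
  let v0 : IsDedekindDomain.HeightOneSpectrum D :=
    ⟨maximalIdeal D, inferInstance, IsDiscreteValuationRing.not_a_field D⟩
  have huniq : ∀ v : IsDedekindDomain.HeightOneSpectrum D, v = v0 := by
    intro v
    apply IsDedekindDomain.HeightOneSpectrum.ext
    exact IsLocalRing.eq_maximalIdeal v.isMaximal
  set w := v0.valuation K with hw
  have hwR : ∀ f : R, w (algebraMap R K f) = w (algebraMap D K (algebraMap R D f)) := fun f => by
    rw [← IsScalarTower.algebraMap_apply R D K]
  refine ⟨canonVal w, canonVal_normalized (v0.valuation_surjective K), ?_, ?_, ?_⟩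
  · intro f
    rw [canonVal_le_one, canonVal_lt_one, hwR]
    refine ⟨v0.valuation_le_one _, ?_⟩
    rw [v0.valuation_lt_one_iff_mem]
    exact IsLocalization.AtPrime.to_map_mem_maximal_iff D P f
  · intro a ha
    rw [canonVal_le_one] at ha
    obtain ⟨d, hd⟩ := IsDedekindDomain.HeightOneSpectrum.mem_integers_of_valuation_le_one
      (R := D) K a (fun v => by rw [huniq v]; exact ha)
    obtain ⟨⟨p, q⟩, hpq⟩ := IsLocalization.surj P.primeCompl d
    refine ⟨p, q, q.2, ?_⟩
    rw [← hd, IsScalarTower.algebraMap_apply R D K, IsScalarTower.algebraMap_apply R D K p,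
      ← map_mul, hpq]
  · intro a ha
    have h0 : w a ≠ 0 := (w.ne_zero_iff).2 ha
    refine ⟨WithZero.log (w a), ?_⟩
    rw [canonVal_apply, ← canon_exp, WithZero.exp_log h0]

section

variable {R K : Type} [CommRing R] [IsDomain R] [Field K] [Algebra ℂ K] [Algebra R K]
  [IsFractionRing R K]

omit [IsDomain R] [Algebra ℂ K] [IsFractionRing R K] in
theorem ixr_unit {v : Valuation K ℝ≥0} {P : Ideal R} (hc : HasCenter R v P) {q : R} (hq : q ∉ P) :
    v (algebraMap R K q) = 1 := by
  apply le_antisymm (hc q).1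
  by_contra h
  rw [not_le, (hc q).2] at h
  exact hq h

omit [IsDomain R] [IsFractionRing R K] in
/-- Derivations of `R` have logarithmic poles of order one. -/
theorem ixr_log {ι : Type} {v : Valuation K ℝ≥0} {P : Ideal R} (hn : IsNormalized v)
    (hc : HasCenter R v P)
    (hloc : ∀ a : K, v a ≤ 1 → ∃ p q : R, q ∉ P ∧ a * algebraMap R K q = algebraMap R K p)
    (hval : ∀ a : K, a ≠ 0 → ∃ k : ℤ, (v a : ℝ) = Real.exp k)
    (d : ι → Derivation ℂ K K)
    (hd : ∀ i (f : R), ∃ a : R, algebraMap R K a = d i (algebraMap R K f)) :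
    ∃ q : ι → K, (∀ i, (v (q i) : ℝ) ≤ Real.exp 1) ∧ ∀ b : K, b ≠ 0 →
      ∃ (k : K) (c : ι → K), v k ≤ 1 ∧ (∀ i, v (c i) ≤ 1) ∧ ∀ i, d i b = b * (k * q i + c i) := by
  obtain ⟨f, hf⟩ := hn.1
  have hf1 : v f ≤ 1 := by
    rw [← NNReal.coe_le_coe, hf, NNReal.coe_one]
    exact Real.exp_le_one_iff.2 (by norm_num)
  obtain ⟨p, q, hq, hpq⟩ := hloc f hf1
  set π := algebraMap R K p with hπ
  have hvπ : (v π : ℝ) = Real.exp (-1) := by
    rw [← hpq, map_mul, ixr_unit hc hq, mul_one, hf]
  have hπ0 : π ≠ 0 := by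
    intro h
    rw [h, map_zero] at hvπ
    exact (Real.exp_pos _).ne hvπ
  have hdR : ∀ i (f : R), v (d i (algebraMap R K f)) ≤ 1 := by
    intro i f
    obtain ⟨a, ha⟩ := hd i f
    rw [← ha]
    exact (hc a).1
  refine ⟨fun i => d i π / π, fun i => ?_, fun b hb => ?_⟩
  · rw [map_div₀, NNReal.coe_div, hvπ, div_le_iff₀ (Real.exp_pos _), ← Real.exp_add]
    have := hdR i p
    rw [← NNReal.coe_le_coe] at this
    simpa using this
  · obtain ⟨m, hm⟩ := hval b hb
    have hπm : (v (π ^ m) : ℝ) = Real.exp (-m) := by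
      rw [map_zpow₀, NNReal.coe_zpow, hvπ, ← Real.rpow_intCast, ← Real.exp_mul]
      congr 1
      ring
    have h1 : v (b * π ^ m) = 1 := by
      rw [← NNReal.coe_inj, map_mul, NNReal.coe_mul, hm, hπm, ← Real.exp_add]
      simp
    obtain ⟨p', q', hq', hpq'⟩ := hloc _ h1.le
    have hvq' := ixr_unit hc hq'
    have hvp' : v (algebraMap R K p') = 1 := by
      rw [← hpq', map_mul, h1, hvq', mul_one]
    have hp0 : algebraMap R K p' ≠ 0 := by
      intro h
      rw [h, map_zero] at hvp'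
      exact zero_ne_one hvp'
    have hq0 : algebraMap R K q' ≠ 0 := by
      intro h
      rw [h, map_zero] at hvq'
      exact zero_ne_one hvq'
    have hπm0 : π ^ m ≠ 0 := zpow_ne_zero _ hπ0
    refine ⟨-(m : K), fun i => d i (algebraMap R K p') / algebraMap R K p' -
      d i (algebraMap R K q') / algebraMap R K q', ?_, fun i => ?_, fun i => ?_⟩
    · have h2 : (-(m : K)) = algebraMap R K (-(m : R)) := by
        rw [map_neg, map_intCast]
      rw [h2]
      exact (hc _).1
    · refine (v.map_sub _ _).trans (max_le ?_ ?_)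
      · rw [map_div₀, hvp', div_one]
        exact hdR _ _
      · rw [map_div₀, hvq', div_one]
        exact hdR _ _
    · have h3 := congrArg (d i) hpq'
      rw [Derivation.leibniz, Derivation.leibniz, Derivation.leibniz_zpow] at h3
      simp only [smul_eq_mul, zsmul_eq_mul] at h3
      have h4 : π ^ (m - 1) = π ^ m / π := by
        rw [zpow_sub_one₀ hπ0, div_eq_mul_inv]
      rw [h4] at h3
      have h5 : algebraMap R K p' = b * π ^ m * algebraMap R K q' := hpq'.symm
      have h6 : d i b * (π ^ m * algebraMap R K q') =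
          b * (-(m : K) * (d i π / π) + (d i (algebraMap R K p') / algebraMap R K p' -
      d i (algebraMap R K q') / algebraMap R K q')) * (π ^ m * algebraMap R K q') := by
        have h7 : b * (d i (algebraMap R K p') / algebraMap R K p') *
            (π ^ m * algebraMap R K q') = d i (algebraMap R K p') := by
          have h9 : b * (d i (algebraMap R K p') / algebraMap R K p') *
              (π ^ m * algebraMap R K q') = (d i (algebraMap R K p') / algebraMap R K p') *
              (b * π ^ m * algebraMap R K q') := by ring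
          rw [h9, ← h5, div_mul_cancel₀ _ hp0]
        have h8 : b * (d i (algebraMap R K q') / algebraMap R K q') *
            (π ^ m * algebraMap R K q') = b * π ^ m * d i (algebraMap R K q') := by
          field_simp
        linear_combination -h7 + h8 + h3
      exact mul_right_cancel₀ (mul_ne_zero hπm0 hq0) h6

omit [Algebra ℂ K] in
/-- The wedge of two logarithmic differentials has a pole of order one. -/
theorem ixr_wedge {v : Valuation K ℝ≥0} {q : Fin 2 → K} (hq : ∀ i, (v (q i) : ℝ) ≤ Real.exp 1) {k : Fin 2 → K} {c : Fin 2 → Fin 2 → K}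
    (hk : ∀ j, v (k j) ≤ 1) (hc : ∀ i j, v (c i j) ≤ 1) :
    (v (Matrix.det (Matrix.of fun i j => k j * q i + c i j)) : ℝ) ≤ Real.exp 1 := by
  have he : (1 : ℝ) ≤ Real.exp 1 := Real.one_le_exp_iff.2 zero_le_one
  have h1 : ∀ j i i' j', (v (k j * q i * c i' j') : ℝ) ≤ Real.exp 1 := by
    intro j i i' j'
    rw [map_mul, map_mul, NNReal.coe_mul, NNReal.coe_mul]
    have e1 : (v (k j) : ℝ) ≤ 1 := by exact_mod_cast hk j
    have e2 : (v (c i' j') : ℝ) ≤ 1 := by exact_mod_cast hc i' j'
    have e3 := hq i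
    calc (v (k j) : ℝ) * v (q i) * v (c i' j') ≤ 1 * Real.exp 1 * 1 := by gcongr
      _ = Real.exp 1 := by ring
  have h2 : ∀ i j i' j', (v (c i j * c i' j') : ℝ) ≤ Real.exp 1 := by
    intro i j i' j'
    rw [map_mul, NNReal.coe_mul]
    have e1 : (v (c i j) : ℝ) ≤ 1 := by exact_mod_cast hc i j
    have e2 : (v (c i' j') : ℝ) ≤ 1 := by exact_mod_cast hc i' j'
    calc (v (c i j) : ℝ) * v (c i' j') ≤ 1 * 1 := by gcongr
      _ ≤ Real.exp 1 := by rw [one_mul]; exact he
  have hadd : ∀ a b : K, (v a : ℝ) ≤ Real.exp 1 → (v b : ℝ) ≤ Real.exp 1 →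
      (v (a + b) : ℝ) ≤ Real.exp 1 := by
    intro a b ha hb
    have h3 := v.map_add a b
    rw [← NNReal.coe_le_coe, NNReal.coe_max] at h3
    exact h3.trans (max_le ha hb)
  have hsub : ∀ a b : K, (v a : ℝ) ≤ Real.exp 1 → (v b : ℝ) ≤ Real.exp 1 →
      (v (a - b) : ℝ) ≤ Real.exp 1 := by
    intro a b ha hb
    have h3 := v.map_sub a b
    rw [← NNReal.coe_le_coe, NNReal.coe_max] at h3
    exact h3.trans (max_le ha hb)
  rw [Matrix.det_fin_two]
  simp only [Matrix.of_apply]
  have h3 : (k 0 * q 0 + c 0 0) * (k 1 * q 1 + c 1 1) - (k 1 * q 0 + c 0 1) * (k 0 * q 1 + c 1 0) =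
      (k 0 * q 0 * c 1 1 + k 1 * q 1 * c 0 0 + c 0 0 * c 1 1) -
      (k 1 * q 0 * c 1 0 + k 0 * q 1 * c 0 1 + c 0 1 * c 1 0) := by ring
  rw [h3]
  exact hsub _ _ (hadd _ _ (hadd _ _ (h1 _ _ _ _) (h1 _ _ _ _)) (h2 _ _ _ _))
    (hadd _ _ (hadd _ _ (h1 _ _ _ _) (h1 _ _ _ _)) (h2 _ _ _ _))

end

end Vale.Agent.P282.Full
end

section

/-!
P282, equality case, arbitrary index: the form of a regular germ is a unit; reflections.
-/

open scoped NNReal ENNReal Nat WithZero
open IsLocalRing

namespace Vale.Agent.P282.Full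

open Vale.Agent.P282.L2

theorem ixr_height {R : Type} [CommRing R] [IsDomain R] [IsNoetherianRing R] {a : R} (ha : a ≠ 0)
    {P : Ideal R} [P.IsPrime] (hP : P ∈ (Ideal.span {a}).minimalPrimes) : P.height = 1 := by
  apply le_antisymm
  · exact Ideal.height_le_one_of_isPrincipal_of_mem_minimalPrimes (Ideal.span {a}) P hP
  · rw [Order.one_le_iff_ne_zero]
    intro h
    rw [Ideal.height_eq_zero_iff_eq_bot] at h
    have h1 : a ∈ P := hP.1.2 (Ideal.mem_span_singleton_self a)
    rw [h, Ideal.mem_bot] at h1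
    exact ha h1

section

variable {R K : Type} [CommRing R] [IsDomain R] [IsLocalRing R] [Algebra ℂ R]
  [Field K] [Algebra ℂ K] [Algebra R K] [IsScalarTower ℂ R K] [IsFractionRing R K]
  [Algebra (Pol 2) R] [IsScalarTower ℂ (Pol 2) R]
  [Algebra (Pol 2) K] [IsScalarTower (Pol 2) R K] [IsScalarTower ℂ (Pol 2) K]
  [FaithfulSMul (Pol 2) K]
  [Algebra (FractionRing (Pol 2)) K] [IsScalarTower (Pol 2) (FractionRing (Pol 2)) K]
  [FiniteDimensional (FractionRing (Pol 2)) K]

/-- The canonical form of a regular germ of dimension two is a unit multiple of `dx ∧ dy`. -/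
theorem ixr_isUnit {ω : (Fin 2 → Derivation ℂ K K) → K}
    (h : IsKltGerm R 2 1 ω)
    (hx : Ideal.span (Set.range fun i : Fin 2 => algebraMap (Pol 2) R (MvPolynomial.X i)) =
      maximalIdeal R) {d : Fin 2 → Derivation ℂ K K} (hd : IsPartials d) :
    ∃ a : R, IsUnit a ∧ algebraMap R K a = (ω d)⁻¹ := by
  have hess := h.essFiniteType
  have hnoeth : IsNoetherianRing R := Algebra.EssFiniteType.isNoetherianRing ℂ R
  have hnorm := h.normal
  have hmem : ∀ i : Fin 2, algebraMap (Pol 2) R (MvPolynomial.X i) ∈ maximalIdeal R := by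
    intro i
    rw [← hx]
    exact Ideal.subset_span ⟨i, rfl⟩
  have hzmt : ∀ a : R, ∃ s : R, IsUnit s ∧ IsIntegral (Pol 2) s ∧ IsIntegral (Pol 2) (s * a) :=
    fun a => zmt h.residue hmem ⟨1, by rw [pow_one, hx]⟩ a
  obtain ⟨a, ha⟩ := jac_mem one_le_two hzmt h hd
  obtain ⟨hωd, -⟩ := form_eval hd h.form
  refine ⟨a, ?_, ha⟩
  by_contra hu
  have ha0 : a ≠ 0 := by
    rintro rfl
    rw [map_zero] at ha
    exact inv_ne_zero hωd ha.symm
  have hne : Ideal.span {a} ≤ maximalIdeal R := by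
    rw [Ideal.span_le, Set.singleton_subset_iff]
    exact (mem_maximalIdeal _).2 hu
  obtain ⟨P, hPmin, -⟩ := Ideal.exists_minimalPrimes_le hne
  have hPp : P.IsPrime := hPmin.1.1
  have hP1 : P.height = 1 := ixr_height ha0 hPmin
  have haP : a ∈ P := hPmin.1.2 (Ideal.mem_span_singleton_self a)
  obtain ⟨v, hvn, hvc, hloc, hval⟩ := ixr_val (K := K) P hP1
  have hlub := h.canonical v P hvc hP1 hvn
  obtain ⟨q, hq, hlog⟩ := ixr_log hvn hvc hloc hval d
    (fun i f => pderiv_mem h.essFiniteType h.residue h.dim hx hd i f)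
  have hva : (v (ω d) : ℝ)⁻¹ ≤ Real.exp (-1) := by
    have h1 := hvn.2 (algebraMap R K a) ((hvc a).2.2 haP)
    rwa [ha, map_inv₀, NNReal.coe_inv] at h1
  have hvpos : 0 < (v (ω d) : ℝ) := by
    rw [NNReal.coe_pos, zero_lt_iff]
    exact (v.ne_zero_iff).2 hωd
  have hv1 : Real.exp 1 ≤ v (ω d) := by
    rw [Real.exp_neg, inv_le_inv₀ hvpos (Real.exp_pos _)] at hva
    exact hva
  have hub : (0 : ℝ) ∈ upperBounds {t : ℝ | ∃ (b : Fin 2 → K) (h : K), (∀ i, b i ≠ 0) ∧
      (∀ D : Fin 2 → Derivation ℂ K K,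
        (∏ i, b i) ^ 1 * ω D = h * Matrix.det (Matrix.of fun i j => D i (b j)) ^ 1) ∧
      t = -Real.log (v h) / (1 : ℕ)} := by
    rintro t ⟨b, h', hb, hD, rfl⟩
    choose k c hk hc hkc using fun j => hlog (b j) (hb j)
    have h1 := hD d
    have h2 : Matrix.det (Matrix.of fun i j => d i (b j)) =
        (∏ i, b i) * Matrix.det (Matrix.of fun i j => k j * q i + c j i) := by
      rw [Matrix.det_fin_two, Matrix.det_fin_two, Fin.prod_univ_two]
      simp only [Matrix.of_apply]
      rw [hkc 0 0, hkc 0 1, hkc 1 0, hkc 1 1]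
      ring
    have hB : (∏ i, b i) ≠ 0 := Finset.prod_ne_zero_iff.2 fun i _ => hb i
    rw [pow_one, pow_one, h2] at h1
    have h3 : ω d = h' * Matrix.det (Matrix.of fun i j => k j * q i + c j i) := by
      apply mul_left_cancel₀ hB
      rw [h1]
      ring
    have h4 := ixr_wedge (v := v) hq (k := k) (c := fun i j => c j i) hk (fun i j => hc j i)
    have h5 : (v (ω d) : ℝ) ≤ v h' * Real.exp 1 := by
      rw [h3, map_mul, NNReal.coe_mul]
      exact mul_le_mul_of_nonneg_left h4 (NNReal.coe_nonneg _)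
    have h6 : (1 : ℝ) ≤ v h' := by
      have h7 : 1 * Real.exp 1 ≤ v h' * Real.exp 1 := by
        rw [one_mul]
        exact hv1.trans h5
      exact le_of_mul_le_mul_right h7 (Real.exp_pos _)
    have h7 := Real.log_nonneg h6
    rw [Nat.cast_one, div_one]
    linarith
  have h8 := hlub.2 hub
  norm_num at h8

end

end Vale.Agent.P282.Full
end

section

open scoped NNReal ENNReal Nat WithZero
open IsLocalRing

namespace Vale.Agent.P282.Full

open Vale.Agent.P282.L2

variable {n r : ℕ} {R K : Type} [CommRing R] [IsDomain R] [IsLocalRing R] [Algebra ℂ R]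
  [Field K] [Algebra ℂ K] [Algebra R K] [IsScalarTower ℂ R K] [IsFractionRing R K]

omit [IsDomain R] in
/-- Leading forms. -/
theorem ora_form (hres : Function.Surjective (algebraMap ℂ (ResidueField R)))
    {x : Fin n → R} (hx : Ideal.span (Set.range x) = maximalIdeal R) (k : ℕ) :
    ∀ f ∈ maximalIdeal R ^ k, ∃ H : MvPolynomial (Fin n) ℂ, H.IsHomogeneous k ∧
      f - MvPolynomial.aeval x H ∈ maximalIdeal R ^ (k + 1) := by
  induction k with
  | zero =>
    intro f _
    obtain ⟨c, hc⟩ := hres (residue R f)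
    refine ⟨MvPolynomial.C c, MvPolynomial.isHomogeneous_C _ _, ?_⟩
    rw [MvPolynomial.aeval_C, zero_add, pow_one, ← residue_eq_zero_iff, map_sub, ← hc, sub_eq_zero,
      IsScalarTower.algebraMap_apply ℂ R (ResidueField R)]
    rfl
  | succ k ih =>
    have key : ∀ a ∈ Ideal.span (Set.range x), ∀ b ∈ maximalIdeal R ^ k,
        ∃ H : MvPolynomial (Fin n) ℂ, H.IsHomogeneous (k + 1) ∧
          b * a - MvPolynomial.aeval x H ∈ maximalIdeal R ^ (k + 1 + 1) := by
      intro a ha
      refine Submodule.span_induction (p := fun a _ => ∀ b ∈ maximalIdeal R ^ k,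
        ∃ H : MvPolynomial (Fin n) ℂ, H.IsHomogeneous (k + 1) ∧
          b * a - MvPolynomial.aeval x H ∈ maximalIdeal R ^ (k + 1 + 1)) ?_ ?_ ?_ ?_ ha
      · rintro _ ⟨i, rfl⟩ b hb
        obtain ⟨H, hH, hH'⟩ := ih b hb
        refine ⟨H * MvPolynomial.X i, hH.mul (MvPolynomial.isHomogeneous_X _ _), ?_⟩
        rw [map_mul, MvPolynomial.aeval_X, ← sub_mul, pow_succ (maximalIdeal R) (k + 1)]
        refine Ideal.mul_mem_mul hH' ?_
        rw [← hx]
        exact Ideal.subset_span ⟨i, rfl⟩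
      · intro b _
        exact ⟨0, MvPolynomial.isHomogeneous_zero _ _ _, by simp⟩
      · intro a a' _ _ h1 h2 b hb
        obtain ⟨H1, h1, h1'⟩ := h1 b hb
        obtain ⟨H2, h2, h2'⟩ := h2 b hb
        refine ⟨H1 + H2, h1.add h2, ?_⟩
        have e : b * (a + a') - MvPolynomial.aeval x (H1 + H2) =
            (b * a - MvPolynomial.aeval x H1) + (b * a' - MvPolynomial.aeval x H2) := by
          rw [map_add]; ring
        rw [e]
        exact Ideal.add_mem _ h1' h2'
      · intro s a _ h1 b hb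
        obtain ⟨H1, h1, h1'⟩ := h1 (b * s) (Ideal.mul_mem_right _ _ hb)
        refine ⟨H1, h1, ?_⟩
        rwa [smul_eq_mul, ← mul_assoc]
    intro f hf
    rw [pow_succ] at hf
    refine Submodule.mul_induction_on hf ?_ ?_
    · intro b hb a ha
      exact key a (by rw [hx]; exact ha) b hb
    · rintro f g ⟨H1, h1, h1'⟩ ⟨H2, h2, h2'⟩
      refine ⟨H1 + H2, h1.add h2, ?_⟩
      have e : f + g - MvPolynomial.aeval x (H1 + H2) =
          (f - MvPolynomial.aeval x H1) + (g - MvPolynomial.aeval x H2) := by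
        rw [map_add]; ring
      rw [e]
      exact Ideal.add_mem _ h1' h2'

omit [Algebra ℂ K] [IsScalarTower ℂ R K] [IsFractionRing R K] in
/-- The values of the order valuation. -/
theorem ora_val (hess : Algebra.EssFiniteType ℂ R)
    (hres : Function.Surjective (algebraMap ℂ (ResidueField R))) (hdim : Algebra.trdeg ℂ R = n)
    {x : Fin n → R} (hx : Ideal.span (Set.range x) = maximalIdeal R) {w : Valuation K ℝ≥0}
    (hw : ∀ (f : R) (k : ℕ),
      (w (algebraMap R K f) : ℝ) ≤ Real.exp (-k) ↔ f ∈ maximalIdeal R ^ k)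
    {f : R} {k : ℕ} (h1 : f ∈ maximalIdeal R ^ k) (h2 : f ∉ maximalIdeal R ^ (k + 1)) :
    (w (algebraMap R K f) : ℝ) = Real.exp (-k) := by
  refine le_antisymm ((hw f k).2 h1) ?_
  by_contra hcon
  push Not at hcon
  obtain ⟨H, hH, hH'⟩ := ora_form hres hx k f h1
  have h0 : H ≠ 0 := by
    rintro rfl
    rw [map_zero, sub_zero] at hH'
    exact h2 hH'
  have e1 : Real.exp (-((k + 1 : ℕ) : ℝ)) < w (algebraMap R K f) := by
    rw [← not_le, hw]
    exact h2
  have e2 : (w (algebraMap R K (f - MvPolynomial.aeval x H)) : ℝ) ≤ Real.exp (-((k + 1 : ℕ) : ℝ)) :=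
    (hw _ _).2 hH'
  have e3 : w (algebraMap R K (f - MvPolynomial.aeval x H)) < w (algebraMap R K f) := by
    rw [← NNReal.coe_lt_coe]
    exact e2.trans_lt e1
  have e4 : w (algebraMap R K (MvPolynomial.aeval x H)) = w (algebraMap R K f) := by
    have := w.map_sub_eq_of_lt_left e3
    rw [← this, ← map_sub, sub_sub_cancel]
  have hpos : 0 < (w (algebraMap R K f) : ℝ) := (Real.exp_pos _).trans e1
  obtain ⟨t, ht⟩ : ∃ t : ℝ, (w (algebraMap R K f) : ℝ) = Real.exp (-t) :=
    ⟨-Real.log (w (algebraMap R K f)), by rw [neg_neg, Real.exp_log hpos]⟩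
  rw [ht, Real.exp_lt_exp] at hcon
  have hkt : 0 < t - k := by linarith
  obtain ⟨N, hN⟩ := exists_nat_gt (1 / (t - k))
  have e5 : (MvPolynomial.aeval x H) ^ N ∉ maximalIdeal R ^ (k * N + 1) := by
    rw [← map_pow]
    exact form_not_mem hess hres hdim hx (hH.pow N) (pow_ne_zero N h0)
  rw [← hw, map_pow, map_pow, e4, NNReal.coe_pow, ht, ← Real.exp_nat_mul, not_le,
    Real.exp_lt_exp] at e5
  rw [div_lt_iff₀ hkt] at hN
  push_cast at e5
  linarith

omit [IsDomain R] [Algebra ℂ R] [Algebra ℂ K] [IsScalarTower ℂ R K] in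
/-- The order of a nonzero element. -/
theorem ora_exists {w : Valuation K ℝ≥0}
    (hw : ∀ (f : R) (k : ℕ),
      (w (algebraMap R K f) : ℝ) ≤ Real.exp (-k) ↔ f ∈ maximalIdeal R ^ k)
    {f : R} (hf : f ≠ 0) : ∃ k : ℕ, f ∈ maximalIdeal R ^ k ∧ f ∉ maximalIdeal R ^ (k + 1) := by
  classical
  have h0 : algebraMap R K f ≠ 0 := by
    rwa [Ne, FaithfulSMul.algebraMap_eq_zero_iff]
  have h1 : 0 < (w (algebraMap R K f) : ℝ) := by
    have := (w.ne_zero_iff).2 h0
    positivity
  obtain ⟨N, hN⟩ := exists_nat_gt (-Real.log (w (algebraMap R K f)))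
  have h2 : f ∉ maximalIdeal R ^ N := by
    rw [← hw, not_le, ← Real.lt_log_iff_exp_lt h1]
    linarith
  have h3 : ∃ N, f ∉ maximalIdeal R ^ N := ⟨N, h2⟩
  have h4 := Nat.find_spec h3
  have h5 : Nat.find h3 ≠ 0 := by
    intro h
    rw [h, pow_zero] at h4
    exact h4 (by simp)
  obtain ⟨k, hk⟩ := Nat.exists_eq_succ_of_ne_zero h5
  refine ⟨k, ?_, ?_⟩
  · by_contra hcon
    have := Nat.find_min' h3 hcon
    omega
  · rw [hk] at h4
    exact h4

omit [IsDomain R] [Algebra ℂ R] [IsScalarTower ℂ R K] [IsFractionRing R K] in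
/-- A derivation of `R` lowers the order by at most one. -/
theorem ora_deriv {D : Derivation ℂ K K}
    (hD : ∀ f : R, ∃ a : R, algebraMap R K a = D (algebraMap R K f)) (k : ℕ) :
    ∀ f ∈ maximalIdeal R ^ (k + 1), ∃ a ∈ maximalIdeal R ^ k,
      algebraMap R K a = D (algebraMap R K f) := by
  induction k with
  | zero =>
    intro f _
    obtain ⟨a, ha⟩ := hD f
    exact ⟨a, by simp, ha⟩
  | succ k ih =>
    intro f hf
    rw [pow_succ] at hf
    refine Submodule.mul_induction_on hf ?_ ?_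
    · intro b hb a ha
      obtain ⟨b', hb', hb''⟩ := ih b hb
      obtain ⟨a', ha'⟩ := hD a
      refine ⟨b * a' + a * b', ?_, ?_⟩
      · refine Ideal.add_mem _ (Ideal.mul_mem_right _ _ hb) ?_
        rw [pow_succ, mul_comm a]
        exact Ideal.mul_mem_mul hb' ha
      · rw [map_mul, D.leibniz, smul_eq_mul, smul_eq_mul, ← ha', ← hb'', map_add, map_mul, map_mul]
    · rintro f g ⟨a, ha, ha'⟩ ⟨b, hb, hb'⟩
      exact ⟨a + b, Ideal.add_mem _ ha hb, by rw [map_add, map_add, map_add, ha', hb']⟩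

/-- Derivations of `R` increase the valuation at most by `e`. -/
theorem ora_deriv_le (hess : Algebra.EssFiniteType ℂ R)
    (hres : Function.Surjective (algebraMap ℂ (ResidueField R))) (hdim : Algebra.trdeg ℂ R = n)
    {x : Fin n → R} (hx : Ideal.span (Set.range x) = maximalIdeal R) {w : Valuation K ℝ≥0}
    (hw : ∀ (f : R) (k : ℕ),
      (w (algebraMap R K f) : ℝ) ≤ Real.exp (-k) ↔ f ∈ maximalIdeal R ^ k)
    {D : Derivation ℂ K K} (hD : ∀ f : R, ∃ a : R, algebraMap R K a = D (algebraMap R K f))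
    (f : R) : (w (D (algebraMap R K f)) : ℝ) ≤ Real.exp 1 * w (algebraMap R K f) := by
  by_cases hf : f = 0
  · rw [hf, map_zero, map_zero, map_zero]
    simp
  obtain ⟨k, h1, h2⟩ := ora_exists (K := K) hw hf
  rw [ora_val hess hres hdim hx hw h1 h2, ← Real.exp_add]
  cases k with
  | zero =>
    obtain ⟨a, ha⟩ := hD f
    rw [← ha]
    refine ((hw a 0).2 (by simp)).trans ?_
    rw [Real.exp_le_exp]
    push_cast
    linarith
  | succ k =>
    obtain ⟨a, ha, ha'⟩ := ora_deriv hD k f h1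
    rw [← ha']
    refine ((hw a k).2 ha).trans ?_
    rw [Real.exp_le_exp]
    push_cast
    linarith

/-- The same for the fraction field. -/
theorem ora_deriv_le' (hess : Algebra.EssFiniteType ℂ R)
    (hres : Function.Surjective (algebraMap ℂ (ResidueField R))) (hdim : Algebra.trdeg ℂ R = n)
    {x : Fin n → R} (hx : Ideal.span (Set.range x) = maximalIdeal R) {w : Valuation K ℝ≥0}
    (hw : ∀ (f : R) (k : ℕ),
      (w (algebraMap R K f) : ℝ) ≤ Real.exp (-k) ↔ f ∈ maximalIdeal R ^ k)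
    {D : Derivation ℂ K K} (hD : ∀ f : R, ∃ a : R, algebraMap R K a = D (algebraMap R K f))
    (b : K) : (w (D b) : ℝ) ≤ Real.exp 1 * w b := by
  obtain ⟨f, g, hg, hfg⟩ := IsFractionRing.div_surjective (A := R) b
  have hg0 : algebraMap R K g ≠ 0 := by
    rw [Ne, FaithfulSMul.algebraMap_eq_zero_iff]
    exact nonZeroDivisors.ne_zero hg
  have e1 : algebraMap R K f = b * algebraMap R K g := by
    rw [← hfg, div_mul_cancel₀ _ hg0]
  have e2 : algebraMap R K g * D b = D (algebraMap R K f) - b * D (algebraMap R K g) := by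
    rw [e1, D.leibniz, smul_eq_mul, smul_eq_mul]
    ring
  have e3 := w.map_sub (D (algebraMap R K f)) (b * D (algebraMap R K g))
  rw [← e2, map_mul, map_mul, ← NNReal.coe_le_coe, NNReal.coe_max, NNReal.coe_mul,
    NNReal.coe_mul] at e3
  have e4 := ora_deriv_le hess hres hdim hx hw hD f
  have e5 := ora_deriv_le hess hres hdim hx hw hD g
  have e6 : (w (algebraMap R K f) : ℝ) = w b * w (algebraMap R K g) := by
    rw [e1, map_mul, NNReal.coe_mul]
  have hgpos : 0 < (w (algebraMap R K g) : ℝ) := by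
    have := (w.ne_zero_iff).2 hg0
    positivity
  have e7 : (w (algebraMap R K g) : ℝ) * w (D b) ≤
      w (algebraMap R K g) * (Real.exp 1 * w b) := by
    refine e3.trans (max_le ?_ ?_)
    · rw [e6] at e4
      linarith
    · calc (w b : ℝ) * w (D (algebraMap R K g)) ≤ w b * (Real.exp 1 * w (algebraMap R K g)) :=
            mul_le_mul_of_nonneg_left e5 (NNReal.coe_nonneg _)
        _ = _ := by ring
  exact le_of_mul_le_mul_left e7 hgpos

section

variable [Algebra (Pol n) R] [IsScalarTower ℂ (Pol n) R]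
  [Algebra (Pol n) K] [IsScalarTower (Pol n) R K] [IsScalarTower ℂ (Pol n) K]
  [FaithfulSMul (Pol n) K]
  [Algebra (FractionRing (Pol n)) K] [IsScalarTower (Pol n) (FractionRing (Pol n)) K]
  [FiniteDimensional (FractionRing (Pol n)) K]

/-- The log discrepancy of the order valuation is at most `n`. -/
theorem ord_logDiscrepancy_aux (hn : 1 ≤ n) {ω : (Fin n → Derivation ℂ K K) → K}
    (h : IsKltGerm R n 1 ω)
    (hx : Ideal.span (Set.range fun i : Fin n => algebraMap (Pol n) R (MvPolynomial.X i)) =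
      maximalIdeal R) {w : Valuation K ℝ≥0} (hw : ∀ (f : R) (k : ℕ),
      (w (algebraMap R K f) : ℝ) ≤ Real.exp (-k) ↔ f ∈ maximalIdeal R ^ k) :
    ∃ a : ℝ, 0 ≤ a ∧ a ≤ n ∧ IsLogDiscrepancy n 1 ω w a := by
  classical
  obtain ⟨d, hd⟩ := exists_partials n K
  have hD := fun i => pderiv_mem h.essFiniteType h.residue h.dim hx hd i
  have hess := h.essFiniteType
  have hmem : ∀ i : Fin n, algebraMap (Pol n) R (MvPolynomial.X i) ∈ maximalIdeal R := by
    intro i
    rw [← hx]
    exact Ideal.subset_span ⟨i, rfl⟩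
  have hzmt : ∀ a : R, ∃ s : R, IsUnit s ∧ IsIntegral (Pol n) s ∧ IsIntegral (Pol n) (s * a) :=
    fun a => zmt h.residue hmem ⟨1, by rw [pow_one, hx]⟩ a
  have hz : ∀ i : Fin n, (w (algebraMap (Pol n) K (MvPolynomial.X i)) : ℝ) = Real.exp (-1) := by
    intro i
    have h1 : algebraMap (Pol n) R (MvPolynomial.X i) ∉ maximalIdeal R ^ (1 + 1) := by
      have h2 := form_not_mem h.essFiniteType h.residue h.dim hx (k := 1)
        (H := MvPolynomial.X i) (MvPolynomial.isHomogeneous_X _ _) (MvPolynomial.X_ne_zero i)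
      rwa [MvPolynomial.aeval_X] at h2
    have h3 := ora_val (K := K) h.essFiniteType h.residue h.dim hx hw (k := 1)
      (by rw [pow_one]; exact hmem i) h1
    rw [← IsScalarTower.algebraMap_apply (Pol n) R K] at h3
    rw [h3]
    norm_num
  have hz0 : ∀ i : Fin n, algebraMap (Pol n) K (MvPolynomial.X i) ≠ 0 := by
    intro i
    rw [Ne, FaithfulSMul.algebraMap_eq_zero_iff]
    exact MvPolynomial.X_ne_zero i
  set L : Fin n → Derivation ℂ K K := fun i =>
    algebraMap (Pol n) K (MvPolynomial.X i) • d i with hL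
  have hdet : Matrix.det (Matrix.of fun i j => L i (algebraMap (Pol n) K (MvPolynomial.X j))) =
      ∏ i, algebraMap (Pol n) K (MvPolynomial.X i) := by
    have h1 : (Matrix.of fun i j => L i (algebraMap (Pol n) K (MvPolynomial.X j))) =
        Matrix.diagonal fun i => algebraMap (Pol n) K (MvPolynomial.X i) := by
      ext i j
      rw [Matrix.of_apply, hL, Derivation.smul_apply, hd i j, Matrix.diagonal_apply, smul_eq_mul]
      split_ifs <;> simp
    rw [h1, Matrix.det_diagonal]
  have hframe : LogFrame w L fun i => algebraMap (Pol n) K (MvPolynomial.X i) := by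
    refine ⟨?_, hz0, ?_⟩
    · intro i b
      have h1 := ora_deriv_le' h.essFiniteType h.residue h.dim hx hw (hD i) b
      rw [hL, Derivation.smul_apply, smul_eq_mul, map_mul, ← NNReal.coe_le_coe, NNReal.coe_mul, hz]
      calc Real.exp (-1) * (w (d i b) : ℝ) ≤ Real.exp (-1) * (Real.exp 1 * w b) :=
            mul_le_mul_of_nonneg_left h1 (Real.exp_pos _).le
        _ = w b := by rw [← mul_assoc, ← Real.exp_add]; simp
    · rw [hdet]
  have hlog := hframe.isLogDiscrepancy one_pos h.form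
  have hcenter : HasCenter R w (maximalIdeal R) := by
    intro f
    have h1 : w (algebraMap R K f) ≤ 1 := by
      rw [← NNReal.coe_le_coe]
      refine ((hw f 0).2 (by simp)).trans ?_
      simp
    refine ⟨h1, ?_, ?_⟩
    · intro h2
      by_contra h3
      have h4 := ora_val (K := K) h.essFiniteType h.residue h.dim hx hw (f := f) (k := 0)
        (by simp) (by rwa [zero_add, pow_one])
      rw [← NNReal.coe_lt_coe, h4] at h2
      simp at h2
    · intro h2
      rw [← NNReal.coe_lt_coe]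
      refine ((hw f 1).2 (by rwa [pow_one])).trans_lt ?_
      rw [NNReal.coe_one, ← Real.exp_zero, Real.exp_lt_exp]
      norm_num
  have hbot : maximalIdeal R ≠ ⊥ := by
    intro h1
    have h2 := hmem ⟨0, hn⟩
    rw [h1, Ideal.mem_bot] at h2
    apply hz0 ⟨0, hn⟩
    rw [IsScalarTower.algebraMap_apply (Pol n) R K, h2, map_zero]
  have hpos := h.klt w (maximalIdeal R) _ hcenter hbot hlog
  refine ⟨_, hpos.le, ?_, hlog⟩
  -- the upper bound
  obtain ⟨hωd, hform⟩ := form_eval hd h.form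
  have e1 : ω L = ω d * ∏ i, algebraMap (Pol n) K (MvPolynomial.X i) := by
    rw [hform L, hdet, pow_one]
  obtain ⟨a, ha⟩ := jac_mem hn hzmt h hd
  have e2 : w (ω d)⁻¹ ≤ 1 := by
    rw [← ha]
    exact (hcenter a).1
  have e3 : (1 : ℝ) ≤ w (ω d) := by
    rw [map_inv₀] at e2
    have h4 : 0 < w (ω d) := zero_lt_iff.2 ((w.ne_zero_iff).2 hωd)
    have h5 : 1 ≤ w (ω d) := (inv_le_one₀ h4).1 e2
    exact_mod_cast h5
  have e4 : (w (ω L) : ℝ) = w (ω d) * Real.exp (-n) := by
    rw [e1, map_mul, map_prod, NNReal.coe_mul, NNReal.coe_prod]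
    simp only [hz]
    rw [Finset.prod_const, Finset.card_univ, Fintype.card_fin, ← Real.exp_nat_mul]
    congr 2
    ring
  rw [e4, Real.log_mul (by positivity) (Real.exp_ne_zero _), Real.log_exp]
  have e5 := Real.log_nonneg e3
  simp only [Nat.cast_one, div_one]
  linarith

end

/-- The order valuation of a regular germ. -/
theorem exists_ord_germ (hn : 1 ≤ n) {ω : (Fin n → Derivation ℂ K K) → K}
    (h : IsKltGerm R n 1 ω) (hreg : IsRegularLocalRing R) :
    ∃ (w : Valuation K ℝ≥0) (a : ℝ), 0 ≤ a ∧ a ≤ n ∧ IsLogDiscrepancy n 1 ω w a ∧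
      (∀ (f : R) (k : ℕ),
        (w (algebraMap R K f) : ℝ) ≤ Real.exp (-k) ↔ f ∈ maximalIdeal R ^ k) ∧
      ∀ k : ℕ, Module.length R (R ⧸ maximalIdeal R ^ k) ≤ Nat.choose (n + k - 1) n := by
  classical
  obtain ⟨x, hx⟩ := exists_regular_params h.essFiniteType h.residue h.dim hreg
  obtain ⟨w, hw⟩ := exists_ord (K := K) h.essFiniteType h.residue h.dim hx
  have hess := h.essFiniteType
  let _ : Algebra (Pol n) R := (MvPolynomial.aeval x).toAlgebra
  have _ : IsScalarTower ℂ (Pol n) R :=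
    IsScalarTower.of_algebraMap_eq fun c => ((MvPolynomial.aeval x).commutes c).symm
  have hpar : par n R = x := by
    ext i
    show MvPolynomial.aeval x (MvPolynomial.X i) = x i
    rw [MvPolynomial.aeval_X]
  have hmem : ∀ i : Fin n, par n R i ∈ maximalIdeal R := by
    intro i
    rw [hpar, ← hx]
    exact Ideal.subset_span ⟨i, rfl⟩
  have hx' : Ideal.span (Set.range (par n R)) = maximalIdeal R := by rw [hpar, hx]
  have hzmt : ∀ a : R, ∃ s : R, IsUnit s ∧ IsIntegral (Pol n) s ∧ IsIntegral (Pol n) (s * a) :=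
    fun a => zmt h.residue hmem ⟨1, by rw [pow_one]; exact hx'.ge⟩ a
  have htb := par_transcendenceBasis hzmt h.dim
  have hinj : Function.Injective (algebraMap (Pol n) R) := by
    have h1 : Function.Injective (MvPolynomial.aeval (R := ℂ) (par n R)) := htb.1
    intro p q hpq
    apply h1
    rw [aeval_par, aeval_par, hpq]
  let _ : Algebra (Pol n) K := ((algebraMap R K).comp (algebraMap (Pol n) R)).toAlgebra
  have _ : IsScalarTower (Pol n) R K := IsScalarTower.of_algebraMap_eq fun _ => rfl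
  have hfaithK : FaithfulSMul (Pol n) K := by
    rw [faithfulSMul_iff_algebraMap_injective, IsScalarTower.algebraMap_eq _ R K]
    exact (IsFractionRing.injective R K).comp hinj
  let _ : Algebra (FractionRing (Pol n)) K := FractionRing.liftAlgebra (Pol n) K
  have _ : IsScalarTower (Pol n) (FractionRing (Pol n)) K :=
    FractionRing.isScalarTower_liftAlgebra _ _
  have _ : IsScalarTower ℂ (Pol n) K :=
    IsScalarTower.of_algebraMap_eq fun c => by
      rw [IsScalarTower.algebraMap_apply (Pol n) R K,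
        ← IsScalarTower.algebraMap_apply ℂ (Pol n) R,
        ← IsScalarTower.algebraMap_apply ℂ R K]
  have _ : IsScalarTower ℂ (FractionRing (Pol n)) K :=
    IsScalarTower.of_algebraMap_eq fun c => by
      rw [IsScalarTower.algebraMap_apply ℂ (Pol n) (FractionRing (Pol n)),
        ← IsScalarTower.algebraMap_apply (Pol n) (FractionRing (Pol n)) K,
        ← IsScalarTower.algebraMap_apply ℂ (Pol n) K]
  have halgR : Algebra.IsAlgebraic (Pol n) R := by
    constructor
    intro r
    obtain ⟨s, hs1, hs2, hs3⟩ := hzmt r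
    exact IsAlgebraic.of_mul (y := s) (hs1.mem_nonZeroDivisors) hs2.isAlgebraic hs3.isAlgebraic
  have halgRK : Algebra.IsAlgebraic R K := IsLocalization.isAlgebraic _ (nonZeroDivisors R)
  have halgPK : Algebra.IsAlgebraic (Pol n) K := Algebra.IsAlgebraic.trans _ R _
  have halg : Algebra.IsAlgebraic (FractionRing (Pol n)) K :=
    (IsFractionRing.comap_isAlgebraic_iff (A := Pol n) (K := FractionRing (Pol n))
      (C := K)).mp halgPK
  have hessRK : Algebra.EssFiniteType R K :=
    Algebra.EssFiniteType.of_isLocalization _ (nonZeroDivisors R)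
  have hessCK : Algebra.EssFiniteType ℂ K := Algebra.EssFiniteType.comp ℂ R _
  have hessK : Algebra.EssFiniteType (FractionRing (Pol n)) K :=
    Algebra.EssFiniteType.of_comp ℂ (FractionRing (Pol n)) _
  have hfd : FiniteDimensional (FractionRing (Pol n)) K :=
    Algebra.finite_of_essFiniteType_of_isAlgebraic
  obtain ⟨a, ha0, han, ha⟩ := ord_logDiscrepancy_aux hn h hx' hw
  exact ⟨w, a, ha0, han, ha, hw, length_pow_le h.essFiniteType h.residue hx⟩

end Vale.Agent.P282.Full
end

section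

/-!
P282, equality case: construction and change of coordinates of hypersurface structures.
-/

open MeasureTheory Filter Topology

namespace Vale.Agent.P282.EQ

open Vale.Agent.P282.L2

variable {n N : ℕ} {K : Type} [Field K] [Algebra ℂ K] [Algebra (Pol n) K]
  [IsScalarTower ℂ (Pol n) K] [FaithfulSMul (Pol n) K]
  [Algebra (FractionRing (Pol n)) K] [IsScalarTower (Pol n) (FractionRing (Pol n)) K]
  [FiniteDimensional (FractionRing (Pol n)) K]

section HmA

theorem hm_finSucc_pderiv (G : MvPolynomial (Fin (n + 1)) ℂ) :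
    MvPolynomial.finSuccEquiv ℂ n (MvPolynomial.pderiv 0 G) =
      Polynomial.derivative (MvPolynomial.finSuccEquiv ℂ n G) := by
  induction G using MvPolynomial.induction_on with
  | C a => simp [MvPolynomial.finSuccEquiv_apply]
  | add p q hp hq => simp only [map_add, hp, hq]
  | mul_X p i hp =>
    rw [Derivation.leibniz, smul_eq_mul, smul_eq_mul, map_add, map_mul, map_mul, hp, map_mul,
      Polynomial.derivative_mul]
    refine Fin.cases ?_ (fun j => ?_) i
    · rw [MvPolynomial.pderiv_X_self, map_one, MvPolynomial.finSuccEquiv_X_zero,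
        Polynomial.derivative_X]
      ring
    · rw [MvPolynomial.pderiv_X_of_ne (Fin.succ_ne_zero j), map_zero,
        MvPolynomial.finSuccEquiv_X_succ, Polynomial.derivative_C]
      ring

omit [FaithfulSMul (Pol n) K] [Algebra (FractionRing (Pol n)) K]
  [IsScalarTower (Pol n) (FractionRing (Pol n)) K] [FiniteDimensional (FractionRing (Pol n)) K] in
theorem hm_aeval (y : IB n K) (G : MvPolynomial (Fin (n + 1)) ℂ) :
    MvPolynomial.aeval (stdCoord y) G =
      Polynomial.aeval y (MvPolynomial.finSuccEquiv ℂ n G) := by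
  induction G using MvPolynomial.induction_on with
  | C a =>
    rw [MvPolynomial.algHom_C, MvPolynomial.finSuccEquiv_apply, MvPolynomial.eval₂Hom_C]
    rw [RingHom.comp_apply, Polynomial.aeval_C]
    exact IsScalarTower.algebraMap_apply ℂ (Pol n) (IB n K) a
  | add p q hp hq => simp only [map_add, hp, hq]
  | mul_X p i hp =>
    rw [map_mul, map_mul, map_mul, hp, MvPolynomial.aeval_X]
    congr 1
    refine Fin.cases ?_ (fun j => ?_) i
    · rw [MvPolynomial.finSuccEquiv_X_zero, Polynomial.aeval_X]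
      rfl
    · rw [MvPolynomial.finSuccEquiv_X_succ, Polynomial.aeval_C]
      rfl

omit [Algebra ℂ K] [IsScalarTower ℂ (Pol n) K] [FaithfulSMul (Pol n) K]
  [Algebra (FractionRing (Pol n)) K]
  [IsScalarTower (Pol n) (FractionRing (Pol n)) K] [FiniteDimensional (FractionRing (Pol n)) K] in
theorem hm_coe (y : IB n K) (a : Polynomial (Pol n)) :
    ((Polynomial.aeval y a : IB n K) : K) = Polynomial.aeval (y : K) a :=
  (Polynomial.aeval_algebraMap_apply K y a).symm

/-- a common denominator -/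
theorem hm_common {x : Pt n K} {y : IB n K}
    (hloc : ∀ b : IB n K, ∃ s a : Polynomial (Pol n), x.toFun (Polynomial.aeval y s) ≠ 0 ∧
      Polynomial.aeval y s * b = Polynomial.aeval y a) :
    ∃ s : Polynomial (Pol n), x.toFun (Polynomial.aeval y s) ≠ 0 ∧
      ∀ b : IB n K, ∃ a : Polynomial (Pol n), Polynomial.aeval y s * b = Polynomial.aeval y a := by
  classical
  have hfin : Module.Finite (Pol n) (IB n K) := ib_finite
  obtain ⟨S, hS⟩ := hfin.fg_top
  choose s a hs ha using hloc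
  refine ⟨∏ b ∈ S, s b, ?_, ?_⟩
  · rw [map_prod, map_prod]
    exact Finset.prod_ne_zero_iff.2 fun b _ => hs b
  · obtain ⟨M, hM⟩ : ∃ M : Submodule (Pol n) (IB n K), ∀ b : IB n K, b ∈ M ↔
        ∃ g : Polynomial (Pol n), Polynomial.aeval y (∏ b ∈ S, s b) * b =
          Polynomial.aeval y g := by
      refine ⟨{ carrier := {b | ∃ g : Polynomial (Pol n),
                  Polynomial.aeval y (∏ b ∈ S, s b) * b = Polynomial.aeval y g}
                add_mem' := ?_
                zero_mem' := ?_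
                smul_mem' := ?_ }, fun x => Iff.rfl⟩
      · rintro b b' ⟨g, hg⟩ ⟨g', hg'⟩
        exact ⟨g + g', by rw [map_add, ← hg, ← hg', mul_add]⟩
      · exact ⟨0, by rw [map_zero, mul_zero]⟩
      · rintro r b ⟨g, hg⟩
        refine ⟨Polynomial.C r * g, ?_⟩
        rw [map_mul, Polynomial.aeval_C, ← hg, Algebra.smul_def]
        ring
    have h1 : (⊤ : Submodule (Pol n) (IB n K)) ≤ M := by
      rw [← hS]
      refine Submodule.span_le.2 fun b hb => ?_
      refine (hM b).2 ⟨(∏ b' ∈ S.erase b, s b') * a b, ?_⟩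
      rw [map_mul, ← ha b, ← Finset.prod_erase_mul S s hb, map_mul]
      ring
    exact fun b => (hM b).1 (h1 trivial)

theorem hm_top {y : IB n K}
    (hloc : ∀ b : IB n K, ∃ s a : Polynomial (Pol n), Polynomial.aeval y s ≠ 0 ∧
      Polynomial.aeval y s * b = Polynomial.aeval y a) :
    Algebra.adjoin (FractionRing (Pol n)) {(y : K)} = ⊤ := by
  have hfr : IsFractionRing (IB n K) K := ib_isFractionRing
  rw [← IntermediateField.adjoin_simple_toSubalgebra_of_isAlgebraic
      (Algebra.IsAlgebraic.isAlgebraic (R := FractionRing (Pol n)) (y : K))]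
  have hpol : ∀ g : Polynomial (Pol n), ((Polynomial.aeval y g : IB n K) : K) ∈
      IntermediateField.adjoin (FractionRing (Pol n)) {(y : K)} := by
    intro g
    rw [hm_coe, ← Polynomial.aeval_map_algebraMap (FractionRing (Pol n))]
    have h1 : Polynomial.aeval (y : K) (g.map (algebraMap (Pol n) (FractionRing (Pol n)))) ∈
        Algebra.adjoin (FractionRing (Pol n)) {(y : K)} := by
      rw [Algebra.adjoin_singleton_eq_range_aeval]
      exact ⟨_, rfl⟩
    exact IntermediateField.algebra_adjoin_le_adjoin _ _ h1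
  have hib : ∀ b : IB n K, (b : K) ∈
      IntermediateField.adjoin (FractionRing (Pol n)) {(y : K)} := by
    intro b
    obtain ⟨s, a, hs, hb⟩ := hloc b
    have hs' : ((Polynomial.aeval y s : IB n K) : K) ≠ 0 := fun h => hs (Subtype.ext h)
    have h2 : ((Polynomial.aeval y s : IB n K) : K) * (b : K) =
        ((Polynomial.aeval y a : IB n K) : K) := by
      rw [← hb]
      rfl
    have h3 : (b : K) = ((Polynomial.aeval y a : IB n K) : K) /
        ((Polynomial.aeval y s : IB n K) : K) := by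
      rw [eq_div_iff hs', ← h2, mul_comm]
    rw [h3]
    exact IntermediateField.div_mem _ (hpol a) (hpol s)
  have h4 : (IntermediateField.adjoin (FractionRing (Pol n)) {(y : K)}) = ⊤ := by
    rw [eq_top_iff]
    intro k _
    obtain ⟨b, c, hc, hk⟩ := IsFractionRing.div_surjective (A := IB n K) k
    rw [← hk]
    exact IntermediateField.div_mem _ (hib b) (hib c)
  rw [h4]
  rfl

omit [Algebra ℂ K] [IsScalarTower ℂ (Pol n) K] [FaithfulSMul (Pol n) K] in
theorem hm_euler {y : IB n K} (htop : Algebra.adjoin (FractionRing (Pol n)) {(y : K)} = ⊤) :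
    Polynomial.aeval (y : K) (Polynomial.derivative (minpoly (Pol n) (y : K))) ≠ 0 ∧
    ∀ a : Polynomial (Pol n), ∃ c : Pol n,
      tr (n := n) ((Polynomial.aeval (y : K)
        (Polynomial.derivative (minpoly (Pol n) (y : K))))⁻¹ * Polynomial.aeval (y : K) a) =
        algebraMap (Pol n) (FractionRing (Pol n)) c := by
  have hsep := px_separable n K
  have hy : IsIntegral (Pol n) (y : K) := y.2
  have hmin : minpoly (FractionRing (Pol n)) (y : K)
      = (minpoly (Pol n) (y : K)).map (algebraMap (Pol n) (FractionRing (Pol n))) :=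
    minpoly.isIntegrallyClosed_eq_field_fractions' (FractionRing (Pol n)) hy
  have hder : Polynomial.aeval (y : K)
      (Polynomial.derivative (minpoly (FractionRing (Pol n)) (y : K))) =
      Polynomial.aeval (y : K) (Polynomial.derivative (minpoly (Pol n) (y : K))) := by
    rw [hmin, Polynomial.derivative_map, Polynomial.aeval_map_algebraMap]
  constructor
  · have h1 : (minpoly (FractionRing (Pol n)) (y : K)).Separable :=
      Algebra.IsSeparable.isSeparable _ (y : K)
    have h2 := h1.aeval_derivative_ne_zero (minpoly.aeval (FractionRing (Pol n)) (y : K))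
    rwa [hder] at h2
  · intro a
    have h := traceForm_dualSubmodule_adjoin (Pol n) (FractionRing (Pol n)) htop hy
    have h1 : (Polynomial.aeval (y : K)
        (Polynomial.derivative (minpoly (Pol n) (y : K))))⁻¹ ∈
        (Algebra.traceForm (FractionRing (Pol n)) K).dualSubmodule
          (Subalgebra.toSubmodule (Algebra.adjoin (Pol n) {(y : K)})) := by
      rw [h, hder]
      have h2 : (1 : K) ∈ Subalgebra.toSubmodule (Algebra.adjoin (Pol n) {(y : K)}) :=
        Subalgebra.one_mem _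
      have h3 := Submodule.smul_mem_pointwise_smul (1 : K)
        (Polynomial.aeval (y : K) (Polynomial.derivative (minpoly (Pol n) (y : K))))⁻¹
        _ h2
      rwa [smul_eq_mul, mul_one] at h3
    have h4 : Polynomial.aeval (y : K) a ∈
        Subalgebra.toSubmodule (Algebra.adjoin (Pol n) {(y : K)}) := by
      rw [Subalgebra.mem_toSubmodule, Algebra.adjoin_singleton_eq_range_aeval]
      exact ⟨a, rfl⟩
    have h5 := h1 _ h4
    rw [Submodule.mem_one] at h5
    obtain ⟨c, hc⟩ := h5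
    exact ⟨c, by rw [hc, Algebra.traceForm_apply]⟩

end HmA

/-- The hypersurface structure given by the minimal polynomial of `y`. -/
theorem exists_hyp {x : Pt n K} {J : K} (hcan : Canon x J) {y : IB n K}
    (hxy : x.toFun y = 0) (hsep : ∀ x' : Pt n K, x'.toFun y = 0 → x'.toFun = x.toFun)
    (hloc : ∀ b : IB n K, ∃ s a : Polynomial (Pol n), x.toFun (Polynomial.aeval y s) ≠ 0 ∧
      Polynomial.aeval y s * b = Polynomial.aeval y a) :
    ∃ F : MvPolynomial (Fin (n + 1)) ℂ, Hyp x J (stdCoord y) F := by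
  classical
  obtain ⟨s, hs, hsa⟩ := hm_common hloc
  have htop : Algebra.adjoin (FractionRing (Pol n)) {(y : K)} = ⊤ := by
    refine hm_top fun b => ?_
    obtain ⟨s, a, h1, h2⟩ := hloc b
    exact ⟨s, a, fun h => h1 (by rw [h, map_zero]), h2⟩
  obtain ⟨hne, heul⟩ := hm_euler htop
  have hy : IsIntegral (Pol n) (y : K) := y.2
  obtain ⟨χ, hχ⟩ : ∃ χ : Polynomial (Pol n), χ = minpoly (Pol n) (y : K) := ⟨_, rfl⟩
  rw [← hχ] at hne heul
  obtain ⟨F, hF⟩ : ∃ F : MvPolynomial (Fin (n + 1)) ℂ, MvPolynomial.finSuccEquiv ℂ n F = χ :=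
    ⟨(MvPolynomial.finSuccEquiv ℂ n).symm χ, AlgEquiv.apply_symm_apply _ _⟩
  refine ⟨F, ?_, ?_, ?_, ?_, ?_, ?_, ?_⟩
  · refine ⟨1, by rw [Matrix.det_one]; exact one_ne_zero, fun i => ?_⟩
    have h1 : ∑ j : Fin n, (MvPolynomial.C ((1 : Matrix (Fin n) (Fin n) ℂ) i j) : Pol n) *
        MvPolynomial.X j = MvPolynomial.X i := by
      rw [Finset.sum_eq_single i]
      · rw [Matrix.one_apply_eq, map_one, one_mul]
      · intro j _ hj
        rw [Matrix.one_apply_ne (Ne.symm hj), map_zero, zero_mul]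
      · intro h
        exact absurd (Finset.mem_univ _) h
    rw [h1]
    rfl
  · exact hxy
  · exact hsep
  · rw [hm_aeval, hF]
    apply Subtype.ext
    rw [hm_coe, hχ, minpoly.aeval]
    rfl
  · intro G hG
    rw [hm_aeval] at hG
    have h1 : Polynomial.aeval (y : K) (MvPolynomial.finSuccEquiv ℂ n G) = 0 := by
      rw [← hm_coe, hG]
      rfl
    have h2 : χ ∣ MvPolynomial.finSuccEquiv ℂ n G := by
      rw [hχ]
      exact minpoly.isIntegrallyClosed_dvd hy h1
    obtain ⟨q, hq⟩ := h2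
    refine ⟨(MvPolynomial.finSuccEquiv ℂ n).symm q, ?_⟩
    apply (MvPolynomial.finSuccEquiv ℂ n).injective
    rw [map_mul, AlgEquiv.apply_symm_apply, hF, hq]
  · intro b
    obtain ⟨s, a, h1, h2⟩ := hloc b
    refine ⟨(MvPolynomial.finSuccEquiv ℂ n).symm s, (MvPolynomial.finSuccEquiv ℂ n).symm a, ?_, ?_⟩
    · rw [hm_aeval, AlgEquiv.apply_symm_apply]
      exact h1
    · rw [hm_aeval, hm_aeval, AlgEquiv.apply_symm_apply, AlgEquiv.apply_symm_apply]
      exact h2
  · rw [hm_aeval, hm_finSucc_pderiv, hF]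
    obtain ⟨δ, hδ⟩ : ∃ δ : K, δ = Polynomial.aeval (y : K) (Polynomial.derivative χ) := ⟨_, rfl⟩
    rw [← hδ] at hne heul
    have hcond : ∀ b : IB n K, ∃ c : Pol n,
        tr (n := n) (((Polynomial.aeval y s : IB n K) : K) * δ⁻¹ * (b : K)) =
          algebraMap (Pol n) (FractionRing (Pol n)) c := by
      intro b
      obtain ⟨a, ha⟩ := hsa b
      obtain ⟨c, hc⟩ := heul a
      refine ⟨c, ?_⟩
      rw [← hc, ← hm_coe, ← ha]
      congr 1
      have : ((Polynomial.aeval y s * b : IB n K) : K) =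
        ((Polynomial.aeval y s : IB n K) : K) * (b : K) := rfl
      rw [this]
      ring
    obtain ⟨s', hs', hint⟩ := hcan _ hcond
    refine ⟨s' * Polynomial.aeval y s, ⟨_, hint⟩, ?_, ?_⟩
    · rw [map_mul]
      exact mul_ne_zero hs' hs
    · have e1 : ((s' * Polynomial.aeval y s : IB n K) : K) =
        (s' : K) * ((Polynomial.aeval y s : IB n K) : K) := rfl
      have e2 : ((Polynomial.aeval y (Polynomial.derivative χ) : IB n K) : K) = δ := by
        rw [hm_coe, hδ]
      rw [e1, e2]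
      change _ = (s' : K) * (J * (((Polynomial.aeval y s : IB n K) : K) * δ⁻¹)) * δ
      field_simp

section HmB

/-- the substitution -/
noncomputable def hmS (β : Fin n → ℂ) (L : Matrix (Fin n) (Fin n) ℂ) :
    Fin (n + 1) → MvPolynomial (Fin (n + 1)) ℂ :=
  Fin.cons (MvPolynomial.X 0 + ∑ j : Fin n, MvPolynomial.C (β j) * MvPolynomial.X j.succ)
    (fun i : Fin n => ∑ j : Fin n, MvPolynomial.C (L i j) * MvPolynomial.X j.succ)

theorem hmS_zero (β : Fin n → ℂ) (L : Matrix (Fin n) (Fin n) ℂ) :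
    hmS β L 0 = MvPolynomial.X 0 + ∑ j : Fin n, MvPolynomial.C (β j) * MvPolynomial.X j.succ := rfl

theorem hmS_succ (β : Fin n → ℂ) (L : Matrix (Fin n) (Fin n) ℂ) (i : Fin n) :
    hmS β L i.succ = ∑ j : Fin n, MvPolynomial.C (L i j) * MvPolynomial.X j.succ := rfl

theorem hmS_row (β : Fin n → ℂ) (L : Matrix (Fin n) (Fin n) ℂ) (w : Fin n → ℂ) :
    MvPolynomial.aeval (hmS β L)
      (∑ j : Fin n, MvPolynomial.C (w j) * MvPolynomial.X j.succ :
        MvPolynomial (Fin (n + 1)) ℂ) =
      ∑ k : Fin n, MvPolynomial.C (Matrix.vecMul w L k) * MvPolynomial.X k.succ := by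
  rw [map_sum]
  have h1 : ∀ j : Fin n, MvPolynomial.aeval (hmS β L)
      (MvPolynomial.C (w j) * MvPolynomial.X j.succ : MvPolynomial (Fin (n + 1)) ℂ) =
      ∑ k : Fin n, MvPolynomial.C (w j * L j k) * MvPolynomial.X k.succ := by
    intro j
    rw [map_mul, MvPolynomial.algHom_C, MvPolynomial.algebraMap_eq, MvPolynomial.aeval_X, hmS_succ,
      Finset.mul_sum]
    exact Finset.sum_congr rfl fun k _ => by rw [map_mul]; ring
  rw [Finset.sum_congr rfl fun j _ => h1 j, Finset.sum_comm]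
  refine Finset.sum_congr rfl fun k _ => ?_
  rw [← Finset.sum_mul, ← map_sum]
  rfl

theorem hmS_comp (β γ : Fin n → ℂ) (L M : Matrix (Fin n) (Fin n) ℂ) (hβ : β + Matrix.vecMul γ L = 0)
    (hM : M * L = 1) (G : MvPolynomial (Fin (n + 1)) ℂ) :
    MvPolynomial.aeval (hmS β L) (MvPolynomial.aeval (hmS γ M) G) = G := by
  have h1 : (MvPolynomial.aeval (hmS β L)).comp (MvPolynomial.aeval (hmS γ M)) =
      AlgHom.id ℂ (MvPolynomial (Fin (n + 1)) ℂ) := by
    apply MvPolynomial.algHom_ext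
    intro i
    rw [AlgHom.comp_apply, MvPolynomial.aeval_X, AlgHom.id_apply]
    refine Fin.cases ?_ (fun i => ?_) i
    · rw [hmS_zero, map_add, MvPolynomial.aeval_X, hmS_row, hmS_zero, add_assoc,
        ← Finset.sum_add_distrib]
      have h2 : ∑ j : Fin n, ((MvPolynomial.C (β j) * MvPolynomial.X j.succ +
          MvPolynomial.C (Matrix.vecMul γ L j) * MvPolynomial.X j.succ :
            MvPolynomial (Fin (n + 1)) ℂ)) = 0 := by
        refine Finset.sum_eq_zero fun j _ => ?_
        rw [← add_mul, ← map_add]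
        have h3 : β j + Matrix.vecMul γ L j = 0 := congrFun hβ j
        rw [h3, map_zero, zero_mul]
      rw [h2, add_zero]
    · rw [hmS_succ, hmS_row]
      have h2 : Matrix.vecMul (M i) L = (1 : Matrix (Fin n) (Fin n) ℂ) i := by
        rw [← hM]
        rfl
      rw [h2, Finset.sum_eq_single i]
      · rw [Matrix.one_apply_eq, map_one, one_mul]
      · intro j _ hj
        rw [Matrix.one_apply_ne (Ne.symm hj), map_zero, zero_mul]
      · intro h
        exact absurd (Finset.mem_univ _) h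
  exact DFunLike.congr_fun h1 G

theorem hmS_pderiv (γ : Fin n → ℂ) (M : Matrix (Fin n) (Fin n) ℂ)
    (G : MvPolynomial (Fin (n + 1)) ℂ) :
    MvPolynomial.pderiv 0 (MvPolynomial.aeval (hmS γ M) G) =
      MvPolynomial.aeval (hmS γ M) (MvPolynomial.pderiv 0 G) := by
  have hrow : ∀ w : Fin n → ℂ, MvPolynomial.pderiv 0
      (∑ j : Fin n, MvPolynomial.C (w j) * MvPolynomial.X j.succ :
        MvPolynomial (Fin (n + 1)) ℂ) = 0 := by
    intro w
    rw [map_sum]
    refine Finset.sum_eq_zero fun j _ => ?_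
    rw [MvPolynomial.pderiv_C_mul, MvPolynomial.pderiv_X_of_ne (Fin.succ_ne_zero j), mul_zero]
  induction G using MvPolynomial.induction_on with
  | C a => rw [MvPolynomial.algHom_C, MvPolynomial.algebraMap_eq, MvPolynomial.pderiv_C,
      map_zero]
  | add p q hp hq => simp only [map_add, hp, hq]
  | mul_X p i hp =>
    rw [map_mul, Derivation.leibniz, Derivation.leibniz, hp, MvPolynomial.aeval_X]
    simp only [smul_eq_mul, map_add, map_mul, MvPolynomial.aeval_X]
    refine congrArg₂ (· + ·) ?_ rfl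
    refine Fin.cases ?_ (fun j => ?_) i
    · rw [hmS_zero, map_add, hrow, MvPolynomial.pderiv_X_self, add_zero, map_one]
    · rw [hmS_succ, hrow, MvPolynomial.pderiv_X_of_ne (Fin.succ_ne_zero j), map_zero]

omit [FaithfulSMul (Pol n) K] [Algebra (FractionRing (Pol n)) K]
  [IsScalarTower (Pol n) (FractionRing (Pol n)) K] [FiniteDimensional (FractionRing (Pol n)) K] in
theorem hm_lin {u : Fin (n + 1) → IB n K} {L : Matrix (Fin n) (Fin n) ℂ}
    (h : ∀ i : Fin n, u i.succ =
      algebraMap (Pol n) (IB n K) (∑ j, MvPolynomial.C (L i j) * MvPolynomial.X j))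
    (w : Fin n → ℂ) : MvPolynomial.aeval u
      (∑ j : Fin n, MvPolynomial.C (w j) * MvPolynomial.X j.succ :
        MvPolynomial (Fin (n + 1)) ℂ) =
      algebraMap (Pol n) (IB n K)
        (∑ k : Fin n, MvPolynomial.C (Matrix.vecMul w L k) * MvPolynomial.X k) := by
  rw [map_sum]
  have h1 : ∀ j : Fin n, MvPolynomial.aeval u
      (MvPolynomial.C (w j) * MvPolynomial.X j.succ : MvPolynomial (Fin (n + 1)) ℂ) =
      algebraMap (Pol n) (IB n K)
        (∑ k : Fin n, MvPolynomial.C (w j * L j k) * MvPolynomial.X k) := by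
    intro j
    rw [map_mul, MvPolynomial.algHom_C, MvPolynomial.aeval_X, h j,
      IsScalarTower.algebraMap_apply ℂ (Pol n) (IB n K), ← map_mul, MvPolynomial.algebraMap_eq,
      Finset.mul_sum]
    refine congrArg (algebraMap (Pol n) (IB n K)) ?_
    exact Finset.sum_congr rfl fun k _ => by rw [map_mul]; ring
  rw [Finset.sum_congr rfl fun j _ => h1 j, ← map_sum, Finset.sum_comm]
  refine congrArg (algebraMap (Pol n) (IB n K)) ?_
  refine Finset.sum_congr rfl fun k _ => ?_
  rw [← Finset.sum_mul, ← map_sum]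
  rfl

omit [FaithfulSMul (Pol n) K] [Algebra (FractionRing (Pol n)) K]
  [IsScalarTower (Pol n) (FractionRing (Pol n)) K] [FiniteDimensional (FractionRing (Pol n)) K] in
theorem hm_lin_zero {u : Fin (n + 1) → IB n K} {L : Matrix (Fin n) (Fin n) ℂ}
    (h : ∀ i : Fin n, u i.succ =
      algebraMap (Pol n) (IB n K) (∑ j, MvPolynomial.C (L i j) * MvPolynomial.X j))
    (w : Fin n → ℂ) (x : Pt n K) : x.toFun (MvPolynomial.aeval u
      (∑ j : Fin n, MvPolynomial.C (w j) * MvPolynomial.X j.succ :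
        MvPolynomial (Fin (n + 1)) ℂ)) = 0 := by
  rw [hm_lin h, x.map_alg, map_sum]
  refine Finset.sum_eq_zero fun k _ => ?_
  rw [map_mul, MvPolynomial.eval_X]
  exact mul_zero _

end HmB

/-- Linear changes of coordinates. -/
theorem Hyp.change {x : Pt n K} {J : K} {u : Fin (n + 1) → IB n K}
    {F : MvPolynomial (Fin (n + 1)) ℂ} (h : Hyp x J u F) (β : Fin n → ℂ)
    (L : Matrix (Fin n) (Fin n) ℂ) (hL : L.det ≠ 0) :
    ∃ (u' : Fin (n + 1) → IB n K) (F' : MvPolynomial (Fin (n + 1)) ℂ), Hyp x J u' F' ∧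
      F = MvPolynomial.aeval (Fin.cons
        (MvPolynomial.X 0 + ∑ j : Fin n, MvPolynomial.C (β j) * MvPolynomial.X j.succ)
        (fun i : Fin n => ∑ j : Fin n, MvPolynomial.C (L i j) * MvPolynomial.X j.succ) :
          Fin (n + 1) → MvPolynomial (Fin (n + 1)) ℂ) F' := by
  have hU : IsUnit L.det := isUnit_iff_ne_zero.2 hL
  obtain ⟨M, hM⟩ : ∃ M : Matrix (Fin n) (Fin n) ℂ, M = L⁻¹ := ⟨_, rfl⟩
  have hML : M * L = 1 := by rw [hM]; exact Matrix.nonsing_inv_mul L hU
  have hLM : L * M = 1 := by rw [hM]; exact Matrix.mul_nonsing_inv L hU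
  obtain ⟨γ, hγ⟩ : ∃ γ : Fin n → ℂ, γ = -Matrix.vecMul β M := ⟨_, rfl⟩
  have hc1 : β + Matrix.vecMul γ L = 0 := by
    rw [hγ, Matrix.neg_vecMul, Matrix.vecMul_vecMul, hML, Matrix.vecMul_one, add_neg_cancel]
  have hc2 : γ + Matrix.vecMul β M = 0 := by
    rw [hγ, neg_add_cancel]
  have hΦΨ : ∀ G, MvPolynomial.aeval (hmS β L) (MvPolynomial.aeval (hmS γ M) G) = G :=
    hmS_comp β γ L M hc1 hML
  have hΨΦ : ∀ G, MvPolynomial.aeval (hmS γ M) (MvPolynomial.aeval (hmS β L) G) = G :=
    hmS_comp γ β M L hc2 hLM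
  obtain ⟨u', hu'⟩ : ∃ u' : Fin (n + 1) → IB n K,
      u' = fun i => MvPolynomial.aeval u (hmS β L i) := ⟨_, rfl⟩
  have hau : ∀ G : MvPolynomial (Fin (n + 1)) ℂ, MvPolynomial.aeval u' G =
      MvPolynomial.aeval u (MvPolynomial.aeval (hmS β L) G) := by
    intro G
    have h1 := MvPolynomial.comp_aeval (R := ℂ) (hmS β L) (MvPolynomial.aeval (R := ℂ) u)
    rw [hu', ← h1]
    rfl
  have hau' : ∀ G : MvPolynomial (Fin (n + 1)) ℂ,
      MvPolynomial.aeval u' (MvPolynomial.aeval (hmS γ M) G) = MvPolynomial.aeval u G := by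
    intro G
    rw [hau, hΦΨ]
  obtain ⟨L0, hL0, hlin⟩ := h.lin
  have hx0 : ∀ x' : Pt n K, x'.toFun (u' 0) = x'.toFun (u 0) := by
    intro x'
    have h1 : u' 0 = MvPolynomial.aeval u (hmS β L 0) := by rw [hu']
    rw [h1, hmS_zero, map_add, map_add, MvPolynomial.aeval_X, hm_lin_zero hlin, add_zero]
  refine ⟨u', MvPolynomial.aeval (hmS γ M) F, ⟨?_, ?_, ?_, ?_, ?_, ?_, ?_⟩, (hΦΨ F).symm⟩
  · refine ⟨L * L0, by rw [Matrix.det_mul]; exact mul_ne_zero hL hL0, fun i => ?_⟩
    have h1 : u' i.succ = MvPolynomial.aeval u (hmS β L i.succ) := by rw [hu']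
    rw [h1, hmS_succ, hm_lin hlin]
    rfl
  · rw [hx0]
    exact h.zero
  · intro x' hx'
    rw [hx0] at hx'
    exact h.sep x' hx'
  · rw [hau']
    exact h.eq
  · intro G hG
    rw [hau] at hG
    obtain ⟨q, hq⟩ := h.ker _ hG
    refine ⟨MvPolynomial.aeval (hmS γ M) q, ?_⟩
    rw [← map_mul, ← hq, hΨΦ]
  · intro b
    obtain ⟨s, a, h1, h2⟩ := h.loc b
    refine ⟨MvPolynomial.aeval (hmS γ M) s, MvPolynomial.aeval (hmS γ M) a, ?_, ?_⟩
    · rw [hau']
      exact h1
    · rw [hau', hau']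
      exact h2
  · obtain ⟨s, c, h1, h2⟩ := h.jac
    refine ⟨s, c, h1, ?_⟩
    rw [hmS_pderiv, hau']
    exact h2

end Vale.Agent.P282.EQ
end

section

/-!
P282, equality case: multiplicity and quadratic part of the equation.
-/

open MeasureTheory Filter Topology

namespace Vale.Agent.P282.EQ

open Vale.Agent.P282.L2

variable {n N : ℕ} {K : Type} [Field K] [Algebra ℂ K] [Algebra (Pol n) K]
  [IsScalarTower ℂ (Pol n) K] [FaithfulSMul (Pol n) K]
  [Algebra (FractionRing (Pol n)) K] [IsScalarTower (Pol n) (FractionRing (Pol n)) K]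
  [FiniteDimensional (FractionRing (Pol n)) K]

/-- The statement of the bound theorem. -/
def BoundProp (x : Pt n K) (J : K) : Prop :=
  ∀ (u : Fin (n + 1) → IB n K) (F : MvPolynomial (Fin (n + 1)) ℂ), Hyp x J u F →
    ∀ W : Fin (n + 1) → ℕ, (∀ i, 0 < W i) → ∀ p : ℕ, 0 < p →
      MvPolynomial.coeff (Finsupp.single 0 p) F ≠ 0 →
      (∀ e ∈ F.support, p * W 0 ≤ ∑ i, W i * e i) →
      ∀ c : ℝ, 0 < c → (∑ i : Fin n, (W i.succ : ℝ)) + W 0 - p * W 0 ≤ c →
        2 * ((n : ℝ) - 1) ^ n * ∏ i : Fin n, (W i.succ : ℝ) ≤ p * c ^ n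

set_option linter.unusedSectionVars false

/-- Linear changes of coordinates, direct form. -/
theorem qd_hyp_change {x : Pt n K} {J : K} {u : Fin (n + 1) → IB n K}
    {F : MvPolynomial (Fin (n + 1)) ℂ} (h : Hyp x J u F) (γ : Fin n → ℂ)
    (M : Matrix (Fin n) (Fin n) ℂ) (hM : M.det ≠ 0) :
    ∃ u' : Fin (n + 1) → IB n K, Hyp x J u' (MvPolynomial.aeval (Fin.cons
      (MvPolynomial.X 0 + ∑ k : Fin n, MvPolynomial.C (γ k) * MvPolynomial.X k.succ)
      (fun i : Fin n => ∑ k : Fin n, MvPolynomial.C (M i k) * MvPolynomial.X k.succ) :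
        Fin (n + 1) → MvPolynomial (Fin (n + 1)) ℂ) F) := by
  have hU : IsUnit M.det := isUnit_iff_ne_zero.2 hM
  obtain ⟨L, hL⟩ : ∃ L : Matrix (Fin n) (Fin n) ℂ, L = M⁻¹ := ⟨_, rfl⟩
  have hML : M * L = 1 := by rw [hL]; exact Matrix.mul_nonsing_inv M hU
  have hLM : L * M = 1 := by rw [hL]; exact Matrix.nonsing_inv_mul M hU
  have hLd : L.det ≠ 0 := by
    intro h0
    have := congrArg Matrix.det hLM
    rw [Matrix.det_mul, h0, zero_mul, Matrix.det_one] at this
    exact zero_ne_one this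
  obtain ⟨β, hβ⟩ : ∃ β : Fin n → ℂ, β = -Matrix.vecMul γ L := ⟨_, rfl⟩
  have hc : γ + Matrix.vecMul β M = 0 := by
    rw [hβ, Matrix.neg_vecMul, Matrix.vecMul_vecMul, hLM, Matrix.vecMul_one, add_neg_cancel]
  obtain ⟨u', F', hu', hF⟩ := h.change β L hLd
  refine ⟨u', ?_⟩
  change Hyp x J u' (MvPolynomial.aeval (hmS γ M) F)
  have hF' : F = MvPolynomial.aeval (hmS β L) F' := hF
  rw [hF', hmS_comp γ β M L hc hLM]
  exact hu'

/-- The ideal of the last `n` variables. -/
noncomputable def qdN (n : ℕ) : Ideal (MvPolynomial (Fin (n + 1)) ℂ) :=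
  Ideal.span (Set.range fun i : Fin n => MvPolynomial.X i.succ)

/-- The ideal of all the variables. -/
noncomputable abbrev qdM (n : ℕ) : Ideal (MvPolynomial (Fin (n + 1)) ℂ) :=
  MvPolynomial.idealOfVars (Fin (n + 1)) ℂ

omit [FaithfulSMul (Pol n) K] [Algebra (FractionRing (Pol n)) K]
  [IsScalarTower (Pol n) (FractionRing (Pol n)) K]
  [FiniteDimensional (FractionRing (Pol n)) K] in
lemma qd_zI {x : Pt n K} {J : K} {u : Fin (n + 1) → IB n K}
    {F : MvPolynomial (Fin (n + 1)) ℂ} (h : Hyp x J u F) (i : Fin n) : u i.succ ∈ zI n K := by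
  obtain ⟨L, -, hL⟩ := h.lin
  rw [hL i, map_sum]
  refine Ideal.sum_mem _ fun j _ => ?_
  rw [map_mul]
  exact Ideal.mul_mem_left _ _ (Ideal.subset_span ⟨j, rfl⟩)

omit [FaithfulSMul (Pol n) K] [Algebra (FractionRing (Pol n)) K]
  [IsScalarTower (Pol n) (FractionRing (Pol n)) K]
  [FiniteDimensional (FractionRing (Pol n)) K] in
/-- The value at `x`. -/
lemma qd_val {x : Pt n K} {J : K} {u : Fin (n + 1) → IB n K}
    {F : MvPolynomial (Fin (n + 1)) ℂ} (h : Hyp x J u F) (a : MvPolynomial (Fin (n + 1)) ℂ) :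
    x.toFun (MvPolynomial.aeval u a) = MvPolynomial.constantCoeff a := by
  have hu : ∀ i, x.toFun (u i) = 0 := by
    intro i
    refine Fin.cases h.zero (fun i => ?_) i
    obtain ⟨L, -, hL⟩ := h.lin
    rw [hL i, x.map_alg]
    simp
  induction a using MvPolynomial.induction_on with
  | C c =>
    rw [MvPolynomial.aeval_C, MvPolynomial.constantCoeff_C]
    have e : algebraMap ℂ (IB n K) c = algebraMap (Pol n) (IB n K) (MvPolynomial.C c) := by
      apply Subtype.ext
      exact IsScalarTower.algebraMap_apply ℂ (Pol n) K c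
    rw [e, x.map_alg]
    simp
  | add p q hp hq => rw [map_add, map_add, map_add, hp, hq]
  | mul_X p i hp => rw [map_mul, map_mul, map_mul, hp, MvPolynomial.aeval_X, hu]; simp

/-- The elements of `IB` which are locally in the ideal `I` of the polynomial ring. -/
noncomputable def qdLoc {x : Pt n K} {J : K} {u : Fin (n + 1) → IB n K}
    {F : MvPolynomial (Fin (n + 1)) ℂ} (h : Hyp x J u F)
    (I : Ideal (MvPolynomial (Fin (n + 1)) ℂ)) : Ideal (IB n K) where
  carrier := {b | ∃ s a : MvPolynomial (Fin (n + 1)) ℂ, MvPolynomial.constantCoeff s ≠ 0 ∧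
    a ∈ I ∧ MvPolynomial.aeval u s * b = MvPolynomial.aeval u a}
  add_mem' := by
    rintro b b' ⟨s, a, hs, ha, e⟩ ⟨s', a', hs', ha', e'⟩
    refine ⟨s * s', s' * a + s * a', by rw [map_mul]; exact mul_ne_zero hs hs',
      I.add_mem (I.mul_mem_left _ ha) (I.mul_mem_left _ ha'), ?_⟩
    rw [map_mul, map_add, map_mul, map_mul, ← e, ← e']
    ring
  zero_mem' := ⟨1, 0, by simp, I.zero_mem, by simp⟩
  smul_mem' := by
    rintro c b ⟨s, a, hs, ha, e⟩
    obtain ⟨s', a', hs', e'⟩ := h.loc c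
    rw [qd_val h] at hs'
    refine ⟨s' * s, a' * a, by rw [map_mul]; exact mul_ne_zero hs' hs,
      I.mul_mem_left _ ha, ?_⟩
    rw [map_mul, map_mul, ← e, ← e', smul_eq_mul]
    ring

section loc

variable {x : Pt n K} {J : K} {u : Fin (n + 1) → IB n K} {F : MvPolynomial (Fin (n + 1)) ℂ}

lemma qdLoc_mul (h : Hyp x J u F) (I I' : Ideal (MvPolynomial (Fin (n + 1)) ℂ)) :
    qdLoc h I * qdLoc h I' ≤ qdLoc h (I * I') := by
  rw [Ideal.mul_le]
  rintro b ⟨s, a, hs, ha, e⟩ b' ⟨s', a', hs', ha', e'⟩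
  refine ⟨s * s', a * a', by rw [map_mul]; exact mul_ne_zero hs hs',
    Ideal.mul_mem_mul ha ha', ?_⟩
  rw [map_mul, map_mul, ← e, ← e']
  ring

lemma qdLoc_pow (h : Hyp x J u F) (I : Ideal (MvPolynomial (Fin (n + 1)) ℂ)) (k : ℕ) :
    qdLoc h I ^ k ≤ qdLoc h (I ^ k) := by
  induction k with
  | zero =>
    rw [pow_zero, pow_zero]
    intro b _
    obtain ⟨s, a, hs, e⟩ := h.loc b
    rw [qd_val h] at hs
    exact ⟨s, a, hs, by rw [Ideal.one_eq_top]; trivial, e⟩
  | succ k ih =>
    rw [pow_succ, pow_succ]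
    exact (Ideal.mul_mono_left ih).trans (qdLoc_mul h _ _)

lemma qdLoc_ker (h : Hyp x J u F) : RingHom.ker x.toFun ≤ qdLoc h (qdM n) := by
  intro b hb
  rw [RingHom.mem_ker] at hb
  obtain ⟨s, a, hs, e⟩ := h.loc b
  have h0 : MvPolynomial.constantCoeff a = 0 := by
    rw [← qd_val h, ← e, map_mul, hb, mul_zero]
  rw [qd_val h] at hs
  refine ⟨s, a, hs, ?_, e⟩
  rw [← pow_one (qdM n), MvPolynomial.mem_pow_idealOfVars_iff']
  intro d hd
  have : d = 0 := by
    rw [← Finsupp.degree_eq_zero_iff]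
    omega
  rw [this]
  exact h0

lemma qdLoc_zI (h : Hyp x J u F) : zI n K ≤ qdLoc h (qdN n) := by
  rw [Ideal.span_le]
  rintro _ ⟨j, rfl⟩
  obtain ⟨L, hdet, hL⟩ := h.lin
  refine ⟨1, ∑ i : Fin n, MvPolynomial.C (L⁻¹ j i) * MvPolynomial.X i.succ, by simp, ?_, ?_⟩
  · exact Ideal.sum_mem _ fun i _ => Ideal.mul_mem_left _ _ (Ideal.subset_span ⟨i, rfl⟩)
  · rw [map_one, one_mul, map_sum]
    have hC : ∀ c : ℂ, algebraMap ℂ (IB n K) c =
        algebraMap (Pol n) (IB n K) (MvPolynomial.C c) := fun c => by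
      apply Subtype.ext
      exact IsScalarTower.algebraMap_apply ℂ (Pol n) K c
    have e1 : ∀ i : Fin n, MvPolynomial.aeval u (MvPolynomial.C (L⁻¹ j i) *
        MvPolynomial.X i.succ : MvPolynomial (Fin (n + 1)) ℂ) =
        algebraMap (Pol n) (IB n K) (MvPolynomial.C (L⁻¹ j i) *
          ∑ k, MvPolynomial.C (L i k) * MvPolynomial.X k) := fun i => by
      rw [map_mul, MvPolynomial.aeval_C, MvPolynomial.aeval_X, hL i, hC, map_mul]
    simp only [e1]
    rw [← map_sum]
    congr 1
    simp only [Finset.mul_sum, ← mul_assoc, ← MvPolynomial.C_mul]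
    rw [Finset.sum_comm]
    simp only [← Finset.sum_mul, ← map_sum]
    have hunit : IsUnit L.det := isUnit_iff_ne_zero.2 hdet
    have hinv : ∀ k, ∑ i, L⁻¹ j i * L i k = (1 : Matrix (Fin n) (Fin n) ℂ) j k := fun k => by
      rw [← Matrix.nonsing_inv_mul L hunit, Matrix.mul_apply]
    simp only [hinv, Matrix.one_apply]
    simp

/-- Decomposition of a polynomial. -/
lemma qd_dec (P : MvPolynomial (Fin (n + 1)) ℂ) :
    ∃ S r : MvPolynomial (Fin (n + 1)) ℂ, r ∈ qdN n ∧
      P = MvPolynomial.C (MvPolynomial.coeff 0 P) + MvPolynomial.X 0 * S + r ∧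
      MvPolynomial.constantCoeff S = MvPolynomial.coeff (Finsupp.single 0 1) P := by
  induction P using MvPolynomial.induction_on with
  | C c =>
    refine ⟨0, 0, Ideal.zero_mem _, by simp, ?_⟩
    rw [map_zero, MvPolynomial.coeff_C, if_neg]
    intro h
    have := congrArg (fun f => f 0) h
    simp at this
  | add p q hp hq =>
    obtain ⟨S, r, h1, h2, h3⟩ := hp
    obtain ⟨S', r', h1', h2', h3'⟩ := hq
    refine ⟨S + S', r + r', Ideal.add_mem _ h1 h1', ?_, ?_⟩
    · conv_lhs => rw [h2, h2']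
      rw [MvPolynomial.coeff_add, MvPolynomial.C_add]
      ring
    · rw [map_add, h3, h3', MvPolynomial.coeff_add]
  | mul_X p i hp =>
    refine Fin.cases ?_ (fun i => ?_) i
    · refine ⟨p, 0, Ideal.zero_mem _, ?_, ?_⟩
      · rw [MvPolynomial.coeff_mul_X']
        simp [mul_comm]
      · rw [MvPolynomial.coeff_mul_X', if_pos (by simp)]
        simp [MvPolynomial.constantCoeff_eq]
    · refine ⟨0, p * MvPolynomial.X i.succ, Ideal.mul_mem_left _ _ (Ideal.subset_span ⟨i, rfl⟩),
        ?_, ?_⟩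
      · rw [MvPolynomial.coeff_mul_X']
        simp
      · rw [MvPolynomial.coeff_mul_X', if_neg, map_zero]
        rw [Finsupp.mem_support_iff, not_not, Finsupp.single_apply, if_neg]
        exact (Fin.succ_ne_zero i).symm

lemma qd_aeval_zI (h : Hyp x J u F) {r : MvPolynomial (Fin (n + 1)) ℂ} (hr : r ∈ qdN n) :
    MvPolynomial.aeval u r ∈ zI n K := by
  have h1 : qdN n ≤ (zI n K).comap (MvPolynomial.aeval u : MvPolynomial (Fin (n + 1)) ℂ →ₐ[ℂ] IB n K) := by
    unfold qdN
    rw [Ideal.span_le]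
    rintro _ ⟨i, rfl⟩
    show MvPolynomial.aeval u (MvPolynomial.X i.succ) ∈ zI n K
    rw [MvPolynomial.aeval_X]
    exact qd_zI h i
  exact h1 hr

end loc

lemma qd_coeff_mul (c p : MvPolynomial (Fin (n + 1)) ℂ) (j : ℕ) :
    MvPolynomial.coeff (Finsupp.single 0 j) (c * p) =
      ∑ q ∈ Finset.HasAntidiagonal.antidiagonal j,
      MvPolynomial.coeff (Finsupp.single 0 q.1) c * MvPolynomial.coeff (Finsupp.single 0 q.2) p := by
  classical
  rw [MvPolynomial.coeff_mul, Finsupp.antidiagonal_single, Finset.sum_map]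
  rfl

lemma qd_coeff_N {r : MvPolynomial (Fin (n + 1)) ℂ} (hr : r ∈ qdN n) (j : ℕ) :
    MvPolynomial.coeff (Finsupp.single 0 j) r = 0 := by
  classical
  unfold qdN at hr
  revert j
  refine Submodule.span_induction (p := fun r _ => ∀ j, MvPolynomial.coeff (Finsupp.single 0 j) r = 0)
    ?_ ?_ ?_ ?_ hr
  · rintro _ ⟨i, rfl⟩ j
    rw [MvPolynomial.coeff_X, if_neg]
    intro h
    have := congrArg (fun f => f i.succ) h
    simp at this
  · simp
  · intro p q _ _ hp hq j
    rw [MvPolynomial.coeff_add, hp, hq, add_zero]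
  · intro c p _ hp j
    rw [smul_eq_mul, qd_coeff_mul]
    exact Finset.sum_eq_zero fun q _ => by rw [hp, mul_zero]

/-- A divisor of a polynomial of order `k` with nonzero coefficient of `X₀ ^ k`. -/
lemma qd_order {F g G : MvPolynomial (Fin (n + 1)) ℂ} (hg : G = F * g) {k : ℕ}
    (hGM : G ∈ qdM n ^ k) (hcoef : MvPolynomial.coeff (Finsupp.single 0 k) G ≠ 0) :
    ∃ p : ℕ, MvPolynomial.coeff (Finsupp.single 0 p) F ≠ 0 ∧
      ∀ e ∈ F.support, p ≤ ∑ i, e i := by
  have hordG : (k : ℕ∞) ≤ (G : MvPowerSeries (Fin (n + 1)) ℂ).order := by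
    refine MvPowerSeries.nat_le_order fun d hd => ?_
    rw [MvPolynomial.coeff_coe]
    exact (MvPolynomial.mem_pow_idealOfVars_iff' _ _).1 hGM d hd
  have hmul : (G : MvPowerSeries (Fin (n + 1)) ℂ).order =
      (F : MvPowerSeries (Fin (n + 1)) ℂ).order + (g : MvPowerSeries (Fin (n + 1)) ℂ).order := by
    rw [hg, MvPolynomial.coe_mul, MvPowerSeries.order_mul]
  rw [hg, qd_coeff_mul] at hcoef
  obtain ⟨⟨p, q⟩, hpq, hne⟩ := Finset.exists_ne_zero_of_sum_ne_zero hcoef
  rw [Finset.HasAntidiagonal.mem_antidiagonal] at hpq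
  simp only at hpq hne
  have hp : MvPolynomial.coeff (Finsupp.single 0 p) F ≠ 0 := left_ne_zero_of_mul hne
  have hq : MvPolynomial.coeff (Finsupp.single 0 q) g ≠ 0 := right_ne_zero_of_mul hne
  have hp1 : (F : MvPowerSeries (Fin (n + 1)) ℂ).order ≤ p := by
    have := MvPowerSeries.order_le (f := (F : MvPowerSeries (Fin (n + 1)) ℂ))
      (d := Finsupp.single 0 p) (by rw [MvPolynomial.coeff_coe]; exact hp)
    rwa [Finsupp.degree_single] at this
  have hq1 : (g : MvPowerSeries (Fin (n + 1)) ℂ).order ≤ q := by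
    have := MvPowerSeries.order_le (f := (g : MvPowerSeries (Fin (n + 1)) ℂ))
      (d := Finsupp.single 0 q) (by rw [MvPolynomial.coeff_coe]; exact hq)
    rwa [Finsupp.degree_single] at this
  have hFp : (p : ℕ∞) ≤ (F : MvPowerSeries (Fin (n + 1)) ℂ).order := by
    rw [hmul] at hordG
    obtain ⟨a1, ha1⟩ := ENat.ne_top_iff_exists.1 (ne_top_of_le_ne_top (ENat.natCast_ne_top p) hp1)
    obtain ⟨a2, ha2⟩ := ENat.ne_top_iff_exists.1 (ne_top_of_le_ne_top (ENat.natCast_ne_top q) hq1)
    rw [← ha1] at hp1 hordG ⊢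
    rw [← ha2] at hq1 hordG
    rw [← Nat.cast_add] at hordG
    norm_cast at hp1 hq1 hordG ⊢
    omega
  refine ⟨p, hp, fun e he => ?_⟩
  rw [MvPolynomial.mem_support_iff, ← MvPolynomial.coeff_coe] at he
  have := hFp.trans (MvPowerSeries.order_le he)
  rw [Nat.cast_le, Finsupp.degree_eq_sum] at this
  exact this

section loc2

variable {x : Pt n K} {J : K} {u : Fin (n + 1) → IB n K} {F : MvPolynomial (Fin (n + 1)) ℂ}

lemma qd_N_le : qdN n ≤ qdM n := by
  unfold qdN
  rw [Ideal.span_le]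
  rintro _ ⟨i, rfl⟩
  exact Ideal.subset_span ⟨i.succ, rfl⟩

lemma qd_G1 (h : Hyp x J u F) {k : ℕ} {s b : IB n K} (hs : x.toFun s ≠ 0)
    (hsy : s * b ∈ zI n K * RingHom.ker x.toFun ^ k) :
    ∃ t a : MvPolynomial (Fin (n + 1)) ℂ, MvPolynomial.constantCoeff t ≠ 0 ∧
      a ∈ qdN n * qdM n ^ k ∧ MvPolynomial.aeval u t * b = MvPolynomial.aeval u a := by
  have h0 : RingHom.ker x.toFun ^ k ≤ qdLoc h (qdM n ^ k) :=
    (Ideal.pow_right_mono (qdLoc_ker h) k).trans (qdLoc_pow h _ _)
  have h1 : zI n K * RingHom.ker x.toFun ^ k ≤ qdLoc h (qdN n) * qdLoc h (qdM n ^ k) :=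
    Ideal.mul_mono (qdLoc_zI h) h0
  obtain ⟨S, a, hS, ha, e1⟩ := qdLoc_mul h _ _ (h1 hsy)
  obtain ⟨s', a', hs', e2⟩ := h.loc s
  have ha' : MvPolynomial.constantCoeff a' ≠ 0 := by
    rw [← qd_val h, ← e2, map_mul]
    exact mul_ne_zero hs' hs
  refine ⟨S * a', s' * a, ?_, Ideal.mul_mem_left _ _ ha, ?_⟩
  · rw [map_mul]
    exact mul_ne_zero hS ha'
  · rw [map_mul, map_mul, ← e1, ← e2]
    ring

lemma qd_G2 {k : ℕ} {t a : MvPolynomial (Fin (n + 1)) ℂ} (ht : MvPolynomial.constantCoeff t ≠ 0)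
    (ha : a ∈ qdN n * qdM n ^ k) : t * MvPolynomial.X 0 ^ (k + 1) - a ∈ qdM n ^ (k + 1) ∧
      MvPolynomial.coeff (Finsupp.single 0 (k + 1)) (t * MvPolynomial.X 0 ^ (k + 1) - a) ≠ 0 := by
  constructor
  · have h1 : (MvPolynomial.X 0 : MvPolynomial (Fin (n + 1)) ℂ) ∈ qdM n :=
      Ideal.subset_span ⟨0, rfl⟩
    have h2 : (MvPolynomial.X 0 : MvPolynomial (Fin (n + 1)) ℂ) ^ (k + 1) ∈ qdM n ^ (k + 1) :=
      Ideal.pow_mem_pow h1 _
    have h3 : qdN n * qdM n ^ k ≤ qdM n ^ (k + 1) := by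
      rw [pow_succ']
      exact Ideal.mul_mono_left qd_N_le
    exact Ideal.sub_mem _ (Ideal.mul_mem_left _ _ h2) (h3 ha)
  · have h1 := MvPolynomial.coeff_mul_monomial 0 (Finsupp.single 0 (k + 1)) (1 : ℂ) t
    rw [zero_add, mul_one] at h1
    have h2 : qdN n * qdM n ^ k ≤ qdN n := Ideal.mul_le_left
    have h3 := qd_coeff_N (h2 ha) (k + 1)
    rw [MvPolynomial.coeff_sub, h3, sub_zero, MvPolynomial.X_pow_eq_monomial, h1,
      ← MvPolynomial.constantCoeff_eq]
    exact ht

lemma qd_G (h : Hyp x J u F)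
    (hred : ∃ k : ℕ, ∀ a ∈ RingHom.ker x.toFun ^ (k + 1), ∃ s, x.toFun s ≠ 0 ∧
      s * a ∈ zI n K * RingHom.ker x.toFun ^ k) :
    ∃ (k : ℕ) (G : MvPolynomial (Fin (n + 1)) ℂ), MvPolynomial.aeval u G = 0 ∧
      G ∈ qdM n ^ k ∧ MvPolynomial.coeff (Finsupp.single 0 k) G ≠ 0 := by
  obtain ⟨k, hk⟩ := hred
  obtain ⟨s, hs, hsy⟩ := hk (u 0 ^ (k + 1)) (Ideal.pow_mem_pow (RingHom.mem_ker.2 h.zero) _)
  obtain ⟨t, a, ht, ha, e⟩ := qd_G1 h hs hsy
  refine ⟨k + 1, t * MvPolynomial.X 0 ^ (k + 1) - a, ?_, qd_G2 ht ha⟩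
  rw [map_sub, map_mul, map_pow, MvPolynomial.aeval_X, e, sub_self]

lemma qd_one (h : Hyp x J u F)
    (hsing : ∃ f : IB n K, x.toFun f = 0 ∧ ∀ s : IB n K, x.toFun s ≠ 0 → s * f ∉ zI n K)
    (hF0 : MvPolynomial.coeff 0 F = 0) :
    MvPolynomial.coeff (Finsupp.single 0 1) F = 0 := by
  by_contra hp
  obtain ⟨f, hf, hfs⟩ := hsing
  obtain ⟨T, r, hr, e3, hT⟩ := qd_dec F
  have hTu : MvPolynomial.aeval u T * u 0 ∈ zI n K := by
    have e4 : MvPolynomial.aeval u T * u 0 = -MvPolynomial.aeval u r := by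
      have := h.eq
      rw [e3, hF0, map_add, map_add, map_mul, MvPolynomial.aeval_X, MvPolynomial.aeval_C,
        map_zero, zero_add] at this
      linear_combination this
    rw [e4]
    exact Ideal.neg_mem_iff _ |>.2 (qd_aeval_zI h hr)
  obtain ⟨s1, a1, hs1, e5⟩ := h.loc f
  obtain ⟨T1, r1, hr1, e6, -⟩ := qd_dec a1
  have ha1 : MvPolynomial.coeff 0 a1 = 0 := by
    rw [← MvPolynomial.constantCoeff_eq, ← qd_val h, ← e5, map_mul, hf, mul_zero]
  refine hfs (MvPolynomial.aeval u T * MvPolynomial.aeval u s1) ?_ ?_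
  · rw [map_mul]
    refine mul_ne_zero ?_ hs1
    rw [qd_val h, hT]
    exact hp
  · have e7 : MvPolynomial.aeval u T * MvPolynomial.aeval u s1 * f =
        MvPolynomial.aeval u T1 * (MvPolynomial.aeval u T * u 0) +
          MvPolynomial.aeval u T * MvPolynomial.aeval u r1 := by
      rw [mul_assoc, e5, e6, ha1, map_add, map_add, map_mul, MvPolynomial.aeval_X,
        MvPolynomial.aeval_C, map_zero, zero_add]
      ring
    rw [e7]
    exact Ideal.add_mem _ (Ideal.mul_mem_left _ _ hTu)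
      (Ideal.mul_mem_left _ _ (qd_aeval_zI h hr1))

end loc2

/-- The order `p` of `F`: the coefficient of `X₀ ^ p` does not vanish, and `2 ≤ p`. -/
theorem exists_order {x : Pt n K} {J : K} {u : Fin (n + 1) → IB n K}
    {F : MvPolynomial (Fin (n + 1)) ℂ} (h : Hyp x J u F)
    (hred : ∃ k : ℕ, ∀ a ∈ RingHom.ker x.toFun ^ (k + 1), ∃ s, x.toFun s ≠ 0 ∧
      s * a ∈ zI n K * RingHom.ker x.toFun ^ k)
    (hsing : ∃ f : IB n K, x.toFun f = 0 ∧ ∀ s : IB n K, x.toFun s ≠ 0 → s * f ∉ zI n K) :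
    ∃ p : ℕ, 2 ≤ p ∧ MvPolynomial.coeff (Finsupp.single 0 p) F ≠ 0 ∧
      ∀ e ∈ F.support, p ≤ ∑ i, e i := by
  obtain ⟨k, G, hG0, hGM, hcoef⟩ := qd_G h hred
  obtain ⟨g, hg⟩ := h.ker G hG0
  obtain ⟨p, hp, hsupp⟩ := qd_order hg hGM hcoef
  refine ⟨p, ?_, hp, hsupp⟩
  have hF0 : MvPolynomial.coeff 0 F = 0 := by
    rw [← MvPolynomial.constantCoeff_eq, ← qd_val h, h.eq, map_zero]
  by_contra hlt
  have h01 : p = 0 ∨ p = 1 := by omega
  rcases h01 with rfl | rfl
  · rw [Finsupp.single_zero] at hp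
    exact hp hF0
  · exact hp (qd_one h hsing hF0)

/-- The multiplicity is two. -/
theorem order_eq_two (hn : 2 ≤ n) {x : Pt n K} {J : K} (hB : BoundProp x J)
    {u : Fin (n + 1) → IB n K} {F : MvPolynomial (Fin (n + 1)) ℂ} (h : Hyp x J u F) {p : ℕ}
    (hp2 : 2 ≤ p) (hp : MvPolynomial.coeff (Finsupp.single 0 p) F ≠ 0)
    (hF : ∀ e ∈ F.support, p ≤ ∑ i, e i) : p = 2 := by
  by_contra hne
  obtain ⟨c, hc, hc', hlt⟩ := numer_mult hn (show 3 ≤ p by omega)
  have h1 := hB u F h (fun _ => 1) (fun _ => one_pos) p (by omega) hp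
    (fun e he => by simpa using hF e he) c hc (by simpa using hc')
  simp only [Nat.cast_one, Finset.prod_const_one, mul_one] at h1
  linarith

/-! ### The quadratic part -/

/-- A quadratic form. -/
noncomputable def qdQ (A : Matrix (Fin (n + 1)) (Fin (n + 1)) ℂ) : MvPolynomial (Fin (n + 1)) ℂ :=
  ∑ i, ∑ j, MvPolynomial.C (A i j) * MvPolynomial.X i * MvPolynomial.X j

lemma qd_coeff_Q (A : Matrix (Fin (n + 1)) (Fin (n + 1)) ℂ) (e : Fin (n + 1) →₀ ℕ) :
    MvPolynomial.coeff e (qdQ A) =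
      ∑ i, ∑ j, if Finsupp.single i 1 + Finsupp.single j 1 = e then A i j else 0 := by
  unfold qdQ
  rw [MvPolynomial.coeff_sum]
  refine Finset.sum_congr rfl fun i _ => ?_
  rw [MvPolynomial.coeff_sum]
  refine Finset.sum_congr rfl fun j _ => ?_
  have e1 : (MvPolynomial.C (A i j) * MvPolynomial.X i * MvPolynomial.X j :
      MvPolynomial (Fin (n + 1)) ℂ) =
      MvPolynomial.monomial (Finsupp.single i 1 + Finsupp.single j 1) (A i j) := by
    rw [MvPolynomial.C_mul_X_eq_monomial, MvPolynomial.X, MvPolynomial.monomial_mul, mul_one]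
  rw [e1, MvPolynomial.coeff_monomial]

/-- The coefficients of degree less than two of a quadratic form vanish. -/
lemma qd_coeff_Q_lt (A : Matrix (Fin (n + 1)) (Fin (n + 1)) ℂ) {e : Fin (n + 1) →₀ ℕ}
    (he : e.degree < 2) : MvPolynomial.coeff e (qdQ A) = 0 := by
  rw [qd_coeff_Q]
  refine Finset.sum_eq_zero fun i _ => Finset.sum_eq_zero fun j _ => ?_
  rw [if_neg]
  intro h
  rw [← h, map_add, Finsupp.degree_single, Finsupp.degree_single] at he
  omega

/-- The matrix of the quadratic part. -/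
noncomputable def qdA (F : MvPolynomial (Fin (n + 1)) ℂ) :
    Matrix (Fin (n + 1)) (Fin (n + 1)) ℂ :=
  Matrix.of fun i j => MvPolynomial.coeff (Finsupp.single i 1 + Finsupp.single j 1) F *
    (if i = j then 1 else 1 / 2)

lemma qd_deg_two {e : Fin (n + 1) →₀ ℕ} (he : e.degree = 2) :
    ∃ i j, e = Finsupp.single i 1 + Finsupp.single j 1 := by
  have h1 : ∀ (f : Fin (n + 1) →₀ ℕ) (d : ℕ), f.degree = d + 1 →
      ∃ i, ∃ f' : Fin (n + 1) →₀ ℕ, f = Finsupp.single i 1 + f' ∧ f'.degree = d := by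
    intro f d hf
    have hne : f ≠ 0 := by
      rintro rfl
      simp at hf
    obtain ⟨i, hi⟩ := Finsupp.ne_iff.1 hne
    have hle : Finsupp.single i 1 ≤ f := by
      rw [Finsupp.single_le_iff]
      have : f i ≠ 0 := hi
      omega
    refine ⟨i, f - Finsupp.single i 1, (add_tsub_cancel_of_le hle).symm, ?_⟩
    have := congrArg Finsupp.degree (add_tsub_cancel_of_le hle)
    rw [map_add, Finsupp.degree_single, hf] at this
    omega
  obtain ⟨i, f, hf, hfd⟩ := h1 e 1 he
  obtain ⟨j, g, hg, hgd⟩ := h1 f 0 hfd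
  rw [Finsupp.degree_eq_zero_iff] at hgd
  exact ⟨i, j, by rw [hf, hg, hgd, add_zero]⟩

lemma qd_single_eq {i j k l : Fin (n + 1)} :
    (Finsupp.single i 1 + Finsupp.single j 1 : Fin (n + 1) →₀ ℕ) =
      Finsupp.single k 1 + Finsupp.single l 1 ↔ (i = k ∧ j = l) ∨ (i = l ∧ j = k) := by
  rw [Finsupp.single_add_single_eq_single_add_single one_ne_zero one_ne_zero]
  constructor
  · rintro (h | h | h)
    · exact Or.inl h
    · exact Or.inr h.2
    · omega
  · rintro (h | h)
    · exact Or.inl h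
    · exact Or.inr (Or.inl ⟨rfl, h⟩)

lemma qd_hquad {F : MvPolynomial (Fin (n + 1)) ℂ} (hF : ∀ e ∈ F.support, 2 ≤ ∑ i, e i)
    (e : Fin (n + 1) →₀ ℕ) (he : e.degree ≤ 2) :
    MvPolynomial.coeff e F = MvPolynomial.coeff e (qdQ (qdA F)) := by
  rcases Nat.lt_or_ge e.degree 2 with h | h
  · rw [qd_coeff_Q_lt _ h]
    by_contra hne
    have := hF e (MvPolynomial.mem_support_iff.2 hne)
    rw [← Finsupp.degree_eq_sum] at this
    omega
  · obtain ⟨a, b, rfl⟩ := qd_deg_two (le_antisymm he h)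
    rw [qd_coeff_Q]
    simp only [qd_single_eq, qdA, Matrix.of_apply]
    by_cases hab : a = b
    · subst hab
      rw [Finset.sum_eq_single a, Finset.sum_eq_single a]
      · simp
      · intro j _ hj
        rw [if_neg]
        rintro (h | h) <;> exact hj (by tauto)
      · simp
      · intro i _ hi
        refine Finset.sum_eq_zero fun j _ => ?_
        rw [if_neg]
        rintro (h | h) <;> exact hi (by tauto)
      · simp
    · have h1 : ∀ i j, (if (i = a ∧ j = b) ∨ (i = b ∧ j = a) then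
          MvPolynomial.coeff (Finsupp.single i 1 + Finsupp.single j 1) F *
            (if i = j then 1 else 1 / 2) else 0) =
          (if i = a then (if j = b then
            MvPolynomial.coeff (Finsupp.single a 1 + Finsupp.single b 1) F / 2 else 0) else 0) +
          (if i = b then (if j = a then
            MvPolynomial.coeff (Finsupp.single a 1 + Finsupp.single b 1) F / 2 else 0) else 0) := by
        intro i j
        by_cases hi : i = a
        · subst hi
          by_cases hj : j = b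
          · subst hj
            rw [if_pos (Or.inl ⟨rfl, rfl⟩), if_neg hab, if_pos rfl, if_pos rfl, if_neg hab]
            ring
          · rw [if_neg (by rintro (h | h) <;> tauto), if_pos rfl, if_neg hj, if_neg hab]
            ring
        · by_cases hi' : i = b
          · subst hi'
            by_cases hj : j = a
            · subst hj
              rw [if_pos (Or.inr ⟨rfl, rfl⟩), if_neg hi, if_neg hi, if_pos rfl, if_pos rfl,
                add_comm (Finsupp.single i 1)]
              ring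
            · rw [if_neg (by rintro (h | h) <;> tauto), if_neg hi, if_pos rfl, if_neg hj]
              ring
          · rw [if_neg (by rintro (h | h) <;> tauto), if_neg hi, if_neg hi']
            ring
      simp only [h1, Finset.sum_add_distrib]
      simp

/-- The linear change of variables with the matrix `P`. -/
noncomputable def qdS (P : Matrix (Fin (n + 1)) (Fin (n + 1)) ℂ) :
    MvPolynomial (Fin (n + 1)) ℂ →ₐ[ℂ] MvPolynomial (Fin (n + 1)) ℂ :=
  MvPolynomial.aeval fun i => ∑ k, MvPolynomial.C (P i k) * MvPolynomial.X k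

lemma qdS_Q (P A : Matrix (Fin (n + 1)) (Fin (n + 1)) ℂ) :
    qdS P (qdQ A) = qdQ (Matrix.of fun k l => ∑ i, ∑ j, P i k * A i j * P j l) := by
  unfold qdS qdQ
  simp only [map_sum, map_mul, MvPolynomial.aeval_X, MvPolynomial.aeval_C,
    MvPolynomial.algebraMap_eq, Matrix.of_apply]
  have e1 : ∀ i j, (MvPolynomial.C (A i j) * (∑ k, MvPolynomial.C (P i k) * MvPolynomial.X k) *
      (∑ l, MvPolynomial.C (P j l) * MvPolynomial.X l) : MvPolynomial (Fin (n + 1)) ℂ) =
      ∑ k, ∑ l, MvPolynomial.C (P i k) * MvPolynomial.C (A i j) * MvPolynomial.C (P j l) *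
        MvPolynomial.X k * MvPolynomial.X l := by
    intro i j
    rw [mul_assoc, Finset.sum_mul_sum, Finset.mul_sum]
    refine Finset.sum_congr rfl fun k _ => ?_
    rw [Finset.mul_sum]
    exact Finset.sum_congr rfl fun l _ => by ring
  simp only [e1]
  simp only [Finset.sum_mul]
  -- exchange the sums
  have e2 : ∀ f : Fin (n + 1) → Fin (n + 1) → Fin (n + 1) → Fin (n + 1) →
      MvPolynomial (Fin (n + 1)) ℂ,
      ∑ i, ∑ j, ∑ k, ∑ l, f i j k l = ∑ k, ∑ l, ∑ i, ∑ j, f i j k l := by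
    intro f
    calc ∑ i, ∑ j, ∑ k, ∑ l, f i j k l = ∑ i, ∑ k, ∑ j, ∑ l, f i j k l :=
          Finset.sum_congr rfl fun i _ => Finset.sum_comm
      _ = ∑ k, ∑ i, ∑ j, ∑ l, f i j k l := Finset.sum_comm
      _ = ∑ k, ∑ i, ∑ l, ∑ j, f i j k l :=
          Finset.sum_congr rfl fun k _ => Finset.sum_congr rfl fun i _ => Finset.sum_comm
      _ = _ := Finset.sum_congr rfl fun k _ => Finset.sum_comm
  exact e2 _

lemma qdS_pow (P : Matrix (Fin (n + 1)) (Fin (n + 1)) ℂ) (k : ℕ)
    {r : MvPolynomial (Fin (n + 1)) ℂ} (hr : r ∈ qdM n ^ k) : qdS P r ∈ qdM n ^ k := by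
  have h1 : Ideal.map (qdS P) (qdM n) ≤ qdM n := by
    rw [Ideal.map_span, Ideal.span_le]
    rintro _ ⟨_, ⟨i, rfl⟩, rfl⟩
    unfold qdS
    rw [MvPolynomial.aeval_X]
    exact Ideal.sum_mem _ fun k _ => Ideal.mul_mem_left _ _ (Ideal.subset_span ⟨k, rfl⟩)
  have h2 : Ideal.map (qdS P) (qdM n ^ k) ≤ qdM n ^ k := by
    rw [Ideal.map_pow]
    exact Ideal.pow_right_mono h1 k
  exact h2 (Ideal.mem_map_of_mem _ hr)

/-- The change of variables. -/
lemma qdS_coeff {F : MvPolynomial (Fin (n + 1)) ℂ} (hF : ∀ e ∈ F.support, 2 ≤ ∑ i, e i)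
    (P : Matrix (Fin (n + 1)) (Fin (n + 1)) ℂ) (e : Fin (n + 1) →₀ ℕ) (he : e.degree ≤ 2) :
    MvPolynomial.coeff e (qdS P F) =
      MvPolynomial.coeff e (qdQ (Matrix.of fun k l => ∑ i, ∑ j, P i k * qdA F i j * P j l)) := by
  have h1 : F - qdQ (qdA F) ∈ qdM n ^ 3 := by
    rw [MvPolynomial.mem_pow_idealOfVars_iff']
    intro d hd
    rw [MvPolynomial.coeff_sub, qd_hquad hF d (by omega), sub_self]
  have h2 := qdS_pow P 3 h1
  rw [MvPolynomial.mem_pow_idealOfVars_iff'] at h2
  have h3 := h2 e (by omega)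
  rw [map_sub, MvPolynomial.coeff_sub, qdS_Q, sub_eq_zero] at h3
  exact h3

/-- Completion of a vector to an invertible matrix. -/
lemma qd_exists_mat (k0 : Fin n) {v : Fin n → ℂ} (hv : v ≠ 0) :
    ∃ M : Matrix (Fin n) (Fin n) ℂ, M.det ≠ 0 ∧ ∀ i, M i k0 = v i := by
  obtain ⟨i0, hi0⟩ := Function.ne_iff.1 hv
  refine ⟨((1 : Matrix (Fin n) (Fin n) ℂ).updateCol i0 v).submatrix id (Equiv.swap i0 k0), ?_, ?_⟩
  · rw [Matrix.det_permute', ← Matrix.cramer_apply, Matrix.cramer_one]
    refine mul_ne_zero ?_ hi0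
    rcases Int.units_eq_one_or (Equiv.Perm.sign (Equiv.swap i0 k0)) with h | h <;> rw [h] <;> simp
  · intro i
    simp

/-- The weights. -/
def qdW (k0 : Fin n) (i : Fin (n + 1)) : ℕ := if i = k0.succ then n else n + 1

lemma qdW_prod (k0 : Fin n) : ∏ i : Fin n, (qdW k0 i.succ : ℝ) = ((n : ℝ) + 1) ^ (n - 1) * n := by
  have h1 : ∀ i : Fin n, (qdW k0 i.succ : ℝ) = if i = k0 then (n : ℝ) else n + 1 := by
    intro i
    unfold qdW
    by_cases h : i = k0
    · simp [h]
    · rw [if_neg (fun h' => h (Fin.succ_injective _ h')), if_neg h]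
      push_cast
      ring
  simp only [h1]
  rw [← Finset.mul_prod_erase _ _ (Finset.mem_univ k0), if_pos rfl,
    Finset.prod_congr rfl (g := fun _ => (n : ℝ) + 1)
      (fun i hi => if_neg (Finset.ne_of_mem_erase hi)), Finset.prod_const,
    Finset.card_erase_of_mem (Finset.mem_univ k0), Finset.card_univ, Fintype.card_fin]
  ring

lemma qdW_sum (k0 : Fin n) : ∑ i : Fin n, (qdW k0 i.succ : ℝ) = ((n : ℝ) - 1) * (n + 1) + n := by
  have h1 : ∀ i : Fin n, (qdW k0 i.succ : ℝ) = (n + 1) + if i = k0 then (-1 : ℝ) else 0 := by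
    intro i
    unfold qdW
    by_cases h : i = k0
    · simp [h]
    · rw [if_neg (fun h' => h (Fin.succ_injective _ h')), if_neg h]
      push_cast
      ring
  simp only [h1, Finset.sum_add_distrib, Finset.sum_const, Finset.card_univ, Fintype.card_fin,
    nsmul_eq_mul, Finset.sum_ite_eq', Finset.mem_univ, if_true]
  ring

/-- The degenerate case. -/
lemma qd_degen (hn : 2 ≤ n) {x : Pt n K} {J : K} (hB : BoundProp x J)
    {u : Fin (n + 1) → IB n K} {F : MvPolynomial (Fin (n + 1)) ℂ} (h : Hyp x J u F)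
    (hp : MvPolynomial.coeff (Finsupp.single 0 2) F ≠ 0)
    (hF : ∀ e ∈ F.support, 2 ≤ ∑ i, e i) {v : Fin (n + 1) → ℂ} (hv : v ≠ 0)
    (hAv : (qdA F).mulVec v = 0) : False := by
  classical
  set A := qdA F with hA
  have hA00 : A 0 0 = MvPolynomial.coeff (Finsupp.single 0 2) F := by
    rw [hA]
    unfold qdA
    rw [Matrix.of_apply, if_pos rfl, mul_one, ← Finsupp.single_add]
  have hAsym : ∀ i j, A i j = A j i := by
    intro i j
    rw [hA]
    unfold qdA
    rw [Matrix.of_apply, Matrix.of_apply, add_comm (Finsupp.single i 1)]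
    congr 1
    by_cases hij : i = j
    · simp [hij]
    · rw [if_neg hij, if_neg (Ne.symm hij)]
  have hv' : (fun i : Fin n => v i.succ) ≠ 0 := by
    intro h0
    apply hv
    have h1 : ∀ i : Fin n, v i.succ = 0 := fun i => congrFun h0 i
    have h2 := congrFun hAv 0
    rw [Matrix.mulVec, dotProduct, Fin.sum_univ_succ] at h2
    simp only [h1, mul_zero, Finset.sum_const_zero, add_zero, Pi.zero_apply] at h2
    rw [hA00] at h2
    funext i
    refine Fin.cases ?_ (fun i => h1 i) i
    exact (mul_eq_zero.1 h2).resolve_left hp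
  let k0 : Fin n := ⟨0, by omega⟩
  obtain ⟨M, hM, hMv⟩ := qd_exists_mat k0 hv'
  let γ : Fin n → ℂ := Pi.single k0 (v 0)
  obtain ⟨u', hu'⟩ := qd_hyp_change h γ M hM
  let P : Matrix (Fin (n + 1)) (Fin (n + 1)) ℂ :=
    Matrix.of (Fin.cons (Fin.cons 1 γ) fun i => Fin.cons 0 (M i))
  have hPS : (Fin.cons
      (MvPolynomial.X 0 + ∑ k : Fin n, MvPolynomial.C (γ k) * MvPolynomial.X k.succ)
      (fun i : Fin n => ∑ k : Fin n, MvPolynomial.C (M i k) * MvPolynomial.X k.succ) :
        Fin (n + 1) → MvPolynomial (Fin (n + 1)) ℂ) =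
      fun i => ∑ k, MvPolynomial.C (P i k) * MvPolynomial.X k := by
    funext i
    rw [Fin.sum_univ_succ]
    refine Fin.cases ?_ (fun i => ?_) i
    · simp [P]
    · simp [P]
  rw [hPS] at hu'
  change Hyp x J u' (qdS P F) at hu'
  have hPv : ∀ j, P j k0.succ = v j := by
    intro j
    refine Fin.cases ?_ (fun i => ?_) j
    · simp [P, γ]
    · simp only [P, Matrix.of_apply, Fin.cons_succ]
      exact hMv i
  set B : Matrix (Fin (n + 1)) (Fin (n + 1)) ℂ :=
    Matrix.of fun k l => ∑ i, ∑ j, P i k * A i j * P j l with hBdef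
  have hB1 : ∀ k, B k k0.succ = 0 := by
    intro k
    rw [hBdef, Matrix.of_apply]
    refine Finset.sum_eq_zero fun i _ => ?_
    have h1 := congrFun hAv i
    rw [Matrix.mulVec, dotProduct, Pi.zero_apply] at h1
    calc ∑ j, P i k * A i j * P j k0.succ = P i k * ∑ j, A i j * v j := by
          rw [Finset.mul_sum]
          exact Finset.sum_congr rfl fun j _ => by rw [hPv]; ring
      _ = 0 := by rw [h1, mul_zero]
  have hB2 : ∀ l, B k0.succ l = 0 := by
    intro l
    rw [← hB1 l, hBdef, Matrix.of_apply, Matrix.of_apply, Finset.sum_comm]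
    refine Finset.sum_congr rfl fun i _ => Finset.sum_congr rfl fun j _ => ?_
    rw [hAsym i j]
    ring
  have hP0 : ∀ i, P i 0 = if i = 0 then 1 else 0 := by
    intro i
    refine Fin.cases ?_ (fun i => ?_) i
    · simp [P]
    · simp [P]
  have hB00 : B 0 0 = A 0 0 := by
    rw [hBdef, Matrix.of_apply]
    simp [hP0]
  have hcoe := qdS_coeff hF P
  rw [← hA, ← hBdef] at hcoe
  have hc0 : MvPolynomial.coeff (Finsupp.single 0 2) (qdS P F) ≠ 0 := by
    rw [hcoe _ (by rw [Finsupp.degree_single]), qd_coeff_Q]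
    have e0 : (Finsupp.single 0 2 : Fin (n + 1) →₀ ℕ) = Finsupp.single 0 1 + Finsupp.single 0 1 := by
      rw [← Finsupp.single_add]
    simp only [e0, qd_single_eq]
    rw [Finset.sum_eq_single 0, Finset.sum_eq_single 0]
    · rw [if_pos (Or.inl ⟨rfl, rfl⟩), hB00, hA00]
      exact hp
    · intro j _ hj
      rw [if_neg]
      rintro (h | h) <;> exact hj (by tauto)
    · simp
    · intro i _ hi
      refine Finset.sum_eq_zero fun j _ => ?_
      rw [if_neg]
      rintro (h | h) <;> exact hi (by tauto)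
    · simp
  have hW0 : qdW k0 0 = n + 1 := by
    unfold qdW
    rw [if_neg (Fin.succ_ne_zero k0).symm]
  have hsupp : ∀ e ∈ (qdS P F).support, 2 * qdW k0 0 ≤ ∑ i, qdW k0 i * e i := by
    intro e he
    rw [hW0]
    rw [MvPolynomial.mem_support_iff] at he
    have hsum : e.degree = ∑ i, e i := Finsupp.degree_eq_sum e
    rcases Nat.lt_or_ge e.degree 3 with h3 | h3
    · rw [hcoe e (by omega)] at he
      have h2 : e.degree = 2 := by
        by_contra hne
        exact he (qd_coeff_Q_lt _ (by omega))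
      obtain ⟨a, b, rfl⟩ := qd_deg_two h2
      have hab : a ≠ k0.succ ∧ b ≠ k0.succ := by
        constructor
        · rintro rfl
          apply he
          rw [qd_coeff_Q]
          refine Finset.sum_eq_zero fun i _ => Finset.sum_eq_zero fun j _ => ?_
          split_ifs with hij
          · rw [qd_single_eq] at hij
            rcases hij with ⟨h4, -⟩ | ⟨-, h4⟩
            · rw [h4]; exact hB2 _
            · rw [h4]; exact hB1 _
          · rfl
        · rintro rfl
          apply he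
          rw [qd_coeff_Q]
          refine Finset.sum_eq_zero fun i _ => Finset.sum_eq_zero fun j _ => ?_
          split_ifs with hij
          · rw [qd_single_eq] at hij
            rcases hij with ⟨-, h4⟩ | ⟨h4, -⟩
            · rw [h4]; exact hB1 _
            · rw [h4]; exact hB2 _
          · rfl
      have h5 : ∀ i, qdW k0 i * (Finsupp.single a 1 + Finsupp.single b 1 : Fin (n + 1) →₀ ℕ) i =
          (n + 1) * (Finsupp.single a 1 + Finsupp.single b 1 : Fin (n + 1) →₀ ℕ) i := by
        intro i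
        by_cases hi : i = k0.succ
        · subst hi
          rw [Finsupp.add_apply, Finsupp.single_apply, Finsupp.single_apply, if_neg hab.1,
            if_neg hab.2]
          simp
        · unfold qdW
          rw [if_neg hi]
      simp only [h5]
      rw [← Finset.mul_sum, ← hsum, h2]
      omega
    · calc 2 * (n + 1) ≤ n * 3 := by omega
        _ ≤ n * e.degree := Nat.mul_le_mul_left _ h3
        _ = ∑ i, n * e i := by rw [hsum, Finset.mul_sum]
        _ ≤ ∑ i, qdW k0 i * e i := by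
            refine Finset.sum_le_sum fun i _ => Nat.mul_le_mul_right _ ?_
            unfold qdW
            split_ifs <;> omega
  have hn2 : (2 : ℝ) ≤ n := by exact_mod_cast hn
  have hc : (0 : ℝ) < ((n : ℝ) - 1) * (n + 1) - 1 := by linarith only [mul_nonneg (sub_nonneg.2 hn2) (sub_nonneg.2 hn2), hn2]
  have hfin := hB u' _ hu' (qdW k0) (fun i => by unfold qdW; split_ifs <;> omega) 2
    (by norm_num) hc0 hsupp (((n : ℝ) - 1) * (n + 1) - 1) hc (by
      rw [qdW_sum, hW0]
      push_cast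
      linarith)
  rw [qdW_prod] at hfin
  have hnum := numer_deg hn
  push_cast at hfin
  linarith

/-- The quadratic part is nondegenerate. -/
theorem quad_nondeg (hn : 2 ≤ n) {x : Pt n K} {J : K} (hB : BoundProp x J)
    {u : Fin (n + 1) → IB n K} {F : MvPolynomial (Fin (n + 1)) ℂ} (h : Hyp x J u F)
    (hp : MvPolynomial.coeff (Finsupp.single 0 2) F ≠ 0)
    (hF : ∀ e ∈ F.support, 2 ≤ ∑ i, e i) :
    ∃ A : Matrix (Fin (n + 1)) (Fin (n + 1)) ℂ, A.IsSymm ∧ A.det ≠ 0 ∧
      ∀ e : Fin (n + 1) →₀ ℕ, e.degree ≤ 2 → MvPolynomial.coeff e F =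
        MvPolynomial.coeff e (∑ i, ∑ j, MvPolynomial.C (A i j) * MvPolynomial.X i *
          MvPolynomial.X j) := by
  refine ⟨qdA F, ?_, ?_, qd_hquad hF⟩
  · ext i j
    unfold qdA
    rw [Matrix.transpose_apply, Matrix.of_apply, Matrix.of_apply, add_comm (Finsupp.single j 1)]
    congr 1
    by_cases hij : i = j
    · simp [hij]
    · rw [if_neg hij, if_neg (Ne.symm hij)]
  · intro hdet
    obtain ⟨v, hv, hAv⟩ := Matrix.exists_mulVec_eq_zero_iff.2 hdet
    exact qd_degen hn hB h hp hF hv hAv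

end Vale.Agent.P282.EQ
end

section

/-!
P282, equality case: from the hypersurface structure to the local ring.
-/

open IsLocalRing

namespace Vale.Agent.P282.Full

open Vale.Agent.P282.L2 Vale.Agent.P282.EQ

variable {n : ℕ} {R K : Type} [CommRing R] [IsDomain R] [IsLocalRing R] [Algebra ℂ R]
  [Field K] [Algebra ℂ K] [Algebra R K] [IsScalarTower ℂ R K] [IsFractionRing R K]
  [Algebra (Pol n) R] [IsScalarTower ℂ (Pol n) R]
  [Algebra (Pol n) K] [IsScalarTower (Pol n) R K] [IsScalarTower ℂ (Pol n) K]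
  [FaithfulSMul (Pol n) K]
  [Algebra (FractionRing (Pol n)) K] [IsScalarTower (Pol n) (FractionRing (Pol n)) K]
  [FiniteDimensional (FractionRing (Pol n)) K]

section rlevel

set_option linter.unusedSectionVars false

/-- The inclusion of the integral closure in `R`. -/
theorem rlevel_hom {x : Pt n K} (hxR : ∀ b : IB n K, ∃ a : R, algebraMap R K a = (b : K) ∧
      (x.toFun b = 0 ↔ a ∈ maximalIdeal R)) :
    ∃ ρ : IB n K →ₐ[ℂ] R, (∀ b, algebraMap R K (ρ b) = (b : K)) ∧
      ∀ b, x.toFun b = 0 ↔ ρ b ∈ maximalIdeal R := by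
  have hinj : Function.Injective (algebraMap R K) := IsFractionRing.injective R K
  choose g hg hg' using hxR
  refine ⟨{ toFun := g, map_one' := ?_, map_mul' := ?_, map_zero' := ?_, map_add' := ?_,
            commutes' := ?_ }, hg, hg'⟩
  · apply hinj
    rw [hg, map_one]; rfl
  · intro a b
    apply hinj
    rw [hg, map_mul, hg, hg]; rfl
  · apply hinj
    rw [hg, map_zero]; rfl
  · intro a b
    apply hinj
    rw [hg, map_add, hg, hg]; rfl
  · intro c
    apply hinj
    rw [hg, ← IsScalarTower.algebraMap_apply ℂ R K]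
    rfl

/-- The value at `x` of a polynomial in `u` is the constant coefficient. -/
theorem rlevel_eval {x : Pt n K} {J : K} {u : Fin (n + 1) → IB n K}
    {F : MvPolynomial (Fin (n + 1)) ℂ} (h : Hyp x J u F) (G : MvPolynomial (Fin (n + 1)) ℂ) :
    x.toFun (MvPolynomial.aeval u G) = MvPolynomial.constantCoeff G := by
  have hC : ∀ c : ℂ, x.toFun (algebraMap ℂ (IB n K) c) = c := by
    intro c
    have h1 : algebraMap ℂ (IB n K) c = algebraMap (Pol n) (IB n K) (MvPolynomial.C c) := by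
      rw [IsScalarTower.algebraMap_apply ℂ (Pol n) (IB n K)]
      rfl
    rw [h1, x.map_alg, MvPolynomial.eval_C]
  have hu : ∀ i, x.toFun (u i) = 0 := by
    intro i
    refine Fin.cases h.zero (fun j => ?_) i
    obtain ⟨L, -, hL⟩ := h.lin
    rw [hL, x.map_alg]
    simp
  have h2 : x.toFun.comp ((MvPolynomial.aeval u : MvPolynomial (Fin (n + 1)) ℂ →ₐ[ℂ] IB n K) :
      MvPolynomial (Fin (n + 1)) ℂ →+* IB n K) = MvPolynomial.constantCoeff := by
    apply MvPolynomial.ringHom_ext
    · intro c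
      rw [RingHom.comp_apply, MvPolynomial.constantCoeff_C]
      change x.toFun (MvPolynomial.aeval u (MvPolynomial.C c)) = c
      rw [MvPolynomial.aeval_C, hC]
    · intro i
      rw [RingHom.comp_apply, MvPolynomial.constantCoeff_X]
      change x.toFun (MvPolynomial.aeval u (MvPolynomial.X i)) = 0
      rw [MvPolynomial.aeval_X, hu]
  exact congrArg (fun f : MvPolynomial (Fin (n + 1)) ℂ →+* ℂ => f G) h2

/-- Data of the local ring. -/
structure RLevelData (R : Type) [CommRing R] [IsLocalRing R] [Algebra ℂ R] {n : ℕ}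
    (r : Fin (n + 1) → R) (F : MvPolynomial (Fin (n + 1)) ℂ) : Prop where
  eq : MvPolynomial.aeval r F = 0
  ker : ∀ G : MvPolynomial (Fin (n + 1)) ℂ, MvPolynomial.aeval r G = 0 → F ∣ G
  const : ∀ G : MvPolynomial (Fin (n + 1)) ℂ, MvPolynomial.constantCoeff G = 0 ↔
    MvPolynomial.aeval r G ∈ maximalIdeal R
  loc : ∀ f : R, ∃ s a : MvPolynomial (Fin (n + 1)) ℂ, MvPolynomial.constantCoeff s ≠ 0 ∧
    MvPolynomial.aeval r s * f = MvPolynomial.aeval r a

theorem rlevel_data
    (hzmt : ∀ a : R, ∃ s : R, IsUnit s ∧ IsIntegral (Pol n) s ∧ IsIntegral (Pol n) (s * a))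
    {x : Pt n K} {J : K} {u : Fin (n + 1) → IB n K}
    {F : MvPolynomial (Fin (n + 1)) ℂ} (h : Hyp x J u F) {ρ : IB n K →ₐ[ℂ] R}
    (hρ : ∀ b, algebraMap R K (ρ b) = (b : K)) (hρ' : ∀ b, x.toFun b = 0 ↔ ρ b ∈ maximalIdeal R) :
    RLevelData R (fun i => ρ (u i)) F := by
  have hinj : Function.Injective (algebraMap R K) := IsFractionRing.injective R K
  have hev : ∀ G : MvPolynomial (Fin (n + 1)) ℂ,
      MvPolynomial.aeval (fun i => ρ (u i)) G = ρ (MvPolynomial.aeval u G) := by
    intro G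
    rw [← AlgHom.comp_apply, MvPolynomial.comp_aeval]
  have hconst : ∀ G : MvPolynomial (Fin (n + 1)) ℂ, MvPolynomial.constantCoeff G = 0 ↔
      MvPolynomial.aeval (fun i => ρ (u i)) G ∈ maximalIdeal R := by
    intro G
    rw [hev, ← hρ', rlevel_eval h]
  have hunit : ∀ b : IB n K, x.toFun b ≠ 0 → IsUnit (ρ b) := by
    intro b hb
    by_contra h1
    exact hb ((hρ' b).2 h1)
  refine ⟨?_, ?_, hconst, ?_⟩
  · rw [hev, h.eq, map_zero]
  · intro G hG
    rw [hev] at hG
    refine h.ker G ?_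
    apply Subtype.ext
    rw [← hρ, hG, map_zero]
    rfl
  · intro f
    obtain ⟨t, ht1, ht2, ht3⟩ := hzmt f
    have e1 : ρ ⟨algebraMap R K t, isIntegral_map ht2⟩ = t := hinj (hρ _)
    have e2 : ρ ⟨algebraMap R K (t * f), isIntegral_map ht3⟩ = t * f := hinj (hρ _)
    obtain ⟨s1, a1, hs1, h1⟩ := h.loc ⟨algebraMap R K t, isIntegral_map ht2⟩
    obtain ⟨s2, a2, hs2, h2⟩ := h.loc ⟨algebraMap R K (t * f), isIntegral_map ht3⟩
    have h1' := congrArg ρ h1
    have h2' := congrArg ρ h2
    rw [map_mul, e1, ← hev, ← hev] at h1'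
    rw [map_mul, e2, ← hev, ← hev] at h2'
    have ha1 : MvPolynomial.constantCoeff a1 ≠ 0 := by
      intro h3
      rw [hconst, ← h1'] at h3
      have h4 : IsUnit (MvPolynomial.aeval (fun i => ρ (u i)) s1 * t) := by
        refine IsUnit.mul ?_ ht1
        rw [hev]
        exact hunit _ hs1
      exact h3 h4
    refine ⟨s2 * a1, a2 * s1, ?_, ?_⟩
    · rw [map_mul]
      refine mul_ne_zero ?_ ha1
      rw [← rlevel_eval h]
      exact hs2
    · rw [map_mul, map_mul, ← h1', ← h2']
      ring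

variable {r : Fin (n + 1) → R} {F : MvPolynomial (Fin (n + 1)) ℂ}

/-- The ideal generated by the variables. -/
theorem rlevel_mem_vars {G : MvPolynomial (Fin (n + 1)) ℂ} :
    G ∈ Ideal.span (Set.range (MvPolynomial.X : Fin (n + 1) → MvPolynomial (Fin (n + 1)) ℂ)) ↔
      MvPolynomial.constantCoeff G = 0 := by
  constructor
  · intro h
    have h1 : Ideal.span (Set.range (MvPolynomial.X : Fin (n + 1) →
        MvPolynomial (Fin (n + 1)) ℂ)) ≤ RingHom.ker MvPolynomial.constantCoeff := by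
      rw [Ideal.span_le]
      rintro _ ⟨i, rfl⟩
      simp
    exact h1 h
  · intro h
    have h1 := MvPolynomial.mem_ideal_span_X_image (σ := Fin (n + 1)) (R := ℂ) (x := G)
      (s := Set.univ)
    rw [Set.image_univ] at h1
    rw [h1]
    intro m hm
    by_contra h2
    push Not at h2
    have h3 : m = 0 := by
      ext i
      exact h2 i (Set.mem_univ i)
    rw [h3, MvPolynomial.mem_support_iff, ← MvPolynomial.constantCoeff_eq] at hm
    exact hm h

/-- Polynomials with nonzero constant coefficient are invertible modulo powers of the variables. -/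
theorem rlevel_inv {s : MvPolynomial (Fin (n + 1)) ℂ} (hs : MvPolynomial.constantCoeff s ≠ 0)
    (k : ℕ) : ∃ t : MvPolynomial (Fin (n + 1)) ℂ, s * t - 1 ∈
      (Ideal.span (Set.range (MvPolynomial.X : Fin (n + 1) →
        MvPolynomial (Fin (n + 1)) ℂ))) ^ k := by
  set I := Ideal.span (Set.range (MvPolynomial.X : Fin (n + 1) →
        MvPolynomial (Fin (n + 1)) ℂ)) with hI
  have h1 : s - MvPolynomial.C (MvPolynomial.constantCoeff s) ∈ I := by
    rw [hI, rlevel_mem_vars]
    simp
  have h2 : IsNilpotent (Ideal.Quotient.mk (I ^ k)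
      (s - MvPolynomial.C (MvPolynomial.constantCoeff s))) := by
    refine ⟨k, ?_⟩
    rw [← map_pow, Ideal.Quotient.eq_zero_iff_mem]
    exact Ideal.pow_mem_pow h1 k
  have h3 : IsUnit (Ideal.Quotient.mk (I ^ k)
      (MvPolynomial.C (MvPolynomial.constantCoeff s))) := by
    refine IsUnit.map _ ?_
    exact (IsUnit.mk0 _ hs).map MvPolynomial.C
  have h4 : IsUnit (Ideal.Quotient.mk (I ^ k) s) := by
    have h5 := h2.isUnit_add_left_of_commute h3 (Commute.all _ _)
    rwa [← map_add, add_sub_cancel] at h5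
  obtain ⟨t', ht'⟩ := h4.exists_right_inv
  obtain ⟨t, rfl⟩ := Ideal.Quotient.mk_surjective t'
  refine ⟨t, ?_⟩
  rw [← Ideal.Quotient.eq, map_mul, ht', map_one]

theorem rlevel_unit (D : RLevelData R r F) {s : MvPolynomial (Fin (n + 1)) ℂ}
    (hs : MvPolynomial.constantCoeff s ≠ 0) : IsUnit (MvPolynomial.aeval r s) := by
  by_contra h
  exact hs ((D.const s).2 h)

theorem rlevel_span (D : RLevelData R r F) : Ideal.span (Set.range r) = maximalIdeal R := by
  have hmap : ∀ G ∈ Ideal.span (Set.range (MvPolynomial.X : Fin (n + 1) →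
      MvPolynomial (Fin (n + 1)) ℂ)), MvPolynomial.aeval r G ∈ Ideal.span (Set.range r) := by
    intro G hG
    have h1 : Ideal.span (Set.range (MvPolynomial.X : Fin (n + 1) →
      MvPolynomial (Fin (n + 1)) ℂ)) ≤ Ideal.comap (MvPolynomial.aeval r :
        MvPolynomial (Fin (n + 1)) ℂ →ₐ[ℂ] R) (Ideal.span (Set.range r)) := by
      rw [Ideal.span_le]
      rintro _ ⟨i, rfl⟩
      change MvPolynomial.aeval r (MvPolynomial.X i) ∈ Ideal.span (Set.range r)
      rw [MvPolynomial.aeval_X]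
      exact Ideal.subset_span ⟨i, rfl⟩
    exact h1 hG
  apply le_antisymm
  · rw [Ideal.span_le]
    rintro _ ⟨i, rfl⟩
    have h1 := (D.const (MvPolynomial.X i)).1 (by simp)
    rwa [MvPolynomial.aeval_X] at h1
  · intro f hf
    obtain ⟨s, a, hs, hsa⟩ := D.loc f
    have h1 : MvPolynomial.constantCoeff a = 0 := by
      rw [D.const, ← hsa]
      exact Ideal.mul_mem_left _ _ hf
    have h2 := hmap a (rlevel_mem_vars.2 h1)
    rw [← hsa] at h2
    exact (Ideal.unit_mul_mem_iff_mem _ (rlevel_unit D hs)).mp h2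

/-- Elements of a power of the maximal ideal. -/
theorem rlevel_pow (D : RLevelData R r F) (k : ℕ) {y : R} (hy : y ∈ maximalIdeal R ^ k) :
    ∃ s a : MvPolynomial (Fin (n + 1)) ℂ, MvPolynomial.constantCoeff s ≠ 0 ∧
      a ∈ (Ideal.span (Set.range (MvPolynomial.X : Fin (n + 1) →
        MvPolynomial (Fin (n + 1)) ℂ))) ^ k ∧
      MvPolynomial.aeval r s * y = MvPolynomial.aeval r a := by
  have h1 : Ideal.map (MvPolynomial.aeval r : MvPolynomial (Fin (n + 1)) ℂ →ₐ[ℂ] R)
      (Ideal.span (Set.range (MvPolynomial.X : Fin (n + 1) →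
        MvPolynomial (Fin (n + 1)) ℂ))) = maximalIdeal R := by
    rw [Ideal.map_span, ← rlevel_span D]
    congr 1
    ext z
    simp
  rw [← h1, ← Ideal.map_pow, Ideal.map] at hy
  induction hy using Submodule.span_induction with
  | mem z hz =>
    obtain ⟨a, ha, rfl⟩ := hz
    refine ⟨1, a, by simp, ha, ?_⟩
    rw [map_one, one_mul]
  | zero => exact ⟨1, 0, by simp, zero_mem _, by simp⟩
  | add y z _ _ hy hz =>
    obtain ⟨s, a, hs, ha, h2⟩ := hy
    obtain ⟨s', a', hs', ha', h3⟩ := hz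
    refine ⟨s * s', s' * a + s * a', ?_, add_mem (Ideal.mul_mem_left _ _ ha)
      (Ideal.mul_mem_left _ _ ha'), ?_⟩
    · rw [map_mul]
      exact mul_ne_zero hs hs'
    · rw [map_add, map_mul, map_mul, map_mul, ← h2, ← h3]
      ring
  | smul c z _ hz =>
    obtain ⟨s, a, hs, ha, h2⟩ := hz
    obtain ⟨s', a', hs', h3⟩ := D.loc c
    refine ⟨s' * s, a' * a, ?_, Ideal.mul_mem_left _ _ ha, ?_⟩
    · rw [map_mul]
      exact mul_ne_zero hs' hs
    · rw [map_mul, map_mul, ← h2, ← h3, smul_eq_mul]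
      ring

theorem rlevel_ker (D : RLevelData R r F) (G : MvPolynomial (Fin (n + 1)) ℂ) (k : ℕ)
    (hG : MvPolynomial.aeval r G ∈ maximalIdeal R ^ k) : G ∈ Ideal.span {F} ⊔
      (Ideal.span (Set.range (MvPolynomial.X : Fin (n + 1) →
        MvPolynomial (Fin (n + 1)) ℂ))) ^ k := by
  obtain ⟨s, a, hs, ha, h1⟩ := rlevel_pow D k hG
  obtain ⟨t, ht⟩ := rlevel_inv hs k
  have h2 : F ∣ s * G - a := D.ker _ (by rw [map_sub, map_mul, h1, sub_self])
  obtain ⟨q, hq⟩ := h2
  have h3 : G = F * (t * q) + (t * a - (s * t - 1) * G) := by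
    have h4 : s * G = F * q + a := by rw [← hq]; ring
    calc G = t * (s * G) - (s * t - 1) * G := by ring
      _ = _ := by rw [h4]; ring
  rw [h3]
  refine Submodule.add_mem_sup ?_ ?_
  · exact Ideal.mul_mem_right _ _ (Ideal.mem_span_singleton_self F)
  · exact sub_mem (Ideal.mul_mem_left _ _ ha) (Ideal.mul_mem_right _ _ ht)

/-- Elements of `R` are polynomials modulo powers of the maximal ideal. -/
theorem rlevel_approx (D : RLevelData R r F) (f : R) (k : ℕ) :
    ∃ q : MvPolynomial (Fin (n + 1)) ℂ, f - MvPolynomial.aeval r q ∈ maximalIdeal R ^ k := by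
  obtain ⟨s, a, hs, h1⟩ := D.loc f
  obtain ⟨t, ht⟩ := rlevel_inv hs k
  refine ⟨a * t, ?_⟩
  have h2 : Ideal.map (MvPolynomial.aeval r : MvPolynomial (Fin (n + 1)) ℂ →ₐ[ℂ] R)
      (Ideal.span (Set.range (MvPolynomial.X : Fin (n + 1) →
        MvPolynomial (Fin (n + 1)) ℂ))) = maximalIdeal R := by
    rw [Ideal.map_span, ← rlevel_span D]
    congr 1
    ext z
    simp
  have h3 : MvPolynomial.aeval r (s * t - 1) ∈ maximalIdeal R ^ k := by
    rw [← h2, ← Ideal.map_pow]
    exact Ideal.mem_map_of_mem _ ht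
  have h4 : f - MvPolynomial.aeval r (a * t) = -(f * MvPolynomial.aeval r (s * t - 1)) := by
    rw [map_mul, ← h1, map_sub, map_mul, map_one]
    ring
  rw [h4]
  exact neg_mem (Ideal.mul_mem_left _ _ h3)

/-- The number of monomials of degree less than `k`. -/
theorem rlevel_card (n k : ℕ) :
    Nat.card {a : Fin n → ℕ // ∑ i, 1 * a i < k} ≤ Nat.choose (n + k - 1) n := by
  rcases k with _ | j
  · have : IsEmpty {a : Fin n → ℕ // ∑ i, 1 * a i < 0} := ⟨fun a => absurd a.2 (Nat.not_lt_zero _)⟩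
    rw [Nat.card_of_isEmpty]
    exact Nat.zero_le _
  · have h1 : ∀ a : Fin n → ℕ, ∑ i, 1 * a i < j + 1 →
        Finsupp.equivFunOnFinite.symm (Fin.cons (j - ∑ i, a i) a : Fin (n + 1) → ℕ) ∈
          Finset.finsuppAntidiag (Finset.univ : Finset (Fin (n + 1))) j := by
      intro a ha
      rw [Finset.mem_finsuppAntidiag]
      refine ⟨?_, Finset.subset_univ _⟩
      have h2 : ∑ i, a i ≤ j := by simpa using Nat.lt_succ_iff.1 ha
      rw [Fin.sum_univ_succ]
      simp only [Finsupp.equivFunOnFinite_symm_apply_apply, Fin.cons_zero, Fin.cons_succ]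
      omega
    let φ : {a : Fin n → ℕ // ∑ i, 1 * a i < j + 1} →
        Finset.finsuppAntidiag (Finset.univ : Finset (Fin (n + 1))) j :=
      fun a => ⟨_, h1 a.1 a.2⟩
    have hφ : Function.Injective φ := by
      intro a b hab
      have h3 := congrArg Subtype.val hab
      have h4 : (Fin.cons (j - ∑ i, a.1 i) a.1 : Fin (n + 1) → ℕ) =
          Fin.cons (j - ∑ i, b.1 i) b.1 := Finsupp.equivFunOnFinite.symm.injective h3
      apply Subtype.ext
      funext i
      have h5 := congrFun h4 i.succ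
      simpa using h5
    have h6 := Nat.card_le_card_of_injective φ hφ
    refine h6.trans ?_
    rw [Nat.card_eq_fintype_card, Fintype.card_coe, Finset.card_finsuppAntidiag_nat_eq_choose,
      Finset.card_univ, Fintype.card_fin]
    have e1 : n + 1 + j - 1 = j + n := by omega
    have e2 : n + (j + 1) - 1 = j + n := by omega
    rw [e1, e2, Nat.choose_symm_add]

omit [IsDomain R] in
/-- The length is bounded by the dimension of a space that surjects. -/
theorem rlevel_length {Q V : Type} [AddCommGroup Q] [Module R Q] [Module ℂ Q]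
    [IsScalarTower ℂ R Q] [AddCommGroup V] [Module ℂ V] [FiniteDimensional ℂ V]
    (f : V →ₗ[ℂ] Q) (hf : Function.Surjective f) :
    Module.length R Q ≤ (Module.finrank ℂ V : ℕ) := by
  have h1 := Submodule.length_le_length_restrictScalars (R := R) ℂ (⊤ : Submodule R Q)
  have h2 : Module.length R (⊤ : Submodule R Q) = Module.length R Q := Module.length_top
  have h3 : Module.length ℂ ((⊤ : Submodule R Q).restrictScalars ℂ) = Module.length ℂ Q := by
    rw [Submodule.restrictScalars_top]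
    exact Module.length_top
  rw [h2, h3] at h1
  refine h1.trans ((Module.length_le_of_surjective f hf).trans ?_)
  rw [Module.length_eq_finrank]

end rlevel

/-- A hypersurface with nondegenerate quadratic part is an ordinary double point. -/
theorem isODP_of_hyp [IsNoetherianRing R]
    (hres : Function.Surjective (algebraMap ℂ (ResidueField R)))
    (hzmt : ∀ a : R, ∃ s : R, IsUnit s ∧ IsIntegral (Pol n) s ∧ IsIntegral (Pol n) (s * a))
    {x : Pt n K} (hxR : ∀ b : IB n K, ∃ a : R, algebraMap R K a = (b : K) ∧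
      (x.toFun b = 0 ↔ a ∈ maximalIdeal R)) {J : K} {u : Fin (n + 1) → IB n K}
    {F : MvPolynomial (Fin (n + 1)) ℂ} (h : Hyp x J u F)
    (A : Matrix (Fin (n + 1)) (Fin (n + 1)) ℂ) (hA : A.IsSymm) (hdet : A.det ≠ 0)
    (hquad : ∀ e : Fin (n + 1) →₀ ℕ, e.degree ≤ 2 → MvPolynomial.coeff e F =
      MvPolynomial.coeff e (∑ i, ∑ j, MvPolynomial.C (A i j) * MvPolynomial.X i *
        MvPolynomial.X j)) : IsODP R n := by
  obtain ⟨ρ, hρ, hρ'⟩ := rlevel_hom (R := R) hxR
  have D := rlevel_data hzmt h hρ hρ'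
  exact isODP_of hres _ (rlevel_span D) D.eq (rlevel_ker D) A hA hdet hquad

/-- The Hilbert function of a hypersurface of multiplicity `p`. -/
theorem length_le_of_hyp [IsNoetherianRing R]
    (hres : Function.Surjective (algebraMap ℂ (ResidueField R)))
    (hzmt : ∀ a : R, ∃ s : R, IsUnit s ∧ IsIntegral (Pol n) s ∧ IsIntegral (Pol n) (s * a))
    {x : Pt n K} (hxR : ∀ b : IB n K, ∃ a : R, algebraMap R K a = (b : K) ∧
      (x.toFun b = 0 ↔ a ∈ maximalIdeal R)) {J : K} {u : Fin (n + 1) → IB n K}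
    {F : MvPolynomial (Fin (n + 1)) ℂ} (h : Hyp x J u F) {p : ℕ}
    (hp : MvPolynomial.coeff (Finsupp.single 0 p) F ≠ 0)
    (hF : ∀ e ∈ F.support, p ≤ ∑ i, e i) (k : ℕ) :
    Module.length R (R ⧸ maximalIdeal R ^ k) ≤ (p * Nat.choose (n + k - 1) n : ℕ) := by
  obtain ⟨ρ, hρ, hρ'⟩ := rlevel_hom (R := R) hxR
  have D := rlevel_data hzmt h hρ hρ'
  obtain ⟨hfd, hfr⟩ := finrank_wIdeal_le h (W := fun _ => 1) (fun _ => Nat.one_pos) hp
    (fun e he => by simpa using hF e he) k
  let f0 : IB n K →ₐ[ℂ] R ⧸ maximalIdeal R ^ k := (Ideal.Quotient.mkₐ ℂ (maximalIdeal R ^ k)).comp ρ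
  have hf0 : ∀ b ∈ wIdeal u (fun _ => 1) k, f0 b = 0 := by
    have h1 : wIdeal u (fun _ => 1) k ≤ RingHom.ker f0 := by
      rw [wIdeal, Ideal.span_le]
      rintro _ ⟨e, he, rfl⟩
      change Ideal.Quotient.mk (maximalIdeal R ^ k) (ρ (∏ i, u i ^ e i)) = 0
      rw [Ideal.Quotient.eq_zero_iff_mem, map_prod]
      have h2 : ∀ i, ρ (u i) ∈ maximalIdeal R := by
        intro i
        rw [← rlevel_span D]
        exact Ideal.subset_span ⟨i, rfl⟩
      have h3 : ∏ i, ρ (u i ^ e i) ∈ ∏ i, maximalIdeal R ^ e i := by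
        refine Ideal.prod_mem_prod fun i _ => ?_
        rw [map_pow]
        exact Ideal.pow_mem_pow (h2 i) _
      rw [Finset.prod_pow_eq_pow_sum] at h3
      exact Ideal.pow_le_pow_right (by simpa using he) h3
    intro b hb
    exact h1 hb
  let f1 : (IB n K ⧸ wIdeal u (fun _ => 1) k) →ₐ[ℂ] R ⧸ maximalIdeal R ^ k :=
    Ideal.Quotient.liftₐ _ f0 hf0
  have hsurj : Function.Surjective f1 := by
    intro y
    obtain ⟨f, rfl⟩ := Ideal.Quotient.mk_surjective y
    obtain ⟨q, hq⟩ := rlevel_approx D f k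
    refine ⟨Ideal.Quotient.mk _ (MvPolynomial.aeval u q), ?_⟩
    change Ideal.Quotient.mk (maximalIdeal R ^ k) (ρ (MvPolynomial.aeval u q)) = _
    rw [eq_comm, Ideal.Quotient.eq]
    have h4 : ρ (MvPolynomial.aeval u q) = MvPolynomial.aeval (fun i => ρ (u i)) q := by
      rw [← AlgHom.comp_apply, MvPolynomial.comp_aeval]
    rw [h4]
    exact hq
  refine (rlevel_length (R := R) f1.toLinearMap hsurj).trans ?_
  have h5 := hfr.trans (Nat.mul_le_mul_left p (rlevel_card n k))
  exact_mod_cast h5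

end Vale.Agent.P282.Full
end

section

/-!
# P282 EQ, module ALG: from divided differences to a monogenic local ring
-/

open Polynomial
open scoped Pointwise

namespace Vale.Agent.P282.EQ

section crt

variable {C G : Type*} [CommRing C] [Group G] [MulSemiringAction G C]

theorem smul_pow_ideal (σ : G) (I : Ideal C) (J : ℕ) : σ • (I ^ J) = (σ • I) ^ J := by
  rw [Ideal.pointwise_smul_def, Ideal.pointwise_smul_def, Ideal.map_pow]

theorem smul_mem_pow {σ : G} {M : Ideal C} {J : ℕ} {x : C} (hx : x ∈ (σ⁻¹ • M) ^ J) :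
    σ • x ∈ M ^ J := by
  have h := Ideal.smul_mem_pointwise_smul σ x _ hx
  rwa [smul_pow_ideal, smul_inv_smul] at h

theorem isMaximal_smul (M : Ideal C) [hM : M.IsMaximal] (σ : G) : (σ • M).IsMaximal := by
  rw [Ideal.pointwise_smul_eq_comap]
  exact Ideal.comap_isMaximal_of_surjective _ (MulSemiringAction.toRingAut G C σ⁻¹).surjective

variable [Finite G]

theorem exists_crt (M : Ideal C) [hM : M.IsMaximal] (J : ℕ) (c : C) :
    ∃ c', c' - c ∈ M ^ J ∧ ∀ σ : G, σ • M ≠ M → c' ∈ (σ • M) ^ J := by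
  classical
  cases nonempty_fintype G
  have h1 : ∀ σ : G, ∃ b : C, b - 1 ∈ M ^ J ∧ (σ • M ≠ M → b ∈ (σ • M) ^ J) := by
    intro σ
    by_cases h : σ • M = M
    · exact ⟨1, by simp, fun h' => absurd h h'⟩
    · have h2 : IsCoprime M (σ • M) :=
        Ideal.isCoprime_iff_sup_eq.2 (hM.coprime_of_ne (isMaximal_smul M σ) (Ne.symm h))
      obtain ⟨a, ha, b, hb, hab⟩ := Ideal.isCoprime_iff_exists.1 (h2.pow (m := J) (n := J))
      refine ⟨b, ?_, fun _ => hb⟩
      have : b - 1 = -a := by rw [← hab]; ring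
      rw [this]
      exact neg_mem ha
  choose b hb1 hb2 using h1
  have hu : (∏ σ : G, b σ) - 1 ∈ M ^ J := by
    rw [← Ideal.Quotient.eq, map_prod, map_one]
    refine Finset.prod_eq_one fun σ _ => ?_
    rw [← map_one (Ideal.Quotient.mk (M ^ J)), Ideal.Quotient.eq]
    exact hb1 σ
  refine ⟨c * ∏ σ : G, b σ, ?_, fun σ hσ => ?_⟩
  · have : c * ∏ σ : G, b σ - c = c * ((∏ σ : G, b σ) - 1) := by ring
    rw [this]
    exact Ideal.mul_mem_left _ _ hu
  · exact Ideal.mul_mem_left _ _
      (Ideal.mem_of_dvd _ (Finset.dvd_prod_of_mem b (Finset.mem_univ σ)) (hb2 σ hσ))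

variable {P : Type*} [CommRing P] [Algebra P C] [SMulCommClass G P C] [Algebra.IsInvariant P C G]

/-- Elements of the decomposition ring are approximated by elements of `P`. -/
theorem exists_approx [Algebra ℚ P] (M : Ideal C) [hM : M.IsMaximal] (J : ℕ) (s e : C)
    (hs : s ∉ M) (hinv : ∀ τ : G, τ • M = M → e * (τ • s) = (τ • e) * s) :
    ∃ p : P, s * algebraMap P C p - e ∈ M ^ J := by
  classical
  cases nonempty_fintype G
  obtain ⟨s', hs'⟩ : ∃ s', s * s' - 1 ∈ M ^ J := by
    obtain ⟨a, m, hm, ham⟩ := hM.exists_inv hs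
    obtain ⟨w, hw⟩ := sub_dvd_pow_sub_pow (1 : C) (1 - s * a) J
    refine ⟨a * w, ?_⟩
    have h1 : s * (a * w) - 1 = -(1 - s * a) ^ J := by
      rw [one_pow] at hw
      linear_combination -hw
    rw [h1]
    have h2 : 1 - s * a = m := by linear_combination -ham
    rw [h2]
    exact neg_mem (Ideal.pow_mem_pow hm J)
  obtain ⟨c', hc1, hc2⟩ := exists_crt (G := G) M J (s' * e)
  obtain ⟨p₀, hp₀⟩ := Algebra.IsInvariant.isInvariant (A := P) (G := G) (∑ σ : G, σ • c') (by
    intro g
    rw [Finset.smul_sum]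
    simp only [smul_smul]
    exact Fintype.sum_equiv (Equiv.mulLeft g) _ _ fun σ => rfl)
  let D : Finset G := Finset.univ.filter fun σ => σ • M = M
  have hD : (D.card : ℚ) ≠ 0 := by
    have : (1 : G) ∈ D := by simp [D]
    exact_mod_cast (Finset.card_pos.2 ⟨1, this⟩).ne'
  have hmain : s * (∑ σ : G, σ • c') - D.card • e ∈ M ^ J := by
    have h1 : s * (∑ σ : G, σ • c') - D.card • e =
        ∑ σ : G, (s * (σ • c') - if σ • M = M then e else 0) := by
      rw [Finset.sum_sub_distrib, ← Finset.sum_filter, Finset.sum_const, ← Finset.mul_sum]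
    rw [h1]
    refine sum_mem fun σ _ => ?_
    split_ifs with h
    · have h2 : σ • (c' - s' * e) ∈ M ^ J := by
        apply smul_mem_pow
        have : σ⁻¹ • M = M := by rw [inv_smul_eq_iff, h]
        rwa [this]
      have h3 : σ • (s * s' - 1) ∈ M ^ J := by
        apply smul_mem_pow
        have : σ⁻¹ • M = M := by rw [inv_smul_eq_iff, h]
        rwa [this]
      have h4 : s * (σ • c') - e = s * (σ • (c' - s' * e)) + e * (σ • (s * s' - 1)) := by
        have h5 := hinv σ h
        simp only [smul_sub, smul_mul', smul_one]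
        linear_combination (-(σ • s')) * h5
      rw [h4]
      exact add_mem (Ideal.mul_mem_left _ _ h2) (Ideal.mul_mem_left _ _ h3)
    · rw [sub_zero]
      refine Ideal.mul_mem_left _ _ (smul_mem_pow (hc2 σ⁻¹ ?_))
      intro h'
      apply h
      rw [← h', smul_inv_smul, h']
  refine ⟨algebraMap ℚ P (D.card : ℚ)⁻¹ * p₀, ?_⟩
  have h6 : algebraMap P C (algebraMap ℚ P (D.card : ℚ)⁻¹) * (D.card : C) = 1 := by
    have h7 : (D.card : C) = algebraMap P C (algebraMap ℚ P (D.card : ℚ)) := by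
      rw [map_natCast, map_natCast]
    rw [h7, ← map_mul, ← map_mul, inv_mul_cancel₀ hD, map_one, map_one]
  have h8 : s * algebraMap P C (algebraMap ℚ P (D.card : ℚ)⁻¹ * p₀) - e =
      algebraMap P C (algebraMap ℚ P (D.card : ℚ)⁻¹) *
        (s * (∑ σ : G, σ • c') - D.card • e) := by
    rw [map_mul, hp₀, nsmul_eq_mul]
    linear_combination e * h6
  rw [h8]
  exact Ideal.mul_mem_left _ _ hmain

variable (G) in
include G in
/-- Powers of `M` are contained in `𝔭 C`, locally at `M`. -/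
theorem exists_pow_mem [Algebra.IsIntegral P C] [IsNoetherianRing C] (M : Ideal C)
    [hM : M.IsMaximal] :
    ∃ n : ℕ, ∃ t, t ∉ M ∧ ∀ m ∈ M ^ n, t * m ∈ (M.under P).map (algebraMap P C) := by
  classical
  obtain ⟨u, hu1, hu2⟩ := exists_crt (G := G) M 1 1
  rw [pow_one] at hu1
  have huM : u ∉ M := by
    intro h
    apply hM.ne_top
    rw [Ideal.eq_top_iff_one]
    have : (1 : C) = u - (u - 1) := by ring
    rw [this]
    exact sub_mem h hu1
  have hp : (M.under P).IsMaximal := Ideal.isMaximal_comap_of_isIntegral_of_isMaximal M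
  set I := (M.under P).map (algebraMap P C) with hI
  have hrad : Ideal.span {u} * M ≤ I.radical := by
    rw [Ideal.span_singleton_mul_le_iff]
    intro m hm
    rw [Ideal.radical_eq_sInf, Ideal.mem_sInf]
    rintro Q ⟨hIQ, hQ⟩
    have h1 : M.under P ≤ Q.under P := Ideal.map_le_iff_le_comap.1 hIQ
    have h2 : M.under P = Q.under P := hp.eq_of_le (Ideal.IsPrime.ne_top inferInstance) h1
    obtain ⟨g, hg⟩ := Algebra.IsInvariant.exists_smul_of_under_eq P C G M Q h2
    by_cases h : g • M = M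
    · rw [hg, h]
      exact Ideal.mul_mem_left _ _ hm
    · rw [hg]
      have := hu2 g h
      rw [pow_one] at this
      exact Ideal.mul_mem_right _ _ this
  obtain ⟨n, hn⟩ := Ideal.exists_radical_pow_le_of_fg I (IsNoetherian.noetherian _)
  refine ⟨n, u ^ n, fun h => huM (hM.isPrime.mem_of_pow_mem n h), fun m hm => hn ?_⟩
  have h3 : u ^ n * m ∈ (Ideal.span {u} * M) ^ n := by
    rw [mul_pow, Ideal.span_singleton_pow]
    exact Ideal.mul_mem_mul (Ideal.mem_span_singleton_self _) hm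
  exact Ideal.pow_right_mono hrad n h3

end crt

section desc

variable {P B C H : Type*} [CommRing P] [CommRing B] [CommRing C] [Algebra P B] [Algebra B C]
  [Algebra P C] [IsScalarTower P B C] [Group H] [Finite H] [MulSemiringAction H C]
  [SMulCommClass H B C] [Algebra.IsInvariant B C H] [Algebra ℚ P]

include H in
theorem mem_map_of_mem_map (hinj : Function.Injective (algebraMap B C)) (𝔭 : Ideal P) (u : B)
    (hu : algebraMap B C u ∈ 𝔭.map (algebraMap P C)) : u ∈ 𝔭.map (algebraMap P B) := by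
  classical
  cases nonempty_fintype H
  have hPC : ∀ (h : H) (p : P) (c : C), h • (p • c) = p • (h • c) := by
    intro h p c
    rw [← algebraMap_smul B p c, smul_comm, algebraMap_smul]
  have key : ∀ x : C, x ∈ (𝔭 • (⊤ : Submodule P C)) → ∀ b : B,
      algebraMap B C b = ∑ h : H, h • x → b ∈ 𝔭.map (algebraMap P B) := by
    intro x hx
    induction hx using Submodule.smul_induction_on' with
    | smul p hp c _ =>
      intro b hb
      obtain ⟨b', hb'⟩ := Algebra.IsInvariant.isInvariant (A := B) (G := H) (∑ h : H, h • c) (by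
        intro g
        rw [Finset.smul_sum]
        simp only [smul_smul]
        exact Fintype.sum_equiv (Equiv.mulLeft g) _ _ fun σ => rfl)
      have h1 : b = algebraMap P B p * b' := by
        apply hinj
        rw [hb, map_mul, hb', ← IsScalarTower.algebraMap_apply, ← Algebra.smul_def,
          Finset.smul_sum]
        simp only [hPC]
      rw [h1]
      exact Ideal.mul_mem_right _ _ (Ideal.mem_map_of_mem _ hp)
    | add x _ y _ hx hy =>
      intro b hb
      obtain ⟨b', hb'⟩ := Algebra.IsInvariant.isInvariant (A := B) (G := H) (∑ h : H, h • x) (by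
        intro g
        rw [Finset.smul_sum]
        simp only [smul_smul]
        exact Fintype.sum_equiv (Equiv.mulLeft g) _ _ fun σ => rfl)
      have h1 := hx b' hb'
      have h2 := hy (b - b') (by
        rw [map_sub, hb, hb', ← Finset.sum_sub_distrib]
        simp only [smul_add, add_sub_cancel_left])
      have h3 : b = b' + (b - b') := by ring
      rw [h3]
      exact add_mem h1 h2
  have hu' : algebraMap B C u ∈ (𝔭 • (⊤ : Submodule P C)) := by
    rw [Ideal.smul_top_eq_map]
    exact hu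
  have h1 := key _ hu' ((Fintype.card H : B) * u) (by
    simp only [smul_algebraMap, Finset.sum_const, Finset.card_univ, nsmul_eq_mul, map_mul,
      map_natCast])
  have hc : (Fintype.card H : ℚ) ≠ 0 := by exact_mod_cast Fintype.card_ne_zero
  have h2 : u = algebraMap P B (algebraMap ℚ P (Fintype.card H : ℚ)⁻¹) *
      ((Fintype.card H : B) * u) := by
    have h7 : (Fintype.card H : B) = algebraMap P B (algebraMap ℚ P (Fintype.card H : ℚ)) := by
      rw [map_natCast, map_natCast]
    rw [h7, ← mul_assoc, ← map_mul, ← map_mul, inv_mul_cancel₀ hc, map_one, map_one, one_mul]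
  rw [h2]
  exact Ideal.mul_mem_left _ _ h1

include H in
theorem exists_descend (hinj : Function.Injective (algebraMap B C)) (M : Ideal C)
    [hM : M.IsPrime] (𝔭 : Ideal P) (g : B) (s : C) (hs : s ∉ M)
    (hsg : s * algebraMap B C g ∈ 𝔭.map (algebraMap P C)) :
    ∃ s' : B, algebraMap B C s' ∉ M ∧ s' * g ∈ 𝔭.map (algebraMap P B) := by
  classical
  have hint : Algebra.IsIntegral B C := Algebra.IsInvariant.isIntegral B C H
  let I : Ideal C := Submodule.comap (LinearMap.mulRight C (algebraMap B C g))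
    (𝔭.map (algebraMap P C))
  have hI : ∀ c, c ∈ I ↔ c * algebraMap B C g ∈ 𝔭.map (algebraMap P C) := fun c => Iff.rfl
  by_contra hcon
  push Not at hcon
  have h1 : I.comap (algebraMap B C) ≤ M.comap (algebraMap B C) := by
    intro s' hs'
    rw [Ideal.mem_comap] at hs' ⊢
    by_contra hne
    apply hcon s' hne
    apply mem_map_of_mem_map (H := H) hinj
    rw [map_mul]
    exact hs'
  obtain ⟨Q, hIQ, hQ, hQM⟩ := Ideal.exists_ideal_over_prime_of_isIntegral
    (M.comap (algebraMap B C)) I h1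
  obtain ⟨h, hh⟩ := Algebra.IsInvariant.exists_smul_of_under_eq B C H M Q hQM.symm
  have h2 : h • s ∈ I := by
    rw [hI]
    have h3 : h • (s * algebraMap B C g) ∈ 𝔭.map (algebraMap P C) := by
      have h4 : (MulSemiringAction.toRingHom H C h).comp (algebraMap P C) = algebraMap P C := by
        ext p
        show h • (algebraMap P C p) = algebraMap P C p
        rw [IsScalarTower.algebraMap_apply P B C, smul_algebraMap]
      have h5 := Ideal.mem_map_of_mem (MulSemiringAction.toRingHom H C h) hsg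
      rw [Ideal.map_map, h4] at h5
      exact h5
    rwa [smul_mul', smul_algebraMap] at h3
  have h6 := hIQ h2
  rw [hh, Ideal.smul_mem_pointwise_smul_iff] at h6
  exact hs h6

end desc

section main

variable {P B C G H : Type*} [CommRing P] [Algebra ℚ P]
  [CommRing B] [IsDomain B] [IsNoetherianRing B] [IsIntegrallyClosed B] [Algebra P B]
  [CommRing C] [IsDomain C] [IsNoetherianRing C] [IsIntegrallyClosed C] [Algebra P C]
  [Algebra B C] [IsScalarTower P B C] [Algebra.IsIntegral P C] [Algebra.IsIntegral P B]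
  [Group G] [Finite G] [MulSemiringAction G C] [SMulCommClass G P C] [Algebra.IsInvariant P C G]

variable (P) in
include P in
/-- The interpolation polynomial on the orbit of `y` under the decomposition group. -/
theorem exists_interp_decomp (hinj : Function.Injective (algebraMap B C)) (M : Ideal C)
    [hM : M.IsMaximal] (y : B)
    (F1 : ∀ σ : G, ∀ b : B, ∃ s, s ∉ M ∧ (σ • algebraMap B C y - algebraMap B C y) ∣
      s * (σ • algebraMap B C b - algebraMap B C b)) :
    ∃ r : ℕ, (∀ b : B, ∃ s, s ∉ M ∧ ∃ q : C[X], q.degree < r ∧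
      ∀ τ : G, τ • M = M → q.eval (τ • algebraMap B C y) = s * (τ • algebraMap B C b)) ∧
      ∀ f : C[X], f.degree < r →
        (∀ τ : G, τ • M = M → f.eval (τ • algebraMap B C y) = 0) → f = 0 := by
  classical
  cases nonempty_fintype G
  set yC := algebraMap B C y with hyC
  let D : Finset G := Finset.univ.filter fun σ => σ • M = M
  have hDmem : ∀ τ, τ ∈ D ↔ τ • M = M := fun τ => by simp [D]
  let Y : Finset C := D.image fun τ => τ • yC
  have hY : ∀ η ∈ Y, ∃ τ : G, τ • M = M ∧ τ • yC = η := by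
    intro η hη
    obtain ⟨τ, hτ, rfl⟩ := Finset.mem_image.1 hη
    exact ⟨τ, (hDmem τ).1 hτ, rfl⟩
  let T : C → G := fun η => if h : η ∈ Y then (hY η h).choose else 1
  have hT1 : ∀ η ∈ Y, T η • M = M := fun η h => by
    simp only [T, dif_pos h]
    exact (hY η h).choose_spec.1
  have hT2 : ∀ η ∈ Y, T η • yC = η := fun η h => by
    simp only [T, dif_pos h]
    exact (hY η h).choose_spec.2
  let S : C → (B →ₐ[P] C) := fun η =>
    (MulSemiringAction.toAlgHom P C (T η)).comp (IsScalarTower.toAlgHom P B C)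
  have hS : ∀ η b, S η b = T η • algebraMap B C b := fun _ _ => rfl
  have hSy : ∀ η ∈ Y, S η y = η := fun η h => by rw [hS]; exact hT2 η h
  -- pairwise divisibility
  have hpair : ∀ τ τ' : G, τ' • M = M → ∀ b, ∃ s, s ∉ M ∧ (τ • yC - τ' • yC) ∣
      s * (τ • algebraMap B C b - τ' • algebraMap B C b) := by
    intro τ τ' hτ' b
    obtain ⟨s, hs, c, hc⟩ := F1 (τ'⁻¹ * τ) b
    refine ⟨τ' • s, ?_, τ' • c, ?_⟩
    · intro h
      apply hs
      rw [← hτ', Ideal.smul_mem_pointwise_smul_iff] at h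
      exact h
    · have h1 := congrArg (fun x => τ' • x) hc
      simp only [smul_mul', smul_sub, smul_smul, mul_inv_cancel_left] at h1
      exact h1
  have hinjY : ∀ i ∈ Y, ∀ j ∈ Y, i ≠ j → S i y ≠ S j y := by
    intro i hi j hj hij
    rwa [hSy i hi, hSy j hj]
  refine ⟨Y.card, fun b => ?_, fun f hf hf0 => ?_⟩
  · let _ : Algebra ℚ C := ((algebraMap P C).comp (algebraMap ℚ P)).toAlgebra
    obtain ⟨s, hs, q, hqd, hq⟩ := interp_prime (P := P) M S y Y
      (fun i _ => by
        intro a b hab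
        rw [hS, hS] at hab
        exact hinj (MulAction.injective (T i) hab))
      hinjY
      (fun i hi j hj b => by
        rw [hS, hS, hS, hS]
        exact hpair (T i) (T j) (hT1 j hj) b) b
    refine ⟨s, hs, q, hqd, fun τ hτ => ?_⟩
    have hηY : τ • yC ∈ Y := Finset.mem_image_of_mem _ ((hDmem τ).2 hτ)
    have h1 := hq _ hηY
    rw [hSy _ hηY] at h1
    rw [h1, hS]
    congr 1
    -- the two homomorphisms agree
    obtain ⟨s1, hs1, c, hc⟩ := hpair (T (τ • yC)) τ hτ b
    rw [hT2 _ hηY, sub_self, zero_mul] at hc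
    have hs10 : s1 ≠ 0 := fun h => hs1 (h ▸ M.zero_mem)
    exact sub_eq_zero.1 ((mul_eq_zero.1 hc).resolve_left hs10)
  · refine eq_zero_of_degree_lt_of_eval_finset_eq_zero Y hf fun η hη => ?_
    obtain ⟨τ, hτ, rfl⟩ := hY η hη
    exact hf0 τ hτ

/-- Approximation of `b` by polynomials in `y`. -/
theorem exists_approx_adjoin (hinj : Function.Injective (algebraMap B C)) (M : Ideal C)
    [hM : M.IsMaximal] (y : B)
    (F1 : ∀ σ : G, ∀ b : B, ∃ s, s ∉ M ∧ (σ • algebraMap B C y - algebraMap B C y) ∣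
      s * (σ • algebraMap B C b - algebraMap B C b)) (b : B) :
    ∃ a ∈ Algebra.adjoin P {y}, ∃ s, s ∉ M ∧
      s * algebraMap B C (b - a) ∈ (M.under P).map (algebraMap P C) := by
  classical
  obtain ⟨r, h1, h2⟩ := exists_interp_decomp P hinj M y F1
  obtain ⟨s, hs, q, hqd, hq⟩ := h1 b
  obtain ⟨J, t, ht, hJ⟩ := exists_pow_mem (P := P) G M
  -- invariance of the coefficients
  have hinv : ∀ n, ∀ τ : G, τ • M = M → q.coeff n * (τ • s) = (τ • q.coeff n) * s := by
    intro n τ hτ
    have h3 : Polynomial.C (τ • s) * q -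
        Polynomial.C s * q.map (MulSemiringAction.toRingHom G C τ) = 0 := by
      apply h2
      · refine (degree_sub_le _ _).trans_lt (max_lt ?_ ?_)
        · exact (degree_C_mul_le' _ _).trans_lt hqd
        · exact ((degree_C_mul_le' _ _).trans degree_map_le).trans_lt hqd
      · intro τ' hτ'
        have h4 : (τ⁻¹ * τ') • M = M := by
          rw [mul_smul, hτ', inv_smul_eq_iff, hτ]
        have h5 := congrArg (fun x : C => τ • x) (hq _ h4)
        simp only [smul_mul', smul_smul, mul_inv_cancel_left] at h5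
        have h6 : (q.map (MulSemiringAction.toRingHom G C τ)).eval (τ' • algebraMap B C y) =
            τ • (q.eval ((τ⁻¹ * τ') • algebraMap B C y)) := by
          rw [eval_map]
          have h7 : τ' • algebraMap B C y =
              MulSemiringAction.toRingHom G C τ ((τ⁻¹ * τ') • algebraMap B C y) := by
            show _ = τ • ((τ⁻¹ * τ') • algebraMap B C y)
            rw [smul_smul, mul_inv_cancel_left]
          rw [h7, eval₂_hom]
          rfl
        rw [eval_sub, eval_mul, eval_mul, eval_C, eval_C, h6, h5, hq τ' hτ']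
        ring
    have h8 := congrArg (fun f => coeff f n) h3
    simp only [coeff_sub, coeff_C_mul, coeff_map, coeff_zero] at h8
    have h9 : (MulSemiringAction.toRingHom G C τ) (q.coeff n) = τ • q.coeff n := rfl
    rw [h9] at h8
    linear_combination h8
  have happ : ∀ n, ∃ p : P, s * algebraMap P C p - q.coeff n ∈ M ^ J := fun n =>
    exists_approx M J s (q.coeff n) hs (hinv n)
  choose p hp using happ
  let a : B := ∑ k ∈ Finset.range r, algebraMap P B (p k) * y ^ k
  refine ⟨a, ?_, t * s, fun h => (hM.isPrime.mem_or_mem h).elim ht hs, ?_⟩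
  · refine sum_mem fun k _ => mul_mem (Subalgebra.algebraMap_mem _ _) (pow_mem ?_ k)
    exact Algebra.subset_adjoin rfl
  · rw [mul_assoc]
    apply hJ
    have h3 : s * algebraMap B C b = ∑ k ∈ Finset.range r, q.coeff k * algebraMap B C y ^ k := by
      have h4 := hq 1 (one_smul G M)
      rw [one_smul, one_smul] at h4
      rw [← h4]
      rcases Nat.eq_zero_or_pos r with h0 | h0
      · subst h0
        have : q = 0 := by
          rw [← degree_eq_bot]
          have h5 : q.degree < 0 := by exact_mod_cast hqd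
          exact Nat.WithBot.lt_zero_iff.1 h5
        rw [this]
        simp
      · refine eval_eq_sum_range' ?_ _
        rcases eq_or_ne q 0 with rfl | hq0
        · simpa using h0
        · exact (natDegree_lt_iff_degree_lt hq0).2 hqd
    have h4 : s * algebraMap B C (b - a) =
        ∑ k ∈ Finset.range r, (-(s * algebraMap P C (p k) - q.coeff k)) *
          algebraMap B C y ^ k := by
      rw [map_sub, mul_sub, h3]
      simp only [a, map_sum, map_mul, map_pow, ← IsScalarTower.algebraMap_apply P B C]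
      rw [Finset.mul_sum, ← Finset.sum_sub_distrib]
      refine Finset.sum_congr rfl fun k _ => ?_
      ring
    rw [h4]
    exact sum_mem fun k _ => Ideal.mul_mem_right _ _ (neg_mem (hp k))

/-- The point `M ∩ B` is the only point of `B` over `M ∩ P[y]`. -/
theorem unique_over (hinj : Function.Injective (algebraMap B C)) (M : Ideal C)
    [hM : M.IsMaximal] (hres : ∀ c, ∃ p : P, c - algebraMap P C p ∈ M) (y : B)
    (F1 : ∀ σ : G, ∀ b : B, ∃ s, s ∉ M ∧ (σ • algebraMap B C y - algebraMap B C y) ∣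
      s * (σ • algebraMap B C b - algebraMap B C b))
    (Q : Ideal B) [Q.IsPrime]
    (hQ : ∀ a ∈ Algebra.adjoin P {y}, a ∈ Q ↔ algebraMap B C a ∈ M) (b : B) :
    b ∈ Q ↔ algebraMap B C b ∈ M := by
  have hint : Algebra.IsIntegral B C := Algebra.IsIntegral.tower_top (R := P)
  obtain ⟨Q', -, hQ', hQQ⟩ := Ideal.exists_ideal_over_prime_of_isIntegral Q (⊥ : Ideal C) (by
    intro x hx
    have h0 : x = 0 := hinj (by rw [map_zero]; exact hx)
    rw [h0]
    exact Q.zero_mem)
  have hmem : ∀ x : B, x ∈ Q ↔ algebraMap B C x ∈ Q' := fun x => by rw [← hQQ]; rfl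
  have hund : Q'.under P = M.under P := by
    ext p
    rw [Ideal.mem_comap, Ideal.mem_comap, IsScalarTower.algebraMap_apply P B C, ← hmem]
    exact hQ _ (Subalgebra.algebraMap_mem _ _)
  obtain ⟨g, hg⟩ := Algebra.IsInvariant.exists_smul_of_under_eq P C G Q' M hund
  have hmem2 : ∀ x : C, x ∈ Q' ↔ g • x ∈ M := fun x => by
    rw [hg, Ideal.smul_mem_pointwise_smul_iff]
  obtain ⟨p, hp⟩ := hres (algebraMap B C y)
  have h1 : algebraMap B C (y - algebraMap P B p) ∈ M := by
    rw [map_sub, ← IsScalarTower.algebraMap_apply]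
    exact hp
  have h2 : y - algebraMap P B p ∈ Algebra.adjoin P {y} :=
    sub_mem (Algebra.subset_adjoin rfl) (Subalgebra.algebraMap_mem _ _)
  have h3 : g • algebraMap B C (y - algebraMap P B p) ∈ M := by
    rw [← hmem2, ← hmem, hQ _ h2]
    exact h1
  have h4 : g • algebraMap B C y - algebraMap B C y ∈ M := by
    have h5 := sub_mem h3 h1
    have h8 : g • algebraMap P C p = algebraMap P C p := smul_algebraMap g p
    rw [map_sub, smul_sub, ← IsScalarTower.algebraMap_apply, h8] at h5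
    have h6 : g • algebraMap B C y - algebraMap B C y =
        g • algebraMap B C y - algebraMap P C p - (algebraMap B C y - algebraMap P C p) := by ring
    rw [h6]
    exact h5
  obtain ⟨s, hs, hd⟩ := F1 g b
  have h7 : g • algebraMap B C b - algebraMap B C b ∈ M :=
    (hM.isPrime.mem_or_mem (Ideal.mem_of_dvd _ hd h4)).resolve_left hs
  rw [hmem, hmem2]
  constructor
  · intro h
    have := sub_mem h h7
    rwa [sub_sub_cancel] at this
  · intro h
    have := add_mem h7 h
    rwa [sub_add_cancel] at this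

theorem exists_mem_adjoin_dvd (hinj : Function.Injective (algebraMap B C)) (M : Ideal C)
    [hM : M.IsMaximal] (hres : ∀ c, ∃ p : P, c - algebraMap P C p ∈ M) (y : B)
    (F1 : ∀ σ : G, ∀ b : B, ∃ s, s ∉ M ∧ (σ • algebraMap B C y - algebraMap B C y) ∣
      s * (σ • algebraMap B C b - algebraMap B C b)) (s : B) (hs : algebraMap B C s ∉ M) :
    ∃ a ∈ Algebra.adjoin P {y}, algebraMap B C a ∉ M ∧ s ∣ a := by
  by_contra hcon
  push Not at hcon
  let A := Algebra.adjoin P {y}
  have hAB : Algebra.IsIntegral A B := Algebra.IsIntegral.tower_top (R := P)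
  let mA : Ideal A := (M.comap (algebraMap B C)).comap (algebraMap A B)
  have h1 : (Ideal.span {s}).comap (algebraMap A B) ≤ mA := by
    intro a ha
    rw [Ideal.mem_comap, Ideal.mem_span_singleton] at ha
    by_contra hne
    exact hcon a a.2 hne ha
  obtain ⟨Q, hIQ, hQ, hQM⟩ := Ideal.exists_ideal_over_prime_of_isIntegral mA _ h1
  have h2 := unique_over hinj M hres y F1 Q (by
    intro a ha
    have : (⟨a, ha⟩ : A) ∈ Q.comap (algebraMap A B) ↔ (⟨a, ha⟩ : A) ∈ mA := by rw [hQM]
    exact this) s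
  exact hs (h2.1 (hIQ (Ideal.mem_span_singleton_self s)))

end main

section final

variable {P B C G H : Type*} [CommRing P] [Algebra ℚ P]
  [CommRing B] [IsDomain B] [IsNoetherianRing B] [IsIntegrallyClosed B] [Algebra P B]
  [CommRing C] [IsDomain C] [IsNoetherianRing C] [IsIntegrallyClosed C] [Algebra P C]
  [Algebra B C] [IsScalarTower P B C] [Algebra.IsIntegral P C] [Module.Finite P B]
  [Group G] [Finite G] [MulSemiringAction G C] [SMulCommClass G P C] [Algebra.IsInvariant P C G]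
  [Group H] [Finite H] [MulSemiringAction H C] [SMulCommClass H B C] [Algebra.IsInvariant B C H]

include H in
/-- **ALG.** If the first divided differences are integral at `M`, then the local ring of `B` at
`M ∩ B` is the local ring of `P[y]`. -/
theorem alg (hinj : Function.Injective (algebraMap B C)) (M : Ideal C)
    [hM : M.IsMaximal] (hres : ∀ c, ∃ p : P, c - algebraMap P C p ∈ M) (y : B)
    (F1 : ∀ σ : G, ∀ b : B, ∃ s, s ∉ M ∧ (σ • algebraMap B C y - algebraMap B C y) ∣
      s * (σ • algebraMap B C b - algebraMap B C b)) :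
    ∃ s ∈ Algebra.adjoin P {y}, algebraMap B C s ∉ M ∧
      ∀ b : B, s * b ∈ Algebra.adjoin P {y} := by
  classical
  have hPB : Algebra.IsIntegral P B := Algebra.IsIntegral.of_finite P B
  let A := Algebra.adjoin P {y}
  let mA : Ideal A := (M.comap (algebraMap B C)).comap (algebraMap A B)
  have hmA : ∀ a : A, a ∈ mA ↔ algebraMap B C (a : B) ∈ M := fun _ => Iff.rfl
  have hmAp : mA.IsPrime := inferInstance
  have hfin : Module.Finite A B := Module.Finite.of_restrictScalars_finite P A B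
  let N : Submodule A B := LinearMap.range (Algebra.linearMap A B)
  have hN : ∀ b : B, b ∈ N ↔ b ∈ A := by
    intro b
    constructor
    · rintro ⟨a, rfl⟩
      exact a.2
    · intro hb
      exact ⟨⟨b, hb⟩, rfl⟩
  let 𝔭 := M.under P
  let I : Ideal A := 𝔭.map (algebraMap P A)
  -- local generation
  have hloc : ∀ b : B, ∃ s : A, s ∉ mA ∧ s • b ∈ N ⊔ I • (⊤ : Submodule A B) := by
    intro b
    obtain ⟨a, ha, s, hs, hsa⟩ := exists_approx_adjoin (P := P) hinj M y F1 b
    obtain ⟨s', hs', hs'a⟩ := exists_descend (H := H) hinj M 𝔭 (b - a) s hs hsa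
    obtain ⟨s'', hs''A, hs'', c, hc⟩ := exists_mem_adjoin_dvd hinj M hres y F1 s' hs'
    refine ⟨⟨s'', hs''A⟩, hs'', ?_⟩
    have h1 : s'' * (b - a) ∈ 𝔭.map (algebraMap P B) := by
      rw [hc, mul_right_comm]
      exact Ideal.mul_mem_right _ _ hs'a
    have h2 : s'' * (b - a) ∈ I • (⊤ : Submodule A B) := by
      rw [Ideal.smul_top_eq_map, Submodule.restrictScalars_mem, Ideal.map_map,
        ← IsScalarTower.algebraMap_eq]
      exact h1
    have h3 : (⟨s'', hs''A⟩ : A) • b = s'' * a + s'' * (b - a) := by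
      rw [Subalgebra.smul_def, smul_eq_mul]
      ring
    rw [h3]
    exact Submodule.add_mem_sup ((hN _).2 (mul_mem hs''A ha)) h2
  -- a common multiplier
  obtain ⟨G₀, hG₀⟩ := hfin.fg_top
  choose t ht1 ht2 using hloc
  let s : A := ∏ b ∈ G₀, t b
  have hs : s ∉ mA := by
    intro h
    obtain ⟨b, -, hb⟩ := (Ideal.IsPrime.prod_mem_iff).1 h
    exact ht1 b hb
  have hsB : ∀ b : B, s • b ∈ N ⊔ I • (⊤ : Submodule A B) := by
    intro b
    have hb : b ∈ Submodule.span A (G₀ : Set B) := by rw [hG₀]; trivial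
    induction hb using Submodule.span_induction with
    | mem x hx =>
      have h1 : s = (∏ b ∈ G₀.erase x, t b) * t x := (Finset.prod_erase_mul _ _ hx).symm
      rw [h1, mul_smul]
      exact Submodule.smul_mem _ _ (ht2 x)
    | zero => rw [smul_zero]; exact Submodule.zero_mem _
    | add x y _ _ hx hy => rw [smul_add]; exact Submodule.add_mem _ hx hy
    | smul a x _ hx => rw [smul_comm]; exact Submodule.smul_mem _ _ hx
  -- Cayley-Hamilton on the quotient
  let f : Module.End A (B ⧸ N) := algebraMap A (Module.End A (B ⧸ N)) s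
  have hf : LinearMap.range f ≤ I • (⊤ : Submodule A (B ⧸ N)) := by
    rintro _ ⟨x, rfl⟩
    obtain ⟨b, rfl⟩ := Submodule.Quotient.mk_surjective _ x
    have h1 : f (Submodule.Quotient.mk b) = N.mkQ (s • b) := by
      rw [Module.algebraMap_end_apply]
      rfl
    rw [h1]
    obtain ⟨u, hu, v, hv, huv⟩ := Submodule.mem_sup.1 (hsB b)
    rw [← huv, map_add]
    have h2 : N.mkQ u = 0 := by
      rw [← LinearMap.mem_ker, Submodule.ker_mkQ]
      exact hu
    rw [h2, zero_add]
    have h3 : N.mkQ v ∈ (I • (⊤ : Submodule A B)).map N.mkQ := Submodule.mem_map_of_mem hv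
    rw [Submodule.map_smul''] at h3
    exact Submodule.smul_mono le_rfl le_top h3
  obtain ⟨p, hpm, -, hpc, hp0⟩ :=
    LinearMap.exists_monic_and_natDegree_eq_and_coeff_mem_pow_and_aeval_eq_zero A f I hf
  have hIm : I ≤ mA := by
    rw [Ideal.map_le_iff_le_comap]
    intro x hx
    rw [Ideal.mem_comap, hmA]
    have : algebraMap B C (algebraMap P A x : B) = algebraMap P C x := by
      rw [IsScalarTower.algebraMap_apply P B C]
      rfl
    rw [this]
    exact hx
  have hw : p.eval s ∉ mA := by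
    intro h
    rw [eval_eq_sum_range, Finset.sum_range_succ, hpm.coeff_natDegree, one_mul] at h
    have h1 : ∑ k ∈ Finset.range p.natDegree, p.coeff k * s ^ k ∈ mA := by
      refine sum_mem fun k hk => Ideal.mul_mem_right _ _ (hIm ?_)
      have h2 : 0 < p.natDegree - k := by
        have := Finset.mem_range.1 hk
        omega
      exact Ideal.pow_le_self h2.ne' (hpc k)
    have h3 : s ^ p.natDegree ∈ mA := (Submodule.add_mem_iff_right _ h1).1 h
    exact hs (hmAp.mem_of_pow_mem _ h3)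
  refine ⟨(p.eval s : A), (p.eval s).2, hw, fun b => ?_⟩
  have h1 : aeval f p = algebraMap A (Module.End A (B ⧸ N)) (p.eval s) := by
    show aeval (algebraMap A (Module.End A (B ⧸ N)) s) p = _
    rw [aeval_algebraMap_apply, coe_aeval_eq_eval]
  rw [h1] at hp0
  have h2 := congrArg (fun φ : Module.End A (B ⧸ N) => φ (N.mkQ b)) hp0
  simp only [Module.algebraMap_end_apply, LinearMap.zero_apply] at h2
  rw [← map_smul, ← LinearMap.mem_ker, Submodule.ker_mkQ, hN] at h2
  exact h2

end final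

end Vale.Agent.P282.EQ
end

section

/-!
P282, converse: the point of the quadric cone over the completed field.
-/

open scoped NNReal ENNReal Nat
open IsLocalRing

namespace Vale.Agent.P282.Full

open Vale.Agent.P282.CV

section ptaux

variable {R K : Type} [CommRing R] [Field K] [Algebra R K]

theorem pt_val_pow {I : Ideal R} {v : Valuation K ℝ≥0} (hv1 : ∀ f : R, v (algebraMap R K f) ≤ 1)
    {μ : ℝ≥0} (hμ : ∀ f ∈ I, v (algebraMap R K f) ≤ μ) (N : ℕ) :
    ∀ f ∈ I ^ N, v (algebraMap R K f) ≤ μ ^ N := by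
  induction N with
  | zero => intro f _; simpa using hv1 f
  | succ N ih =>
    intro f hf
    rw [pow_succ] at hf
    refine Submodule.mul_induction_on hf (fun a ha b hb => ?_) (fun a b ha hb => ?_)
    · rw [map_mul, map_mul, pow_succ]
      exact mul_le_mul' (ih a ha) (hμ b hb)
    · rw [map_add]
      exact (v.map_add _ _).trans (max_le ha hb)

theorem pt_val_span {v : Valuation K ℝ≥0} (hv1 : ∀ f : R, v (algebraMap R K f) ≤ 1)
    {S : Set R} {μ : ℝ≥0} (hμ : ∀ f ∈ S, v (algebraMap R K f) ≤ μ) :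
    ∀ f ∈ Ideal.span S, v (algebraMap R K f) ≤ μ := by
  intro f hf
  induction hf using Submodule.span_induction with
  | mem x hx => exact hμ x hx
  | zero => rw [map_zero, map_zero]; exact zero_le
  | add x y _ _ hx hy =>
    rw [map_add]
    exact (v.map_add _ _).trans (max_le hx hy)
  | smul a x _ hx =>
    rw [smul_eq_mul, map_mul, map_mul]
    calc v (algebraMap R K a) * v (algebraMap R K x) ≤ 1 * μ := mul_le_mul' (hv1 a) hx
      _ = μ := one_mul μ

theorem pt_max {I : Ideal R} (hfg : I.FG) (hI : I ≠ ⊥) {v : Valuation K ℝ≥0}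
    (hv1 : ∀ f : R, v (algebraMap R K f) ≤ 1) :
    ∃ g ∈ I, ∀ f ∈ I, v (algebraMap R K f) ≤ v (algebraMap R K g) := by
  obtain ⟨s, hs⟩ := hfg
  have hne : s.Nonempty := by
    rw [Finset.nonempty_iff_ne_empty]
    rintro rfl
    apply hI
    rw [← hs, Finset.coe_empty]
    exact Submodule.span_empty
  obtain ⟨g, hg, hmax⟩ := Finset.exists_max_image s (fun f => v (algebraMap R K f)) hne
  refine ⟨g, hs ▸ Submodule.subset_span hg, fun f hf => ?_⟩
  rw [← hs] at hf
  exact pt_val_span hv1 (fun f hf => hmax f hf) f hf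

end ptaux

section ptjet

variable {n : ℕ} {R : Type} [CommRing R] [IsLocalRing R] [Algebra ℂ R]
  {j : R →ₐ[ℂ] Q n}

theorem pt_qx_mem (i : Fin (n + 1)) : qx n i ∈ qm n := Ideal.subset_span ⟨i, rfl⟩

theorem pt_pow_one : qm n ^ 1 = qm n := pow_one _

theorem pt_pow_two : qm n ^ 2 = qm n * qm n := pow_two _

theorem pt_sum_qx : ∑ i, qx n i ^ 2 = 0 := by
  have h : (∑ i, qx n i ^ 2 : Q n) = Ideal.Quotient.mk (Ideal.span {∑ i : Fin (n + 1),
      (MvPowerSeries.X i : MvPowerSeries (Fin (n + 1)) ℂ) ^ 2})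
      (∑ i : Fin (n + 1), (MvPowerSeries.X i : MvPowerSeries (Fin (n + 1)) ℂ) ^ 2) := by
    rw [map_sum]
    exact Finset.sum_congr rfl fun i _ => (map_pow _ _ _).symm
  rw [h, Ideal.Quotient.eq_zero_iff_mem]
  exact Ideal.subset_span rfl

theorem pt_mem_max (hj : IsJet j) {N : ℕ} (hN : 1 ≤ N) {y : R} {i : Fin (n + 1)}
    (hy : qx n i - j y ∈ qm n ^ N) : y ∈ maximalIdeal R := by
  rw [← pow_one (maximalIdeal R), ← hj.mem, pt_pow_one]
  have h1 : qx n i - j y ∈ qm n := by
    have := Ideal.pow_le_pow_right hN hy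
    rwa [pt_pow_one] at this
  have h2 := sub_mem (pt_qx_mem i) h1
  rwa [sub_sub_cancel] at h2

theorem pt_diff (hj : IsJet j) {N : ℕ} {y y' : R} {i : Fin (n + 1)}
    (hy : qx n i - j y ∈ qm n ^ N) (hy' : qx n i - j y' ∈ qm n ^ N) :
    y - y' ∈ maximalIdeal R ^ N := by
  rw [← hj.mem, map_sub]
  have h2 := sub_mem hy' hy
  rwa [sub_sub_sub_cancel_left] at h2

theorem pt_sum_mem (hj : IsJet j) {N : ℕ} {y : Fin (n + 1) → R}
    (hy : ∀ i, qx n i - j (y i) ∈ qm n ^ N) : ∑ i, y i ^ 2 ∈ maximalIdeal R ^ N := by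
  rw [← hj.mem, map_sum]
  have h1 : ∑ i, j (y i ^ 2) = -∑ i, (qx n i + j (y i)) * (qx n i - j (y i)) := by
    have h2 : ∀ i, (qx n i + j (y i)) * (qx n i - j (y i)) = qx n i ^ 2 - j (y i ^ 2) := by
      intro i; rw [map_pow]; ring
    rw [Finset.sum_congr rfl fun i _ => h2 i, Finset.sum_sub_distrib, pt_sum_qx, zero_sub, neg_neg]
  rw [h1]
  exact neg_mem (sum_mem fun i _ => Ideal.mul_mem_left _ _ (hy i))

theorem pt_span [IsNoetherianRing R] (hj : IsJet j) {y : Fin (n + 1) → R}
    (hy : ∀ i, qx n i - j (y i) ∈ qm n ^ 2) : maximalIdeal R ≤ Ideal.span (Set.range y) := by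
  refine Submodule.le_of_le_smul_of_le_jacobson_bot (I := maximalIdeal R)
    (IsNoetherian.noetherian _) ?_ ?_
  · exact (IsLocalRing.jacobson_eq_maximalIdeal ⊥ bot_ne_top).ge
  · intro f hf
    have h1 : j f ∈ qm n := by
      have := (hj.mem 1 f).2 (by rwa [pow_one])
      rwa [pt_pow_one] at this
    obtain ⟨a, ha⟩ := (Ideal.mem_span_range_iff_exists_fun).1 h1
    choose b hb using fun i => hj.dense 1 (a i)
    have h2 : f - ∑ i, b i * y i ∈ maximalIdeal R ^ 2 := by
      rw [← hj.mem, map_sub, map_sum, ← ha, ← Finset.sum_sub_distrib]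
      refine sum_mem fun i _ => ?_
      have h3 : a i * qx n i - j (b i * y i) =
          (a i - j (b i)) * qx n i + j (b i) * (qx n i - j (y i)) := by
        rw [map_mul]; ring
      rw [h3]
      refine add_mem ?_ (Ideal.mul_mem_left _ _ (hy i))
      have h4 := hb i
      rw [pt_pow_one] at h4
      rw [pt_pow_two]
      exact Ideal.mul_mem_mul h4 (pt_qx_mem i)
    have h5 : f = ∑ i, b i * y i + (f - ∑ i, b i * y i) := by ring
    rw [h5]
    refine Submodule.add_mem_sup ?_ ?_
    · exact sum_mem fun i _ => Ideal.mul_mem_left _ _ (Ideal.subset_span ⟨i, rfl⟩)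
    · rw [pow_two] at h2
      exact h2

end ptjet

/-- The point of the quadric cone over the completed field. -/
theorem exists_pt {n : ℕ} {R K F : Type} [CommRing R] [IsDomain R] [IsLocalRing R] [Algebra ℂ R]
    [IsNoetherianRing R] [Field K] [Algebra ℂ K] [Algebra R K] [IsScalarTower ℂ R K]
    [IsFractionRing R K] [Field F] [Algebra ℂ F] {j : R →ₐ[ℂ] Q n} (hj : IsJet j)
    (hm : maximalIdeal R ≠ ⊥) {v : Valuation K ℝ≥0} (hv : HasCenter R v (maximalIdeal R))
    {w : Valuation F ℝ≥0} {ι : K →ₐ[ℂ] F} (hc : IsComp v w ι) :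
    ∃ (τ : Equiv.Perm (Fin (n + 1))) (x : Fin (n + 1) → F), ∑ i, x i ^ 2 = 0 ∧ x 0 ≠ 0 ∧
      (∀ i, w (x i) ≤ w (x 0)) ∧ w (x 0) < 1 ∧
      (∀ f ∈ maximalIdeal R, v (algebraMap R K f) ≤ w (x 0)) ∧
      ∀ N : ℕ, ∃ x₁ : Fin (n + 1) → R, (∀ i, x₁ i ∈ maximalIdeal R) ∧
        (∀ i, j (x₁ i) - qx n (τ i) ∈ qm n ^ N) ∧ ∑ i, x₁ i ^ 2 ∈ maximalIdeal R ^ N ∧
        ∀ i, w (x i - ι (algebraMap R K (x₁ i))) ≤ w (x 0) ^ N := by
  have hv1 : ∀ f : R, v (algebraMap R K f) ≤ 1 := fun f => (hv f).1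
  obtain ⟨g, hg, hgmax⟩ := pt_max (IsNoetherian.noetherian (maximalIdeal R)) hm hv1
  set μ : ℝ≥0 := v (algebraMap R K g) with hμ
  have hμ1 : μ < 1 := ((hv g).2).2 hg
  have hμ0 : 0 < μ := by
    obtain ⟨f, hf, hf0⟩ := Submodule.exists_mem_ne_zero_of_ne_bot hm
    have h1 : v (algebraMap R K f) ≠ 0 := by
      rw [Ne, Valuation.zero_iff]
      exact fun h => hf0 ((IsFractionRing.injective R K) (by rw [h, map_zero]))
    exact (pos_iff_ne_zero.2 h1).trans_le (hgmax f hf)
  have hpow := pt_val_pow hv1 hgmax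
  choose y hy using fun (N : ℕ) (i : Fin (n + 1)) => hj.dense N (qx n i)
  -- the Cauchy property
  have hdiff : ∀ (N a b : ℕ) (i : Fin (n + 1)), N ≤ a → N ≤ b →
      w (ι (algebraMap R K (y a i)) - ι (algebraMap R K (y b i))) ≤ μ ^ N := by
    intro N a b i ha hb
    rw [← map_sub, hc.val, ← map_sub]
    exact hpow N _ (pt_diff hj (Ideal.pow_le_pow_right ha (hy a i))
      (Ideal.pow_le_pow_right hb (hy b i)))
  have hsmall : ∀ δ : ℝ≥0, 0 < δ → ∃ N : ℕ, μ ^ N < δ := fun δ hδ => exists_pow_lt_of_lt_one hδ hμ1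
  have hlim : ∀ i : Fin (n + 1), ∃ Y : F, ∀ N : ℕ, w (Y - ι (algebraMap R K (y N i))) ≤ μ ^ N := by
    intro i
    obtain ⟨Y, hY⟩ := hc.complete (fun N => ι (algebraMap R K (y N i))) (by
      intro δ hδ
      obtain ⟨N, hN⟩ := hsmall δ hδ
      exact ⟨N, fun a b ha hb => (hdiff N a b i ha hb).trans_lt hN⟩)
    refine ⟨Y, fun N => ?_⟩
    obtain ⟨M, hM⟩ := hY (μ ^ N) (pow_pos hμ0 N)
    have h1 := hM (max M N) (le_max_left _ _)
    have h2 := hdiff N (max M N) N i (le_max_right _ _) le_rfl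
    have h3 : Y - ι (algebraMap R K (y N i)) = (Y - ι (algebraMap R K (y (max M N) i))) +
        (ι (algebraMap R K (y (max M N) i)) - ι (algebraMap R K (y N i))) := by ring
    rw [h3]
    exact (w.map_add _ _).trans (max_le h1.le h2)
  choose Y hY using hlim
  have hYle : ∀ i, w (Y i) ≤ μ := by
    intro i
    have h1 : Y i = (Y i - ι (algebraMap R K (y 1 i))) + ι (algebraMap R K (y 1 i)) := by ring
    rw [h1]
    refine (w.map_add _ _).trans (max_le ?_ ?_)
    · have := hY i 1
      rwa [pow_one] at this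
    · rw [hc.val]
      exact hgmax _ (pt_mem_max hj le_rfl (hy 1 i))
  have hsum : ∑ i, Y i ^ 2 = 0 := by
    by_contra hne
    have hpos : 0 < w (∑ i, Y i ^ 2) := pos_iff_ne_zero.2 (by rwa [Ne, Valuation.zero_iff])
    obtain ⟨N, hN⟩ := hsmall _ hpos
    refine absurd hN (not_lt.2 ?_)
    have h1 : ∑ i, Y i ^ 2 = ∑ i, (Y i ^ 2 - ι (algebraMap R K (y N i)) ^ 2) +
        ι (algebraMap R K (∑ i, y N i ^ 2)) := by
      rw [Finset.sum_sub_distrib, map_sum, map_sum]
      simp only [map_pow, sub_add_cancel]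
    rw [h1]
    refine (w.map_add _ _).trans (max_le ?_ ?_)
    · refine w.map_sum_le fun i _ => ?_
      have h2 : Y i ^ 2 - ι (algebraMap R K (y N i)) ^ 2 =
          (Y i + ι (algebraMap R K (y N i))) * (Y i - ι (algebraMap R K (y N i))) := by ring
      rw [h2, map_mul]
      have h3 : w (Y i + ι (algebraMap R K (y N i))) ≤ 1 := by
        refine (w.map_add _ _).trans (max_le ((hYle i).trans hμ1.le) ?_)
        rw [hc.val]
        exact hv1 _
      calc w (Y i + ι (algebraMap R K (y N i))) * w (Y i - ι (algebraMap R K (y N i)))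
          ≤ 1 * μ ^ N := mul_le_mul' h3 (hY i N)
        _ = μ ^ N := one_mul _
    · rw [hc.val]
      exact hpow N _ (pt_sum_mem hj (hy N))
  -- the maximum is attained
  obtain ⟨i₀, hi₀⟩ : ∃ i, w (Y i) = μ := by
    by_contra hno
    push Not at hno
    have h1 : ∀ i, v (algebraMap R K (y 2 i)) < μ := by
      intro i
      have h2 : ι (algebraMap R K (y 2 i)) = Y i - (Y i - ι (algebraMap R K (y 2 i))) := by ring
      rw [← hc.val, h2]
      refine (w.map_sub _ _).trans_lt (max_lt (lt_of_le_of_ne (hYle i) (hno i)) ?_)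
      refine (hY i 2).trans_lt ?_
      rw [pow_two]
      exact mul_lt_of_lt_one_left hμ0 hμ1
    obtain ⟨k, -, hk⟩ := Finset.exists_max_image Finset.univ
      (fun i => v (algebraMap R K (y 2 i))) ⟨0, Finset.mem_univ _⟩
    have h3 := pt_val_span hv1 (S := Set.range (y 2)) (μ := v (algebraMap R K (y 2 k)))
      (by rintro _ ⟨i, rfl⟩; exact hk i (Finset.mem_univ i)) g (pt_span hj (hy 2) hg)
    exact absurd (h3.trans_lt (h1 k)) (lt_irrefl _)
  refine ⟨Equiv.swap 0 i₀, fun i => Y (Equiv.swap 0 i₀ i), ?_, ?_, ?_, ?_, ?_, ?_⟩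
  · rw [Equiv.sum_comp (Equiv.swap 0 i₀) fun i => Y i ^ 2]
    exact hsum
  · beta_reduce
    rw [Equiv.swap_apply_left]
    intro h
    rw [h, map_zero] at hi₀
    exact hμ0.ne hi₀
  · intro i
    beta_reduce
    rw [Equiv.swap_apply_left, hi₀]
    exact hYle _
  · beta_reduce
    rw [Equiv.swap_apply_left, hi₀]
    exact hμ1
  · intro f hf
    beta_reduce
    rw [Equiv.swap_apply_left, hi₀]
    exact hgmax f hf
  · intro N
    refine ⟨fun i => y (max N 1) (Equiv.swap 0 i₀ i), ?_, ?_, ?_, ?_⟩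
    · intro i
      exact pt_mem_max hj (le_max_right _ _) (hy _ _)
    · intro i
      have h1 := Ideal.pow_le_pow_right (le_max_left N 1) (hy (max N 1) (Equiv.swap 0 i₀ i))
      have h2 := neg_mem h1
      rwa [neg_sub] at h2
    · rw [Equiv.sum_comp (Equiv.swap 0 i₀) fun i => y (max N 1) i ^ 2]
      exact Ideal.pow_le_pow_right (le_max_left N 1) (pt_sum_mem hj (hy (max N 1)))
    · intro i
      beta_reduce
      rw [Equiv.swap_apply_left, hi₀]
      exact (hY _ (max N 1)).trans (pow_le_pow_of_le_one zero_le hμ1.le (le_max_left N 1))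

end Vale.Agent.P282.Full
end

section

/-!
P282, converse: the generator of `r K_X` takes regular values on vector fields.
-/

open scoped NNReal ENNReal Nat
open IsLocalRing

namespace Vale.Agent.P282.Full

/-- An associated prime of a principal ideal of a normal Noetherian domain has height one. -/
theorem formInt_height_one {R : Type*} [CommRing R] [IsDomain R]
    [IsNoetherianRing R] [IsIntegrallyClosed R] {h : R} (hh : h ≠ 0) (P : Ideal R)
    [P.IsPrime] {y : R} (hy : ¬ h ∣ y) (hP : ∀ r, r ∈ P ↔ h ∣ r * y) : P.height = 1 := by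
  have hhP : h ∈ P := (hP h).mpr (dvd_mul_right _ _)
  -- there is p₀ ∈ P with p₀ y = h u, u ∉ P
  obtain ⟨p₀, hp₀, u, hu, hpu⟩ : ∃ p₀ ∈ P, ∃ u, p₀ * y = h * u ∧ u ∉ P := by
    by_contra hcon
    push Not at hcon
    let K := FractionRing R
    have hinj : Function.Injective (algebraMap R K) := IsFractionRing.injective R K
    have hhK : algebraMap R K h ≠ 0 := by
      rw [Ne, map_eq_zero_iff _ hinj]; exact hh
    let θ : K := algebraMap R K y / algebraMap R K h
    let N : Submodule R K := Submodule.map (Algebra.linearMap R K) P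
    have hint : IsIntegral R θ := by
      refine isIntegral_of_smul_mem_submodule (M := K) N ?_ ?_ θ ?_
      · intro hN
        apply hhK
        have : algebraMap R K h ∈ N := ⟨h, hhP, rfl⟩
        rw [hN] at this
        exact this
      · exact (IsNoetherian.noetherian P).map _
      · rintro _ ⟨p, hp, rfl⟩
        obtain ⟨v, hv⟩ := (hP p).mp hp
        refine ⟨v, hcon p hp v hv, ?_⟩
        simp only [Algebra.linearMap_apply, smul_eq_mul, θ]
        rw [div_mul_eq_mul_div, eq_div_iff hhK, ← map_mul, ← map_mul]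
        congr 1
        rw [mul_comm y p, hv, mul_comm]
    obtain ⟨z, hz⟩ := IsIntegrallyClosed.isIntegral_iff.mp hint
    apply hy
    refine ⟨z, hinj ?_⟩
    rw [map_mul, hz]
    exact (mul_div_cancel₀ _ hhK).symm
  have hmin : P ∈ (Ideal.span {p₀}).minimalPrimes := by
    refine ⟨⟨inferInstance, (Ideal.span_singleton_le_iff_mem _).mpr hp₀⟩, ?_⟩
    rintro P' ⟨hP'prime, hP'⟩ hle p hp
    obtain ⟨v, hv⟩ := (hP p).mp hp
    have h1 : p * u = p₀ * v := by
      have h2 : h * (p * u) = h * (p₀ * v) := by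
        calc h * (p * u) = p * (h * u) := by ring
          _ = p * (p₀ * y) := by rw [hu]
          _ = p₀ * (p * y) := by ring
          _ = p₀ * (h * v) := by rw [hv]
          _ = h * (p₀ * v) := by ring
      exact mul_left_cancel₀ hh h2
    have h3 : p * u ∈ P' := by
      rw [h1]
      exact Ideal.mul_mem_right _ _ ((Ideal.span_singleton_le_iff_mem _).mp hP')
    rcases hP'prime.mem_or_mem h3 with h4 | h4
    · exact h4
    · exact absurd (hle h4) hpu
  have hle := Ideal.height_le_one_of_isPrincipal_of_mem_minimalPrimes _ _ hmin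
  refine le_antisymm hle ?_
  rw [Order.one_le_iff_ne_zero]
  intro h0
  rw [Ideal.height_eq_zero_iff_eq_bot] at h0
  rw [h0] at hhP
  exact hh hhP

/-- Divisibility in a normal Noetherian domain is tested at the primes of height one. -/
theorem formInt_dvd {R : Type*} [CommRing R] [IsDomain R] [IsNoetherianRing R]
    [IsIntegrallyClosed R] {h f : R} (hh : h ≠ 0)
    (H : ∀ (Q : Ideal R) [Q.IsPrime], Q.height = 1 → ∃ s, s ∉ Q ∧ h ∣ s * f) : h ∣ f := by
  by_contra hcon
  have hx : Ideal.Quotient.mk (Ideal.span {h}) f ≠ 0 := by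
    rw [Ne, Ideal.Quotient.eq_zero_iff_dvd]
    exact hcon
  obtain ⟨P, hPass, hle⟩ := exists_le_isAssociatedPrime_of_isNoetherianRing R
    (Ideal.Quotient.mk (Ideal.span {h}) f) hx
  obtain ⟨hPp, y, hy⟩ := isAssociatedPrime_iff.mp hPass
  obtain ⟨y, rfl⟩ := Ideal.Quotient.mk_surjective y
  have hcol : ∀ (z r : R), r ∈ (⊥ : Submodule R (R ⧸ Ideal.span {h})).colon
      {Ideal.Quotient.mk (Ideal.span {h}) z} ↔ h ∣ r * z := by
    intro z r
    rw [Submodule.mem_colon_singleton, Submodule.mem_bot, Algebra.smul_def,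
      Ideal.Quotient.algebraMap_eq, ← map_mul, Ideal.Quotient.eq_zero_iff_dvd]
  have hP : ∀ r, r ∈ P ↔ h ∣ r * y := fun r ↦ by rw [hy, hcol]
  have hyn : ¬ h ∣ y := by
    intro hd
    apply hPp.ne_top
    rw [Ideal.eq_top_iff_one, hP, one_mul]
    exact hd
  have hht := formInt_height_one hh P hyn hP
  obtain ⟨s, hs, hsf⟩ := H P hht
  exact hs (hle ((hcol f s).mpr hsf))

/-- A determinant with one large column. -/
theorem formInt_det_col {ι K : Type} [Fintype ι] [DecidableEq ι] [Field K]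
    (v : Valuation K ℝ≥0) {E : ℝ≥0} (M : Matrix ι ι K) (j₀ : ι)
    (h₀ : ∀ i, v (M i j₀) ≤ E) (h₁ : ∀ i j, j ≠ j₀ → v (M i j) ≤ 1) : v M.det ≤ E := by
  rw [Matrix.det_apply']
  refine v.map_sum_le fun σ _ => ?_
  rw [map_mul, map_prod]
  have hs : v (((Equiv.Perm.sign σ : ℤˣ) : ℤ) : K) = 1 := by
    rcases Int.units_eq_one_or (Equiv.Perm.sign σ) with h | h <;> rw [h] <;> simp
  rw [hs, one_mul, ← Finset.mul_prod_erase Finset.univ _ (Finset.mem_univ j₀)]
  calc v (M (σ j₀) j₀) * ∏ j ∈ Finset.univ.erase j₀, v (M (σ j) j)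
      ≤ E * 1 := mul_le_mul' (h₀ _) (Finset.prod_le_one' fun j hj =>
        h₁ _ _ (Finset.ne_of_mem_erase hj))
    _ = E := mul_one E

/-- The wedge of logarithmic differentials has a pole of order one. -/
theorem formInt_wedge {n : ℕ} {K : Type} [Field K] (v : Valuation K ℝ≥0) {E : ℝ≥0} (hE : 1 ≤ E)
    {q : Fin n → K} (hq : ∀ i, v (q i) ≤ E) {k : Fin n → K} {c : Fin n → Fin n → K}
    (hk : ∀ j, v (k j) ≤ 1) (hc : ∀ i j, v (c i j) ≤ 1) :
    v (Matrix.det (Matrix.of fun i j => k j * q i + c i j)) ≤ E := by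
  have h1 : Matrix.det (Matrix.of fun i j => k j * q i + c i j) =
      Matrix.det (Matrix.fromBlocks (1 : Matrix Unit Unit K) (Matrix.of fun _ j => -k j)
        (Matrix.of fun i _ => q i) (Matrix.of c)) := by
    rw [Matrix.det_fromBlocks_one₁₁]
    congr 1
    ext i j
    simp [Matrix.mul_apply]
    ring
  rw [h1]
  refine formInt_det_col v _ (Sum.inl ()) ?_ ?_
  · rintro (i | i)
    · simpa using hE
    · simpa using hq i
  · rintro (i | i) (j | j) hj
    · exact absurd rfl hj
    · simpa using hk j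
    · exact absurd rfl hj
    · simpa using hc i j

variable {n r : ℕ} {R K : Type} [CommRing R] [IsDomain R] [IsLocalRing R] [Algebra ℂ R]
  [Field K] [Algebra ℂ K] [Algebra R K] [IsScalarTower ℂ R K] [IsFractionRing R K]

/-- Derivations extend to the fraction field. -/
theorem exists_ext_der (D : Derivation ℂ R R) : ∃ D' : Derivation ℂ K K,
    ∀ f : R, D' (algebraMap R K f) = algebraMap R K (D f) := by
  have _ : Algebra.FormallyEtale R K :=
    Algebra.FormallyEtale.of_isLocalization (Rₘ := K) (nonZeroDivisors R)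
  let g : (Ω[R⁄ℂ]) →ₗ[R] K := (Algebra.linearMap R K) ∘ₗ D.liftKaehlerDifferential
  let ℓ : TensorProduct R K (Ω[R⁄ℂ]) →ₗ[K] K := LinearMap.liftBaseChange K g
  let e := KaehlerDifferential.tensorKaehlerEquivOfFormallyEtale ℂ R K
  refine ⟨KaehlerDifferential.linearMapEquivDerivation ℂ K (M := K) (ℓ ∘ₗ e.symm.toLinearMap),
    fun a => ?_⟩
  have h1 : KaehlerDifferential.linearMapEquivDerivation ℂ K (M := K)
      (ℓ ∘ₗ e.symm.toLinearMap) (algebraMap R K a) =
      ℓ (e.symm (KaehlerDifferential.D ℂ K (algebraMap R K a))) := rfl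
  rw [h1, KaehlerDifferential.tensorKaehlerEquivOfFormallyEtale_symm_D_algebraMap,
    LinearMap.liftBaseChange_tmul, one_smul]
  change algebraMap R K (D.liftKaehlerDifferential (KaehlerDifferential.D ℂ R a)) = _
  rw [Derivation.liftKaehlerDifferential_comp_D]

omit [IsDomain R] [IsLocalRing R] [Algebra ℂ R] [IsScalarTower ℂ R K] [IsFractionRing R K] in
/-- The generator of `r K_X` has no pole along the prime divisors on regular vector fields. -/
theorem formInt_val {ω : (Fin n → Derivation ℂ K K) → K} (hr : 0 < r) {P : Ideal R}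
    {v : Valuation K ℝ≥0} (hvn : IsNormalized v) (hvc : HasCenter R v P)
    (hloc : ∀ a : K, v a ≤ 1 → ∃ p q : R, q ∉ P ∧ a * algebraMap R K q = algebraMap R K p)
    (hval : ∀ a : K, a ≠ 0 → ∃ k : ℤ, (v a : ℝ) = Real.exp k)
    (hlub : IsLogDiscrepancy n r ω v 1) {D : Fin n → Derivation ℂ K K}
    (hD : ∀ (i : Fin n) (f : R), ∃ a : R, algebraMap R K a = D i (algebraMap R K f)) :
    v (ω D) ≤ 1 := by
  by_contra hcon
  rw [not_le] at hcon
  have hω0 : ω D ≠ 0 := by
    intro h0
    rw [h0, map_zero] at hcon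
    exact absurd hcon (not_lt.2 zero_le_one)
  obtain ⟨m, hm⟩ := hval _ hω0
  have hm1 : (1 : ℝ) ≤ m := by
    have h1 : (1 : ℝ) < Real.exp m := by rw [← hm]; exact_mod_cast hcon
    have h2 : (0 : ℝ) < m := Real.one_lt_exp_iff.1 h1
    have h3 : (0 : ℤ) < m := by exact_mod_cast h2
    exact_mod_cast h3
  have hv1 : Real.exp 1 ≤ v (ω D) := by
    rw [hm]
    exact Real.exp_le_exp.2 hm1
  obtain ⟨q, hq, hlog⟩ := ixr_log hvn hvc hloc hval D hD
  let E : ℝ≥0 := ⟨Real.exp 1, (Real.exp_pos 1).le⟩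
  have hEr : (E : ℝ) = Real.exp 1 := rfl
  have hE : 1 ≤ E := by
    rw [← NNReal.coe_le_coe, hEr, NNReal.coe_one]
    exact Real.one_le_exp_iff.2 zero_le_one
  have hqE : ∀ i, v (q i) ≤ E := by
    intro i
    rw [← NNReal.coe_le_coe, hEr]
    exact hq i
  have hr' : (0 : ℝ) < r := by exact_mod_cast hr
  have hub : (1 - 1 / (r : ℝ)) ∈ upperBounds {t : ℝ | ∃ (b : Fin n → K) (h : K), (∀ i, b i ≠ 0) ∧
      (∀ D : Fin n → Derivation ℂ K K,
        (∏ i, b i) ^ r * ω D = h * Matrix.det (Matrix.of fun i j => D i (b j)) ^ r) ∧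
      t = -Real.log (v h) / r} := by
    rintro t ⟨b, h', hb, hDb, rfl⟩
    choose k c hk hc hkc using fun j => hlog (b j) (hb j)
    have h1 := hDb D
    have h2 : Matrix.det (Matrix.of fun i j => D i (b j)) =
        (∏ i, b i) * Matrix.det (Matrix.of fun i j => k j * q i + c j i) := by
      rw [← Matrix.det_mul_row]
      congr 1
      ext i j
      rw [Matrix.of_apply, Matrix.of_apply, Matrix.of_apply, hkc]
    have hB : (∏ i, b i) ≠ 0 := Finset.prod_ne_zero_iff.2 fun i _ => hb i
    rw [h2, mul_pow] at h1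
    have h3 : ω D = h' * Matrix.det (Matrix.of fun i j => k j * q i + c j i) ^ r := by
      apply mul_left_cancel₀ (pow_ne_zero r hB)
      rw [h1]
      ring
    have h4 := formInt_wedge v hE hqE (k := k) (c := fun i j => c j i) hk (fun i j => hc j i)
    have h5 : (v (ω D) : ℝ) ≤ v h' * Real.exp r := by
      rw [h3, map_mul, map_pow, NNReal.coe_mul, NNReal.coe_pow]
      refine mul_le_mul_of_nonneg_left ?_ (NNReal.coe_nonneg _)
      have h6 : (v (Matrix.det (Matrix.of fun i j => k j * q i + c j i)) : ℝ) ≤ Real.exp 1 := by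
        rw [← hEr]
        exact_mod_cast h4
      calc (v (Matrix.det (Matrix.of fun i j => k j * q i + c j i)) : ℝ) ^ r
          ≤ Real.exp 1 ^ r := pow_le_pow_left₀ (NNReal.coe_nonneg _) h6 r
        _ = Real.exp r := by rw [← Real.exp_nat_mul, mul_one]
    have h6 : Real.exp (1 - r) ≤ v h' := by
      rw [Real.exp_sub, div_le_iff₀ (Real.exp_pos _)]
      exact hv1.trans h5
    have h7 : 1 - (r : ℝ) ≤ Real.log (v h') := by
      rw [Real.le_log_iff_exp_le ((Real.exp_pos _).trans_le h6)]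
      exact h6
    rw [div_le_iff₀ hr', sub_mul, one_mul, one_div, inv_mul_cancel₀ hr'.ne']
    linarith
  have h8 := hlub.2 hub
  have h9 : (0 : ℝ) < 1 / r := by positivity
  linarith

/-- The generator of `r K_X` takes regular values on vector fields. -/
theorem form_mem (hn : 1 ≤ n) {ω : (Fin n → Derivation ℂ K K) → K} (h : IsKltGerm R n r ω)
    {D : Fin n → Derivation ℂ K K}
    (hD : ∀ (i : Fin n) (f : R), ∃ a : R, algebraMap R K a = D i (algebraMap R K f)) :
    ∃ a : R, algebraMap R K a = ω D := by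
  have hess := h.essFiniteType
  have hnoeth : IsNoetherianRing R := Algebra.EssFiniteType.isNoetherianRing ℂ R
  have hnorm := h.normal
  obtain ⟨p, q, hq, hpq⟩ := IsFractionRing.div_surjective (A := R) (ω D)
  have hq0 : q ≠ 0 := nonZeroDivisors.ne_zero hq
  have hq0' : algebraMap R K q ≠ 0 := by
    rwa [Ne, IsFractionRing.to_map_eq_zero_iff]
  have hdvd : q ∣ p := by
    refine formInt_dvd hq0 fun P hPp hP1 => ?_
    obtain ⟨v, hvn, hvc, hloc, hval⟩ := ixr_val (K := K) P hP1
    have hle := formInt_val h.index_pos hvn hvc hloc hval (h.canonical v P hvc hP1 hvn) hD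
    obtain ⟨p', q', hq', hpq'⟩ := hloc _ hle
    refine ⟨q', hq', p', ?_⟩
    apply IsFractionRing.injective R K
    rw [map_mul, map_mul, ← hpq', ← hpq]
    field_simp
  obtain ⟨a, rfl⟩ := hdvd
  refine ⟨a, ?_⟩
  rw [← hpq, map_mul, mul_comm, mul_div_assoc, div_self hq0', mul_one]

end Vale.Agent.P282.Full
end

section

/-!
P282-WR-2b: the determinant of an affine substitution with multipliers.
-/

open scoped NNReal Nat
open MvPolynomial

namespace Vale.Agent.P282.WR

variable {n : ℕ} {F : Type} [Field F]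

/-- The substitution. -/
noncomputable def smW (A : Matrix (Fin n) (Fin n) F) (τ : Fin n → F) (i : Fin n) :
    MvPolynomial (Fin n) F :=
  ∑ j, C (A i j) * X j + C (τ i)

/-- The inverse substitution. -/
noncomputable def smV (A : Matrix (Fin n) (Fin n) F) (τ : Fin n → F) (j : Fin n) :
    MvPolynomial (Fin n) F :=
  ∑ i, C (A⁻¹ j i) * (X i - C (τ i))

theorem sm_WV (A : Matrix (Fin n) (Fin n) F) (hA : A.det ≠ 0) (τ : Fin n → F)
    (p : MvPolynomial (Fin n) F) : aeval (smW A τ) (aeval (smV A τ) p) = p := by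
  have h : (aeval (smW A τ)).comp (aeval (smV A τ)) =
      AlgHom.id F (MvPolynomial (Fin n) F) := by
    refine MvPolynomial.algHom_ext fun j => ?_
    have hu : IsUnit A.det := isUnit_iff_ne_zero.2 hA
    have h1 : ∀ k, ∑ i, A⁻¹ j i * A i k = if j = k then 1 else 0 := by
      intro k
      have h2 : (A⁻¹ * A) j k = (1 : Matrix (Fin n) (Fin n) F) j k := by
        rw [Matrix.nonsing_inv_mul A hu]
      rw [Matrix.mul_apply, Matrix.one_apply] at h2
      exact h2
    have h3 : ∀ i, smW A τ i - C (τ i) = ∑ k, C (A i k) * X k := fun i => by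
      simp [smW]
    simp only [AlgHom.comp_apply, aeval_X, smV, map_sum, map_mul, map_sub, algHom_C,
      AlgHom.id_apply, algebraMap_eq]
    simp only [h3, Finset.mul_sum]
    rw [Finset.sum_comm]
    have h4 : ∀ k, ∑ i, C (A⁻¹ j i) * (C (A i k) * X k) =
        (if j = k then X k else 0 : MvPolynomial (Fin n) F) := by
      intro k
      have h5 : ∑ i, C (A⁻¹ j i) * (C (A i k) * X k) =
          C (∑ i, A⁻¹ j i * A i k) * (X k : MvPolynomial (Fin n) F) := by
        rw [map_sum, Finset.sum_mul]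
        refine Finset.sum_congr rfl fun i _ => ?_
        rw [map_mul, mul_assoc]
      rw [h5, h1]
      split_ifs <;> simp
    simp [h4]
  exact congrArg (fun f => f p) h

theorem sm_degV (A : Matrix (Fin n) (Fin n) F) (τ : Fin n → F) (j : Fin n) :
    (smV A τ j).totalDegree ≤ 1 := by
  refine totalDegree_finsetSum_le fun i _ => ?_
  refine le_trans (totalDegree_mul _ _) ?_
  rw [totalDegree_C, zero_add]
  refine le_trans (totalDegree_sub _ _) ?_
  rw [totalDegree_X, totalDegree_C]
  simp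

theorem sm_deg (A : Matrix (Fin n) (Fin n) F) (τ : Fin n → F) (p : MvPolynomial (Fin n) F) :
    (aeval (smV A τ) p).totalDegree ≤ p.totalDegree := by
  rw [aeval_def, eval₂_eq']
  refine totalDegree_finsetSum_le fun m hm => ?_
  refine le_trans (totalDegree_mul _ _) ?_
  rw [algebraMap_eq, totalDegree_C, zero_add]
  refine le_trans (totalDegree_finsetProd _ _) ?_
  have h1 : ∑ i, m i ≤ p.totalDegree := by
    have h2 := le_totalDegree hm
    rwa [Finsupp.sum_fintype _ _ (fun _ => rfl)] at h2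
  refine le_trans (Finset.sum_le_sum fun i _ => ?_) h1
  refine le_trans (totalDegree_pow _ _) ?_
  calc m i * (smV A τ i).totalDegree ≤ m i * 1 := Nat.mul_le_mul_left _ (sm_degV A τ i)
    _ = m i := mul_one _

theorem sm_const (A : Matrix (Fin n) (Fin n) F) (hA : A.det ≠ 0) (τ : Fin n → F)
    (u : Fin n → F) (hu : ∀ i, ∑ j, A i j * u j + τ i = 0) (p : MvPolynomial (Fin n) F) :
    coeff 0 (aeval (smV A τ) p) = eval u p := by
  have h : (constantCoeff : MvPolynomial (Fin n) F →+* F).comp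
      (aeval (smV A τ) : MvPolynomial (Fin n) F →ₐ[F] MvPolynomial (Fin n) F).toRingHom =
      eval u := by
    refine MvPolynomial.ringHom_ext (fun r => ?_) fun j => ?_
    · simp
    · have hU : IsUnit A.det := isUnit_iff_ne_zero.2 hA
      have h0 : A.mulVec u = -τ := by
        funext i
        have := hu i
        simp only [Matrix.mulVec, dotProduct, Pi.neg_apply]
        exact eq_neg_of_add_eq_zero_left this
      have h1 : A⁻¹.mulVec (-τ) = u := by
        rw [← h0, Matrix.mulVec_mulVec, Matrix.nonsing_inv_mul A hU, Matrix.one_mulVec]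
      have h2 := congrFun h1 j
      simp only [Matrix.mulVec, dotProduct, Pi.neg_apply] at h2
      simp only [RingHom.comp_apply, AlgHom.toRingHom_eq_coe, RingHom.coe_coe, aeval_X, smV,
        map_sum, map_mul, map_sub, constantCoeff_C, constantCoeff_X, zero_sub, eval_X]
      exact h2
  have h1 := congrArg (fun f => f p) h
  simpa [constantCoeff_eq] using h1

/-- With multipliers `c γ` of degree `< d - |γ|`: the determinant of the family
`c γ * ∏ᵢ Wᵢ ^ γᵢ`, `Wᵢ = ∑ⱼ Aᵢⱼ Xⱼ + τᵢ`, in the basis of the monomials of degree `< d`; `u` is the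
common zero of the `Wᵢ`. -/
theorem det_affine_mul [CharZero F] (A : Matrix (Fin n) (Fin n) F) (hA : A.det ≠ 0)
    (τ : Fin n → F) (u : Fin n → F) (hu : ∀ i, ∑ j, A i j * u j + τ i = 0) (d : ℕ)
    (c : ↥(mon n d) → MvPolynomial (Fin n) F) (hc : ∀ γ, (c γ).totalDegree + γ.1.degree < d) :
    (Matrix.of fun γ δ : ↥(mon n d) =>
      coeff δ.1 (c γ * ∏ i, (∑ j, C (A i j) * X j + C (τ i)) ^ (γ.1 i))).det =
      A.det ^ (n + d - 1).choose (n + 1) * ∏ γ, eval u (c γ) := by
  classical
  set q : ↥(mon n d) → MvPolynomial (Fin n) F :=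
    fun γ => aeval (smV A τ) (c γ) * monomial γ.1 1 with hq
  have hqs : ∀ γ, (q γ).support ⊆ mon n d := by
    intro γ κ hκ
    rw [mem_mon]
    refine lt_of_le_of_lt ?_ (hc γ)
    have h1 := le_totalDegree hκ
    have h2 : κ.degree = κ.sum fun _ e => e := by
      rw [Finsupp.degree_eq_sum, Finsupp.sum_fintype _ _ (fun _ => rfl)]
    rw [h2]
    refine le_trans h1 (le_trans (totalDegree_mul _ _) ?_)
    refine add_le_add (sm_deg A τ _) ?_
    refine le_trans (totalDegree_monomial_le _ _) ?_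
    rw [Finsupp.degree_eq_sum, Finsupp.sum_fintype _ _ (fun _ => rfl)]
    exact le_rfl
  have hqW : ∀ γ : ↥(mon n d), c γ * ∏ i, (∑ j, C (A i j) * X j + C (τ i)) ^ (γ.1 i) =
      aeval (smW A τ) (q γ) := by
    intro γ
    simp only [hq]
    rw [map_mul, sm_WV A hA, aeval_monomial, map_one, one_mul, Finsupp.prod_fintype _ _
      (fun _ => pow_zero _)]
    rfl
  have hmul : (Matrix.of fun γ δ : ↥(mon n d) =>
      coeff δ.1 (c γ * ∏ i, (∑ j, C (A i j) * X j + C (τ i)) ^ (γ.1 i))) =
      (Matrix.of fun γ κ : ↥(mon n d) => coeff κ.1 (q γ)) *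
      (Matrix.of fun α β : ↥(mon n d) =>
        coeff β.1 (∏ i, (∑ j, C (A i j) * X j + C (τ i)) ^ (α.1 i))) := by
    ext γ δ
    rw [Matrix.mul_apply]
    simp only [Matrix.of_apply]
    rw [hqW, aeval_def, eval₂_eq', coeff_sum]
    have h1 : ∀ κ ∈ (q γ).support, coeff δ.1 (algebraMap F (MvPolynomial (Fin n) F)
        (coeff κ (q γ)) * ∏ i, smW A τ i ^ κ i) =
        coeff κ (q γ) * coeff δ.1 (∏ i, smW A τ i ^ κ i) := by
      intro κ _
      rw [algebraMap_eq, coeff_C_mul]
    rw [Finset.sum_congr rfl h1, Finset.sum_subset (hqs γ) (fun κ _ hκ => by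
      rw [notMem_support_iff.1 hκ, zero_mul]),
      ← Finset.sum_coe_sort (mon n d)]
    rfl
  rw [hmul, Matrix.det_mul, det_affine A hA τ d, mul_comm]
  congr 1
  let I : LinearOrder ↥(mon n d) := LinearOrder.lift' (fun γ => toLex γ.1)
    (fun a b h => Subtype.ext (toLex.injective h))
  refine (@Matrix.det_of_isUpperTriangular _ _
    (Matrix.of fun γ κ : ↥(mon n d) => coeff κ.1 (q γ)) _ _ _ I ?_).trans ?_
  · intro γ κ hlt
    simp only [Matrix.of_apply, hq]
    rw [coeff_mul_monomial', if_neg]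
    intro hle
    have h1 : toLex γ.1 ≤ toLex κ.1 := Finsupp.toLex_monotone hle
    have h2 : toLex κ.1 < toLex γ.1 := hlt
    exact absurd h2 (not_lt.2 h1)
  · refine Finset.prod_congr rfl fun γ _ => ?_
    simp only [Matrix.of_apply, hq]
    rw [coeff_mul_monomial', if_pos le_rfl, tsub_self, mul_one, sm_const A hA τ u hu]

end Vale.Agent.P282.WR
end
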