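import Mathlib
import Vale.Agent.P282.Bd3.B2
import Vale.Agent.P282.Bd3.B7
import Vale.Agent.P282.Bd3.B3
import Vale.Agent.P282.Bd3.B5
import Vale.Agent.P282.Bd3.B1
import Vale.Agent.P282.Bd3.B6

set_option linter.all false

namespace AFastb90660x10a
@[reducible] noncomputable def a0 {x1 : ℕ} {x2 : Type} [x3 : Field x2] [x4 : Algebra (FractionRing (Vale.Agent.P282.L2.Pol x1)) x2] : Module (FractionRing (Vale.Agent.P282.L2.Pol x1)) x2 := inferInstance
@[reducible] noncomputable def a1 {x1 : ℕ} : SMul (Vale.Agent.P282.L2.Pol x1) (OreLocalization (nonZeroDivisors (Vale.Agent.P282.L2.Pol x1)) (Vale.Agent.P282.L2.Pol x1)) := inferInstance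
@[reducible] noncomputable def a2 {x1 : ℕ} : DivisionRing (OreLocalization (nonZeroDivisors (Vale.Agent.P282.L2.Pol x1)) (Vale.Agent.P282.L2.Pol x1)) := inferInstance
theorem a3 {x1 : Type} {x2 : Type} [x3 : CommRing x1] [x4 : Field x2] : MulHomClass (x1 →+* x2) x1 x2 := inferInstance
@[reducible] noncomputable def a4 {x1 : ℕ} : CommSemiring (OreLocalization (nonZeroDivisors (Vale.Agent.P282.L2.Pol x1)) (Vale.Agent.P282.L2.Pol x1)) := inferInstance
@[reducible] noncomputable def a5 {x1 : ℕ} : OreLocalization.OreSet (nonZeroDivisors (Vale.Agent.P282.L2.Pol x1)) := inferInstance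
theorem a6 {x1 : Type} [x2 : Field x1] : MulHomClass (Valuation x1 NNReal) x1 NNReal := inferInstance
@[reducible] noncomputable def a7 {x1 : ℕ} : CommMonoid (Vale.Agent.P282.L2.Pol x1) := inferInstance
theorem a8 {x1 : Type} {x2 : Type} [x3 : CommRing x1] [x4 : Field x2] : NonUnitalRingHomClass (x1 →+* x2) x1 x2 := inferInstance
@[reducible] noncomputable def a9 {x1 : ℕ} : Monoid (Vale.Agent.P282.L2.Pol x1) := inferInstance
theorem a10 {x1 : ℕ} : NoZeroDivisors (MvPolynomial (Fin x1) ℂ) := inferInstance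
@[reducible] noncomputable def a11 {x1 : ℕ} {x2 : Type} [x3 : Field x2] [x4 : Algebra (Vale.Agent.P282.L2.Pol x1) x2] : Zero (Vale.Agent.P282.L2.IB x1 x2) := inferInstance
theorem a12 {x1 : ℕ} : IsScalarTower (Vale.Agent.P282.L2.Pol x1) (Vale.Agent.P282.L2.Pol x1) (Vale.Agent.P282.L2.Pol x1) := inferInstance
@[reducible] noncomputable def a13 {x1 : Type} {x2 : ℕ} [x3 : Field x1] [x4 : Algebra (Vale.Agent.P282.L2.Pol x2) x1] : Zero ↥(integralClosure (Vale.Agent.P282.L2.Pol x2) x1) := inferInstance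
@[reducible] noncomputable def a14 {x1 : Type} {x2 : ℕ} [x3 : Field x1] [x4 : Algebra (Vale.Agent.P282.L2.Pol x2) x1] : Pow ↥(integralClosure (Vale.Agent.P282.L2.Pol x2) x1) ℕ := inferInstance
@[reducible] noncomputable def a15 {x1 : ℕ} {x2 : Type} [x3 : Field x2] [x4 : Algebra (Vale.Agent.P282.L2.Pol x1) x2] : Pow (Vale.Agent.P282.L2.IB x1 x2) ℕ := inferInstance
@[reducible] noncomputable def a16 {x1 : ℕ} {x2 : Type} [x3 : Field x2] [x4 : Algebra (Vale.Agent.P282.L2.Pol x1) x2] : Monoid (Vale.Agent.P282.L2.IB x1 x2) := inferInstance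
theorem a17 {x1 : Type} {x2 : Type} [x3 : CommRing x1] [x4 : Field x2] : MonoidHomClass (x1 →+* x2) x1 x2 := inferInstance
theorem a18 : CharZero ℝ := inferInstance
@[reducible] noncomputable def a19 {x1 : ℕ} {x2 : Type} [x3 : Field x2] [x4 : Algebra (Vale.Agent.P282.L2.Pol x1) x2] : NPow (Vale.Agent.P282.L2.IB x1 x2) := inferInstance
theorem a20 {x1 : ℕ} {x2 : Type} [x3 : Field x2] [x4 : Algebra (Vale.Agent.P282.L2.Pol x1) x2] : MulHomClass (Vale.Agent.P282.L2.IB x1 x2 →+* ℂ) (Vale.Agent.P282.L2.IB x1 x2) ℂ := inferInstance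
@[reducible] def a21 {x1 : Type} [x2 : CommRing x1] : Pow (Submodule x1 x1) ℕ := inferInstance
@[reducible] noncomputable def a22 {x1 : ℕ} : Algebra (Vale.Agent.P282.L2.Pol x1) (OreLocalization (nonZeroDivisors (Vale.Agent.P282.L2.Pol x1)) (Vale.Agent.P282.L2.Pol x1)) := inferInstance
theorem a23 {x1 : ℕ} {x2 : Type} [x3 : Field x2] [x4 : Algebra (Vale.Agent.P282.L2.Pol x1) x2] : AddSubmonoidClass (Subalgebra (Vale.Agent.P282.L2.Pol x1) x2) x2 := inferInstance
@[reducible] def a24 {x1 : Type} [x2 : CommRing x1] {x3 : Ideal x1} [x4 : Algebra ℂ x1] : Module ℂ (x1 ⧸ x3) := inferInstance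
theorem a25 {x1 : ℕ} {x2 : Type} [x3 : Field x2] [x4 : Algebra (Vale.Agent.P282.L2.Pol x1) x2] : ZeroMemClass (Subalgebra (Vale.Agent.P282.L2.Pol x1) x2) x2 := inferInstance
theorem a26 {x1 : Type} {x2 : Type} [x3 : Field x1] [x4 : Field x2] [x5 : Algebra ℂ x1] [x6 : Algebra ℂ x2] : NonUnitalAlgHomClass (x1 ≃ₐ[ℂ] x2) ℂ x1 x2 := inferInstance
theorem a27 {x1 : Type} {x2 : Type} [x3 : Field x1] [x4 : Field x2] [x5 : Algebra ℂ x1] [x6 : Algebra ℂ x2] : MulHomClass (x1 ≃ₐ[ℂ] x2) x1 x2 := inferInstance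
theorem a28 {x1 : Type} {x2 : Type} [x3 : Field x1] [x4 : Field x2] [x5 : Algebra ℂ x1] [x6 : Algebra ℂ x2] : RingHomClass (x1 ≃ₐ[ℂ] x2) x1 x2 := inferInstance
@[reducible] noncomputable def a29 {x1 : ℕ} {x2 : Type} [x3 : Field x2] [x4 : Algebra (Vale.Agent.P282.L2.Pol x1) x2] : Pow (Submodule (Vale.Agent.P282.L2.IB x1 x2) (Vale.Agent.P282.L2.IB x1 x2)) ℕ := inferInstance
theorem a30 {x1 : Type} [x2 : CommRing x1] : MulHomClass (ℂ →+* x1) ℂ x1 := inferInstance
@[reducible] noncomputable def a31 {x1 : ℕ} {x2 : Type} [x3 : Field x2] [x4 : Algebra (Vale.Agent.P282.L2.Pol x1) x2] : NPow (Ideal (Vale.Agent.P282.L2.IB x1 x2)) := inferInstance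
theorem a32 {x1 : ℕ} {x2 : Type} [x3 : Field x2] [x4 : Algebra (Vale.Agent.P282.L2.Pol x1) x2] : NonUnitalRingHomClass (Vale.Agent.P282.L2.IB x1 x2 →+* ℂ) (Vale.Agent.P282.L2.IB x1 x2) ℂ := inferInstance
theorem a33 : AddLeftMono ℝ := inferInstance
@[reducible] def a34 {x1 : Type} [x2 : CommRing x1] : Mul (Submodule x1 x1) := inferInstance
@[reducible] noncomputable def a35 {x1 : ℕ} {x2 : Type} [x3 : Field x2] [x4 : Algebra (Vale.Agent.P282.L2.Pol x1) x2] : Monoid (Ideal (Vale.Agent.P282.L2.IB x1 x2)) := inferInstance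
theorem a36 {x1 : Type} [x2 : Field x1] : MonoidHomClass (Valuation x1 NNReal) x1 NNReal := inferInstance
@[reducible] noncomputable def a37 : MulAction ℚ≥0 ℝ := inferInstance
@[reducible] noncomputable def a38 : MulAction ℚ ℝ := inferInstance
@[reducible] def a39 {x1 : Type} [x2 : CommRing x1] {x3 : Ideal x1} [x4 : Algebra ℂ x1] : Module ℂ ((x1 ⧸ x3) × x1 ⧸ x3) := inferInstance
theorem a40 {x1 : Type} {x2 : Type} [x3 : CommRing x1] [x4 : Field x2] : MonoidWithZeroHomClass (x1 →+* x2) x1 x2 := inferInstance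
@[reducible] def a41 {x1 : ℕ} {x2 : Type} [x3 : CommRing x2] {x4 : Ideal x2} [x5 : Algebra ℂ x2] : Module ℂ (Fin x1 → x2 ⧸ x4) := inferInstance
theorem a42 {x1 : ℕ} {x2 : Type} [x3 : Field x2] [x4 : Algebra (Vale.Agent.P282.L2.Pol x1) x2] {x5 : Type} [x6 : CommRing x5] : MulHomClass (Vale.Agent.P282.L2.IB x1 x2 →+* x5) (Vale.Agent.P282.L2.IB x1 x2) x5 := inferInstance
@[reducible] noncomputable def a43 {x1 : ℕ} {x2 : Type} [x3 : Field x2] [x4 : Algebra (Vale.Agent.P282.L2.Pol x1) x2] : Semiring (Ideal (Vale.Agent.P282.L2.IB x1 x2)) := inferInstance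
theorem a44 {x1 : ℕ} {x2 : Type} [x3 : Field x2] [x4 : Algebra (Vale.Agent.P282.L2.Pol x1) x2] : SubmonoidClass (Subalgebra (Vale.Agent.P282.L2.Pol x1) x2) x2 := inferInstance
theorem a45 {x1 : Type} {x2 : Type} [x3 : CommRing x1] [x4 : CommRing x2] [x5 : Algebra ℂ x1] [x6 : Algebra ℂ x2] : MonoidHomClass (x1 ≃ₐ[ℂ] x2) x1 x2 := inferInstance
@[reducible] noncomputable def a46 {x1 : Type} {x2 : ℕ} [x3 : Field x1] [x4 : Algebra (Vale.Agent.P282.L2.Pol x2) x1] : Sub ↥(integralClosure (Vale.Agent.P282.L2.Pol x2) x1) := inferInstance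
@[reducible] noncomputable def a47 : DistribMulAction ℚ≥0 ℝ := inferInstance
theorem a48 {x1 : Type} {x2 : Type} [x3 : Field x1] [x4 : Field x2] [x5 : Algebra ℂ x1] [x6 : Algebra ℂ x2] : MonoidWithZeroHomClass (x1 ≃ₐ[ℂ] x2) x1 x2 := inferInstance
theorem a49 : ContinuousMul ℂ := inferInstance
@[reducible] noncomputable def a50 : DistribMulAction ℚ ℝ := inferInstance
@[reducible] noncomputable def a51 {x1 : ℕ} {x2 : Type} [x3 : Field x2] [x4 : Algebra (Vale.Agent.P282.L2.Pol x1) x2] : AddMonoid (Vale.Agent.P282.L2.IB x1 x2) := inferInstance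
theorem a52 {x1 : Type} {x2 : Type} [x3 : Field x1] [x4 : Field x2] [x5 : Algebra ℂ x1] [x6 : Algebra ℂ x2] : AlgHomClass (x1 ≃ₐ[ℂ] x2) ℂ x1 x2 := inferInstance
@[reducible] noncomputable def a53 {x1 : ℕ} {x2 : Type} [x3 : Field x2] [x4 : Algebra (Vale.Agent.P282.L2.Pol x1) x2] : Mul (Submodule (Vale.Agent.P282.L2.IB x1 x2) (Vale.Agent.P282.L2.IB x1 x2)) := inferInstance
theorem a54 : IsTopologicalSemiring ℂ := inferInstance
@[reducible] noncomputable def a55 {x1 : ℕ} {x2 : Type} [x3 : Field x2] [x4 : Algebra (Vale.Agent.P282.L2.Pol x1) x2] : Pow (Ideal (Vale.Agent.P282.L2.IB x1 x2)) ℕ := inferInstance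
@[reducible] noncomputable def a56 {x1 : ℕ} {x2 : Type} [x3 : Field x2] [x4 : Algebra (Vale.Agent.P282.L2.Pol x1) x2] : AddZeroClass (Vale.Agent.P282.L2.IB x1 x2) := inferInstance
@[reducible] noncomputable def a57 {x1 : ℕ} : Algebra (Vale.Agent.P282.L2.Pol x1) (Polynomial (Vale.Agent.P282.L2.Pol x1)) := inferInstance
theorem a58 {x1 : Type} [x2 : CommRing x1] : OneHomClass (ℂ →+* x1) ℂ x1 := inferInstance
theorem a59 {x1 : Type} {x2 : Type} [x3 : CommRing x1] [x4 : Field x2] : OneHomClass (x1 →+* x2) x1 x2 := inferInstance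
@[reducible] noncomputable def a60 {x1 : ℕ} {x2 : Type} [x3 : Field x2] [x4 : Algebra (Vale.Agent.P282.L2.Pol x1) x2] : Sub (Vale.Agent.P282.L2.IB x1 x2) := inferInstance
@[reducible] noncomputable def a61 : Module ℚ≥0 ℝ := inferInstance
theorem a62 {x1 : Type} [x2 : CommRing x1] : MulHomClass (x1 →+* x1) x1 x1 := inferInstance
@[reducible] def a63 : Monoid ℂ := inferInstance
theorem a64 : IsTopologicalRing ℂ := inferInstance
@[reducible] noncomputable def a65 {x1 : ℕ} {x2 : Type} [x3 : Field x2] [x4 : Algebra (Vale.Agent.P282.L2.Pol x1) x2] : AddZero (Vale.Agent.P282.L2.IB x1 x2) := inferInstance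
theorem a66 {x1 : Type} [x2 : CommRing x1] : MonoidHomClass (ℂ →+* x1) ℂ x1 := inferInstance
theorem a67 : CovariantClass ENNReal ENNReal (Function.swap fun x1 x2 => x1 * x2) fun x1 x2 => x1 ≤ x2 := inferInstance
@[reducible] noncomputable def a68 {x1 : ℕ} {x2 : Type} [x3 : Field x2] [x4 : Algebra (Vale.Agent.P282.L2.Pol x1) x2] : AddMonoidWithOne (Vale.Agent.P282.L2.IB x1 x2) := inferInstance
theorem a69 {x1 : ℕ} {x2 : Type} [x3 : Field x2] [x4 : Algebra (Vale.Agent.P282.L2.Pol x1) x2] : IsScalarTower (Vale.Agent.P282.L2.IB x1 x2) (Vale.Agent.P282.L2.IB x1 x2) (Vale.Agent.P282.L2.IB x1 x2) := inferInstance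
theorem a70 {x1 : Type} [x2 : CommRing x1] : NonUnitalRingHomClass (ℂ →+* x1) ℂ x1 := inferInstance
theorem a71 {x1 : Type} {x2 : Type} [x3 : Field x1] [x4 : Field x2] [x5 : Algebra x1 x2] : RingHomClass Gal(x2/x1) x2 x2 := inferInstance
theorem a72 : CovariantClass ℝ ℝ (Function.swap fun x1 x2 => x1 + x2) fun x1 x2 => x1 ≤ x2 := inferInstance
theorem a73 : PosMulStrictMono ℝ := inferInstance
theorem a74 : PosMulReflectLT ℝ := inferInstance
theorem a75 {x1 : Type} {x2 : Type} [x3 : CommRing x1] [x4 : Field x2] : ZeroHomClass (x1 →+* x2) x1 x2 := inferInstance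
end AFastb90660x10a
attribute [local instance] AFastb90660x10a.a0 AFastb90660x10a.a1 AFastb90660x10a.a2
  AFastb90660x10a.a3 AFastb90660x10a.a4 AFastb90660x10a.a5 AFastb90660x10a.a6 AFastb90660x10a.a7
  AFastb90660x10a.a8 AFastb90660x10a.a9 AFastb90660x10a.a10 AFastb90660x10a.a11
  AFastb90660x10a.a12 AFastb90660x10a.a13 AFastb90660x10a.a14 AFastb90660x10a.a15
  AFastb90660x10a.a16 AFastb90660x10a.a17 AFastb90660x10a.a18 AFastb90660x10a.a19
  AFastb90660x10a.a20 AFastb90660x10a.a21 AFastb90660x10a.a22 AFastb90660x10a.a23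
  AFastb90660x10a.a24 AFastb90660x10a.a25 AFastb90660x10a.a26 AFastb90660x10a.a27
  AFastb90660x10a.a28 AFastb90660x10a.a29 AFastb90660x10a.a30 AFastb90660x10a.a31
  AFastb90660x10a.a32 AFastb90660x10a.a33 AFastb90660x10a.a34 AFastb90660x10a.a35
  AFastb90660x10a.a36 AFastb90660x10a.a37 AFastb90660x10a.a38 AFastb90660x10a.a39
  AFastb90660x10a.a40 AFastb90660x10a.a41 AFastb90660x10a.a42 AFastb90660x10a.a43
  AFastb90660x10a.a44 AFastb90660x10a.a45 AFastb90660x10a.a46 AFastb90660x10a.a47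
  AFastb90660x10a.a48 AFastb90660x10a.a49 AFastb90660x10a.a50 AFastb90660x10a.a51
  AFastb90660x10a.a52 AFastb90660x10a.a53 AFastb90660x10a.a54 AFastb90660x10a.a55
  AFastb90660x10a.a56 AFastb90660x10a.a57 AFastb90660x10a.a58 AFastb90660x10a.a59
  AFastb90660x10a.a60 AFastb90660x10a.a61 AFastb90660x10a.a62 AFastb90660x10a.a63
  AFastb90660x10a.a64 AFastb90660x10a.a65 AFastb90660x10a.a66 AFastb90660x10a.a67
  AFastb90660x10a.a68 AFastb90660x10a.a69 AFastb90660x10a.a70 AFastb90660x10a.a71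
  AFastb90660x10a.a72 AFastb90660x10a.a73 AFastb90660x10a.a74 AFastb90660x10a.a75
namespace AFastb90660x10b
@[reducible] noncomputable def a0 {x1 : ℕ} {x2 : Type} [x3 : Field x2] [x4 : Algebra (Vale.Agent.P282.L2.Pol x1) x2] : Algebra (Vale.Agent.P282.L2.Pol x1) ↥(integralClosure (Vale.Agent.P282.L2.Pol x1) x2) := inferInstance
@[reducible] def a1 {x1 : ℕ} {x2 : Type} [x3 : Field x2] [x4 : Algebra (Vale.Agent.P282.L2.Pol x1) x2] : SMul (Vale.Agent.P282.L2.Pol x1) x2 := inferInstance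
@[reducible] def a2 {x1 : ℕ} {x2 : Type} [x3 : Field x2] [x4 : Algebra (FractionRing (Vale.Agent.P282.L2.Pol x1)) x2] : SMul (FractionRing (Vale.Agent.P282.L2.Pol x1)) x2 := inferInstance
theorem a3 {x1 : ℕ} {x2 : Type} [x3 : Field x2] [x4 : Algebra (Vale.Agent.P282.L2.Pol x1) x2] : AddMonoidHomClass (Vale.Agent.P282.L2.IB x1 x2 →+* ℂ) (Vale.Agent.P282.L2.IB x1 x2) ℂ := inferInstance
theorem a4 {x1 : Type} {x2 : Type} [x3 : CommRing x1] [x4 : Field x2] : AddHomClass (x1 →+* x2) x1 x2 := inferInstance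
theorem a5 {x1 : Type} {x2 : Type} [x3 : Field x1] [x4 : Field x2] [x5 : Algebra ℂ x1] [x6 : Algebra ℂ x2] : AddHomClass (x1 ≃ₐ[ℂ] x2) x1 x2 := inferInstance
theorem a6 {x1 : Type} {x2 : Type} [x3 : Field x1] [x4 : Field x2] [x5 : Algebra ℂ x1] [x6 : Algebra ℂ x2] : LinearMapClass (x1 ≃ₐ[ℂ] x2) ℂ x1 x2 := inferInstance
theorem a7 {x1 : Type} {x2 : Type} [x3 : CommRing x1] [x4 : Field x2] : AddMonoidHomClass (x1 →+* x2) x1 x2 := inferInstance
theorem a8 {x1 : ℕ} {x2 : Type} [x3 : Field x2] [x4 : Algebra (Vale.Agent.P282.L2.Pol x1) x2] : AddHomClass (Vale.Agent.P282.L2.IB x1 x2 →+* ℂ) (Vale.Agent.P282.L2.IB x1 x2) ℂ := inferInstance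
theorem a9 {x1 : ℕ} : AddHomClass (MvPolynomial (Fin x1) ℂ →+* ℂ) (MvPolynomial (Fin x1) ℂ) ℂ := inferInstance
theorem a10 {x1 : Type} [x2 : CommRing x1] : AddHomClass (x1 →+* x1) x1 x1 := inferInstance
theorem a11 : ContinuousSMul ℚ≥0 ℝ := inferInstance
theorem a12 {x1 : Type} [x2 : CommRing x1] : AddMonoidHomClass (x1 →+* x1) x1 x1 := inferInstance
@[reducible] noncomputable def a13 {x1 : ℕ} : Pow (Submodule (Vale.Agent.P282.CV.Q x1) (Vale.Agent.P282.CV.Q x1)) ℕ := inferInstance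
theorem a14 {x1 : ℕ} : AddMonoidHomClass (MvPolynomial (Fin x1) ℂ →+* ℂ) (MvPolynomial (Fin x1) ℂ) ℂ := inferInstance
theorem a15 {x1 : ℕ} {x2 : Type} [x3 : Field x2] : AddHomClass (Vale.Agent.P282.L2.Pol x1 →+* x2) (Vale.Agent.P282.L2.Pol x1) x2 := inferInstance
theorem a16 : IsScalarTower ℚ≥0 ℚ ℝ := inferInstance
@[reducible] noncomputable def a17 : Module ℚ ℝ := inferInstance
@[reducible] noncomputable def a18 {x1 : ℕ} {x2 : Type} [x3 : Field x2] [x4 : Algebra (Vale.Agent.P282.L2.Pol x1) x2] [x5 : Algebra ℂ x2] [x6 : IsScalarTower ℂ (Vale.Agent.P282.L2.Pol x1) x2] : Module ℂ (Vale.Agent.P282.L2.IB x1 x2) := inferInstance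
theorem a19 {x1 : ℕ} : IsScalarTower (Vale.Agent.P282.CV.Q x1) (Vale.Agent.P282.CV.Q x1) (Vale.Agent.P282.CV.Q x1) := inferInstance
theorem a20 {x1 : ℕ} {x2 : Type} [x3 : Field x2] : AddMonoidHomClass (Vale.Agent.P282.L2.Pol x1 →+* x2) (Vale.Agent.P282.L2.Pol x1) x2 := inferInstance
theorem a21 {x1 : Type} [x2 : CommRing x1] : AddMonoidHomClass (ℂ →+* x1) ℂ x1 := inferInstance
@[reducible] noncomputable def a22 {x1 : ℕ} {x2 : Type} [x3 : Field x2] [x4 : Algebra (Vale.Agent.P282.L2.Pol x1) x2] [x5 : Algebra ℂ x2] [x6 : IsScalarTower ℂ (Vale.Agent.P282.L2.Pol x1) x2] : SMul ℂ (Vale.Agent.P282.L2.IB x1 x2) := inferInstance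
@[reducible] noncomputable def a23 {x1 : Type} {x2 : ℕ} [x3 : Field x1] [x4 : Algebra (Vale.Agent.P282.L2.Pol x2) x1] [x5 : Algebra ℂ x1] [x6 : IsScalarTower ℂ (Vale.Agent.P282.L2.Pol x2) x1] : Algebra ℂ ↥(integralClosure (Vale.Agent.P282.L2.Pol x2) x1) := inferInstance
end AFastb90660x10b
attribute [local instance] AFastb90660x10b.a0 AFastb90660x10b.a1 AFastb90660x10b.a2
  AFastb90660x10b.a3 AFastb90660x10b.a4 AFastb90660x10b.a5 AFastb90660x10b.a6 AFastb90660x10b.a7
  AFastb90660x10b.a8 AFastb90660x10b.a9 AFastb90660x10b.a10 AFastb90660x10b.a11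
  AFastb90660x10b.a12 AFastb90660x10b.a13 AFastb90660x10b.a14 AFastb90660x10b.a15
  AFastb90660x10b.a16 AFastb90660x10b.a17 AFastb90660x10b.a18 AFastb90660x10b.a19
  AFastb90660x10b.a20 AFastb90660x10b.a21 AFastb90660x10b.a22 AFastb90660x10b.a23
section

open scoped NNReal ENNReal Nat WithZero
open IsLocalRing

namespace Vale.Agent.P282.Full

/-- Over a local ring with residue field `ℂ` the length is the dimension over `ℂ`. -/
theorem half_length_eq {R : Type} [CommRing R] [IsLocalRing R] [Algebra ℂ R]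
    (hres : Function.Surjective (algebraMap ℂ (ResidueField R)))
    (Q : Type) [AddCommGroup Q] [Module R Q] [Module ℂ Q] [IsScalarTower ℂ R Q] :
    Module.length ℂ Q = Module.length R Q := by
  have : IsLocalHom (algebraMap ℂ R) := inferInstance
  have h1 := IsLocalRing.length_restrictScalars ℂ R Q
  have h2 : Module.length (ResidueField ℂ) (ResidueField R) = 1 := by
    rw [← Module.length_eq_of_surjective (S := ℂ) (R := ResidueField ℂ) (M := ResidueField R)
      (residue_surjective (R := ℂ)), Module.length_eq_of_surjective (S := ℂ) (R := ResidueField R)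
      (M := ResidueField R) hres]
    exact Module.length_eq_one _ _
  rw [h1, h2, mul_one]

/-- The valuation ideals are given by the obvious condition. -/
theorem half_mem_valIdeal {R K : Type} [CommRing R] [Field K] [Algebra R K]
    {v : Valuation K ℝ≥0} (hv : ∀ f : R, v (algebraMap R K f) ≤ 1) {t : ℝ}
    {f : R} : f ∈ valIdeal R v t ↔ (v (algebraMap R K f) : ℝ) ≤ Real.exp (-t) := by
  constructor
  · intro hf
    unfold valIdeal at hf
    induction hf using Submodule.span_induction with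
    | mem x hx => exact hx
    | zero => simp [Real.exp_nonneg]
    | add x y _ _ hx hy =>
      rw [map_add]
      rcases le_total (v (algebraMap R K x)) (v (algebraMap R K y)) with h | h
      · have h1 := (v.map_add (algebraMap R K x) (algebraMap R K y)).trans (max_le h le_rfl)
        exact (NNReal.coe_le_coe.mpr h1).trans hy
      · have h1 := (v.map_add (algebraMap R K x) (algebraMap R K y)).trans (max_le le_rfl h)
        exact (NNReal.coe_le_coe.mpr h1).trans hx
    | smul a x _ hx =>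
      rw [smul_eq_mul, map_mul, map_mul, NNReal.coe_mul]
      have h1 : (v (algebraMap R K a) : ℝ) ≤ 1 := by exact_mod_cast hv a
      calc (v (algebraMap R K a) : ℝ) * (v (algebraMap R K x) : ℝ)
          ≤ 1 * (v (algebraMap R K x) : ℝ) :=
            mul_le_mul_of_nonneg_right h1 (NNReal.coe_nonneg _)
        _ = (v (algebraMap R K x) : ℝ) := one_mul _
        _ ≤ _ := hx
  · intro hf
    exact Ideal.subset_span hf

/-- Comparison of the lengths. -/
theorem half_length_le {R R' : Type} [CommRing R] [IsLocalRing R] [Algebra ℂ R]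
    [CommRing R'] [IsLocalRing R'] [Algebra ℂ R'] [Algebra R R'] [IsScalarTower ℂ R R']
    (hres : Function.Surjective (algebraMap ℂ (ResidueField R)))
    (hres' : Function.Surjective (algebraMap ℂ (ResidueField R')))
    (I : Ideal R) (J : Ideal R') (e : R')
    (h : ∀ a b : R, algebraMap R R' a + algebraMap R R' b * e ∈ J → a ∈ I ∧ b ∈ I) :
    Module.length R (R ⧸ I) + Module.length R (R ⧸ I) ≤ Module.length R' (R' ⧸ J) := by
  rw [← half_length_eq hres, ← half_length_eq hres', ← Module.length_prod]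
  let ι : R →ₗ[ℂ] R' := (IsScalarTower.toAlgHom ℂ R R').toLinearMap
  let π : R' →ₗ[ℂ] (R' ⧸ J) := (Ideal.Quotient.mkₐ ℂ J).toLinearMap
  let Φ₀ : (R × R) →ₗ[ℂ] (R' ⧸ J) := π ∘ₗ (ι.coprod ((LinearMap.mulRight ℂ e) ∘ₗ ι))
  let q : R →ₗ[ℂ] (R ⧸ I) := (Ideal.Quotient.mkₐ ℂ I).toLinearMap
  let Ψ₀ : (R × R) →ₗ[ℂ] ((R ⧸ I) × (R ⧸ I)) := q.prodMap q
  have hq : Function.Surjective q := Ideal.Quotient.mk_surjective
  have hΨ₀ : Function.Surjective Ψ₀ := by
    rintro ⟨x, y⟩
    obtain ⟨a, rfl⟩ := hq x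
    obtain ⟨b, rfl⟩ := hq y
    exact ⟨(a, b), rfl⟩
  have hker : LinearMap.ker Φ₀ ≤ LinearMap.ker Ψ₀ := by
    rintro ⟨a, b⟩ hab
    have h1 : algebraMap R R' a + algebraMap R R' b * e ∈ J := by
      have h2 : Ideal.Quotient.mk J (algebraMap R R' a + algebraMap R R' b * e) = 0 := hab
      exact Ideal.Quotient.eq_zero_iff_mem.mp h2
    obtain ⟨ha, hb⟩ := h a b h1
    have ha' : q a = 0 := Ideal.Quotient.eq_zero_iff_mem.mpr ha
    have hb' : q b = 0 := Ideal.Quotient.eq_zero_iff_mem.mpr hb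
    change (q a, q b) = 0
    rw [ha', hb']
    rfl
  have h3 : Module.length ℂ ((R ⧸ I) × (R ⧸ I)) ≤ Module.length ℂ ((R × R) ⧸ LinearMap.ker Φ₀) := by
    refine Module.length_le_of_surjective ((LinearMap.ker Φ₀).liftQ Ψ₀ hker) ?_
    intro x
    obtain ⟨y, rfl⟩ := hΨ₀ x
    exact ⟨Submodule.Quotient.mk y, rfl⟩
  refine h3.trans ?_
  rw [Φ₀.quotKerEquivRange.length_eq]
  exact Module.length_le_of_injective (LinearMap.range Φ₀).subtype (Submodule.subtype_injective _)

/-- The numerical estimate. -/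
theorem half_limsup {n c : ℕ} {L : ℕ → ℕ∞}
    (hL : ∀ t : ℕ, L t + L t ≤ (Nat.choose (n + (t + c) - 1) n : ℕ)) :
    Filter.limsup (fun t : ℕ => (n ! : ℝ≥0∞) * (L t : ℝ≥0∞) / (t : ℝ≥0∞) ^ n) Filter.atTop ≤
      1 / 2 := by
  have hlim : Filter.Tendsto (fun t : ℕ => ENNReal.ofReal ((1 + ((n + c : ℕ) : ℝ) / (t : ℝ)) ^ n / 2))
      Filter.atTop (nhds (1 / 2)) := by
    have h0 : (1 / 2 : ℝ≥0∞) = ENNReal.ofReal (1 / 2) := by
      rw [ENNReal.ofReal_div_of_pos (by norm_num)]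
      simp
    rw [h0]
    refine ENNReal.tendsto_ofReal ?_
    have h1 : Filter.Tendsto (fun t : ℕ => (1 + ((n + c : ℕ) : ℝ) / (t : ℝ)) ^ n / 2) Filter.atTop
        (nhds ((1 + 0) ^ n / 2)) :=
      ((tendsto_const_nhds.add
        (tendsto_const_div_atTop_nhds_zero_nat ((n + c : ℕ) : ℝ))).pow n).div_const 2
    simpa using h1
  rw [← hlim.limsup_eq]
  refine Filter.limsup_le_limsup ?_
  filter_upwards [Filter.eventually_ge_atTop 1] with t ht
  have ht0 : (0 : ℝ) < t := by exact_mod_cast ht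
  have hne : L t ≠ ⊤ := by
    intro h
    have := hL t
    rw [h] at this
    simp at this
  obtain ⟨l, hl⟩ := ENat.ne_top_iff_exists.mp hne
  have h1 := hL t
  rw [← hl] at h1
  have h2 : l + l ≤ Nat.choose (n + (t + c) - 1) n := by exact_mod_cast h1
  have h3 : n ! * (l + l) ≤ (n + (t + c) - 1) ^ n := by
    refine (Nat.mul_le_mul_left _ h2).trans ?_
    rw [← Nat.descFactorial_eq_factorial_mul_choose]
    exact Nat.descFactorial_le_pow _ _
  have h4 : n ! * (l + l) ≤ (t + (n + c)) ^ n :=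
    h3.trans (Nat.pow_le_pow_left (by omega) _)
  have h5 : ((n ! : ℝ) * l) ≤ ((t : ℝ) + ((n + c : ℕ) : ℝ)) ^ n / 2 := by
    have h6 : ((n ! * (l + l) : ℕ) : ℝ) ≤ (((t + (n + c)) ^ n : ℕ) : ℝ) := by exact_mod_cast h4
    push_cast at h6 ⊢
    linarith only [h6]
  rw [← hl]
  have h6 : (n ! : ℝ≥0∞) * (((l : ℕ∞) : ℝ≥0∞)) / (t : ℝ≥0∞) ^ n =
      ENNReal.ofReal ((n ! : ℝ) * l / (t : ℝ) ^ n) := by
    rw [ENNReal.ofReal_div_of_pos (by positivity), ENNReal.ofReal_pow ht0.le,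
      ENNReal.ofReal_natCast, ENNReal.ofReal_mul (by positivity), ENNReal.ofReal_natCast,
      ENNReal.ofReal_natCast]
    simp
  rw [h6]
  refine ENNReal.ofReal_le_ofReal ?_
  have h7 : (1 + ((n + c : ℕ) : ℝ) / (t : ℝ)) ^ n / 2 =
      ((t : ℝ) + ((n + c : ℕ) : ℝ)) ^ n / 2 / (t : ℝ) ^ n := by
    have h8 : (1 + ((n + c : ℕ) : ℝ) / (t : ℝ)) = ((t : ℝ) + ((n + c : ℕ) : ℝ)) / t := by
      field_simp
    rw [h8, div_pow]
    ring
  rw [h7]
  exact div_le_div_of_nonneg_right h5 (by positivity)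

variable {n r : ℕ} {R K R' K' : Type} [CommRing R] [IsDomain R] [IsLocalRing R] [Algebra ℂ R]
  [Field K] [Algebra ℂ K] [Algebra R K] [IsScalarTower ℂ R K] [IsFractionRing R K]
  [CommRing R'] [IsDomain R'] [IsLocalRing R'] [Algebra ℂ R']
  [Field K'] [Algebra ℂ K'] [Algebra R' K'] [IsScalarTower ℂ R' K'] [IsFractionRing R' K']
  [Algebra K K'] [IsScalarTower ℂ K K'] [Algebra R R'] [Algebra R K'] [IsScalarTower R R' K']
  [IsScalarTower R K K'] [IsScalarTower ℂ R R']

/-- If the decomposition group is not trivial then the volume of the restriction of an invariant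
valuation is at most one half. -/
theorem vol_le_half (hn : 1 ≤ n) (hess : Algebra.EssFiniteType ℂ R) (hnorm : IsIntegrallyClosed R)
    (hres : Function.Surjective (algebraMap ℂ (ResidueField R)))
    {g : K} {ε : K'} (hg : g ≠ 0) (hr : 0 < r) (hc : IsCover (R := R) (R' := R') n r g ε)
    {w : Valuation K' ℝ≥0}
    (hw : ∀ (f : R') (k : ℕ),
      (w (algebraMap R' K' f) : ℝ) ≤ Real.exp (-k) ↔ f ∈ maximalIdeal R' ^ k)
    (hlen : ∀ k : ℕ, Module.length R' (R' ⧸ maximalIdeal R' ^ k) ≤ Nat.choose (n + k - 1) n)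
    {σ : K' ≃ₐ[K] K'} (hσ : ∀ a : R', ∃ b : R', algebraMap R' K' b = σ (algebraMap R' K' a))
    (hσ1 : σ ≠ 1) : vol R n (w.comap (algebraMap K K')) ≤ 1 / 2 := by
  classical
  have hfin := hc.finite
  have hnorm' := hc.normal
  have hinj : Function.Injective (algebraMap R' K') := IsFractionRing.injective R' K'
  have hε0 : ε ≠ 0 := by
    intro h
    have h1 := hc.pow
    rw [h, zero_pow hr.ne'] at h1
    exact hg ((map_eq_zero _).mp h1.symm)
  -- a multiple of `ε` in `R'`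
  obtain ⟨p, q, hq, hpq⟩ := IsFractionRing.div_surjective (A := R) g
  have hq0 : q ≠ 0 := nonZeroDivisors.ne_zero hq
  have hqK : algebraMap R K q ≠ 0 := by
    rwa [Ne, IsFractionRing.to_map_eq_zero_iff]
  have hint : IsIntegral R (algebraMap R K' q * ε) := by
    refine IsIntegral.of_pow hr ?_
    have h2 : (algebraMap R K q) ^ r * g = algebraMap R K (q ^ (r - 1) * p) := by
      have h3 : (algebraMap R K q) ^ r = (algebraMap R K q) ^ (r - 1) * algebraMap R K q := by
        rw [← pow_succ, Nat.sub_add_cancel hr]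
      rw [h3, ← hpq, map_mul, map_pow]
      field_simp
    have h1 : (algebraMap R K' q * ε) ^ r = algebraMap R K' (q ^ (r - 1) * p) := by
      rw [mul_pow, hc.pow, IsScalarTower.algebraMap_apply R K K' q, ← map_pow, ← map_mul, h2,
        ← IsScalarTower.algebraMap_apply R K K']
    rw [h1]
    exact isIntegral_algebraMap
  have hint' : IsIntegral R' (algebraMap R K' q * ε) := hint.tower_top
  obtain ⟨e, he⟩ := IsIntegrallyClosed.isIntegral_iff.mp hint'
  have hqK' : algebraMap R K' q ≠ 0 := by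
    rw [IsScalarTower.algebraMap_apply R K K' q]
    rwa [Ne, map_eq_zero]
  have he0 : algebraMap R' K' e ≠ 0 := by
    rw [he]
    exact mul_ne_zero hqK' hε0
  -- the eigenvalue
  obtain ⟨z, hz1, hz⟩ : ∃ z : ℂ, z ≠ 1 ∧ σ ε = algebraMap ℂ K' z * ε := by
    have h1 : (σ ε / ε) ^ r = 1 := by
      rw [div_pow, ← map_pow, hc.pow, AlgEquiv.commutes]
      exact div_self ((map_ne_zero _).mpr hg)
    have hprim : IsPrimitiveRoot (Complex.exp (2 * Real.pi * Complex.I / r)) r :=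
      Complex.isPrimitiveRoot_exp r hr.ne'
    have hprim' := hprim.map_of_injective (f := algebraMap ℂ K') (algebraMap ℂ K').injective
    have : NeZero r := ⟨hr.ne'⟩
    obtain ⟨i, -, hi⟩ := hprim'.eq_pow_of_pow_eq_one h1
    refine ⟨Complex.exp (2 * Real.pi * Complex.I / r) ^ i, ?_, ?_⟩
    · intro h2
      apply hσ1
      rw [← map_pow, h2, map_one] at hi
      have h3 : σ ε = ε := by
        rw [eq_div_iff hε0, one_mul] at hi
        exact hi.symm
      have h4 : (σ : K' →ₐ[K] K') = AlgHom.id K K' := by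
        refine AlgHom.ext_of_adjoin_eq_top hc.adjoin ?_
        intro x hx
        rw [Set.mem_singleton_iff] at hx
        rw [hx]
        exact h3
      exact AlgEquiv.ext fun x => DFunLike.congr_fun h4 x
    · rw [map_pow, hi]
      field_simp
  -- the action on `R'`
  choose s0 hs0 using hσ
  let s : R' →+* R' :=
    { toFun := s0
      map_one' := hinj (by rw [hs0]; simp)
      map_zero' := hinj (by rw [hs0]; simp)
      map_mul' := fun a b => hinj (by rw [hs0, map_mul, map_mul, map_mul, hs0, hs0])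
      map_add' := fun a b => hinj (by rw [hs0, map_add, map_add, map_add, hs0, hs0]) }
  have hs : ∀ a, algebraMap R' K' (s a) = σ (algebraMap R' K' a) := hs0
  have hsunit : ∀ a : R', IsUnit (s a) → IsUnit a := by
    intro a ha
    obtain ⟨m, hm, hm1⟩ := (isOfFinOrder_of_finite σ).exists_pow_eq_one
    have h1 : ∀ k : ℕ, ∀ b : R', algebraMap R' K' (s^[k] b) = (σ ^ k) (algebraMap R' K' b) := by
      intro k
      induction k with
      | zero => intro b; simp
      | succ k ih =>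
        intro b
        rw [Function.iterate_succ_apply, ih, hs, pow_succ]
        rfl
    have h2 : s^[m] a = a := hinj (by rw [h1, hm1]; rfl)
    obtain ⟨m', rfl⟩ : ∃ m', m = m' + 1 := ⟨m - 1, by omega⟩
    rw [Function.iterate_succ_apply] at h2
    rw [← h2]
    have h3 : ∀ k : ℕ, ∀ b : R', IsUnit b → IsUnit (s^[k] b) := by
      intro k
      induction k with
      | zero => intro b hb; simpa using hb
      | succ k ih =>
        intro b hb
        rw [Function.iterate_succ_apply]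
        exact ih _ (hb.map s)
    exact h3 m' _ ha
  have hsmax : maximalIdeal R' ≤ (maximalIdeal R').comap s := by
    intro a ha
    rw [Ideal.mem_comap, mem_maximalIdeal, mem_nonunits_iff]
    rw [mem_maximalIdeal, mem_nonunits_iff] at ha
    exact fun h => ha (hsunit a h)
  have hspow : ∀ (k : ℕ) (a : R'), a ∈ maximalIdeal R' ^ k → s a ∈ maximalIdeal R' ^ k := by
    intro k a ha
    have h1 : maximalIdeal R' ^ k ≤ (maximalIdeal R' ^ k).comap s :=
      (Ideal.pow_right_mono hsmax k).trans (Ideal.le_comap_pow s k)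
    exact h1 ha
  have hse : s e = algebraMap ℂ R' z * e := by
    apply hinj
    rw [hs, he, map_mul, map_mul, he, hz, ← IsScalarTower.algebraMap_apply ℂ R' K',
      IsScalarTower.algebraMap_apply R K K' q, AlgEquiv.commutes]
    ring
  have hsR : ∀ a : R, s (algebraMap R R' a) = algebraMap R R' a := by
    intro a
    apply hinj
    rw [hs, ← IsScalarTower.algebraMap_apply R R' K', IsScalarTower.algebraMap_apply R K K' a,
      AlgEquiv.commutes]
  -- separation of the two components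
  have hsep : ∀ (k : ℕ) (a b : R), algebraMap R R' a + algebraMap R R' b * e ∈ maximalIdeal R' ^ k →
      algebraMap R R' a ∈ maximalIdeal R' ^ k ∧ algebraMap R R' b * e ∈ maximalIdeal R' ^ k := by
    intro k a b h
    have h1 := hspow k _ h
    rw [map_add, map_mul, hsR, hsR, hse] at h1
    have h2 := Ideal.sub_mem _ h h1
    have h3 : algebraMap R R' b * e = algebraMap ℂ R' (1 - z)⁻¹ *
        (algebraMap R R' a + algebraMap R R' b * e -
        (algebraMap R R' a + algebraMap R R' b * (algebraMap ℂ R' z * e))) := by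
      have h4 : algebraMap ℂ R' (1 - z)⁻¹ * algebraMap ℂ R' (1 - z) = 1 := by
        rw [← map_mul, inv_mul_cancel₀ (sub_ne_zero.mpr hz1.symm), map_one]
      rw [map_sub, map_one] at h4
      linear_combination (-(algebraMap R R' b * e)) * h4
    have h5 : algebraMap R R' b * e ∈ maximalIdeal R' ^ k := by
      rw [h3]
      exact Ideal.mul_mem_left _ _ h2
    refine ⟨?_, h5⟩
    have := Ideal.sub_mem _ h h5
    simpa using this
  -- the constant
  have hwe : 0 < (w (algebraMap R' K' e) : ℝ) := by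
    rw [NNReal.coe_pos, zero_lt_iff]
    exact (Valuation.ne_zero_iff w).mpr he0
  obtain ⟨c, hcc⟩ : ∃ c : ℕ, Real.exp (-c) ≤ w (algebraMap R' K' e) := by
    obtain ⟨c, hc'⟩ := exists_nat_ge (-Real.log (w (algebraMap R' K' e)))
    refine ⟨c, ?_⟩
    rw [← Real.le_log_iff_exp_le hwe]
    linarith
  have hv1 : ∀ f : R, (w.comap (algebraMap K K')) (algebraMap R K f) ≤ 1 := by
    intro f
    rw [Valuation.comap_apply, ← IsScalarTower.algebraMap_apply R K K' f,
      IsScalarTower.algebraMap_apply R R' K' f]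
    have h1 := (hw (algebraMap R R' f) 0).mpr (by simp)
    have h2 : (w (algebraMap R' K' (algebraMap R R' f)) : ℝ) ≤ 1 := by simpa using h1
    exact_mod_cast h2
  have hcomap : ∀ f : R, (w.comap (algebraMap K K')) (algebraMap R K f) =
      w (algebraMap R' K' (algebraMap R R' f)) := by
    intro f
    rw [Valuation.comap_apply, ← IsScalarTower.algebraMap_apply R K K' f,
      IsScalarTower.algebraMap_apply R R' K' f]
  unfold vol
  refine half_limsup (c := c) fun t => ?_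
  refine (half_length_le hres hc.residue (valIdeal R (w.comap (algebraMap K K')) (t : ℝ))
    (maximalIdeal R' ^ (t + c)) e ?_).trans (hlen (t + c))
  intro a b hab
  obtain ⟨h1, h2⟩ := hsep _ _ _ hab
  rw [half_mem_valIdeal hv1, half_mem_valIdeal hv1, hcomap, hcomap]
  rw [← hw] at h1 h2
  constructor
  · refine h1.trans (Real.exp_le_exp.mpr ?_)
    push_cast
    have : (0 : ℝ) ≤ c := Nat.cast_nonneg c
    linarith
  · rw [map_mul, map_mul, NNReal.coe_mul] at h2
    have h3 : (w (algebraMap R' K' (algebraMap R R' b)) : ℝ) * Real.exp (-c) ≤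
        Real.exp (-((t + c : ℕ) : ℝ)) :=
      (mul_le_mul_of_nonneg_left hcc (NNReal.coe_nonneg _)).trans h2
    have h4 : Real.exp (-((t + c : ℕ) : ℝ)) = Real.exp (-t) * Real.exp (-c) := by
      rw [← Real.exp_add]
      congr 1
      push_cast
      ring
    rw [h4] at h3
    exact le_of_mul_le_mul_right h3 (Real.exp_pos _)

end Vale.Agent.P282.Full
end

section

/-!
P282, equality case, arbitrary index: volumes of restrictions.
-/

open scoped NNReal ENNReal Nat WithZero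
open IsLocalRing

namespace Vale.Agent.P282.Full

/-- Comparison of the lengths: `d` independent components. -/
theorem ixvol_length_le {R R' : Type} [CommRing R] [IsLocalRing R] [Algebra ℂ R]
    [CommRing R'] [IsLocalRing R'] [Algebra ℂ R'] [Algebra R R'] [IsScalarTower ℂ R R']
    (hres : Function.Surjective (algebraMap ℂ (ResidueField R)))
    (hres' : Function.Surjective (algebraMap ℂ (ResidueField R')))
    (I : Ideal R) (J : Ideal R') (e : R') (d : ℕ)
    (h : ∀ b : Fin d → R, ∑ j, algebraMap R R' (b j) * e ^ (j : ℕ) ∈ J → ∀ j, b j ∈ I) :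
    (d : ℕ∞) * Module.length R (R ⧸ I) ≤ Module.length R' (R' ⧸ J) := by
  rw [← half_length_eq hres, ← half_length_eq hres']
  have hpi : Module.length ℂ (Fin d → (R ⧸ I)) = (d : ℕ∞) * Module.length ℂ (R ⧸ I) := by
    rw [Module.length_pi_of_fintype]
    simp
  rw [← hpi]
  let ι : R →ₗ[ℂ] R' := (IsScalarTower.toAlgHom ℂ R R').toLinearMap
  let π : R' →ₗ[ℂ] (R' ⧸ J) := (Ideal.Quotient.mkₐ ℂ J).toLinearMap
  let Φ₀ : (Fin d → R) →ₗ[ℂ] (R' ⧸ J) :=
    π ∘ₗ (∑ j : Fin d, (LinearMap.mulRight ℂ (e ^ (j : ℕ))) ∘ₗ ι ∘ₗ (LinearMap.proj j))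
  let q : R →ₗ[ℂ] (R ⧸ I) := (Ideal.Quotient.mkₐ ℂ I).toLinearMap
  let Ψ₀ : (Fin d → R) →ₗ[ℂ] (Fin d → (R ⧸ I)) := LinearMap.pi fun j => q ∘ₗ LinearMap.proj j
  have hq : Function.Surjective q := Ideal.Quotient.mk_surjective
  have hΨ₀ : Function.Surjective Ψ₀ := by
    intro x
    choose a ha using fun j => hq (x j)
    exact ⟨a, funext ha⟩
  have hker : LinearMap.ker Φ₀ ≤ LinearMap.ker Ψ₀ := by
    intro b hb
    have h1 : ∑ j, algebraMap R R' (b j) * e ^ (j : ℕ) ∈ J := by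
      have h2 : Ideal.Quotient.mk J (∑ j, algebraMap R R' (b j) * e ^ (j : ℕ)) = 0 := by
        have h3 : Φ₀ b = 0 := hb
        have h4 : Φ₀ b = Ideal.Quotient.mk J (∑ j, algebraMap R R' (b j) * e ^ (j : ℕ)) := by
          change Ideal.Quotient.mk J ((∑ j : Fin d,
            (LinearMap.mulRight ℂ (e ^ (j : ℕ))) ∘ₗ ι ∘ₗ (LinearMap.proj j)) b) = _
          rw [LinearMap.sum_apply]
          rfl
        rw [← h4]
        exact h3
      exact Ideal.Quotient.eq_zero_iff_mem.mp h2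
    have h5 := h b h1
    rw [LinearMap.mem_ker]
    funext j
    exact Ideal.Quotient.eq_zero_iff_mem.mpr (h5 j)
  have h3 : Module.length ℂ (Fin d → (R ⧸ I)) ≤
      Module.length ℂ ((Fin d → R) ⧸ LinearMap.ker Φ₀) := by
    refine Module.length_le_of_surjective ((LinearMap.ker Φ₀).liftQ Ψ₀ hker) ?_
    intro x
    obtain ⟨y, rfl⟩ := hΨ₀ x
    exact ⟨Submodule.Quotient.mk y, rfl⟩
  refine h3.trans ?_
  rw [Φ₀.quotKerEquivRange.length_eq]
  exact Module.length_le_of_injective (LinearMap.range Φ₀).subtype (Submodule.subtype_injective _)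

/-- The lower limit is not changed by a shift of the argument. -/
theorem ixvol_liminf {n c : ℕ} {d : ℕ} {L M : ℕ → ℕ∞}
    (hL : ∀ t : ℕ, (d : ℕ∞) * L t ≤ M (t + c)) :
    (d : ℝ≥0∞) * Filter.liminf
        (fun t : ℕ => (n ! : ℝ≥0∞) * (L t : ℝ≥0∞) / (t : ℝ≥0∞) ^ n) Filter.atTop ≤
      Filter.liminf (fun t : ℕ => (n ! : ℝ≥0∞) * (M t : ℝ≥0∞) / (t : ℝ≥0∞) ^ n)
        Filter.atTop := by
  rw [← Filter.liminf_nat_add (fun t : ℕ => (n ! : ℝ≥0∞) * (M t : ℝ≥0∞) / (t : ℝ≥0∞) ^ n) c]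
  refine ENNReal.mul_le_of_forall_lt fun d' hd' B hB => ?_
  have hlim : Filter.Tendsto
      (fun t : ℕ => ENNReal.ofReal ((d : ℝ) * ((t : ℝ) / (t + c)) ^ n)) Filter.atTop
      (nhds (d : ℝ≥0∞)) := by
    have h0 : ENNReal.ofReal ((d : ℝ) * 1 ^ n) = (d : ℝ≥0∞) := by simp
    rw [← h0]
    refine ENNReal.tendsto_ofReal ?_
    refine Filter.Tendsto.const_mul _ (Filter.Tendsto.pow ?_ n)
    have h1 : Filter.Tendsto (fun t : ℕ => 1 - (c : ℝ) / ((t : ℝ) + c)) Filter.atTop
        (nhds (1 - 0)) := by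
      refine tendsto_const_nhds.sub (Filter.Tendsto.div_atTop tendsto_const_nhds ?_)
      exact Filter.tendsto_atTop_add_const_right _ _ tendsto_natCast_atTop_atTop
    rw [sub_zero] at h1
    refine h1.congr' ?_
    filter_upwards [Filter.eventually_ge_atTop 1] with t ht
    have ht0 : (0 : ℝ) < t := by exact_mod_cast ht
    have htc : (t : ℝ) + c ≠ 0 := by positivity
    field_simp
    ring
  have h1 := hlim.eventually (lt_mem_nhds hd')
  have h2 := Filter.eventually_lt_of_lt_liminf hB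
  refine Filter.le_liminf_of_le ?_ ?_
  · isBoundedDefault
  filter_upwards [h1, h2, Filter.eventually_ge_atTop 1] with t h3 h4 ht
  have ht0 : (0 : ℝ) < t := by exact_mod_cast ht
  have hx0 : ((t : ℝ≥0∞)) ^ n ≠ 0 := by
    refine pow_ne_zero n ?_
    exact_mod_cast (show t ≠ 0 by omega)
  have hxt : ((t : ℝ≥0∞)) ^ n ≠ ⊤ := ENNReal.pow_ne_top (ENNReal.natCast_ne_top t)
  have e1 : ENNReal.ofReal ((d : ℝ) * ((t : ℝ) / (t + c)) ^ n) =
      (d : ℝ≥0∞) * ((t : ℝ≥0∞) ^ n / ((t + c : ℕ) : ℝ≥0∞) ^ n) := by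
    rw [ENNReal.ofReal_mul (by positivity), ENNReal.ofReal_natCast, div_pow,
      ENNReal.ofReal_div_of_pos (by positivity), ENNReal.ofReal_pow ht0.le,
      ENNReal.ofReal_natCast]
    congr 2
    rw [ENNReal.ofReal_pow (by positivity), ← Nat.cast_add, ENNReal.ofReal_natCast]
  calc d' * B ≤ ENNReal.ofReal ((d : ℝ) * ((t : ℝ) / (t + c)) ^ n) *
        ((n ! : ℝ≥0∞) * (L t : ℝ≥0∞) / (t : ℝ≥0∞) ^ n) := mul_le_mul' h3.le h4.le
    _ = (n ! : ℝ≥0∞) * ((d : ℝ≥0∞) * (L t : ℝ≥0∞)) / ((t + c : ℕ) : ℝ≥0∞) ^ n := by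
        rw [e1, div_eq_mul_inv, div_eq_mul_inv, div_eq_mul_inv]
        calc _ = ((t : ℝ≥0∞) ^ n * ((t : ℝ≥0∞) ^ n)⁻¹) * ((n ! : ℝ≥0∞) *
              ((d : ℝ≥0∞) * (L t : ℝ≥0∞)) * (((t + c : ℕ) : ℝ≥0∞) ^ n)⁻¹) := by ring
          _ = _ := by rw [ENNReal.mul_inv_cancel hx0 hxt, one_mul]
    _ ≤ _ := by
        gcongr
        have := hL t
        calc (d : ℝ≥0∞) * (L t : ℝ≥0∞) = (((d : ℕ∞) * L t : ℕ∞) : ℝ≥0∞) := by
              rw [ENat.toENNReal_mul]; simp
          _ ≤ _ := by exact_mod_cast this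

variable {n r : ℕ} {R K R' K' : Type} [CommRing R] [IsDomain R] [IsLocalRing R] [Algebra ℂ R]
  [Field K] [Algebra ℂ K] [Algebra R K] [IsScalarTower ℂ R K] [IsFractionRing R K]
  [CommRing R'] [IsDomain R'] [IsLocalRing R'] [Algebra ℂ R']
  [Field K'] [Algebra ℂ K'] [Algebra R' K'] [IsScalarTower ℂ R' K'] [IsFractionRing R' K']
  [Algebra K K'] [IsScalarTower ℂ K K'] [Algebra R R'] [Algebra R K'] [IsScalarTower R R' K']
  [IsScalarTower R K K'] [IsScalarTower ℂ R R']

/-- Restriction does not increase the length. -/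
theorem ixvol_len_comap_le {g : K} {ε : K'}
    (hc : IsCover (R := R) (R' := R') n r g ε) {v : Valuation K' ℝ≥0}
    (hv : HasCenter R' v (maximalIdeal R')) (t : ℝ) :
    Module.length R (R ⧸ valIdeal R (v.comap (algebraMap K K')) t) ≤
      Module.length R' (R' ⧸ valIdeal R' v t) := by
  have hlh : IsLocalHom (algebraMap R R') := by
    refine ⟨fun a ha => ?_⟩
    by_contra h
    have h1 : a ∈ maximalIdeal R := (mem_maximalIdeal a).2 h
    have h2 := (hc.mem_iff a).2 h1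
    exact ((mem_maximalIdeal _).1 h2) ha
  have hlen1 : Module.length (ResidueField R) (ResidueField R') ≤ 1 := by
    have h1 : Function.Surjective (Algebra.linearMap (ResidueField R) (ResidueField R')) := by
      intro y
      obtain ⟨z, rfl⟩ := hc.residue y
      refine ⟨residue R (algebraMap ℂ R z), ?_⟩
      change algebraMap (ResidueField R) (ResidueField R') (residue R (algebraMap ℂ R z)) = _
      rw [IsLocalRing.ResidueField.algebraMap_residue, ← IsScalarTower.algebraMap_apply ℂ R R']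
      rfl
    refine (Module.length_le_of_surjective _ h1).trans ?_
    rw [Module.length_eq_one]
  have hcm : valIdeal R (v.comap (algebraMap K K')) t =
      (valIdeal R' v t).comap (algebraMap R R') := by
    ext f
    rw [Ideal.mem_comap, gz_mem_valIdeal _ (fun f => (hv f).1),
      gz_mem_valIdeal _ (fun f => ((HasCenter.comap hc hv) f).1), Valuation.comap_apply,
      ← IsScalarTower.algebraMap_apply R K K', ← IsScalarTower.algebraMap_apply R R' K']
  let psi : (R ⧸ valIdeal R (v.comap (algebraMap K K')) t) →ₗ[R] (R' ⧸ valIdeal R' v t) :=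
    Submodule.liftQ _ (((valIdeal R' v t).mkQ.restrictScalars R).comp (Algebra.linearMap R R'))
      (by
        intro f hf
        rw [hcm] at hf
        rw [LinearMap.mem_ker]
        change (valIdeal R' v t).mkQ (algebraMap R R' f) = 0
        rw [Submodule.mkQ_apply, Submodule.Quotient.mk_eq_zero]
        exact hf)
  have hpsi : Function.Injective psi := by
    rw [← LinearMap.ker_eq_bot, Submodule.ker_liftQ_eq_bot]
    intro f hf
    rw [LinearMap.mem_ker] at hf
    change (valIdeal R' v t).mkQ (algebraMap R R' f) = 0 at hf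
    rw [Submodule.mkQ_apply, Submodule.Quotient.mk_eq_zero] at hf
    rw [hcm]
    exact hf
  refine (Module.length_le_of_injective psi hpsi).trans ?_
  rw [IsLocalRing.length_restrictScalars R R' (R' ⧸ valIdeal R' v t)]
  calc _ ≤ Module.length R' (R' ⧸ valIdeal R' v t) * 1 := by gcongr
    _ = _ := mul_one _

/-- Restriction does not increase the volume. -/
theorem volI_comap_le [IsNoetherianRing R] [IsNoetherianRing R']
    (hres : Function.Surjective (algebraMap ℂ (ResidueField R))) {g : K} {ε : K'}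
    (hc : IsCover (R := R) (R' := R') n r g ε) {v : Valuation K' ℝ≥0}
    (hv : HasCenter R' v (maximalIdeal R')) :
    volI R n (v.comap (algebraMap K K')) ≤ volI R' n v := by
  unfold volI
  apply Filter.liminf_le_liminf
  · filter_upwards with t
    gcongr
    exact ixvol_len_comap_le hc hv t
  · isBoundedDefault
  · isBoundedDefault

/-- The action of an automorphism on a stable subring. -/
theorem ixvol_action {A F : Type} [CommRing A] [IsDomain A] [Field F] [Algebra A F]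
    [IsFractionRing A F] (σ : F →+* F)
    (hσ : ∀ a : A, ∃ b : A, algebraMap A F b = σ (algebraMap A F a)) :
    ∃ s : A →+* A, ∀ a, algebraMap A F (s a) = σ (algebraMap A F a) := by
  have hinj : Function.Injective (algebraMap A F) := IsFractionRing.injective A F
  choose s0 hs0 using hσ
  exact ⟨{ toFun := s0
           map_one' := hinj (by rw [hs0]; simp)
           map_zero' := hinj (by rw [hs0]; simp)
           map_mul' := fun a b => hinj (by rw [hs0, map_mul, map_mul, map_mul, hs0, hs0])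
           map_add' := fun a b => hinj (by rw [hs0, map_add, map_add, map_add, hs0, hs0]) },
    hs0⟩

/-- The norm of a nonzero element over the cyclic group generated by `σ`. -/
theorem ixvol_norm {K K' : Type} [Field K] [Field K'] [Algebra K K']
    (σ : K' ≃ₐ[K] K') {d : ℕ} (hσd' : σ ^ d = 1) {q : K'} (hq : q ≠ 0) :
    σ (∏ k ∈ Finset.range d, (σ ^ k) q) = ∏ k ∈ Finset.range d, (σ ^ k) q := by
  have h1 : σ (∏ k ∈ Finset.range d, (σ ^ k) q) = ∏ k ∈ Finset.range d, (σ ^ (k + 1)) q := by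
    rw [map_prod]
    refine Finset.prod_congr rfl fun k _ => ?_
    rw [pow_succ']
    rfl
  have h2 := Finset.prod_range_succ (fun k => (σ ^ k) q) d
  have h3 := Finset.prod_range_succ' (fun k => (σ ^ k) q) d
  have h4 : (σ ^ d) q = q := by rw [hσd']; rfl
  have h6 : (σ ^ 0) q = q := by rw [pow_zero]; rfl
  rw [h4] at h2
  rw [h6, h2] at h3
  rw [h1]
  exact (mul_right_cancel₀ hq h3).symm

/-- An automorphism of finite order has an eigenvector whose eigenvalue is
a given primitive root of unity. -/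
theorem ixvol_eigen_field {K K' : Type} [Field K] [Algebra ℂ K]
    [Field K'] [Algebra ℂ K'] [Algebra K K'] [IsScalarTower ℂ K K']
    (σ : K' ≃ₐ[K] K') {d : ℕ} (hd : 0 < d) (hσd : orderOf σ = d) {ζ : ℂ}
    (hζ : IsPrimitiveRoot ζ d) :
    ∃ y : K', y ≠ 0 ∧ σ y = algebraMap ℂ K' ζ * y := by
  have hσd' : σ ^ d = 1 := by rw [← hσd]; exact pow_orderOf_eq_one σ
  have hζ0 : ζ ≠ 0 := hζ.ne_zero hd.ne'
  have hσC : ∀ z : ℂ, σ (algebraMap ℂ K' z) = algebraMap ℂ K' z := by
    intro z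
    rw [IsScalarTower.algebraMap_apply ℂ K K', AlgEquiv.commutes]
  -- Dedekind
  have hli : LinearIndependent K' (fun k : Fin d => (fun x : K' => (σ ^ (k : ℕ)) x)) := by
    have h1 := linearIndependent_monoidHom K' K'
    have h2 : Function.Injective (fun k : Fin d =>
        (((σ ^ (k : ℕ) : K' ≃ₐ[K] K') : K' →+* K') : K' →* K')) := by
      intro k l hkl
      have h3 : σ ^ (k : ℕ) = σ ^ (l : ℕ) := by
        ext x
        exact DFunLike.congr_fun hkl x
      have h4 := pow_injOn_Iio_orderOf (x := σ) (by rw [hσd]; exact k.2) (by rw [hσd]; exact l.2) h3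
      exact Fin.ext h4
    have h3 := h1.comp _ h2
    exact h3
  obtain ⟨x, hx⟩ : ∃ x : K', ∑ k ∈ Finset.range d, algebraMap ℂ K' (ζ⁻¹ ^ k) * (σ ^ k) x ≠ 0 := by
    by_contra hcon
    push Not at hcon
    have h1 := Fintype.linearIndependent_iff.1 hli (fun k => algebraMap ℂ K' (ζ⁻¹ ^ (k : ℕ))) (by
      funext x
      rw [Finset.sum_apply]
      simp only [Pi.smul_apply, smul_eq_mul, Pi.zero_apply]
      rw [Fin.sum_univ_eq_sum_range (fun k => algebraMap ℂ K' (ζ⁻¹ ^ k) * (σ ^ k) x) d]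
      exact hcon x) ⟨0, hd⟩
    simp at h1
  refine ⟨_, hx, ?_⟩
  have h1 : σ (∑ k ∈ Finset.range d, algebraMap ℂ K' (ζ⁻¹ ^ k) * (σ ^ k) x) =
      algebraMap ℂ K' ζ *
      ∑ k ∈ Finset.range d, algebraMap ℂ K' (ζ⁻¹ ^ (k + 1)) * (σ ^ (k + 1)) x := by
    rw [map_sum, Finset.mul_sum]
    refine Finset.sum_congr rfl fun k _ => ?_
    rw [map_mul, hσC, pow_succ' σ k, pow_succ' ζ⁻¹ k, map_mul (algebraMap ℂ K'), ← mul_assoc,
      ← mul_assoc, ← map_mul (algebraMap ℂ K'), mul_inv_cancel₀ hζ0, map_one, one_mul]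
    rfl
  rw [h1]
  congr 1
  have h2 := Finset.sum_range_succ (fun k => algebraMap ℂ K' (ζ⁻¹ ^ k) * (σ ^ k) x) d
  have h3 := Finset.sum_range_succ' (fun k => algebraMap ℂ K' (ζ⁻¹ ^ k) * (σ ^ k) x) d
  rw [h2] at h3
  have h4 : algebraMap ℂ K' (ζ⁻¹ ^ d) * (σ ^ d) x = algebraMap ℂ K' (ζ⁻¹ ^ 0) * (σ ^ 0) x := by
    rw [hσd', inv_pow, hζ.pow_eq_one]
    simp
  rw [h4] at h3
  exact (add_right_cancel h3).symm

/-- An automorphism of finite order has an eigenvector in a stable subring whose eigenvalue is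
a given primitive root of unity. -/
theorem ixvol_eigen {K K' R' : Type} [Field K] [Algebra ℂ K] [CommRing R'] [IsDomain R']
    [Field K'] [Algebra ℂ K'] [Algebra K K'] [IsScalarTower ℂ K K'] [Algebra R' K']
    [IsFractionRing R' K']
    (σ : K' ≃ₐ[K] K') {d : ℕ} (hd : 0 < d) (hσd : orderOf σ = d) (s : R' →+* R')
    (hs : ∀ a : R', algebraMap R' K' (s a) = σ (algebraMap R' K' a)) {ζ : ℂ}
    (hζ : IsPrimitiveRoot ζ d) :
    ∃ e : R', e ≠ 0 ∧ σ (algebraMap R' K' e) = algebraMap ℂ K' ζ * algebraMap R' K' e := by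
  have hσd' : σ ^ d = 1 := by rw [← hσd]; exact pow_orderOf_eq_one σ
  obtain ⟨y, hx, hσy⟩ := ixvol_eigen_field σ hd hσd hζ
  obtain ⟨p, q, hq, hpq⟩ := IsFractionRing.div_surjective (A := R') y
  have hq0 : algebraMap R' K' q ≠ 0 := by
    rw [Ne, IsFractionRing.to_map_eq_zero_iff]
    exact nonZeroDivisors.ne_zero hq
  have hsk : ∀ (k : ℕ) (a : R'), algebraMap R' K' (s^[k] a) = (σ ^ k) (algebraMap R' K' a) := by
    intro k
    induction k with
    | zero => intro a; simp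
    | succ k ih =>
      intro a
      rw [Function.iterate_succ_apply, ih, hs, pow_succ]
      rfl
  have hN0 : ∏ k ∈ Finset.range d, (σ ^ k) (algebraMap R' K' q) ≠ 0 := by
    rw [Finset.prod_ne_zero_iff]
    intro k _
    exact (map_ne_zero _).2 hq0
  have hσN := ixvol_norm σ hσd' hq0
  have h1 : ∏ k ∈ Finset.range d, (σ ^ k) (algebraMap R' K' q) =
      (∏ k ∈ Finset.range (d - 1), (σ ^ (k + 1)) (algebraMap R' K' q)) *
      algebraMap R' K' q := by
    conv_lhs => rw [show d = (d - 1) + 1 by omega]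
    rw [Finset.prod_range_succ']
    rfl
  have h2 : ∏ k ∈ Finset.range (d - 1), algebraMap R' K' (s^[k + 1] q) =
      ∏ k ∈ Finset.range (d - 1), (σ ^ (k + 1)) (algebraMap R' K' q) :=
    Finset.prod_congr rfl fun k _ => hsk (k + 1) q
  generalize ∏ k ∈ Finset.range d, (σ ^ k) (algebraMap R' K' q) = N at hN0 hσN h1
  generalize ∏ k ∈ Finset.range (d - 1), (σ ^ (k + 1)) (algebraMap R' K' q) = P at h1 h2
  have hfac : algebraMap R' K' (p * ∏ k ∈ Finset.range (d - 1), s^[k + 1] q) = y * N := by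
    rw [map_mul, map_prod, h2, h1, ← hpq, mul_comm P, ← mul_assoc, div_mul_cancel₀ _ hq0]
  refine ⟨p * ∏ k ∈ Finset.range (d - 1), s^[k + 1] q, ?_, ?_⟩
  · intro h0
    rw [h0, map_zero] at hfac
    exact mul_ne_zero hx hN0 hfac.symm
  · rw [hfac, map_mul, hσy, hσN, mul_assoc]

/-- The volume of the restriction of an invariant valuation. -/
theorem volI_comap_of_inv [IsNoetherianRing R] [IsNoetherianRing R'] (hn : 1 ≤ n)
    (hres : Function.Surjective (algebraMap ℂ (ResidueField R)))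
    (hres' : Function.Surjective (algebraMap ℂ (ResidueField R'))) {g : K} {ε : K'}
    (hc : IsCover (R := R) (R' := R') n r g ε) {v : Valuation K' ℝ≥0}
    (hv : HasCenter R' v (maximalIdeal R')) {σ : K' ≃ₐ[K] K'}
    (hσ : ∀ a : R', ∃ b : R', algebraMap R' K' b = σ (algebraMap R' K' a))
    (hinv : ∀ a : K', v (σ a) = v a) :
    (orderOf σ : ℝ≥0∞) * volI R n (v.comap (algebraMap K K')) ≤ volI R' n v := by
  classical
  have hfin := hc.finite
  have hinj : Function.Injective (algebraMap R' K') := IsFractionRing.injective R' K'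
  set d : ℕ := orderOf σ with hd
  have hd0 : 0 < d := (isOfFinOrder_of_finite σ).orderOf_pos
  have hζ : IsPrimitiveRoot (Complex.exp (2 * Real.pi * Complex.I / d)) d :=
    Complex.isPrimitiveRoot_exp d hd0.ne'
  set ζ : ℂ := Complex.exp (2 * Real.pi * Complex.I / d) with hζdef
  have hζ0 : ζ ≠ 0 := hζ.ne_zero hd0.ne'
  obtain ⟨s, hs⟩ := ixvol_action (A := R') (σ : K' →+* K') hσ
  obtain ⟨e, he0, he⟩ := ixvol_eigen (R' := R') σ hd0 hd.symm s hs hζ
  have hv1 : ∀ f : R', v (algebraMap R' K' f) ≤ 1 := fun f => (hv f).1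
  have hw1 : ∀ f : R, (v.comap (algebraMap K K')) (algebraMap R K f) ≤ 1 :=
    fun f => ((HasCenter.comap hc hv) f).1
  have hcomap : ∀ f : R, (v.comap (algebraMap K K')) (algebraMap R K f) =
      v (algebraMap R' K' (algebraMap R R' f)) := by
    intro f
    rw [Valuation.comap_apply, ← IsScalarTower.algebraMap_apply R K K' f,
      IsScalarTower.algebraMap_apply R R' K' f]
  -- the action
  have hsJ : ∀ (t : ℝ) (a : R'), a ∈ valIdeal R' v t → s a ∈ valIdeal R' v t := by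
    intro t a ha
    rw [half_mem_valIdeal hv1] at ha ⊢
    have h1 : v (algebraMap R' K' (s a)) = v (algebraMap R' K' a) := by
      rw [hs]; exact hinv _
    rw [h1]; exact ha
  have hsJk : ∀ (t : ℝ) (k : ℕ) (a : R'), a ∈ valIdeal R' v t → s^[k] a ∈ valIdeal R' v t := by
    intro t k
    induction k with
    | zero => intro a ha; simpa using ha
    | succ k ih =>
      intro a ha
      rw [Function.iterate_succ_apply]
      exact ih _ (hsJ t a ha)
  have hse : s e = algebraMap ℂ R' ζ * e := by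
    apply hinj
    rw [hs, map_mul, ← IsScalarTower.algebraMap_apply ℂ R' K']
    exact he
  have hsR : ∀ a : R, s (algebraMap R R' a) = algebraMap R R' a := by
    intro a
    apply hinj
    rw [hs, ← IsScalarTower.algebraMap_apply R R' K', IsScalarTower.algebraMap_apply R K K' a]
    exact σ.commutes _
  have hsC : ∀ z : ℂ, s (algebraMap ℂ R' z) = algebraMap ℂ R' z := by
    intro z
    rw [IsScalarTower.algebraMap_apply ℂ R R']
    exact hsR _
  have hsk : ∀ (k : ℕ) (b : Fin d → R), s^[k] (∑ j, algebraMap R R' (b j) * e ^ (j : ℕ)) =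
      ∑ j, algebraMap R R' (b j) * (algebraMap ℂ R' (ζ ^ ((j : ℕ) * k)) * e ^ (j : ℕ)) := by
    intro k b
    induction k with
    | zero => simp
    | succ k ih =>
      rw [Function.iterate_succ_apply', ih, map_sum]
      refine Finset.sum_congr rfl fun j _ => ?_
      rw [map_mul, map_mul, hsR, hsC, map_pow s, hse, mul_pow, ← map_pow (algebraMap ℂ R'),
        ← mul_assoc (algebraMap ℂ R' _), ← map_mul (algebraMap ℂ R'), ← pow_add, Nat.mul_succ]
  have horth : ∀ i j : Fin d, i ≠ j →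
      ∑ k ∈ Finset.range d, ζ⁻¹ ^ ((i : ℕ) * k) * ζ ^ ((j : ℕ) * k) = 0 := by
    intro i j hij
    set ω : ℂ := ζ⁻¹ ^ (i : ℕ) * ζ ^ (j : ℕ) with hω
    have h1 : ∑ k ∈ Finset.range d, ζ⁻¹ ^ ((i : ℕ) * k) * ζ ^ ((j : ℕ) * k) =
        ∑ k ∈ Finset.range d, ω ^ k := by
      refine Finset.sum_congr rfl fun k _ => ?_
      rw [hω, mul_pow, ← pow_mul, ← pow_mul]
    have h2 : ω ≠ 1 := by
      intro h
      have h3 : ζ ^ (j : ℕ) = ζ ^ (i : ℕ) := by
        have h4 : ζ⁻¹ ^ (i : ℕ) * ζ ^ (i : ℕ) = 1 := by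
          rw [← mul_pow, inv_mul_cancel₀ hζ0, one_pow]
        have h5 : ζ⁻¹ ^ (i : ℕ) ≠ 0 := pow_ne_zero _ (inv_ne_zero hζ0)
        exact mul_left_cancel₀ h5 (h.trans h4.symm)
      exact hij (Fin.ext (hζ.pow_inj j.2 i.2 h3).symm)
    have h3 : ω ^ d = 1 := by
      rw [hω, mul_pow, ← pow_mul, ← pow_mul, mul_comm (i : ℕ) d, mul_comm (j : ℕ) d, pow_mul,
        pow_mul, inv_pow, hζ.pow_eq_one]
      simp
    have h4 := mul_geom_sum ω d
    rw [h3, sub_self] at h4
    rw [h1]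
    rcases mul_eq_zero.1 h4 with h5 | h5
    · exact absurd (sub_eq_zero.1 h5) h2
    · exact h5
  have hdiag : ∀ i : Fin d,
      ∑ k ∈ Finset.range d, ζ⁻¹ ^ ((i : ℕ) * k) * ζ ^ ((i : ℕ) * k) = d := by
    intro i
    have : ∀ k ∈ Finset.range d, ζ⁻¹ ^ ((i : ℕ) * k) * ζ ^ ((i : ℕ) * k) = 1 := by
      intro k _
      rw [← mul_pow, inv_mul_cancel₀ hζ0, one_pow]
    rw [Finset.sum_congr rfl this]
    simp
  have hsep : ∀ (t : ℝ) (b : Fin d → R),
      ∑ j, algebraMap R R' (b j) * e ^ (j : ℕ) ∈ valIdeal R' v t →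
      ∀ i : Fin d, algebraMap R R' (b i) * e ^ (i : ℕ) ∈ valIdeal R' v t := by
    intro t b hb i
    have h1 : ∑ k ∈ Finset.range d, algebraMap ℂ R' ((d : ℂ)⁻¹ * ζ⁻¹ ^ ((i : ℕ) * k)) *
        s^[k] (∑ j, algebraMap R R' (b j) * e ^ (j : ℕ)) ∈ valIdeal R' v t :=
      Ideal.sum_mem _ fun k _ => Ideal.mul_mem_left _ _ (hsJk t k _ hb)
    have h2 : ∑ k ∈ Finset.range d, algebraMap ℂ R' ((d : ℂ)⁻¹ * ζ⁻¹ ^ ((i : ℕ) * k)) *
        s^[k] (∑ j, algebraMap R R' (b j) * e ^ (j : ℕ)) =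
        ∑ j, algebraMap R R' (b j) * e ^ (j : ℕ) * algebraMap ℂ R' ((d : ℂ)⁻¹ *
          ∑ k ∈ Finset.range d, ζ⁻¹ ^ ((i : ℕ) * k) * ζ ^ ((j : ℕ) * k)) := by
      simp_rw [hsk, Finset.mul_sum]
      rw [Finset.sum_comm]
      refine Finset.sum_congr rfl fun j _ => ?_
      rw [map_sum, Finset.mul_sum]
      refine Finset.sum_congr rfl fun k _ => ?_
      rw [map_mul, map_mul, map_mul]
      ring
    rw [h2, Finset.sum_eq_single i] at h1
    · rw [hdiag, inv_mul_cancel₀ (by exact_mod_cast hd0.ne'), map_one, mul_one] at h1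
      exact h1
    · intro j _ hji
      rw [horth i j (Ne.symm hji), mul_zero, map_zero, mul_zero]
    · intro h
      exact absurd (Finset.mem_univ i) h
  -- the constant
  have hve : 0 < (v (algebraMap R' K' e) : ℝ) := by
    rw [NNReal.coe_pos, zero_lt_iff]
    refine (Valuation.ne_zero_iff v).mpr ?_
    rwa [Ne, IsFractionRing.to_map_eq_zero_iff]
  have hve1 : (v (algebraMap R' K' e) : ℝ) ≤ 1 := by exact_mod_cast hv1 e
  obtain ⟨c, hcc⟩ : ∃ c : ℕ, Real.exp (-c) ≤ (v (algebraMap R' K' e) : ℝ) ^ d := by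
    obtain ⟨c, hc'⟩ := exists_nat_ge (-Real.log ((v (algebraMap R' K' e) : ℝ) ^ d))
    refine ⟨c, ?_⟩
    rw [← Real.le_log_iff_exp_le (pow_pos hve d)]
    linarith
  unfold volI
  refine ixvol_liminf (c := c) (L := fun t : ℕ => Module.length R
    (R ⧸ valIdeal R (v.comap (algebraMap K K')) (t : ℝ)))
    (M := fun t : ℕ => Module.length R' (R' ⧸ valIdeal R' v (t : ℝ))) fun t => ?_
  refine ixvol_length_le hres hres' _ _ e d ?_
  intro b hb i
  have h1 := hsep _ b hb i
  rw [half_mem_valIdeal hw1, hcomap]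
  rw [half_mem_valIdeal hv1, map_mul, map_mul, map_pow, map_pow, NNReal.coe_mul, NNReal.coe_pow]
    at h1
  have h2 : Real.exp (-c) ≤ (v (algebraMap R' K' e) : ℝ) ^ (i : ℕ) :=
    hcc.trans (pow_le_pow_of_le_one hve.le hve1 i.2.le)
  have h3 : (v (algebraMap R' K' (algebraMap R R' (b i))) : ℝ) * Real.exp (-c) ≤
      Real.exp (-((t + c : ℕ) : ℝ)) :=
    (mul_le_mul_of_nonneg_left h2 (NNReal.coe_nonneg _)).trans h1
  have h4 : Real.exp (-((t + c : ℕ) : ℝ)) = Real.exp (-t) * Real.exp (-c) := by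
    rw [← Real.exp_add]
    congr 1
    push_cast
    ring
  rw [h4] at h3
  exact le_of_mul_le_mul_right h3 (Real.exp_pos _)

end Vale.Agent.P282.Full
end

section

/-!
P282, equality case, arbitrary index: parameters of a regular local ring of dimension two.
-/

open scoped NNReal ENNReal Nat WithZero
open IsLocalRing

namespace Vale.Agent.P282.Full

open Vale.Agent.P282.L2

theorem ixr_sup_pow {R : Type} [CommRing R] (I J : Ideal R) (k : ℕ) :
    (I ⊔ J) ^ k ≤ I ⊔ J ^ k := by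
  induction k with
  | zero => simp
  | succ k ih =>
    calc (I ⊔ J) ^ (k + 1) = (I ⊔ J) ^ k * (I ⊔ J) := pow_succ _ _
      _ ≤ (I ⊔ J ^ k) * (I ⊔ J) := Ideal.mul_mono_left ih
      _ = I * (I ⊔ J) ⊔ (J ^ k * I ⊔ J ^ (k + 1)) := by
        rw [Ideal.sup_mul, Ideal.mul_sup (J ^ k), ← pow_succ]
      _ ≤ I ⊔ J ^ (k + 1) := by
        have h1 : I * (I ⊔ J) ≤ I := Ideal.mul_le_left
        have h2 : J ^ k * I ≤ I := Ideal.mul_le_right
        exact sup_le (h1.trans le_sup_left) (sup_le (h2.trans le_sup_left) le_sup_right)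

section

variable {R : Type} [CommRing R]

theorem ixr_span (x : Fin 2 → R) :
    Ideal.span (Set.range x) = Ideal.span {x 1} ⊔ Ideal.span {x 0} := by
  rw [← Ideal.span_union]
  congr 1
  ext a
  simp only [Set.mem_range, Fin.exists_fin_two, Set.mem_union, Set.mem_singleton_iff]
  constructor
  · rintro (h | h)
    · exact Or.inr h.symm
    · exact Or.inl h.symm
  · rintro (h | h)
    · exact Or.inr h.symm
    · exact Or.inl h.symm

variable [IsLocalRing R]

/-- Elements outside `(y)` are powers of `x` times units, modulo `(y)`. -/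
theorem ixr_decomp [IsNoetherianRing R] {x : Fin 2 → R}
    (hx : Ideal.span (Set.range x) = maximalIdeal R) {f : R} (hf : f ∉ Ideal.span {x 1}) :
    ∃ (k : ℕ) (c a : R), IsUnit c ∧ f = x 1 * a + x 0 ^ k * c := by
  classical
  have h1 : ∃ k : ℕ, f ∉ Ideal.span {x 1} ⊔ maximalIdeal R ^ k := by
    by_contra hcon
    push Not at hcon
    apply hf
    rw [← Ideal.Quotient.eq_zero_iff_mem]
    have h1 := Ideal.iInf_pow_smul_eq_bot_of_isLocalRing (R := R)
      (M := R ⧸ Ideal.span {x 1}) (maximalIdeal R) (Ideal.IsPrime.ne_top inferInstance)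
    have h2 : (Ideal.Quotient.mk (Ideal.span {x 1}) f : R ⧸ Ideal.span {x 1}) ∈
        (⨅ i : ℕ, maximalIdeal R ^ i • (⊤ : Submodule R (R ⧸ Ideal.span {x 1}))) := by
      rw [Submodule.mem_iInf]
      intro k
      obtain ⟨a, ha, b, hb, hab⟩ := Submodule.mem_sup.1 (hcon k)
      have h3 : (Ideal.Quotient.mk (Ideal.span {x 1}) f : R ⧸ Ideal.span {x 1}) =
          b • (1 : R ⧸ Ideal.span {x 1}) := by
        rw [← hab, map_add, Ideal.Quotient.eq_zero_iff_mem.2 ha, zero_add, Algebra.smul_def,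
          mul_one]
        rfl
      rw [h3]
      exact Submodule.smul_mem_smul hb trivial
    rw [h1] at h2
    exact (Submodule.mem_bot R).1 h2
  have h2 := Nat.find_spec h1
  have h3 : Nat.find h1 ≠ 0 := by
    intro h
    rw [h] at h2
    simp at h2
  obtain ⟨k, hk⟩ := Nat.exists_eq_succ_of_ne_zero h3
  have h4 : f ∈ Ideal.span {x 1} ⊔ maximalIdeal R ^ k := by
    have := Nat.find_min h1 (m := k) (by omega)
    rwa [not_not] at this
  rw [hk] at h2
  have h5 : f ∈ Ideal.span {x 1} ⊔ Ideal.span {x 0 ^ k} := by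
    have h6 : Ideal.span {x 1} ⊔ maximalIdeal R ^ k ≤
        Ideal.span {x 1} ⊔ Ideal.span {x 0 ^ k} := by
      refine sup_le le_sup_left ?_
      rw [← hx, ixr_span, ← Ideal.span_singleton_pow]
      exact ixr_sup_pow _ _ _
    exact h6 h4
  obtain ⟨a, ha, b, hb, hab⟩ := Submodule.mem_sup.1 h5
  obtain ⟨a', rfl⟩ := Ideal.mem_span_singleton'.1 ha
  obtain ⟨c, rfl⟩ := Ideal.mem_span_singleton'.1 hb
  refine ⟨k, c, a', ?_, by rw [← hab]; ring⟩
  by_contra hc
  apply h2
  rw [← hab]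
  refine Ideal.add_mem _ (Ideal.mem_sup_left ha) (Ideal.mem_sup_right ?_)
  rw [Nat.succ_eq_add_one, pow_succ']
  refine Ideal.mul_mem_mul ((mem_maximalIdeal _).2 hc) (Ideal.pow_mem_pow ?_ _)
  rw [← hx]
  exact Ideal.subset_span ⟨0, rfl⟩

variable [IsDomain R] [Algebra ℂ R]

/-- A parameter is a prime element. -/
theorem ixr_prime (hess : Algebra.EssFiniteType ℂ R)
    (hres : Function.Surjective (algebraMap ℂ (ResidueField R))) (hdim : Algebra.trdeg ℂ R = 2)
    {x : Fin 2 → R} (hx : Ideal.span (Set.range x) = maximalIdeal R) : Prime (x 1) := by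
  have hnoeth : IsNoetherianRing R := Algebra.EssFiniteType.isNoetherianRing ℂ R
  have hmem : ∀ i, x i ∈ maximalIdeal R := fun i => by
    rw [← hx]
    exact Ideal.subset_span ⟨i, rfl⟩
  have hpow : ∀ k : ℕ, x 0 ^ k ∉ Ideal.span {x 1} := by
    intro k hk
    have h1 := trdeg_le_of_pow_le hres hess (fun _ : Fin 1 => x 1) (fun _ => hmem 1) ⟨k, by
      rw [Set.range_const]
      rw [← hx, ixr_span]
      refine (ixr_sup_pow _ _ _).trans (sup_le le_rfl ?_)
      rw [Ideal.span_singleton_pow, Ideal.span_le, Set.singleton_subset_iff]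
      exact hk⟩
    rw [hdim] at h1
    have h2 : ((2 : ℕ) : Cardinal.{0}) ≤ ((1 : ℕ) : Cardinal.{0}) := by exact_mod_cast h1
    rw [Nat.cast_le] at h2
    omega
  refine ⟨?_, fun h => (mem_maximalIdeal _).1 (hmem 1) h, ?_⟩
  · intro h0
    -- `x 1 = 0`
    have h1 := trdeg_le_of_pow_le hres hess (fun _ : Fin 1 => x 0) (fun _ => hmem 0) ⟨1, by
      rw [Set.range_const, pow_one, ← hx, ixr_span, h0]
      simp⟩
    rw [hdim] at h1
    have h2 : ((2 : ℕ) : Cardinal.{0}) ≤ ((1 : ℕ) : Cardinal.{0}) := by exact_mod_cast h1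
    rw [Nat.cast_le] at h2
    omega
  · intro f g hfg
    rw [← Ideal.mem_span_singleton, ← Ideal.mem_span_singleton]
    by_contra hcon
    push Not at hcon
    obtain ⟨k, c, a, hc, hf⟩ := ixr_decomp hx hcon.1
    obtain ⟨l, c', a', hc', hg⟩ := ixr_decomp hx hcon.2
    apply hpow (k + l)
    have h1 : x 0 ^ (k + l) * (c * c') ∈ Ideal.span {x 1} := by
      have h2 : x 0 ^ (k + l) * (c * c') = f * g - x 1 * (a * g + x 0 ^ k * c * a') := by
        rw [hf, hg]
        ring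
      rw [h2]
      exact Ideal.sub_mem _ (Ideal.mem_span_singleton.2 hfg)
        (Ideal.mul_mem_right _ _ (Ideal.mem_span_singleton_self _))
    rwa [Ideal.mul_unit_mem_iff_mem _ (hc.mul hc')] at h1

end

theorem ixr_span_sub {R : Type} [CommRing R] [IsLocalRing R] (c : Set (maximalIdeal R)) :
    Submodule.span R c = ⊤ ↔ Ideal.span ((Subtype.val) '' c) = maximalIdeal R := by
  have h1 : Submodule.map (maximalIdeal R).subtype (Submodule.span R c) =
      Ideal.span ((Subtype.val) '' c) := by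
    rw [Submodule.map_span]
    rfl
  rw [← h1]
  constructor
  · intro h
    rw [h, Submodule.map_top, Submodule.range_subtype]
  · intro h
    apply Submodule.map_injective_of_injective (maximalIdeal R).injective_subtype
    rw [h, Submodule.map_top, Submodule.range_subtype]

/-- Eigen-parameters for an involution. -/
theorem ixr_eigen {R : Type} [CommRing R] [IsLocalRing R] [IsNoetherianRing R] [Algebra ℂ R]
    {x : Fin 2 → R} (hx : Ideal.span (Set.range x) = maximalIdeal R) (s : R →+* R)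
    (hs2 : ∀ a, s (s a) = a) (hsm : ∀ a ∈ maximalIdeal R, s a ∈ maximalIdeal R) :
    ∃ (y : Fin 2 → R) (e : Fin 2 → R), Ideal.span (Set.range y) = maximalIdeal R ∧
      (∀ i, e i = 1 ∨ e i = -1) ∧ ∀ i, s (y i) = e i * y i := by
  classical
  have hxm : ∀ i, x i ∈ maximalIdeal R := fun i => by
    rw [← hx]
    exact Ideal.subset_span ⟨i, rfl⟩
  let z : Fin 2 × Bool → maximalIdeal R := fun i =>
    if i.2 then ⟨x i.1 + s (x i.1), Ideal.add_mem _ (hxm _) (hsm _ (hxm _))⟩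
    else ⟨x i.1 - s (x i.1), Ideal.sub_mem _ (hxm _) (hsm _ (hxm _))⟩
  have hz1 : ∀ i, ((z (i, true) : maximalIdeal R) : R) = x i + s (x i) := fun i => rfl
  have hz2 : ∀ i, ((z (i, false) : maximalIdeal R) : R) = x i - s (x i) := fun i => rfl
  have hze : ∀ i, ∃ e : R, (e = 1 ∨ e = -1) ∧ s (z i : R) = e * (z i : R) := by
    rintro ⟨i, b⟩
    cases b with
    | true =>
      refine ⟨1, Or.inl rfl, ?_⟩
      rw [hz1, map_add, hs2]
      ring
    | false =>
      refine ⟨-1, Or.inr rfl, ?_⟩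
      rw [hz2, map_sub, hs2]
      ring
  have hspan : Submodule.span R (Set.range z) = ⊤ := by
    rw [ixr_span_sub]
    apply le_antisymm
    · rw [Ideal.span_le]
      rintro _ ⟨a, -, rfl⟩
      exact a.2
    · refine hx.ge.trans ?_
      rw [Ideal.span_le]
      rintro _ ⟨i, rfl⟩
      have h1 : x i = algebraMap ℂ R (1 / 2) * ((z (i, true) : R) + (z (i, false) : R)) := by
        have h2 : algebraMap ℂ R (1 / 2) * 2 = 1 := by
          have h3 : (2 : R) = algebraMap ℂ R 2 := by rw [map_ofNat]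
          rw [h3, ← map_mul]
          norm_num
        rw [hz1, hz2]
        linear_combination (-(x i)) * h2
      rw [SetLike.mem_coe, h1]
      refine Ideal.mul_mem_left _ _ (Ideal.add_mem _ ?_ ?_)
      · exact Ideal.subset_span ⟨_, ⟨_, rfl⟩, rfl⟩
      · exact Ideal.subset_span ⟨_, ⟨_, rfl⟩, rfl⟩
  have hspan' := CotangentSpace.span_image_eq_top_iff.2 hspan
  obtain ⟨b, hb1, hb2, hb3⟩ := exists_linearIndependent (ResidueField R)
    ((maximalIdeal R).toCotangent '' Set.range z)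
  rw [hspan'] at hb2
  -- the dimension
  have hfin : Module.finrank (ResidueField R) (CotangentSpace R) ≤ 2 := by
    have h1 : Submodule.span R (Set.range fun i => (⟨x i, hxm i⟩ : maximalIdeal R)) = ⊤ := by
      rw [ixr_span_sub, ← Set.range_comp]
      exact hx
    have h2 := CotangentSpace.span_image_eq_top_iff.2 h1
    rw [← Set.range_comp] at h2
    rw [← finrank_top, ← h2]
    exact (finrank_range_le_card _).trans (by simp)
  have hbfin : b.Finite := by
    have : (Set.range z).Finite := Set.finite_range z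
    exact (this.image _).subset hb1
  have hbcard : b.ncard ≤ 2 := by
    have := hbfin.fintype
    have h1 := hb3.fintype_card_le_finrank
    rw [← Nat.card_coe_set_eq, Nat.card_eq_fintype_card]
    exact h1.trans hfin
  obtain ⟨c, hc1, hc2⟩ := Set.SurjOn.exists_bijOn_subset (f := (maximalIdeal R).toCotangent)
    (s := Set.range z) (t := b) hb1
  have hcspan : Submodule.span R c = ⊤ := by
    rw [← CotangentSpace.span_image_eq_top_iff, hc2.image_eq]
    exact hb2
  have hccard : c.ncard ≤ 2 := by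
    rw [← hc2.injOn.ncard_image, hc2.image_eq]
    exact hbcard
  have hcfin : c.Finite := (Set.finite_range z).subset hc1
  obtain ⟨p, q, hp, hq, hpq⟩ : ∃ p q, p ∈ Set.range z ∧ q ∈ Set.range z ∧ c ⊆ {p, q} := by
    have hne : (Set.range z).Nonempty := ⟨_, ⟨(0, true), rfl⟩⟩
    obtain ⟨z0, hz0⟩ := hne
    rcases Nat.lt_or_ge c.ncard 2 with h | h
    · rcases Nat.lt_or_ge c.ncard 1 with h' | h'
      · have h1 : c.ncard = 0 := by omega
        rw [Set.ncard_eq_zero hcfin] at h1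
        exact ⟨z0, z0, hz0, hz0, by rw [h1]; exact Set.empty_subset _⟩
      · have h1 : c.ncard = 1 := by omega
        obtain ⟨p, hp⟩ := Set.ncard_eq_one.1 h1
        refine ⟨p, p, hc1 (by rw [hp]; rfl), hc1 (by rw [hp]; rfl), by rw [hp]; simp⟩
    · have h1 : c.ncard = 2 := by omega
      obtain ⟨p, q, -, hpq⟩ := Set.ncard_eq_two.1 h1
      refine ⟨p, q, hc1 (by rw [hpq]; simp), hc1 (by rw [hpq]; simp), by rw [hpq]⟩
  have hfinal : Submodule.span R {p, q} = ⊤ := by
    rw [eq_top_iff, ← hcspan]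
    exact Submodule.span_mono hpq
  obtain ⟨ip, rfl⟩ := hp
  obtain ⟨iq, rfl⟩ := hq
  obtain ⟨e1, he1, he1'⟩ := hze ip
  obtain ⟨e2, he2, he2'⟩ := hze iq
  refine ⟨![(z ip : R), (z iq : R)], ![e1, e2], ?_, ?_, ?_⟩
  · rw [ixr_span_sub] at hfinal
    refine Eq.trans ?_ hfinal
    congr 1
    ext a
    simp only [Matrix.range_cons, Matrix.range_empty, Set.union_empty, Set.image_insert_eq,
      Set.image_singleton, Set.singleton_union]
  · intro i
    fin_cases i
    · exact he1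
    · exact he2
  · intro i
    fin_cases i
    · exact he1'
    · exact he2'

end Vale.Agent.P282.Full
end

section

set_option linter.all false

open MeasureTheory Filter Topology
open scoped ENNReal NNReal ComplexConjugate

namespace Vale.Agent.P282.L2

variable {n N : ℕ} {K : Type} [Field K] [Algebra ℂ K] [Algebra (Pol n) K]
  [IsScalarTower ℂ (Pol n) K] [FaithfulSMul (Pol n) K]
  [Algebra (FractionRing (Pol n)) K] [IsScalarTower (Pol n) (FractionRing (Pol n)) K]
  [FiniteDimensional (FractionRing (Pol n)) K]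

namespace Prim

variable {E : Prim n K} {S : Sheets n N} {x : Pt n K} {U : Ultrafilter (Pairs n)}

/-- Generators of the limit ideal, with the neighbourhood property. -/
theorem IsPairs.exists_generators (hS : E.IsSheets S) (hU : E.IsPairs S x U) {m : ℕ}
    (hm : 0 < m) : ∃ (r : ℕ) (F : Fin r → IB n K), (∀ j, E.Lim U m (F j)) ∧
      (∀ b, E.Lim U m b → b ∈ Ideal.span (Set.range F)) ∧
      (∀ i : Fin n, ∃ j, F j = algebraMap (Pol n) (IB n K) (MvPolynomial.X i) ^ m) ∧
      ∀ W ∈ E.nhd S x, ∃ ε > 0, ∀ q ∈ S.M, ∑ j, ‖E.ev (F j : K) q‖ ^ 2 ≤ ε → q ∈ W := by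
  have hnoeth : IsNoetherianRing (IB n K) := ib_noetherian
  let I : Ideal (IB n K) :=
    { carrier := {b | E.Lim U m b}
      zero_mem' := lim_zero hS hU m
      add_mem' := fun ha hb => Lim.add hS hU ha hb
      smul_mem' := fun c b hb => Lim.mul_left c hb }
  have hI : I.FG := hnoeth.noetherian I
  obtain ⟨r0, F0, hF0⟩ := Submodule.fg_iff_exists_fin_generating_family.1 hI
  obtain ⟨s, hs0, hs1, hsW⟩ := exists_local_idem hS x 1
  let G : Fin r0 ⊕ (Fin n ⊕ Unit) → IB n K :=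
    Sum.elim F0 (Sum.elim (fun i => algebraMap (Pol n) (IB n K) (MvPolynomial.X i) ^ m)
      (fun _ => s ^ (2 * m)))
  let e := Fintype.equivFin (Fin r0 ⊕ (Fin n ⊕ Unit))
  have hG : ∀ t, E.Lim U m (G t) := by
    rintro (j | i | u)
    · have : F0 j ∈ I := by
        rw [← hF0]
        exact Submodule.subset_span ⟨j, rfl⟩
      exact this
    · exact hU.lim_z hS m i
    · exact hU.lim_pow hS m hs0
  refine ⟨Fintype.card (Fin r0 ⊕ (Fin n ⊕ Unit)), fun j => G (e.symm j), fun j => hG _, ?_, ?_, ?_⟩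
  · intro b hb
    have h1 : b ∈ I := hb
    rw [← hF0] at h1
    refine Submodule.span_mono ?_ h1
    rintro _ ⟨j, rfl⟩
    refine ⟨e (Sum.inl j), ?_⟩
    simp [G]
  · intro i
    refine ⟨e (Sum.inr (Sum.inl i)), ?_⟩
    simp [G]
  · intro W hW
    obtain ⟨ε0, hε0, hε⟩ := hsW W hW
    obtain ⟨t, ht0, ht1, ht2⟩ : ∃ t : ℝ, 0 < t ∧ t < ε0 ∧ t < 1 / 2 := by
      refine ⟨min ε0 (1 / 2) / 2, ?_, ?_, ?_⟩
      · positivity
      · have := min_le_left ε0 (1 / 2)
        linarith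
      · have := min_le_right ε0 (1 / 2)
        linarith
    refine ⟨t ^ (4 * m), by positivity, fun q hq hsum => ?_⟩
    have hterm : ∀ τ, ‖E.ev (G τ : K) q‖ ^ 2 ≤ t ^ (4 * m) := by
      intro τ
      refine le_trans ?_ hsum
      have := Finset.single_le_sum (f := fun j => ‖E.ev (G (e.symm j) : K) q‖ ^ 2)
        (fun j _ => by positivity) (Finset.mem_univ (e τ))
      simpa using this
    refine hε q hq ?_ ?_
    · rw [pi_norm_lt_iff hε0]
      intro i
      have h1 := hterm (Sum.inr (Sum.inl i))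
      have h2 : E.ev (G (Sum.inr (Sum.inl i)) : K) q = q.1 i ^ m := by
        have : ((G (Sum.inr (Sum.inl i)) : IB n K) : K)
            = algebraMap (Pol n) K (MvPolynomial.X i) ^ m := by
          simp [G]
        rw [this, ev_pow hS hq (isReg_alg _), ev_alg hS hq]
        simp
      rw [h2, norm_pow, ← pow_mul] at h1
      have h3 : ‖q.1 i‖ ^ (m * 2) ≤ t ^ (m * 2) := by
        refine h1.trans ?_
        exact pow_le_pow_of_le_one ht0.le (by linarith) (by omega)
      have h4 : ‖q.1 i‖ ≤ t := (pow_le_pow_iff_left₀ (norm_nonneg _) ht0.le (by omega)).1 h3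
      linarith
    · have h1 := hterm (Sum.inr (Sum.inr ()))
      have h2 : E.ev (G (Sum.inr (Sum.inr ())) : K) q = E.ev (s : K) q ^ (2 * m) := by
        have : ((G (Sum.inr (Sum.inr ())) : IB n K) : K) = (s : K) ^ (2 * m) := by
          simp [G]
        rw [this, ev_pow hS hq (isReg_ib s)]
      rw [h2, norm_pow, ← pow_mul, show 2 * m * 2 = 4 * m by ring] at h1
      have h4 : ‖E.ev (s : K) q‖ ≤ t :=
        (pow_le_pow_iff_left₀ (norm_nonneg _) ht0.le (by omega)).1 h1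
      linarith

/-- The valuations `v_m`. -/
theorem exists_valuation_m (hS : E.IsSheets S) {d : Fin n → Derivation ℂ K K} (hd : IsPartials d)
    (hn : 0 < n) {J : K} (hJ0 : J ≠ 0) (hJ : IsIntegral (Pol n) J)
    (hJr : E.IsReg J⁻¹) (hcan : Canon x J) (hklt : Klt x d J)
    (hred : ∀ v : Valuation K ℝ≥0, Over x v → ∀ b : IB n K, x.toFun b = 0 →
      ∃ i : Fin n, v (b : K) ≤ v (algebraMap (Pol n) K (MvPolynomial.X i)))
    (hU : E.IsPairs S x U) {m : ℕ} (hm : 0 < m) :
    ∃ v : Valuation K ℝ≥0, Over x v ∧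
      (∀ i : Fin n, v (algebraMap (Pol n) K (MvPolynomial.X i)) ≤ (Real.exp (-1)).toNNReal) ∧
      (∃ i : Fin n, v (algebraMap (Pol n) K (MvPolynomial.X i)) = (Real.exp (-1)).toNNReal) ∧
      ∃ a : ℝ, 0 ≤ a ∧ a ≤ m ∧
        (∀ f : IB n K, E.Lim U m f → v (f : K) ≤ (Real.exp (-a)).toNNReal) ∧
        ∀ b : Fin n → K, (∀ i, b i ≠ 0) → jac d b ≠ 0 →
          (Real.exp (-((n - 1 + 1 / m) * (a / m)))).toNNReal ≤ v (hfun d J b) := by
  obtain ⟨ψ, s, g, hs, hψ, hg0, hg⟩ := hU.exists_psi hS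
  obtain ⟨r, F, hF, hspan, hz, hloc⟩ := hU.exists_generators hS hm
  have hmR : (0 : ℝ) < m := by exact_mod_cast hm
  have hnR : (0 : ℝ) < n := by exact_mod_cast hn
  have he2 : (0 : ℝ) < 1 / (m : ℝ) ^ 2 := by positivity
  have hc : (0 : ℝ) < (n : ℝ) / m + 1 / (m : ℝ) ^ 2 := by positivity
  obtain ⟨v, hv, hle, ⟨i0, hi0⟩, hb⟩ := exists_valuation_of_divergent hS hd hJ0 hJ hJr hklt hn g F
    hm hz hc (fun W hW => non_integrable hS hd hn hJ0 hJ hJr hcan hU hs hψ hm F hF hz hloc hg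
      he2 hW)
  refine ⟨v, hv, hle, ⟨i0, hi0⟩, ?_⟩
  set σ : ℝ≥0 := Finset.univ.sup fun j => v (F j : K) with hσ
  have hσ1 : σ ≤ 1 := Finset.sup_le fun j _ => hv.1 (F j)
  have hσm : (Real.exp (-1)).toNNReal ^ m ≤ σ := by
    obtain ⟨j, hj⟩ := hz i0
    have h1 : v (F j : K) = (Real.exp (-1)).toNNReal ^ m := by
      rw [hj]
      have : ((algebraMap (Pol n) (IB n K) (MvPolynomial.X i0) ^ m : IB n K) : K)
          = algebraMap (Pol n) K (MvPolynomial.X i0) ^ m := by simp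
      rw [this, map_pow, hi0]
    rw [← h1]
    exact Finset.le_sup (f := fun j => v (F j : K)) (Finset.mem_univ j)
  have hσm' : Real.exp (-(m : ℝ)) ≤ (σ : ℝ) := by
    have h1 : ((Real.exp (-1)).toNNReal ^ m : ℝ≥0) = (Real.exp (-(m : ℝ))).toNNReal := by
      rw [← Real.toNNReal_pow (Real.exp_nonneg _), ← Real.exp_nat_mul]
      congr 2
      ring
    have h2 : ((Real.exp (-(m : ℝ))).toNNReal : ℝ) ≤ (σ : ℝ) := by
      rw [← h1]
      exact_mod_cast hσm
    rwa [Real.coe_toNNReal _ (Real.exp_nonneg _)] at h2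
  have hσ0 : (0 : ℝ) < σ := lt_of_lt_of_le (Real.exp_pos _) hσm'
  have hexp : Real.exp (-(-Real.log σ)) = σ := by
    rw [neg_neg, Real.exp_log hσ0]
  have hspan' : ∀ y ∈ Ideal.span (Set.range F), v (y : K) ≤ σ := by
    intro y hy
    refine Submodule.span_induction (p := fun y _ => v ((y : IB n K) : K) ≤ σ) ?_ ?_ ?_ ?_ hy
    · rintro _ ⟨j, rfl⟩
      exact Finset.le_sup (f := fun j => v (F j : K)) (Finset.mem_univ j)
    · simp
    · intro y z _ _ h1 h2
      have h3 : ((y + z : IB n K) : K) = (y : K) + (z : K) := rfl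
      rw [h3]
      exact (v.map_add _ _).trans (max_le h1 h2)
    · intro c y _ h
      have h3 : ((c • y : IB n K) : K) = (c : K) * (y : K) := rfl
      rw [h3, map_mul]
      calc v (c : K) * v (y : K) ≤ 1 * σ := mul_le_mul' (hv.1 c) h
        _ = σ := one_mul _
  have ha0 : 0 ≤ -Real.log (σ : ℝ) := by
    have : Real.log (σ : ℝ) ≤ 0 := Real.log_nonpos hσ0.le (by exact_mod_cast hσ1)
    linarith only [this]
  have ham : -Real.log (σ : ℝ) ≤ m := by
    have : -(m : ℝ) ≤ Real.log (σ : ℝ) := by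
      rw [Real.le_log_iff_exp_le hσ0]
      exact hσm'
    linarith
  refine ⟨-Real.log σ, ha0, ham, ?_, ?_⟩
  · intro f hf
    rw [hexp, Real.toNNReal_coe]
    exact hspan' f (hspan f hf)
  · intro b hb0 hbj
    obtain ⟨i, hi⟩ := hred v hv g hg0
    have h2 : v (g : K) ≤ (Real.exp (-1)).toNNReal := hi.trans (hle i)
    have h3 : σ ^ ((n : ℝ) / m + 1 / (m : ℝ) ^ 2) ≤
        (Real.exp (-1)).toNNReal * v (hfun d J b) :=
      (hb b hb0 hbj).trans (mul_le_mul' h2 le_rfl)
    have h3' : (σ : ℝ) ^ ((n : ℝ) / m + 1 / (m : ℝ) ^ 2) ≤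
        Real.exp (-1) * (v (hfun d J b) : ℝ) := by
      have := NNReal.coe_le_coe.2 h3
      rwa [NNReal.coe_rpow, NNReal.coe_mul, Real.coe_toNNReal _ (Real.exp_nonneg _)] at this
    rw [← NNReal.coe_le_coe, Real.coe_toNNReal _ (Real.exp_nonneg _)]
    generalize hA : -Real.log (σ : ℝ) = a at ha0 ham ⊢
    have hlog : Real.log (σ : ℝ) = -a := by rw [← hA]; ring
    rw [Real.rpow_def_of_pos hσ0, hlog] at h3'
    have h5 : Real.exp (1 + -a * ((n : ℝ) / m + 1 / (m : ℝ) ^ 2)) ≤ (v (hfun d J b) : ℝ) := by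
      rw [Real.exp_add]
      calc Real.exp 1 * Real.exp (-a * ((n : ℝ) / m + 1 / (m : ℝ) ^ 2))
          ≤ Real.exp 1 * (Real.exp (-1) * (v (hfun d J b) : ℝ)) :=
            mul_le_mul_of_nonneg_left h3' (Real.exp_nonneg _)
        _ = (v (hfun d J b) : ℝ) := by
            rw [← mul_assoc, ← Real.exp_add]
            simp
    refine le_trans (Real.exp_le_exp.2 ?_) h5
    have h6 : a / m ≤ 1 := (div_le_one hmR).2 ham
    have h7 : 1 + -a * ((n : ℝ) / m + 1 / (m : ℝ) ^ 2) - (-((n - 1 + 1 / m) * (a / m)))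
        = 1 - a / m := by
      field_simp
      ring
    linarith only [h7, h6]

end Prim

end Vale.Agent.P282.L2
end

section

open MeasureTheory Filter Topology
open scoped ENNReal NNReal ComplexConjugate

namespace Vale.Agent.P282.L2

variable {n N : ℕ} {K : Type} [Field K] [Algebra ℂ K] [Algebra (Pol n) K]
  [IsScalarTower ℂ (Pol n) K] [FaithfulSMul (Pol n) K]
  [Algebra (FractionRing (Pol n)) K] [IsScalarTower (Pol n) (FractionRing (Pol n)) K]
  [FiniteDimensional (FractionRing (Pol n)) K]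

/-- Roots of exponential bounds. -/
theorem endlim_root {y a L : ℝ} {l : ℕ} (hy0 : 0 ≤ y) (hy1 : y ≤ 1) (hl : (l : ℝ) ≤ L)
    (hL : 0 < L) (h : y ^ l ≤ Real.exp (-a)) : y ≤ Real.exp (-(a / L)) := by
  rcases hy0.eq_or_lt with h0 | h0
  · rw [← h0]; exact (Real.exp_pos _).le
  · have h1 : y ^ L ≤ y ^ (l : ℝ) := Real.rpow_le_rpow_of_exponent_ge h0 hy1 hl
    rw [Real.rpow_natCast] at h1
    have h2 : y ^ L ≤ Real.exp (-a) := h1.trans h
    have h3 : (y ^ L) ^ (1 / L) ≤ (Real.exp (-a)) ^ (1 / L) :=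
      Real.rpow_le_rpow (Real.rpow_nonneg hy0 L) h2 (by positivity)
    rw [← Real.rpow_mul hy0, mul_one_div_cancel hL.ne', Real.rpow_one, ← Real.exp_mul] at h3
    have h4 : -a * (1 / L) = -(a / L) := by ring
    rwa [h4] at h3

theorem endlim_jac_ne {d : Fin n → Derivation ℂ K K} (hd : IsPartials d) {f : Pol n} {j : Fin n}
    (hf : MvPolynomial.pderiv j f ≠ 0) :
    jac d (fun i => algebraMap (Pol n) K (if i = j then f else 1 + MvPolynomial.X i)) ≠ 0 := by
  rw [jac_chart hd]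
  intro h
  exact hf ((map_eq_zero_iff _ (FaithfulSMul.algebraMap_injective (Pol n) K)).1 h)

theorem endlim_prod_le (v : Valuation K ℝ≥0) {x : Pt n K} (hv : Over x v) (f : Pol n)
    (j : Fin n) :
    v (∏ i : Fin n, algebraMap (Pol n) K (if i = j then f else 1 + MvPolynomial.X i)) ≤
      v (algebraMap (Pol n) K f) := by
  have hle : ∀ g : Pol n, v (algebraMap (Pol n) K g) ≤ 1 := fun g => by
    have := hv.1 (algebraMap (Pol n) (IB n K) g)
    exact this
  rw [map_prod, ← Finset.mul_prod_erase Finset.univ _ (Finset.mem_univ j), if_pos rfl]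
  exact (mul_le_mul' le_rfl (Finset.prod_le_one' (fun i _ => hle _))).trans (mul_one _).le

namespace Prim

variable {E : Prim n K} {S : Sheets n N} {x : Pt n K} {U : Ultrafilter (Pairs n)}

theorem Lim.pow' (hS : E.IsSheets S) (hU : E.IsPairs S x U) {k : ℕ} {f : IB n K}
    (hf : E.Lim U k f) : ∀ l : ℕ, E.Lim U (k * (l + 1)) (f ^ (l + 1)) := by
  intro l
  induction l with
  | zero => simpa using hf
  | succ l ih =>
    have h := Lim.mul hS hU ih hf
    rw [← pow_succ] at h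
    have e : k * (l + 1) + k = k * (l + 1 + 1) := by ring
    rwa [e] at h

/-- The limit valuation. -/
theorem exists_limit (hS : E.IsSheets S) {d : Fin n → Derivation ℂ K K} (hd : IsPartials d)
    (hn : 2 ≤ n) {J : K} (hJ0 : J ≠ 0) (hJ : IsIntegral (Pol n) J)
    (hJr : E.IsReg J⁻¹) (hcan : Canon x J) (hklt : Klt x d J)
    (hred : ∀ v : Valuation K ℝ≥0, Over x v → ∀ b : IB n K, x.toFun b = 0 →
      ∃ i : Fin n, v (b : K) ≤ v (algebraMap (Pol n) K (MvPolynomial.X i)))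
    (hU : E.IsPairs S x U) :
    ∃ (v : Valuation K ℝ≥0) (κ : ℝ), 0 < κ ∧ Centered x v ∧
      (∀ b : Fin n → K, (∀ i, b i ≠ 0) → jac d b ≠ 0 →
        (Real.exp (-((n - 1) * κ))).toNNReal ≤ v (hfun d J b)) ∧
      ∀ (k : ℕ) (f : IB n K), E.Lim U k f → v (f : K) ≤ (Real.exp (-(k * κ))).toNNReal := by
  have hn0 : 0 < n := by omega
  have hnR : (2 : ℝ) ≤ n := by exact_mod_cast hn
  have hm : ∀ m : ℕ, 0 < m + 1 := fun m => Nat.succ_pos m
  choose v hov hle heq a ha0 ha1 hf hb using fun m : ℕ =>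
    exists_valuation_m hS hd hn0 hJ0 hJ hJr hcan hklt hred hU (hm m)
  have hmR : ∀ m : ℕ, (0 : ℝ) < ((m + 1 : ℕ) : ℝ) := fun m => by exact_mod_cast hm m
  -- the ultrafilter and the limit of `a m / (m + 1)`
  set V : Ultrafilter ℕ := hyperfilter ℕ with hV
  have hVtop : (V : Filter ℕ) ≤ atTop := by
    rw [← Nat.cofinite_eq_atTop]
    exact hyperfilter_le_cofinite
  have har : ∀ m : ℕ, a m / ((m + 1 : ℕ) : ℝ) ∈ Set.Icc (0 : ℝ) 1 := fun m =>
    ⟨div_nonneg (ha0 m) (hmR m).le, (div_le_one (hmR m)).2 (ha1 m)⟩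
  obtain ⟨κ, hκ, hκlim⟩ : ∃ κ ∈ Set.Icc (0 : ℝ) 1,
      Tendsto (fun m : ℕ => a m / ((m + 1 : ℕ) : ℝ)) V (𝓝 κ) := by
    have h1 := isCompact_Icc.ultrafilter_le_nhds
      (V.map (fun m : ℕ => a m / ((m + 1 : ℕ) : ℝ))) (s := Set.Icc (0 : ℝ) 1) ?_
    · obtain ⟨κ, h2, h3⟩ := h1
      exact ⟨κ, h2, h3⟩
    · rw [le_principal_iff]
      change (fun m : ℕ => a m / ((m + 1 : ℕ) : ℝ)) ⁻¹' Set.Icc (0 : ℝ) 1 ∈ V
      exact Filter.univ_mem' har
  have h1m : Tendsto (fun m : ℕ => 1 / ((m + 1 : ℕ) : ℝ)) V (𝓝 0) := by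
    have h := (tendsto_one_div_add_atTop_nhds_zero_nat (𝕜 := ℝ)).mono_left hVtop
    refine h.congr (fun m => ?_)
    push_cast
    rfl
  obtain ⟨w, hw, hwlim⟩ := exists_limit_valuation V v hov
  -- lower bound
  set t : ℝ≥0 := (Real.exp (-(n : ℝ))).toNNReal with ht
  have ht0 : 0 < t := Real.toNNReal_pos.2 (Real.exp_pos _)
  have htb : ∀ m, ∀ b : Fin n → K, (∀ i, b i ≠ 0) → jac d b ≠ 0 → t ≤ v m (hfun d J b) := by
    intro m b h1 h2
    refine le_trans (Real.toNNReal_le_toNNReal (Real.exp_le_exp.2 ?_)) (hb m b h1 h2)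
    have h3 := har m
    have h4 : (1 : ℝ) / ((m + 1 : ℕ) : ℝ) ≤ 1 := by
      rw [div_le_one (hmR m)]
      push_cast
      have : (0 : ℝ) ≤ m := Nat.cast_nonneg m
      linarith
    have h5 : (0 : ℝ) ≤ 1 / ((m + 1 : ℕ) : ℝ) := by positivity
    have h6 : ((n : ℝ) - 1 + 1 / ((m + 1 : ℕ) : ℝ)) * (a m / ((m + 1 : ℕ) : ℝ)) ≤ n * 1 :=
      mul_le_mul (by linarith) h3.2 h3.1 (by linarith)
    linarith only [h6]
  obtain ⟨c, hc, hcv⟩ := valuative_uniform (E := E) hd hJ0 hJ hklt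
  set JB : IB n K := ⟨J, hJ⟩ with hJB
  have hwJ : w JB ≠ 0 := by
    intro h0
    have h1 : Tendsto (fun m => (v m (JB : K)) ^ c) V (𝓝 (w JB ^ c)) :=
      (NNReal.continuous_rpow_const hc.le).continuousAt.tendsto.comp (hwlim JB)
    have h2 : t ≤ w JB ^ c := ge_of_tendsto' h1 (fun m => hcv (v m) (hov m) t (htb m))
    rw [h0, NNReal.zero_rpow hc.ne'] at h2
    exact absurd h2 (not_le.2 ht0)
  have hne : ∀ b : IB n K, b ≠ 0 → w b ≠ 0 := by
    intro b hb0 hwb
    obtain ⟨f, j, hf0, hfj⟩ := hw.exists_chart E hb0 hwb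
    have hp0 : MvPolynomial.pderiv j f ≠ 0 := by
      intro h
      rw [h, map_zero, hw.zero] at hfj
      exact hfj rfl
    have hf00 : f ≠ 0 := by
      intro h
      rw [h, map_zero] at hp0
      exact hp0 rfl
    have hinj := FaithfulSMul.algebraMap_injective (Pol n) K
    have hbi : ∀ i : Fin n,
        algebraMap (Pol n) K (if i = j then f else 1 + MvPolynomial.X i) ≠ 0 := by
      intro i h
      have h1 := (map_eq_zero_iff _ hinj).1 h
      by_cases hij : i = j
      · rw [if_pos hij] at h1; exact hf00 h1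
      · rw [if_neg hij] at h1
        have h2 := congrArg (MvPolynomial.eval (0 : Fin n → ℂ)) h1
        simp at h2
    have key : ∀ m, t * (v m (JB : K) * v m ((algebraMap (Pol n) (IB n K)
        (MvPolynomial.pderiv j f) : IB n K) : K)) ≤
        v m ((algebraMap (Pol n) (IB n K) f : IB n K) : K) := by
      intro m
      have h1 := htb m _ hbi (endlim_jac_ne hd hp0)
      unfold hfun at h1
      rw [jac_chart hd, map_div₀, map_mul] at h1
      have h2 : 0 < v m J * v m (algebraMap (Pol n) K (MvPolynomial.pderiv j f)) := by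
        refine mul_pos ?_ ?_
        · exact pos_iff_ne_zero.2 ((v m).ne_zero_iff.2 hJ0)
        · exact pos_iff_ne_zero.2 ((v m).ne_zero_iff.2
            (fun h => hp0 ((map_eq_zero_iff _ hinj).1 h)))
      rw [le_div_iff₀ h2] at h1
      exact h1.trans (endlim_prod_le (v m) (hov m) f j)
    have h3 : t * (w JB * w (algebraMap (Pol n) (IB n K) (MvPolynomial.pderiv j f))) ≤
        w (algebraMap (Pol n) (IB n K) f) :=
      le_of_tendsto_of_tendsto' (((hwlim _).mul (hwlim _)).const_mul t) (hwlim _) key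
    rw [hf0] at h3
    exact absurd h3 (not_le.2 (mul_pos ht0 (mul_pos (pos_iff_ne_zero.2 hwJ)
      (pos_iff_ne_zero.2 hfj))))
  obtain ⟨w', hw', hov'⟩ := hw.exists_valuation hne
  have hlimK : ∀ z : K, Tendsto (fun m => v m z) V (𝓝 (w' z)) :=
    tendsto_of_limit (x := x) V v w' (fun b => by rw [hw' b]; exact hwlim b)
  have hz : ∀ i : Fin n, w' (algebraMap (Pol n) K (MvPolynomial.X i)) ≤
      (Real.exp (-1)).toNNReal := fun i => le_of_tendsto' (hlimK _) (fun m => hle m i)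
  have he1 : (Real.exp (-1)).toNNReal < 1 := by
    rw [Real.toNNReal_lt_one]
    exact Real.exp_lt_one_iff.2 (by norm_num)
  have hlow : ∀ b : Fin n → K, (∀ i, b i ≠ 0) → jac d b ≠ 0 →
      (Real.exp (-((n - 1) * κ))).toNNReal ≤ w' (hfun d J b) := by
    intro b h1 h2
    have h3 : Tendsto (fun m : ℕ => (Real.exp (-(((n : ℝ) - 1 + 1 / ((m + 1 : ℕ) : ℝ)) *
        (a m / ((m + 1 : ℕ) : ℝ))))).toNNReal) V
        (𝓝 (Real.exp (-(((n : ℝ) - 1 + 0) * κ))).toNNReal) := by
      have h4 : Tendsto (fun m : ℕ => ((n : ℝ) - 1 + 1 / ((m + 1 : ℕ) : ℝ)) *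
        (a m / ((m + 1 : ℕ) : ℝ))) V (𝓝 (((n : ℝ) - 1 + 0) * κ)) :=
        (h1m.const_add ((n : ℝ) - 1)).mul hκlim
      exact (continuous_real_toNNReal.tendsto _).comp ((Real.continuous_exp.tendsto _).comp h4.neg)
    rw [add_zero] at h3
    exact le_of_tendsto_of_tendsto' h3 (hlimK _) (fun m => hb m b h1 h2)
  have hκ0 : 0 < κ := by
    obtain ⟨b, h1, h2, h3⟩ := hklt w' hov'
      ⟨algebraMap (Pol n) (IB n K) (MvPolynomial.X ⟨0, hn0⟩), by
        intro h
        have h4 : algebraMap (Pol n) K (MvPolynomial.X ⟨0, hn0⟩) = 0 := h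
        exact MvPolynomial.X_ne_zero _
          ((map_eq_zero_iff _ (FaithfulSMul.algebraMap_injective (Pol n) K)).1 h4),
        (hz ⟨0, hn0⟩).trans_lt he1⟩
    have h4 := (hlow b h1 h2).trans_lt h3
    rw [Real.toNNReal_lt_one, Real.exp_lt_one_iff, neg_lt_zero] at h4
    exact (pos_iff_pos_of_mul_pos h4).1 (by linarith)
  refine ⟨w', κ, hκ0, ⟨hov', ?_⟩, hlow, ?_⟩
  · intro b hb0
    obtain ⟨i, hi⟩ := hred w' hov' b hb0
    exact (hi.trans (hz i)).trans_lt he1
  · intro k f hkf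
    rcases Nat.eq_zero_or_pos k with hk | hk
    · rw [hk]
      simp only [Nat.cast_zero, zero_mul, neg_zero, Real.exp_zero, Real.toNNReal_one]
      exact hov'.1 f
    · have hkR : (0 : ℝ) < k := by exact_mod_cast hk
      have hbd : ∀ m : ℕ, v m (f : K) ≤ (Real.exp (-(a m / ((m + 1 : ℕ) : ℝ) *
          (1 / (1 / k + 1 / ((m + 1 : ℕ) : ℝ)))))).toNNReal := by
        intro m
        have h1 := Lim.pow' hS hU hkf ((m + 1) / k)
        have h2 : m + 1 ≤ k * ((m + 1) / k + 1) := (Nat.lt_mul_div_succ (m + 1) hk).le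
        have h3 := hf m _ (Lim.mono h2 h1)
        have h4 : ((v m (f : K) : ℝ≥0) : ℝ) ^ ((m + 1) / k + 1) ≤ Real.exp (-(a m)) := by
          have h5 : v m (((f ^ ((m + 1) / k + 1) : IB n K)) : K) =
              (v m (f : K)) ^ ((m + 1) / k + 1) := by
            rw [SubmonoidClass.coe_pow, map_pow]
          rw [h5] at h3
          have h6 := NNReal.coe_le_coe.2 h3
          rw [Real.coe_toNNReal _ (Real.exp_pos _).le, NNReal.coe_pow] at h6
          exact h6
        have h7 : ((((m + 1) / k + 1 : ℕ)) : ℝ) ≤ ((m + 1 : ℕ) : ℝ) / k + 1 := by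
          rw [Nat.cast_add, Nat.cast_one]
          have := @Nat.cast_div_le ℝ _ _ _ (m + 1) k
          linarith only [this]
        have h8 : (0 : ℝ) < ((m + 1 : ℕ) : ℝ) / k + 1 := by (clear * - hk; positivity)
        have h9 := endlim_root (NNReal.coe_nonneg _)
          (by exact_mod_cast (hov m).1 f) h7 h8 h4
        have h10 : a m / (((m + 1 : ℕ) : ℝ) / k + 1) = a m / ((m + 1 : ℕ) : ℝ) *
            (1 / (1 / k + 1 / ((m + 1 : ℕ) : ℝ))) := by
          have h11 := (hmR m).ne'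
          have h12 := hkR.ne'
          field_simp
        rw [h10] at h9
        rw [← NNReal.coe_le_coe, Real.coe_toNNReal _ (Real.exp_pos _).le]
        exact h9
      have hlim : Tendsto (fun m : ℕ => (Real.exp (-(a m / ((m + 1 : ℕ) : ℝ) *
          (1 / (1 / k + 1 / ((m + 1 : ℕ) : ℝ)))))).toNNReal) V
          (𝓝 (Real.exp (-(κ * (1 / (1 / k + 0))))).toNNReal) := by
        have h4 : Tendsto (fun m : ℕ => a m / ((m + 1 : ℕ) : ℝ) *
            (1 / (1 / (k : ℝ) + 1 / ((m + 1 : ℕ) : ℝ)))) V (𝓝 (κ * (1 / (1 / (k : ℝ) + 0)))) := by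
          refine hκlim.mul (Tendsto.div tendsto_const_nhds (h1m.const_add _) ?_)
          rw [add_zero]
          positivity
        exact (continuous_real_toNNReal.tendsto _).comp
          ((Real.continuous_exp.tendsto _).comp h4.neg)
      have hfin := le_of_tendsto_of_tendsto' (hlimK (f : K)) hlim hbd
      have e : κ * (1 / (1 / (k : ℝ) + 0)) = k * κ := by
        rw [add_zero, one_div_one_div, mul_comm]
      rwa [e] at hfin

end Prim

end Vale.Agent.P282.L2
end

section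

open MeasureTheory Filter Topology
open scoped ENNReal NNReal ComplexConjugate

namespace Vale.Agent.P282.L2

variable {n N : ℕ} {K : Type} [Field K] [Algebra ℂ K] [Algebra (Pol n) K]
  [IsScalarTower ℂ (Pol n) K] [FaithfulSMul (Pol n) K]
  [Algebra (FractionRing (Pol n)) K] [IsScalarTower (Pol n) (FractionRing (Pol n)) K]
  [FiniteDimensional (FractionRing (Pol n)) K]

/-- The main theorem, for the integral closure of `ℂ[z]` in `K` localized at `x`. -/
theorem main {x : Pt n K} {d : Fin n → Derivation ℂ K K} (hd : IsPartials d)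
    (hn : 2 ≤ n) {J : K} (hJ0 : J ≠ 0) (hJ : IsIntegral (Pol n) J)
    (hcan : Canon x J) (hklt : Klt x d J)
    (hred : ∀ v : Valuation K ℝ≥0, Over x v → ∀ b : IB n K, x.toFun b = 0 →
      ∃ i : Fin n, v (b : K) ≤ v (algebraMap (Pol n) K (MvPolynomial.X i)))
    (hsing : ∃ f : IB n K, x.toFun f = 0 ∧ ∀ s : IB n K, x.toFun s ≠ 0 → s * f ∉ zI n K) :
    ∃ (v : Valuation K ℝ≥0) (κ : ℝ), 0 < κ ∧ Centered x v ∧
      (∀ b : Fin n → K, (∀ i, b i ≠ 0) → jac d b ≠ 0 →
        (Real.exp (-((n - 1) * κ))).toNNReal ≤ v (hfun d J b)) ∧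
      ∀ k D : ℕ, 2 * Nat.choose (n + k - 1) n < D → ∀ f : Fin D → IB n K,
        ∃ c : Fin D → ℂ, c ≠ 0 ∧
          v (∑ l, algebraMap ℂ K (c l) * (f l : K)) ≤ (Real.exp (-(k * κ))).toNNReal := by
  obtain ⟨E, hJr⟩ := exists_prim (n := n) J⁻¹
  obtain ⟨S, hS⟩ := E.exists_sheets
  obtain ⟨U, hU⟩ := Prim.exists_isPairs hS x hsing
  obtain ⟨v, κ, hκ, hv, hA, hlim⟩ := Prim.exists_limit hS hd hn hJ0 hJ hJr hcan hklt hred hU
  refine ⟨v, κ, hκ, hv, hA, fun k D hD f => ?_⟩
  obtain ⟨c, hc, hl⟩ := hU.lim_colength hS hD f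
  refine ⟨c, hc, ?_⟩
  have := hlim k _ hl
  convert this using 2
  push_cast
  refine Finset.sum_congr rfl fun l _ => ?_
  congr 1
  change _ = algebraMap (Pol n) K _
  rw [show (MvPolynomial.C (c l) : Pol n) = algebraMap ℂ (Pol n) (c l) from rfl,
    ← IsScalarTower.algebraMap_apply]

end Vale.Agent.P282.L2
end

section

open scoped NNReal ENNReal Nat WithZero
open IsLocalRing

namespace Vale.Agent.P282.Full

open Vale.Agent.P282.L2

section

variable {n : ℕ} {R K : Type} [CommRing R] [IsDomain R] [IsLocalRing R] [Algebra ℂ R]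
  [Field K] [Algebra ℂ K] [Algebra R K] [IsScalarTower ℂ R K] [IsFractionRing R K]

omit [IsDomain R] [IsLocalRing R] [Algebra ℂ R] [Algebra ℂ K] [IsScalarTower ℂ R K]
  [IsFractionRing R K] in
theorem HasCenter.unit {v : Valuation K ℝ≥0} {P : Ideal R} (hP : HasCenter R v P) {s : R}
    (hs : IsUnit s) : v (algebraMap R K s) = 1 := by
  obtain ⟨t, ht⟩ := hs.exists_right_inv
  have h1 : v (algebraMap R K s) * v (algebraMap R K t) = 1 := by
    rw [← map_mul, ← map_mul, ht, map_one, map_one]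
  refine le_antisymm (hP s).1 ?_
  calc (1 : ℝ≥0) = v (algebraMap R K s) * v (algebraMap R K t) := h1.symm
    _ ≤ v (algebraMap R K s) * 1 := mul_le_mul_right (hP t).1 _
    _ = v (algebraMap R K s) := mul_one _

section

variable [Algebra (Pol n) R] [IsScalarTower ℂ (Pol n) R]
  [Algebra (Pol n) K] [IsScalarTower (Pol n) R K] [IsScalarTower ℂ (Pol n) K]
  [FaithfulSMul (Pol n) K]
  [Algebra (FractionRing (Pol n)) K] [IsScalarTower (Pol n) (FractionRing (Pol n)) K]
  [FiniteDimensional (FractionRing (Pol n)) K]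

omit [CommRing R] [IsDomain R] [IsLocalRing R] [Algebra ℂ R] [Algebra R K]
  [IsScalarTower ℂ R K] [IsFractionRing R K] [Algebra (Pol n) R] [IsScalarTower ℂ (Pol n) R]
  [IsScalarTower (Pol n) R K] in
theorem logset_eq {d : Fin n → Derivation ℂ K K} (hd : IsPartials d)
    {ω : (Fin n → Derivation ℂ K K) → K} (hω : IsPluriForm n 1 ω) {v : Valuation K ℝ≥0} {s : K}
    (hs : v s = 1) :
    {t : ℝ | ∃ (b : Fin n → K) (h : K), (∀ i, b i ≠ 0) ∧
      (∀ D : Fin n → Derivation ℂ K K,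
        (∏ i, b i) ^ 1 * ω D = h * Matrix.det (Matrix.of fun i j => D i (b j)) ^ 1) ∧
      t = -Real.log (v h) / (1 : ℕ)} =
    {t : ℝ | ∃ b : Fin n → K, (∀ i, b i ≠ 0) ∧ jac d b ≠ 0 ∧
      t = -Real.log (v (hfun d (s * (ω d)⁻¹) b))} := by
  have hω0 := (form_eval hd hω).1
  have hs0 : s ≠ 0 := by
    rintro rfl
    rw [map_zero] at hs
    exact zero_ne_one hs
  ext t
  constructor
  · rintro ⟨b, h, hb, hD, rfl⟩
    have h1 := (logset_iff hd hω b hb h).1 hD
    rw [pow_one, pow_one] at h1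
    have hp : (∏ i, b i) ≠ 0 := Finset.prod_ne_zero_iff.2 fun i _ => hb i
    have hj : jac d b ≠ 0 := by
      intro h0
      rw [h0, mul_zero] at h1
      exact mul_ne_zero hp hω0 h1
    refine ⟨b, hb, hj, ?_⟩
    have h2 : h = s * hfun d (s * (ω d)⁻¹) b := by
      unfold hfun
      field_simp
      rw [← h1]
    rw [h2, map_mul, hs, one_mul, Nat.cast_one, div_one]
  · rintro ⟨b, hb, hj, rfl⟩
    refine ⟨b, s * hfun d (s * (ω d)⁻¹) b, hb, ?_, ?_⟩
    · rw [logset_iff hd hω b hb]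
      unfold hfun
      field_simp
    · rw [map_mul, hs, one_mul, Nat.cast_one, div_one]

omit [CommRing R] [IsDomain R] [IsLocalRing R] [Algebra ℂ R] [Algebra R K]
  [IsScalarTower ℂ R K] [IsFractionRing R K] [Algebra (Pol n) R] [IsScalarTower ℂ (Pol n) R]
  [IsScalarTower (Pol n) R K] [IsScalarTower ℂ (Pol n) K]
  [Algebra (FractionRing (Pol n)) K] [IsScalarTower (Pol n) (FractionRing (Pol n)) K]
  [FiniteDimensional (FractionRing (Pol n)) K] in
theorem logset_nonempty {d : Fin n → Derivation ℂ K K} (hd : IsPartials d)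
    (v : Valuation K ℝ≥0) (J : K) :
    {t : ℝ | ∃ b : Fin n → K, (∀ i, b i ≠ 0) ∧ jac d b ≠ 0 ∧
      t = -Real.log (v (hfun d J b))}.Nonempty := by
  refine ⟨_, fun i => algebraMap (Pol n) K (MvPolynomial.X i), fun i => ?_, ?_, rfl⟩
  · rw [Ne, FaithfulSMul.algebraMap_eq_zero_iff]
    exact MvPolynomial.X_ne_zero i
  · have h1 : (Matrix.of fun i j : Fin n => d i (algebraMap (Pol n) K (MvPolynomial.X j))) = 1 := by
      ext i j
      rw [Matrix.of_apply, hd i j, Matrix.one_apply]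
    unfold jac
    rw [h1, Matrix.det_one]
    exact one_ne_zero

/-- The main theorem relative to a reduction of the maximal ideal. -/
theorem cartier_aux (hn : 2 ≤ n) {ω : (Fin n → Derivation ℂ K K) → K} (h : IsKltGerm R n 1 ω)
    (hreg : ¬ IsRegularLocalRing R)
    (hx : ∀ i : Fin n, algebraMap (Pol n) R (MvPolynomial.X i) ∈ maximalIdeal R)
    (hk : ∃ k : ℕ, maximalIdeal R ^ (k + 1) ≤ Ideal.span (Set.range fun i : Fin n =>
      algebraMap (Pol n) R (MvPolynomial.X i)) * maximalIdeal R ^ k) :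
    ∃ (v : Valuation K ℝ≥0) (a : ℝ), 0 ≤ a ∧ HasCenter R v (maximalIdeal R) ∧
      IsLogDiscrepancy n 1 ω v a ∧
      ENNReal.ofReal a ^ n * vol R n v ≤ 2 * ((n : ℝ≥0∞) - 1) ^ n := by
  have hess := h.essFiniteType
  have hnoeth : IsNoetherianRing R := Algebra.EssFiniteType.isNoetherianRing ℂ R
  have hn1 : 1 ≤ n := by omega
  obtain ⟨k, hk⟩ := hk
  have hzmt : ∀ a : R, ∃ s : R, IsUnit s ∧ IsIntegral (Pol n) s ∧ IsIntegral (Pol n) (s * a) :=
    fun a => Vale.Agent.P282.zmt h.residue hx ⟨k + 1, hk.trans Ideal.mul_le_left⟩ a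
  obtain ⟨d, hd⟩ := exists_partials n K
  obtain ⟨x, hxR⟩ := exists_point (n := n) (K := K) h.normal h.residue hx
  have hω0 := (form_eval hd h.form).1
  have hinjRK : Function.Injective (algebraMap R K) := IsFractionRing.injective R K
  obtain ⟨a0, ha0⟩ := jac_mem hn1 hzmt h hd
  obtain ⟨s0, hs0u, hs0i, hs0a⟩ := hzmt a0
  have hs00 : algebraMap R K s0 ≠ 0 := (hs0u.map (algebraMap R K)).ne_zero
  have hJ0 : algebraMap R K s0 * (ω d)⁻¹ ≠ 0 := mul_ne_zero hs00 (inv_ne_zero hω0)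
  have hJ : IsIntegral (Pol n) (algebraMap R K s0 * (ω d)⁻¹) := by
    have h1 := hs0a.algebraMap (B := K)
    rwa [map_mul, ha0] at h1
  -- the canonical module
  have hcan : Canon x (algebraMap R K s0 * (ω d)⁻¹) := by
    intro e he
    obtain ⟨a', ha'⟩ := dual_mem hn1 hzmt h hd e he
    obtain ⟨s, hsu, hsi, hsa⟩ := hzmt (s0 * a')
    refine ⟨⟨algebraMap R K s, hsi.algebraMap⟩, ?_, ?_⟩
    · intro h0
      obtain ⟨a1, ha1, ha1'⟩ := hxR ⟨algebraMap R K s, hsi.algebraMap⟩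
      have h1 : a1 = s := hinjRK ha1
      have h2 : s ∈ maximalIdeal R := h1 ▸ ha1'.1 h0
      exact (mem_maximalIdeal s).1 h2 hsu
    · have h1 := hsa.algebraMap (B := K)
      rw [map_mul, map_mul, ha'] at h1
      convert h1 using 1
      ring
  -- the set of log discrepancies
  have hset : ∀ (v : Valuation K ℝ≥0) (P : Ideal R), HasCenter R v P → ∀ c : ℝ,
      (∀ b : Fin n → K, (∀ i, b i ≠ 0) → jac d b ≠ 0 →
        -Real.log (v (hfun d (algebraMap R K s0 * (ω d)⁻¹) b)) ≤ c) →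
      ∃ a : ℝ, a ≤ c ∧ IsLogDiscrepancy n 1 ω v a := by
    intro v P hP c hc
    have hT := logset_eq hd h.form (hP.unit hs0u)
    refine ⟨sSup {t : ℝ | ∃ b : Fin n → K, (∀ i, b i ≠ 0) ∧ jac d b ≠ 0 ∧
      t = -Real.log (v (hfun d (algebraMap R K s0 * (ω d)⁻¹) b))}, ?_, ?_⟩
    · refine csSup_le (logset_nonempty hd v _) ?_
      rintro t ⟨b, hb, hj, rfl⟩
      exact hc b hb hj
    · unfold IsLogDiscrepancy
      rw [hT]
      refine isLUB_csSup (logset_nonempty hd v _) ⟨c, ?_⟩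
      rintro t ⟨b, hb, hj, rfl⟩
      exact hc b hb hj
  -- klt
  have hklt : Klt x d (algebraMap R K s0 * (ω d)⁻¹) := by
    intro v hv ⟨b0, hb00, hb01⟩
    obtain ⟨P, hP⟩ := exists_center hzmt hxR hv
    by_contra hcon
    push Not at hcon
    obtain ⟨a, ha0, haL⟩ := hset v P hP 0 (fun b hb hj => by
      have h1 : (1 : ℝ) ≤ (v (hfun d (algebraMap R K s0 * (ω d)⁻¹) b) : ℝ) := by
        exact_mod_cast hcon b hb hj
      have h2 := Real.log_nonneg h1
      linarith only [h2])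
    have hPbot : P ≠ ⊥ := by
      rintro rfl
      obtain ⟨a1, ha1, -⟩ := hxR b0
      rw [← ha1] at hb01 hb00
      have h1 := ((hP a1).2).1 hb01
      rw [Ideal.mem_bot] at h1
      rw [h1, map_zero] at hb00
      exact hb00 rfl
    have h1 := h.klt v P a hP hPbot haL
    linarith
  have hred : ∀ v : Valuation K ℝ≥0, Over x v → ∀ b : IB n K, x.toFun b = 0 →
      ∃ i : Fin n, v (b : K) ≤ v (algebraMap (Pol n) K (MvPolynomial.X i)) := by
    intro v hv b hb
    obtain ⟨P, hP⟩ := exists_center hzmt hxR hv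
    obtain ⟨a, ha, hab⟩ := hxR b
    rcases exists_le_of_reduction (fun f => (hP f).1) hk a (hab.1 hb) with h0 | ⟨i, hi⟩
    · refine ⟨⟨0, by omega⟩, ?_⟩
      rw [← ha, h0, map_zero, map_zero]
      exact zero_le
    · refine ⟨i, ?_⟩
      rw [← ha, IsScalarTower.algebraMap_apply (Pol n) R K]
      exact hi
  have hsing := exists_sing hzmt hxR
    (span_ne_maximal h.residue hess h.dim hreg
      (fun i : Fin n => algebraMap (Pol n) R (MvPolynomial.X i)) hx) hx
  obtain ⟨v, κ, hκ, hv, hA, hcomb⟩ :=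
    Vale.Agent.P282.L2.main hd hn hJ0 hJ hcan hklt hred hsing
  have hcen := hasCenter_maximal hzmt hxR hv
  obtain ⟨a, hale, haL⟩ := hset v _ hcen ((n - 1) * κ) (fun b hb hj => by
    have h1 := hA b hb hj
    rw [Real.toNNReal_le_iff_le_coe] at h1
    have h2 := Real.log_le_log (Real.exp_pos _) h1
    rw [Real.log_exp] at h2
    linarith only [h2])
  have hmbot : maximalIdeal R ≠ ⊥ := by
    intro h0
    have h1 := hx ⟨0, by omega⟩
    rw [h0, Ideal.mem_bot] at h1
    have h2 : algebraMap (Pol n) K (MvPolynomial.X (⟨0, by omega⟩ : Fin n)) = 0 := by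
      rw [IsScalarTower.algebraMap_apply (Pol n) R K, h1, map_zero]
    rw [FaithfulSMul.algebraMap_eq_zero_iff] at h2
    exact MvPolynomial.X_ne_zero _ h2
  have hapos := h.klt v _ a hcen hmbot haL
  refine ⟨v, a, hapos.le, hcen, haL, ?_⟩
  have hvol := vol_le_of_comb hzmt h.residue hxR hv hn1 hκ hcomb
  have hn' : (0 : ℝ) ≤ (n : ℝ) - 1 := by
    have : (1 : ℝ) ≤ n := by exact_mod_cast hn1
    linarith
  calc ENNReal.ofReal a ^ n * vol R n v
      ≤ ENNReal.ofReal ((n - 1) * κ) ^ n * ENNReal.ofReal (2 / κ ^ n) :=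
        mul_le_mul' (pow_le_pow_left' (ENNReal.ofReal_le_ofReal hale) n) hvol
    _ = ENNReal.ofReal (2 * ((n : ℝ) - 1) ^ n) := by
        rw [← ENNReal.ofReal_pow (by (clear * - hn' hκ; positivity)), ← ENNReal.ofReal_mul (by (clear * - hn' hκ; positivity))]
        congr 1
        rw [mul_pow]
        field_simp
    _ = 2 * ((n : ℝ≥0∞) - 1) ^ n := by
        rw [ENNReal.ofReal_mul (by norm_num), ENNReal.ofReal_pow hn',
          ENNReal.ofReal_sub _ (by norm_num)]
        simp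

end

/-- The inequality for germs with `K_X` Cartier. -/
theorem cartier (hn : 2 ≤ n) {ω : (Fin n → Derivation ℂ K K) → K} (h : IsKltGerm R n 1 ω)
    (hreg : ¬ IsRegularLocalRing R) :
    ∃ (v : Valuation K ℝ≥0) (a : ℝ), 0 ≤ a ∧ HasCenter R v (maximalIdeal R) ∧
      IsLogDiscrepancy n 1 ω v a ∧
      ENNReal.ofReal a ^ n * vol R n v ≤ 2 * ((n : ℝ≥0∞) - 1) ^ n := by
  classical
  have hess := h.essFiniteType
  have hnoeth : IsNoetherianRing R := Algebra.EssFiniteType.isNoetherianRing ℂ R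
  obtain ⟨x, hx, k, hk⟩ := Vale.Agent.P282.exists_reduction R h.residue n h.dim
  let _ : Algebra (Pol n) R := (MvPolynomial.aeval x).toAlgebra
  have _ : IsScalarTower ℂ (Pol n) R :=
    IsScalarTower.of_algebraMap_eq fun c => ((MvPolynomial.aeval x).commutes c).symm
  have hX : (fun i : Fin n => algebraMap (Pol n) R (MvPolynomial.X i)) = x := by
    ext i
    show MvPolynomial.aeval x (MvPolynomial.X i) = x i
    rw [MvPolynomial.aeval_X]
  have hxi : ∀ i : Fin n, algebraMap (Pol n) R (MvPolynomial.X i) ∈ maximalIdeal R := fun i => by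
    rw [show algebraMap (Pol n) R (MvPolynomial.X i) = x i from congrFun hX i]
    exact hx i
  have hk' : maximalIdeal R ^ (k + 1) ≤ Ideal.span (Set.range fun i : Fin n =>
      algebraMap (Pol n) R (MvPolynomial.X i)) * maximalIdeal R ^ k := by
    rw [hX]; exact hk
  have hzmt : ∀ a : R, ∃ s : R, IsUnit s ∧ IsIntegral (Pol n) s ∧ IsIntegral (Pol n) (s * a) :=
    fun a => Vale.Agent.P282.zmt h.residue hxi ⟨k + 1, hk'.trans Ideal.mul_le_left⟩ a
  have htb := Vale.Agent.P282.par_transcendenceBasis hzmt h.dim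
  have hinj : Function.Injective (algebraMap (Pol n) R) := by
    have h1 : Function.Injective (MvPolynomial.aeval (R := ℂ) (Vale.Agent.P282.par n R)) := htb.1
    intro p q hpq
    apply h1
    rw [Vale.Agent.P282.aeval_par, Vale.Agent.P282.aeval_par, hpq]
  let F := FractionRing (Pol n)
  let _ : Algebra (Pol n) K := ((algebraMap R K).comp (algebraMap (Pol n) R)).toAlgebra
  have _ : IsScalarTower (Pol n) R K := IsScalarTower.of_algebraMap_eq fun _ => rfl
  have _ : FaithfulSMul (Pol n) R := (faithfulSMul_iff_algebraMap_injective _ _).mpr hinj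
  have _ : FaithfulSMul (Pol n) K := by
    rw [faithfulSMul_iff_algebraMap_injective, IsScalarTower.algebraMap_eq _ R K]
    exact (IsFractionRing.injective R K).comp hinj
  let _ : Algebra F K := FractionRing.liftAlgebra (Pol n) K
  have _ : IsScalarTower (Pol n) F K := FractionRing.isScalarTower_liftAlgebra _ _
  have _ : IsScalarTower ℂ (Pol n) K :=
    IsScalarTower.of_algebraMap_eq fun c => by
      rw [IsScalarTower.algebraMap_apply (Pol n) R K,
        ← IsScalarTower.algebraMap_apply ℂ (Pol n) R, ← IsScalarTower.algebraMap_apply ℂ R K]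
  have _ : IsScalarTower ℂ F K :=
    IsScalarTower.of_algebraMap_eq fun c => by
      rw [IsScalarTower.algebraMap_apply ℂ (Pol n) F,
        ← IsScalarTower.algebraMap_apply (Pol n) F K,
        ← IsScalarTower.algebraMap_apply ℂ (Pol n) K]
  have halgR : Algebra.IsAlgebraic (Pol n) R := by
    constructor
    intro r
    obtain ⟨s, hs1, hs2, hs3⟩ := hzmt r
    exact IsAlgebraic.of_mul (y := s) (hs1.mem_nonZeroDivisors) hs2.isAlgebraic hs3.isAlgebraic
  have halgRK : Algebra.IsAlgebraic R K := IsLocalization.isAlgebraic _ (nonZeroDivisors R)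
  have halgPK : Algebra.IsAlgebraic (Pol n) K := Algebra.IsAlgebraic.trans _ R _
  have halg : Algebra.IsAlgebraic F K :=
    (IsFractionRing.comap_isAlgebraic_iff (A := Pol n) (K := F) (C := K)).mp halgPK
  have hessRK : Algebra.EssFiniteType R K :=
    Algebra.EssFiniteType.of_isLocalization _ (nonZeroDivisors R)
  have hessCK : Algebra.EssFiniteType ℂ K := Algebra.EssFiniteType.comp ℂ R _
  have hessK : Algebra.EssFiniteType F K := Algebra.EssFiniteType.of_comp ℂ F _
  have hfd : FiniteDimensional F K := Algebra.finite_of_essFiniteType_of_isAlgebraic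
  exact cartier_aux hn h hreg hxi ⟨k, hk'⟩

end

end Vale.Agent.P282.Full
end

section

/-!
P282, equality case: from klt germs to the analytic setting.
-/

open scoped NNReal ENNReal Nat WithZero
open IsLocalRing

namespace Vale.Agent.P282.Full

open Vale.Agent.P282.L2 Vale.Agent.P282.EQ

variable {n : ℕ} {R K : Type} [CommRing R] [IsDomain R] [IsLocalRing R] [Algebra ℂ R]
  [Field K] [Algebra ℂ K] [Algebra R K] [IsScalarTower ℂ R K] [IsFractionRing R K]
  [Algebra (Pol n) R] [IsScalarTower ℂ (Pol n) R]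
  [Algebra (Pol n) K] [IsScalarTower (Pol n) R K] [IsScalarTower ℂ (Pol n) K]
  [FaithfulSMul (Pol n) K]
  [Algebra (FractionRing (Pol n)) K] [IsScalarTower (Pol n) (FractionRing (Pol n)) K]
  [FiniteDimensional (FractionRing (Pol n)) K]

/-- The point `x` is the closed point of `Spec R`. -/
structure IsChart (R : Type) {n : ℕ} {K : Type} [CommRing R] [IsLocalRing R] [Field K]
    [Algebra R K] [Algebra (Pol n) R] [Algebra (Pol n) K] (x : Pt n K) : Prop where
  zmt : ∀ a : R, ∃ s : R, IsUnit s ∧ IsIntegral (Pol n) s ∧ IsIntegral (Pol n) (s * a)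
  pt : ∀ b : IB n K, ∃ a : R, algebraMap R K a = (b : K) ∧ (x.toFun b = 0 ↔ a ∈ maximalIdeal R)
  mem : ∀ i : Fin n, algebraMap (Pol n) R (MvPolynomial.X i) ∈ maximalIdeal R
  red : ∃ k : ℕ, maximalIdeal R ^ (k + 1) ≤ Ideal.span (Set.range fun i : Fin n =>
    algebraMap (Pol n) R (MvPolynomial.X i)) * maximalIdeal R ^ k

omit [IsDomain R] [Algebra (Pol n) R] [IsScalarTower (Pol n) R K]
  [Algebra ℂ R] [Algebra ℂ K] [IsScalarTower ℂ R K] [IsScalarTower ℂ (Pol n) R]
  [IsScalarTower ℂ (Pol n) K] [FaithfulSMul (Pol n) K]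
  [Algebra (FractionRing (Pol n)) K] [IsScalarTower (Pol n) (FractionRing (Pol n)) K]
  [FiniteDimensional (FractionRing (Pol n)) K] in
/-- The inclusion of the integral closure in the local ring. -/
theorem chartB_hom {x : Pt n K} (hxR : ∀ b : IB n K, ∃ a : R, algebraMap R K a = (b : K) ∧
    (x.toFun b = 0 ↔ a ∈ maximalIdeal R)) :
    ∃ g : IB n K →+* R, (∀ b, algebraMap R K (g b) = (b : K)) ∧
      ∀ b, x.toFun b = 0 ↔ g b ∈ maximalIdeal R := by
  have hinj : Function.Injective (algebraMap R K) := IsFractionRing.injective R K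
  choose f hf hf' using hxR
  refine ⟨{ toFun := f, map_one' := ?_, map_mul' := ?_, map_zero' := ?_, map_add' := ?_ },
    hf, hf'⟩
  · apply hinj
    rw [hf, map_one]
    rfl
  · intro a b
    apply hinj
    rw [map_mul, hf, hf, hf]
    rfl
  · apply hinj
    rw [hf, map_zero]
    rfl
  · intro a b
    apply hinj
    rw [map_add, hf, hf, hf]
    rfl

omit [IsDomain R] [Algebra ℂ R] [Algebra ℂ K] [IsScalarTower ℂ R K] [IsScalarTower ℂ (Pol n) R]
  [IsScalarTower ℂ (Pol n) K] [FaithfulSMul (Pol n) K]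
  [Algebra (FractionRing (Pol n)) K] [IsScalarTower (Pol n) (FractionRing (Pol n)) K]
  [FiniteDimensional (FractionRing (Pol n)) K] in
/-- The maximal ideal of `x` is integral over the coordinates. -/
theorem chartB_red
    (hzmt : ∀ a : R, ∃ s : R, IsUnit s ∧ IsIntegral (Pol n) s ∧ IsIntegral (Pol n) (s * a))
    {x : Pt n K} (hxR : ∀ b : IB n K, ∃ a : R, algebraMap R K a = (b : K) ∧
      (x.toFun b = 0 ↔ a ∈ maximalIdeal R))
    {k : ℕ} (hk : maximalIdeal R ^ (k + 1) ≤ Ideal.span (Set.range fun i : Fin n =>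
      algebraMap (Pol n) R (MvPolynomial.X i)) * maximalIdeal R ^ k) : Red x (zv n K) := by
  obtain ⟨g, hg, hg'⟩ := chartB_hom hxR
  have hinj : Function.Injective (algebraMap R K) := IsFractionRing.injective R K
  have hginj : Function.Injective g := fun a b hab => by
    apply Subtype.ext
    rw [← hg a, ← hg b, hab]
  let _ : Algebra (IB n K) R := g.toAlgebra
  have halg : ∀ b, algebraMap (IB n K) R b = g b := fun _ => rfl
  have hprime : (kx x).IsPrime := RingHom.ker_isPrime x.toFun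
  have hloc : IsLocalization.AtPrime R (kx x) := by
    refine ⟨?_, ?_, ?_⟩
    · rintro ⟨s, hs⟩
      have h1 : g s ∉ maximalIdeal R := fun h2 => hs (mem_kx.2 ((hg' s).2 h2))
      rw [mem_maximalIdeal, mem_nonunits_iff, not_not] at h1
      exact h1
    · intro z
      obtain ⟨s, hsu, hsi, hsa⟩ := hzmt z
      have h1 : g ⟨algebraMap R K s, hsi.algebraMap⟩ = s := hinj (hg _)
      have h2 : g ⟨algebraMap R K (s * z), hsa.algebraMap⟩ = s * z := hinj (hg _)
      have h5 : (⟨algebraMap R K s, hsi.algebraMap⟩ : IB n K) ∈ (kx x).primeCompl := by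
        intro h3
        have h4 := (hg' _).1 (mem_kx.1 h3)
        rw [h1] at h4
        exact (mem_maximalIdeal s).1 h4 hsu
      refine ⟨⟨⟨algebraMap R K (s * z), hsa.algebraMap⟩,
        ⟨⟨algebraMap R K s, hsi.algebraMap⟩, h5⟩⟩, ?_⟩
      change z * g ⟨algebraMap R K s, hsi.algebraMap⟩ =
        g ⟨algebraMap R K (s * z), hsa.algebraMap⟩
      rw [h1, h2, mul_comm]
    · intro a b hab
      exact ⟨1, by rw [hginj hab]⟩
  have hmap : (kx x).map (algebraMap (IB n K) R) = maximalIdeal R :=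
    IsLocalization.AtPrime.map_eq_maximalIdeal (kx x) R
  have hspan : (Ideal.span (Set.range (zv n K))).map (algebraMap (IB n K) R) =
      Ideal.span (Set.range fun i : Fin n => algebraMap (Pol n) R (MvPolynomial.X i)) := by
    rw [Ideal.map_span, ← Set.range_comp]
    congr 1
    congr 1
    funext i
    apply hinj
    rw [Function.comp_apply, halg, hg, ← IsScalarTower.algebraMap_apply (Pol n) R K]
    rfl
  refine ⟨k, fun a ha => ?_⟩
  have h1 : algebraMap (IB n K) R a ∈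
      (Ideal.span (Set.range (zv n K)) * kx x ^ k).map (algebraMap (IB n K) R) := by
    rw [Ideal.map_mul, Ideal.map_pow, hmap, hspan]
    refine hk ?_
    rw [← hmap, ← Ideal.map_pow]
    exact Ideal.mem_map_of_mem _ ha
  obtain ⟨⟨⟨b, hb⟩, s⟩, hbs⟩ :=
    (IsLocalization.mem_map_algebraMap_iff (kx x).primeCompl R).1 h1
  refine ⟨s, fun h0 => s.2 (mem_kx.2 h0), ?_⟩
  rw [← map_mul] at hbs
  have h2 : a * (s : IB n K) = b := hginj hbs
  rw [mul_comm (s : IB n K) a, h2]
  exact hb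

/-- The analytic data of a klt germ. -/
theorem exists_chart (hn : 2 ≤ n) {ω : (Fin n → Derivation ℂ K K) → K} (h : IsKltGerm R n 1 ω)
    (hreg : ¬ IsRegularLocalRing R)
    (hx : ∀ i : Fin n, algebraMap (Pol n) R (MvPolynomial.X i) ∈ maximalIdeal R)
    (hk : ∃ k : ℕ, maximalIdeal R ^ (k + 1) ≤ Ideal.span (Set.range fun i : Fin n =>
      algebraMap (Pol n) R (MvPolynomial.X i)) * maximalIdeal R ^ k) :
    ∃ (x : Pt n K) (d : Fin n → Derivation ℂ K K) (J : K), IsChart R x ∧ IsPartials d ∧ J ≠ 0 ∧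
      IsIntegral (Pol n) J ∧ Canon x J ∧ Klt x d J ∧ Red x (zv n K) ∧
      (∃ f : IB n K, x.toFun f = 0 ∧ ∀ s : IB n K, x.toFun s ≠ 0 → s * f ∉ zI n K) ∧
      (∀ v : Valuation K ℝ≥0, Centered x v → HasCenter R v (maximalIdeal R)) ∧
      ∀ (v : Valuation K ℝ≥0), HasCenter R v (maximalIdeal R) → ∀ a : ℝ, ALe d J v a →
        ∃ a' : ℝ, 0 < a' ∧ a' ≤ a ∧ IsLogDiscrepancy n 1 ω v a' := by
  have hess := h.essFiniteType
  have hnoeth : IsNoetherianRing R := Algebra.EssFiniteType.isNoetherianRing ℂ R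
  have hn1 : 1 ≤ n := by omega
  have hk2 := hk
  obtain ⟨k, hk⟩ := hk
  have hzmt : ∀ a : R, ∃ s : R, IsUnit s ∧ IsIntegral (Pol n) s ∧ IsIntegral (Pol n) (s * a) :=
    fun a => Vale.Agent.P282.zmt h.residue hx ⟨k + 1, hk.trans Ideal.mul_le_left⟩ a
  obtain ⟨d, hd⟩ := exists_partials n K
  obtain ⟨x, hxR⟩ := exists_point (n := n) (K := K) h.normal h.residue hx
  have hω0 := (form_eval hd h.form).1
  have hinjRK : Function.Injective (algebraMap R K) := IsFractionRing.injective R K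
  obtain ⟨a0, ha0⟩ := jac_mem hn1 hzmt h hd
  obtain ⟨s0, hs0u, hs0i, hs0a⟩ := hzmt a0
  have hs00 : algebraMap R K s0 ≠ 0 := (hs0u.map (algebraMap R K)).ne_zero
  have hJ0 : algebraMap R K s0 * (ω d)⁻¹ ≠ 0 := mul_ne_zero hs00 (inv_ne_zero hω0)
  have hJ : IsIntegral (Pol n) (algebraMap R K s0 * (ω d)⁻¹) := by
    have h1 := hs0a.algebraMap (B := K)
    rwa [map_mul, ha0] at h1
  -- the canonical module
  have hcan : Canon x (algebraMap R K s0 * (ω d)⁻¹) := by
    intro e he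
    obtain ⟨a', ha'⟩ := dual_mem hn1 hzmt h hd e he
    obtain ⟨s, hsu, hsi, hsa⟩ := hzmt (s0 * a')
    refine ⟨⟨algebraMap R K s, hsi.algebraMap⟩, ?_, ?_⟩
    · intro h0
      obtain ⟨a1, ha1, ha1'⟩ := hxR ⟨algebraMap R K s, hsi.algebraMap⟩
      have h1 : a1 = s := hinjRK ha1
      have h2 : s ∈ maximalIdeal R := h1 ▸ ha1'.1 h0
      exact (mem_maximalIdeal s).1 h2 hsu
    · have h1 := hsa.algebraMap (B := K)
      rw [map_mul, map_mul, ha'] at h1
      convert h1 using 1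
      ring
  -- the set of log discrepancies
  have hset : ∀ (v : Valuation K ℝ≥0) (P : Ideal R), HasCenter R v P → ∀ c : ℝ,
      (∀ b : Fin n → K, (∀ i, b i ≠ 0) → jac d b ≠ 0 →
        -Real.log (v (hfun d (algebraMap R K s0 * (ω d)⁻¹) b)) ≤ c) →
      ∃ a : ℝ, a ≤ c ∧ IsLogDiscrepancy n 1 ω v a := by
    intro v P hP c hc
    have hT := logset_eq hd h.form (hP.unit hs0u)
    refine ⟨sSup {t : ℝ | ∃ b : Fin n → K, (∀ i, b i ≠ 0) ∧ jac d b ≠ 0 ∧
      t = -Real.log (v (hfun d (algebraMap R K s0 * (ω d)⁻¹) b))}, ?_, ?_⟩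
    · refine csSup_le (logset_nonempty hd v _) ?_
      rintro t ⟨b, hb, hj, rfl⟩
      exact hc b hb hj
    · unfold IsLogDiscrepancy
      rw [hT]
      refine isLUB_csSup (logset_nonempty hd v _) ⟨c, ?_⟩
      rintro t ⟨b, hb, hj, rfl⟩
      exact hc b hb hj
  -- klt
  have hklt : Klt x d (algebraMap R K s0 * (ω d)⁻¹) := by
    intro v hv ⟨b0, hb00, hb01⟩
    obtain ⟨P, hP⟩ := exists_center hzmt hxR hv
    by_contra hcon
    push Not at hcon
    obtain ⟨a, ha0, haL⟩ := hset v P hP 0 (fun b hb hj => by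
      have h1 : (1 : ℝ) ≤ (v (hfun d (algebraMap R K s0 * (ω d)⁻¹) b) : ℝ) := by
        exact_mod_cast hcon b hb hj
      have h2 := Real.log_nonneg h1
      linarith)
    have hPbot : P ≠ ⊥ := by
      rintro rfl
      obtain ⟨a1, ha1, -⟩ := hxR b0
      rw [← ha1] at hb01 hb00
      have h1 := ((hP a1).2).1 hb01
      rw [Ideal.mem_bot] at h1
      rw [h1, map_zero] at hb00
      exact hb00 rfl
    have h1 := h.klt v P a hP hPbot haL
    linarith
  have hsing := exists_sing hzmt hxR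
    (span_ne_maximal h.residue hess h.dim hreg
      (fun i : Fin n => algebraMap (Pol n) R (MvPolynomial.X i)) hx) hx
  have hmbot : maximalIdeal R ≠ ⊥ := by
    intro h0
    have h1 := hx ⟨0, by omega⟩
    rw [h0, Ideal.mem_bot] at h1
    have h2 : algebraMap (Pol n) K (MvPolynomial.X (⟨0, by omega⟩ : Fin n)) = 0 := by
      rw [IsScalarTower.algebraMap_apply (Pol n) R K, h1, map_zero]
    rw [FaithfulSMul.algebraMap_eq_zero_iff] at h2
    exact MvPolynomial.X_ne_zero _ h2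
  refine ⟨x, d, algebraMap R K s0 * (ω d)⁻¹, ⟨hzmt, hxR, hx, hk2⟩, hd, hJ0, hJ, hcan, hklt,
    chartB_red hzmt hxR hk, hsing, fun v hv => hasCenter_maximal hzmt hxR hv, ?_⟩
  intro v hcen a ha
  obtain ⟨a', ha', haL⟩ := hset v _ hcen a (fun b hb hj => by
    have h1 := ha b hb hj
    rw [Real.toNNReal_le_iff_le_coe] at h1
    have h2 := Real.log_le_log (Real.exp_pos _) h1
    rw [Real.log_exp] at h2
    linarith)
  exact ⟨a', h.klt v _ a' hcen hmbot haL, ha', haL⟩

end Vale.Agent.P282.Full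
end

section

/-!
P282, equality case: the volume bound in the analytic setting.
-/

open scoped NNReal ENNReal Nat WithZero
open IsLocalRing

namespace Vale.Agent.P282.Full

open Vale.Agent.P282.L2 Vale.Agent.P282.EQ

variable {n : ℕ} {R K : Type} [CommRing R] [IsDomain R] [IsLocalRing R] [Algebra ℂ R]
  [Field K] [Algebra ℂ K] [Algebra R K] [IsScalarTower ℂ R K] [IsFractionRing R K]
  [Algebra (Pol n) R] [IsScalarTower ℂ (Pol n) R]
  [Algebra (Pol n) K] [IsScalarTower (Pol n) R K] [IsScalarTower ℂ (Pol n) K]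
  [FaithfulSMul (Pol n) K]
  [Algebra (FractionRing (Pol n)) K] [IsScalarTower (Pol n) (FractionRing (Pol n)) K]
  [FiniteDimensional (FractionRing (Pol n)) K]

/-- The length of the quotient by a valuation ideal is at most the colength in `B`. -/
theorem chartV_length_le {x : Pt n K} (hc : IsChart R x) {v : Valuation K ℝ≥0}
    (hv : Centered x v) (t : ℝ) :
    Module.length R (R ⧸ valIdeal R v t) ≤ (cod (vIdeal hv.1 t) : ℕ) := by
  classical
  have hv1 : ∀ f : R, v (algebraMap R K f) ≤ 1 := fun f => pt_le_one hc.zmt hc.pt hv.1 f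
  refine length_le_of_dep fun g hg => ?_
  choose f hf using fun l => Ideal.Quotient.mk_surjective (g l)
  choose s hs1 hs2 hs3 using hc.zmt
  set u : R := ∏ l, s (f l) with hu
  have huu : IsUnit u := by
    rw [hu]
    exact IsUnit.prod_univ_iff.mpr fun l => hs1 _
  have hui : IsIntegral (Pol n) u := IsIntegral.prod _ fun l _ => hs2 _
  have huf : ∀ l, IsIntegral (Pol n) (u * f l) := by
    intro l
    rw [hu, ← Finset.mul_prod_erase _ _ (Finset.mem_univ l)]
    have h1 : s (f l) * (∏ x ∈ Finset.univ.erase l, s (f x)) * f l =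
        (∏ x ∈ Finset.univ.erase l, s (f x)) * (s (f l) * f l) := by ring
    rw [h1]
    exact (IsIntegral.prod _ fun l _ => hs2 _).mul (hs3 _)
  obtain ⟨c, hc0, hcm⟩ := dep_of_cod x (vIdeal_prim hv t) (Nat.lt_succ_self _)
    fun l => ⟨algebraMap R K (u * f l), isIntegral_map (huf l)⟩
  rw [mem_vIdeal] at hcm
  have h2 : ((∑ l, algebraMap (Pol n) (IB n K) (MvPolynomial.C (c l)) *
      (⟨algebraMap R K (u * f l), isIntegral_map (huf l)⟩ : IB n K) : IB n K) : K) =
      algebraMap R K u * algebraMap R K (∑ l, algebraMap ℂ R (c l) * f l) := by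
    rw [map_sum, Finset.mul_sum, AddSubmonoidClass.coe_finset_sum]
    refine Finset.sum_congr rfl fun l _ => ?_
    have h3 : ((algebraMap (Pol n) (IB n K) (MvPolynomial.C (c l)) : IB n K) : K) =
        algebraMap R K (algebraMap ℂ R (c l)) := by
      rw [← IsScalarTower.algebraMap_apply ℂ R K, IsScalarTower.algebraMap_apply ℂ (Pol n) K]
      rfl
    change ((algebraMap (Pol n) (IB n K) (MvPolynomial.C (c l)) : IB n K) : K) *
      algebraMap R K (u * f l) = _
    rw [h3, map_mul, map_mul]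
    ring
  rw [h2, map_mul, pt_unit hc.pt hv.1 huu hui, one_mul] at hcm
  have h5 : (∑ l, algebraMap ℂ R (c l) * f l) ∈ valIdeal R v t := by
    rw [mem_valIdeal hv1]
    have h6 := NNReal.coe_le_coe.mpr hcm
    rwa [Real.coe_toNNReal _ (Real.exp_pos _).le] at h6
  rw [Fintype.linearIndependent_iff] at hg
  have h6 : ∑ l, c l • g l = 0 := by
    rw [← Ideal.Quotient.eq_zero_iff_mem, map_sum] at h5
    rw [← h5]
    refine Finset.sum_congr rfl fun l _ => ?_
    rw [map_mul, hf, Algebra.smul_def]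
    rfl
  exact hc0 (funext fun l => hg c h6 l)

/-- The volume bound in the analytic setting. -/
theorem volGe_of_nVolGe (hn : 2 ≤ n) {ω : (Fin n → Derivation ℂ K K) → K}
    (h : IsKltGerm R n 1 ω) {V : ℝ} (hV0 : 0 ≤ V) (hV : NVolGe R n 1 ω (ENNReal.ofReal V))
    {x : Pt n K} {d : Fin n → Derivation ℂ K K} {J : K} (hc : IsChart R x)
    (hcen : ∀ v : Valuation K ℝ≥0, Centered x v → HasCenter R v (maximalIdeal R))
    (hA : ∀ (v : Valuation K ℝ≥0), HasCenter R v (maximalIdeal R) → ∀ a : ℝ, ALe d J v a →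
      ∃ a' : ℝ, 0 < a' ∧ a' ≤ a ∧ IsLogDiscrepancy n 1 ω v a') : VolGe x d J V := by
  intro v hv a ha hALe ε hε
  obtain ⟨a', ha'0, ha'a, hLD⟩ := hA v (hcen v hv) a hALe
  have h1 : ENNReal.ofReal V ≤ ENNReal.ofReal a ^ n * volI R n v :=
    (hV v a' (hcen v hv) hLD).trans
      (mul_le_mul' (pow_le_pow_left' (ENNReal.ofReal_le_ofReal ha'a) n) le_rfl)
  rcases le_or_gt (V - ε) 0 with hVε | hVε
  · refine Filter.Eventually.of_forall fun t => ?_
    have h2 : (V - ε) * (t : ℝ) ^ n ≤ 0 := mul_nonpos_of_nonpos_of_nonneg hVε (by positivity)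
    exact h2.trans (by (clear * - hv ha; positivity))
  have han : (0 : ℝ) < a ^ n := pow_pos ha n
  have h2 : ENNReal.ofReal ((V - ε) / a ^ n) < volI R n v := by
    by_contra hcon
    rw [not_lt] at hcon
    have h3 : ENNReal.ofReal V ≤ ENNReal.ofReal (V - ε) := by
      refine h1.trans ((mul_le_mul' le_rfl hcon).trans ?_)
      rw [← ENNReal.ofReal_pow ha.le, ← ENNReal.ofReal_mul han.le, mul_div_cancel₀ _ han.ne']
    have h4 := (ENNReal.ofReal_le_ofReal_iff hVε.le).1 h3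
    linarith
  have h3 := Filter.eventually_lt_of_lt_liminf h2
  filter_upwards [h3, Filter.eventually_ge_atTop 1] with t ht ht1
  have ht0 : (0 : ℝ) < t := by exact_mod_cast ht1
  have h4 : (Module.length R (R ⧸ valIdeal R v (t : ℝ)) : ℝ≥0∞) ≤
      ((cod (vIdeal hv.1 (t : ℝ)) : ℕ) : ℝ≥0∞) := by
    have := ENat.toENNReal_le.mpr (chartV_length_le hc hv (t : ℝ))
    simpa using this
  have h5 : ENNReal.ofReal ((V - ε) / a ^ n) <
      ENNReal.ofReal ((n ! : ℝ) * (cod (vIdeal hv.1 (t : ℝ)) : ℝ) / (t : ℝ) ^ n) := by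
    refine ht.trans_le ?_
    rw [ENNReal.ofReal_div_of_pos (by positivity), ENNReal.ofReal_mul (by positivity),
      ENNReal.ofReal_natCast, ENNReal.ofReal_natCast, ENNReal.ofReal_pow ht0.le,
      ENNReal.ofReal_natCast]
    exact ENNReal.div_le_div_right (mul_le_mul' le_rfl h4) _
  have h6 := (ENNReal.ofReal_lt_ofReal_iff_of_nonneg (by positivity)).1 h5
  have htn : (0 : ℝ) < (t : ℝ) ^ n := pow_pos ht0 n
  rw [div_lt_div_iff₀ han htn] at h6
  calc (V - ε) * (t : ℝ) ^ n ≤ (n ! : ℝ) * (cod (vIdeal hv.1 (t : ℝ)) : ℝ) * a ^ n := h6.le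
    _ = a ^ n * (n.factorial * (cod (vIdeal hv.1 (t : ℝ)) : ℝ)) := by ring

end Vale.Agent.P282.Full
end

section

/-!
P282, equality case: approximation and separation.
-/

open scoped NNReal ENNReal Nat WithZero
open IsLocalRing

namespace Vale.Agent.P282.Full

open Vale.Agent.P282.L2 Vale.Agent.P282.EQ

set_option linter.unusedSectionVars false
set_option linter.unusedVariables false

variable {n : ℕ} {R K : Type} [CommRing R] [IsDomain R] [IsLocalRing R] [Algebra ℂ R]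
  [Field K] [Algebra ℂ K] [Algebra R K] [IsScalarTower ℂ R K] [IsFractionRing R K]
  [Algebra (Pol n) R] [IsScalarTower ℂ (Pol n) R]
  [Algebra (Pol n) K] [IsScalarTower (Pol n) R K] [IsScalarTower ℂ (Pol n) K]
  [FaithfulSMul (Pol n) K]
  [Algebra (FractionRing (Pol n)) K] [IsScalarTower (Pol n) (FractionRing (Pol n)) K]
  [FiniteDimensional (FractionRing (Pol n)) K]

/-- Elements of `R` are elements of the integral closure modulo `m ^ 2`. -/
theorem exists_approx_ib [IsNoetherianRing R]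
    (hres : Function.Surjective (algebraMap ℂ (ResidueField R))) {x : Pt n K} (hc : IsChart R x)
    (a : R) : ∃ (b : IB n K) (μ : R), μ ∈ maximalIdeal R ^ 2 ∧
      algebraMap R K a = (b : K) + algebraMap R K μ := by
  obtain ⟨s, hsu, hs, hsa⟩ := hc.zmt a
  have hinj : Function.Injective (algebraMap R K) := IsFractionRing.injective R K
  have hs1 : IsIntegral (Pol n) (algebraMap R K s) := hs.algebraMap
  have hsa1 : IsIntegral (Pol n) (algebraMap R K (s * a)) := hsa.algebraMap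
  let s' : IB n K := ⟨algebraMap R K s, hs1⟩
  let b' : IB n K := ⟨algebraMap R K (s * a), hsa1⟩
  have hxs : x.toFun s' ≠ 0 := by
    obtain ⟨a1, h1, h2⟩ := hc.pt s'
    have h3 : a1 = s := hinj h1
    intro h0
    have := h2.1 h0
    rw [h3] at this
    exact (mem_maximalIdeal s).1 this hsu
  let c : IB n K := algebraMap (Pol n) (IB n K) (MvPolynomial.C (x.toFun s')⁻¹)
  have hxc : x.toFun c = (x.toFun s')⁻¹ := by
    change x.toFun (algebraMap (Pol n) (IB n K) (MvPolynomial.C (x.toFun s')⁻¹)) = _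
    rw [x.map_alg, MvPolynomial.eval_C]
  have hw : x.toFun (1 - c * s') = 0 := by
    rw [map_sub, map_mul, map_one, hxc, inv_mul_cancel₀ hxs, sub_self]
  obtain ⟨a2, h1, h2⟩ := hc.pt (1 - c * s')
  refine ⟨c * (2 - c * s') * b', a * a2 ^ 2, ?_, ?_⟩
  · exact Ideal.mul_mem_left _ _ (Ideal.pow_mem_pow (h2.1 hw) 2)
  · rw [map_mul, map_pow, h1]
    have e1 : ((c * (2 - c * s') * b' : IB n K) : K) =
        (c : K) * (2 - (c : K) * algebraMap R K s) * (algebraMap R K s * algebraMap R K a) := by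
      change (c : K) * (2 - (c : K) * algebraMap R K s) * (algebraMap R K (s * a)) = _
      rw [map_mul]
    have e2 : ((1 - c * s' : IB n K) : K) = 1 - (c : K) * algebraMap R K s := rfl
    rw [e1, e2]
    ring

theorem chs_fin_abs {B : Type} [CommRing B] (I : Ideal B) (h : IsArtinianRing (B ⧸ I))
    (S : Set (B →+* ℂ)) (hS : ∀ f ∈ S, ∀ b ∈ I, f b = 0)
    (hK : ∀ f ∈ S, ∀ g ∈ S, RingHom.ker f = RingHom.ker g → f = g) : S.Finite := by
  have h1 := IsArtinianRing.setOfPred_isPrime_finite (B ⧸ I)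
  have h2 : ((fun f : B →+* ℂ => RingHom.ker f) '' S).Finite := by
    refine (h1.image (Ideal.comap (Ideal.Quotient.mk I))).subset ?_
    rintro _ ⟨f, hf, rfl⟩
    refine ⟨RingHom.ker (Ideal.Quotient.lift I f (hS f hf)), RingHom.ker_isPrime _, ?_⟩
    ext b
    rw [Ideal.mem_comap, RingHom.mem_ker, Ideal.Quotient.lift_mk]
    exact RingHom.mem_ker.symm
  exact Set.Finite.of_finite_image h2 fun f hf g hg hfg => hK f hf g hg hfg

omit [Algebra (FractionRing (Pol n)) K] [IsScalarTower (Pol n) (FractionRing (Pol n)) K]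
  [FiniteDimensional (FractionRing (Pol n)) K] in
/-- Two points with comparable kernels are equal. -/
theorem chs_eq_of_le {x1 x2 : Pt n K} (h : kx x1 ≤ kx x2) : x2.toFun = x1.toFun := by
  ext b
  have h2 : b - algebraMap (Pol n) (IB n K) (MvPolynomial.C (x1.toFun b)) ∈ kx x1 := by
    rw [mem_kx, map_sub, x1.map_alg, MvPolynomial.eval_C, sub_self]
  have h3 := h h2
  rw [mem_kx, map_sub, x2.map_alg, MvPolynomial.eval_C, sub_eq_zero] at h3
  exact h3

/-- The points over the origin are finitely many. -/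
theorem chs_finite : (Set.range fun x' : Pt n K => x'.toFun).Finite := by
  refine chs_fin_abs (zI n K) Prim.nbh_artinian _ ?_ ?_
  · rintro _ ⟨x', rfl⟩ b hb
    have : zI n K ≤ RingHom.ker x'.toFun := by
      rw [Ideal.span_le]
      rintro _ ⟨i, rfl⟩
      change x'.toFun _ = 0
      rw [x'.map_alg, MvPolynomial.eval_X]; rfl
    exact this hb
  · rintro _ ⟨x1, rfl⟩ _ ⟨x2, rfl⟩ h
    exact (chs_eq_of_le (x1 := x1) (x2 := x2) h.le).symm

/-- An element of the integral closure that separates `x` from the other points. -/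
theorem exists_sep (x : Pt n K) (y : IB n K) (hy : x.toFun y = 0) : ∃ y' : IB n K,
    y' - y ∈ kx x ^ 2 ∧ ∀ x' : Pt n K, x'.toFun y' = 0 → x'.toFun = x.toFun := by
  classical
  let T : Set (IB n K →+* ℂ) := {g | g ∈ (Set.range fun x' : Pt n K => x'.toFun) ∧ g ≠ x.toFun}
  have hT : T.Finite := (chs_finite (n := n) (K := K)).subset fun g h => h.1
  have hw : ∃ w : IB n K, w ∈ kx x ^ 2 ∧ ∀ g ∈ T, g w ≠ 0 := by
    by_contra hcon
    push Not at hcon
    have hsub : ((kx x ^ 2 : Ideal (IB n K)) : Set (IB n K)) ⊆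
        ⋃ g ∈ (hT.toFinset : Set (IB n K →+* ℂ)), ((RingHom.ker g : Ideal (IB n K)) :
          Set (IB n K)) := by
      intro w hw
      obtain ⟨g, hg, h0⟩ := hcon w hw
      simp only [Set.mem_iUnion]
      exact ⟨g, by simpa using hg, h0⟩
    have := (Ideal.subset_union_prime (s := hT.toFinset) (f := fun g : IB n K →+* ℂ =>
      RingHom.ker g) x.toFun x.toFun (fun g _ _ _ => RingHom.ker_isPrime g)).1 hsub
    obtain ⟨g, hg, hle⟩ := this
    have hg' : g ∈ T := by simpa using hg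
    obtain ⟨⟨x', rfl⟩, hne⟩ := hg'
    have hp : (kx x').IsPrime := RingHom.ker_isPrime _
    have h1 : kx x ≤ kx x' := hp.le_of_pow_le hle
    exact hne (chs_eq_of_le h1)
  obtain ⟨w, hw2, hwT⟩ := hw
  have hbad : ((fun g : IB n K →+* ℂ => -(g y) / g w) '' T).Finite := hT.image _
  obtain ⟨t, ht⟩ := hbad.infinite_compl.nonempty
  have hwx : x.toFun w = 0 := by
    have : w ∈ kx x := Ideal.pow_le_self (by norm_num) hw2
    exact mem_kx.1 this
  refine ⟨y + algebraMap (Pol n) (IB n K) (MvPolynomial.C t) * w, ?_, ?_⟩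
  · rw [add_sub_cancel_left]
    exact Ideal.mul_mem_left _ _ hw2
  · intro x' h0
    by_contra hne
    have hx'T : x'.toFun ∈ T := ⟨⟨x', rfl⟩, hne⟩
    rw [map_add, map_mul, x'.map_alg, MvPolynomial.eval_C] at h0
    apply ht
    refine ⟨x'.toFun, hx'T, ?_⟩
    have := hwT _ hx'T
    change -(x'.toFun y) / x'.toFun w = t
    rw [div_eq_iff this]
    linear_combination -h0

end Vale.Agent.P282.Full
end

section

set_option linter.all false

/-!
P282-EQ-4: the limit ideals `c^{(t₁,t₂)}` of a general ultrafilter of pairs.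
-/

open MeasureTheory Filter Topology
open scoped ENNReal NNReal ComplexConjugate

namespace Vale.Agent.P282.EQ

open Vale.Agent.P282.L2

variable {n N : ℕ} {K : Type} [Field K] [Algebra ℂ K] [Algebra (Pol n) K]
  [IsScalarTower ℂ (Pol n) K] [FaithfulSMul (Pol n) K]
  [Algebra (FractionRing (Pol n)) K] [IsScalarTower (Pol n) (FractionRing (Pol n)) K]
  [FiniteDimensional (FractionRing (Pol n)) K]

variable {E : Prim n K} {S : Sheets n N} {x : Pt n K} {U : Ultrafilter (Pairs n)}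

theorem LimGen_fst (hU : GPairs E S x U) : ∀ᶠ u in (U : Filter (Pairs n)), u.1 ∈ S.M :=
  hU.fst (Prim.M_mem_nhd E S x)

theorem LimGen_snd (hU : GPairs E S x U) : ∀ᶠ u in (U : Filter (Pairs n)), u.2 ∈ S.M :=
  hU.snd (Prim.M_mem_nhd E S x)

theorem LimGen_ev_fst (hU : GPairs E S x U) (b : IB n K) :
    Tendsto (fun u : Pairs n => E.ev (b : K) u.1) (U : Filter (Pairs n)) (𝓝 (x.toFun b)) :=
  (Prim.tendsto_ev_nhd E S x b).comp hU.fst

theorem LimGen_ev_snd (hU : GPairs E S x U) (b : IB n K) :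
    Tendsto (fun u : Pairs n => E.ev (b : K) u.2) (U : Filter (Pairs n)) (𝓝 (x.toFun b)) :=
  (Prim.tendsto_ev_nhd E S x b).comp hU.snd

theorem LimGen_of_fintype {m₁ m₂ : ℕ} {b : IB n K} {ι : Type*} [Fintype ι] (e : ι → IB n K)
    (c : Pairs n → ι → ℂ) (c₀ : ι → ℂ)
    (ht : ∀ i, Tendsto (fun u => c u i) (U : Filter (Pairs n)) (𝓝 (c₀ i)))
    (hb : b = ∑ i, LimAux.kc n K (c₀ i) * e i)
    (hv : ∀ᶠ u in (U : Filter (Pairs n)), E.Van m₁ u.1 (∑ i, LimAux.kc n K (c u i) * e i) ∧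
      E.Van m₂ u.2 (∑ i, LimAux.kc n K (c u i) * e i)) : Lim2 E U m₁ m₂ b := by
  have hs : ∀ a : ι → ℂ, ∑ l, algebraMap (Pol n) (IB n K)
      (MvPolynomial.C (a ((Fintype.equivFin ι).symm l))) * e ((Fintype.equivFin ι).symm l)
      = ∑ i, LimAux.kc n K (a i) * e i := fun a =>
    Equiv.sum_comp (Fintype.equivFin ι).symm (fun i => LimAux.kc n K (a i) * e i)
  refine ⟨Fintype.card ι, fun l => e ((Fintype.equivFin ι).symm l),
    fun u l => c u ((Fintype.equivFin ι).symm l), fun l => c₀ ((Fintype.equivFin ι).symm l),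
    ?_, ?_, ?_⟩
  · rw [tendsto_pi_nhds]
    exact fun l => ht _
  · rw [hs, hb]
  · filter_upwards [hv] with u hu
    rw [hs]
    exact hu

theorem LimGen_of_poly {m₁ m₂ : ℕ} (d : ℕ) (P : Pairs n → Polynomial ℂ) (P₀ : Polynomial ℂ)
    (hd : ∀ u, (P u).natDegree < d) (hd0 : P₀.natDegree < d)
    (ht : ∀ k, Tendsto (fun u => (P u).coeff k) (U : Filter (Pairs n)) (𝓝 (P₀.coeff k)))
    (s : IB n K)
    (hv : ∀ᶠ u in (U : Filter (Pairs n)), E.Van m₁ u.1 ((P u).eval₂ (LimAux.kc n K) s) ∧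
      E.Van m₂ u.2 ((P u).eval₂ (LimAux.kc n K) s)) :
    Lim2 E U m₁ m₂ (P₀.eval₂ (LimAux.kc n K) s) := by
  refine LimGen_of_fintype (ι := Fin d) (fun i => s ^ (i : ℕ)) (fun u i => (P u).coeff i)
    (fun i => P₀.coeff i) (fun i => ht i) ?_ ?_
  · rw [Polynomial.eval₂_eq_sum_range' _ hd0, Finset.sum_range]
  · filter_upwards [hv] with u hu
    rw [Polynomial.eval₂_eq_sum_range' _ (hd u), Finset.sum_range] at hu
    exact hu

theorem LimGen_zero (hS : E.IsSheets S) (hU : GPairs E S x U) (m₁ m₂ : ℕ) :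
    Lim2 E U m₁ m₂ 0 := by
  refine LimGen_of_fintype (ι := Empty) (fun i => i.elim) (fun _ i => i.elim) (fun i => i.elim)
    (fun i => i.elim) (by simp) ?_
  filter_upwards [LimGen_fst hU, LimGen_snd hU] with u h1 h2
  simp only [Finset.univ_eq_empty, Finset.sum_empty]
  exact ⟨LimAux.van_zero hS h1, LimAux.van_zero hS h2⟩

theorem LimGen_add (hS : E.IsSheets S) (hU : GPairs E S x U) {m₁ m₂ : ℕ} {b c : IB n K}
    (hb : Lim2 E U m₁ m₂ b) (hc : Lim2 E U m₁ m₂ c) : Lim2 E U m₁ m₂ (b + c) := by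
  obtain ⟨r, e, a, a₀, ha, rfl, hv⟩ := hb
  obtain ⟨r', e', a', a₀', ha', rfl, hv'⟩ := hc
  rw [tendsto_pi_nhds] at ha ha'
  refine LimGen_of_fintype (ι := Fin r ⊕ Fin r') (Sum.elim e e')
    (fun u => Sum.elim (a u) (a' u)) (Sum.elim a₀ a₀') ?_ ?_ ?_
  · rintro (i | i)
    · exact ha i
    · exact ha' i
  · rw [Fintype.sum_sum_type]
    rfl
  · filter_upwards [hv, hv', LimGen_fst hU, LimGen_snd hU] with u h h' h1 h2
    rw [Fintype.sum_sum_type]
    exact ⟨LimAux.van_add hS h1 h.1 h'.1, LimAux.van_add hS h2 h.2 h'.2⟩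

theorem LimGen_mul_left {m₁ m₂ : ℕ} {b : IB n K} (c : IB n K) (hb : Lim2 E U m₁ m₂ b) :
    Lim2 E U m₁ m₂ (c * b) := by
  obtain ⟨r, e, a, a₀, ha, rfl, hv⟩ := hb
  rw [tendsto_pi_nhds] at ha
  have hs : ∀ a : Fin r → ℂ, ∑ i, LimAux.kc n K (a i) * (c * e i)
      = c * ∑ l, algebraMap (Pol n) (IB n K) (MvPolynomial.C (a l)) * e l := by
    intro a
    rw [Finset.mul_sum]
    refine Finset.sum_congr rfl fun i _ => ?_
    rw [LimAux.kc_def]
    ring
  refine LimGen_of_fintype (ι := Fin r) (fun i => c * e i) a a₀ ha ?_ ?_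
  · rw [hs]
  · filter_upwards [hv] with u h
    rw [hs]
    exact ⟨LimAux.van_mul_left c h.1, LimAux.van_mul_left c h.2⟩

theorem LimGen_mono {m₁ m₂ l₁ l₂ : ℕ} (h₁ : l₁ ≤ m₁) (h₂ : l₂ ≤ m₂) {b : IB n K}
    (hb : Lim2 E U m₁ m₂ b) : Lim2 E U l₁ l₂ b := by
  obtain ⟨r, e, a, a₀, ha, hb, hv⟩ := hb
  refine ⟨r, e, a, a₀, ha, hb, ?_⟩
  filter_upwards [hv] with u hu
  exact ⟨LimAux.van_mono h₁ hu.1, LimAux.van_mono h₂ hu.2⟩

theorem LimGen_mul (hS : E.IsSheets S) (hU : GPairs E S x U) {m₁ m₂ l₁ l₂ : ℕ} {b c : IB n K}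
    (hb : Lim2 E U m₁ m₂ b) (hc : Lim2 E U l₁ l₂ c) :
    Lim2 E U (m₁ + l₁) (m₂ + l₂) (b * c) := by
  obtain ⟨r, e, a, a₀, ha, rfl, hv⟩ := hb
  obtain ⟨r', e', a', a₀', ha', rfl, hv'⟩ := hc
  rw [tendsto_pi_nhds] at ha ha'
  have hs : ∀ (a : Fin r → ℂ) (a' : Fin r' → ℂ),
      ∑ i : Fin r × Fin r', LimAux.kc n K (a i.1 * a' i.2) * (e i.1 * e' i.2)
      = (∑ l, algebraMap (Pol n) (IB n K) (MvPolynomial.C (a l)) * e l)
        * ∑ l, algebraMap (Pol n) (IB n K) (MvPolynomial.C (a' l)) * e' l := by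
    intro a a'
    rw [Finset.sum_mul_sum, Fintype.sum_prod_type]
    refine Finset.sum_congr rfl fun i _ => Finset.sum_congr rfl fun j _ => ?_
    rw [map_mul, LimAux.kc_def, LimAux.kc_def]
    ring
  refine LimGen_of_fintype (ι := Fin r × Fin r') (fun i => e i.1 * e' i.2)
    (fun u i => a u i.1 * a' u i.2) (fun i => a₀ i.1 * a₀' i.2) (fun i => (ha _).mul (ha' _))
    ?_ ?_
  · rw [hs]
  · filter_upwards [hv, hv', LimGen_fst hU, LimGen_snd hU] with u h h' h1 h2
    rw [hs]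
    exact ⟨LimAux.van_mul hS h1 h.1 h'.1, LimAux.van_mul hS h2 h.2 h'.2⟩

theorem LimGen_pow (hS : E.IsSheets S) (hU : GPairs E S x U) (m₁ m₂ : ℕ) {s : IB n K}
    (hs : x.toFun s = 0) : Lim2 E U m₁ m₂ (s ^ (m₁ + m₂)) := by
  have ht1 : Tendsto (fun u : Pairs n => E.ev (s : K) u.1) (U : Filter (Pairs n)) (𝓝 0) := by
    have h1 := LimGen_ev_fst hU s
    rwa [hs] at h1
  have ht2 : Tendsto (fun u : Pairs n => E.ev (s : K) u.2) (U : Filter (Pairs n)) (𝓝 0) := by
    have h1 := LimGen_ev_snd hU s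
    rwa [hs] at h1
  have hdeg : ∀ a b : ℂ, ((Polynomial.X - Polynomial.C a) ^ m₁ *
      (Polynomial.X - Polynomial.C b) ^ m₂ : Polynomial ℂ).natDegree < m₁ + m₂ + 1 := by
    intro a b
    rw [Polynomial.natDegree_mul (pow_ne_zero _ (Polynomial.X_sub_C_ne_zero _))
      (pow_ne_zero _ (Polynomial.X_sub_C_ne_zero _)), Polynomial.natDegree_pow,
      Polynomial.natDegree_pow, Polynomial.natDegree_X_sub_C, Polynomial.natDegree_X_sub_C]
    omega
  have key := LimGen_of_poly (E := E) (U := U) (m₁ := m₁) (m₂ := m₂) (m₁ + m₂ + 1)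
    (fun u => (Polynomial.X - Polynomial.C (E.ev (s : K) u.1)) ^ m₁ *
      (Polynomial.X - Polynomial.C (E.ev (s : K) u.2)) ^ m₂)
    ((Polynomial.X - Polynomial.C 0) ^ m₁ * (Polynomial.X - Polynomial.C 0) ^ m₂)
    (fun u => hdeg _ _) (hdeg _ _)
    (((LimAux.CT.lin ht1).pow m₁).mul ((LimAux.CT.lin ht2).pow m₂)) s ?_
  · have e : ((Polynomial.X - Polynomial.C (0 : ℂ)) ^ m₁ *
        (Polynomial.X - Polynomial.C 0) ^ m₂).eval₂ (LimAux.kc n K) s = s ^ (m₁ + m₂) := by
      rw [Polynomial.eval₂_mul, Polynomial.eval₂_pow, Polynomial.eval₂_pow]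
      simp only [map_zero, sub_zero, Polynomial.eval₂_X]
      rw [pow_add]
    rwa [e] at key
  · filter_upwards [LimGen_fst hU, LimGen_snd hU] with u h1 h2
    have e : ((Polynomial.X - Polynomial.C (E.ev (s : K) u.1)) ^ m₁ *
        (Polynomial.X - Polynomial.C (E.ev (s : K) u.2)) ^ m₂).eval₂ (LimAux.kc n K) s
        = (s - LimAux.kc n K (E.ev (s : K) u.1)) ^ m₁ *
          (s - LimAux.kc n K (E.ev (s : K) u.2)) ^ m₂ := by
      rw [Polynomial.eval₂_mul, Polynomial.eval₂_pow, Polynomial.eval₂_pow]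
      simp [Polynomial.eval₂_sub]
    rw [e]
    constructor
    · rw [mul_comm]
      exact LimAux.van_mul_left _ (LimAux.van_pow hS h1 (LimAux.ev_sub_kc hS h1 s) m₁)
    · exact LimAux.van_mul_left _ (LimAux.van_pow hS h2 (LimAux.ev_sub_kc hS h2 s) m₂)

/-- The limit ideals. -/
theorem exists_limI (hS : E.IsSheets S) (hU : GPairs E S x U) (m₁ m₂ : ℕ) :
    ∃ I : Ideal (IB n K), ∀ b, b ∈ I ↔ Lim2 E U m₁ m₂ b :=
  ⟨{ carrier := {b | Lim2 E U m₁ m₂ b}
     zero_mem' := LimGen_zero hS hU m₁ m₂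
     add_mem' := fun ha hb => LimGen_add hS hU ha hb
     smul_mem' := fun c _ hb => LimGen_mul_left c hb }, fun _ => Iff.rfl⟩

/-- The limit ideal `c^{(m₁,m₂)}`. -/
noncomputable def limI (hS : E.IsSheets S) (hU : GPairs E S x U) (m₁ m₂ : ℕ) :
    Ideal (IB n K) := (exists_limI hS hU m₁ m₂).choose

theorem mem_limI (hS : E.IsSheets S) (hU : GPairs E S x U) {m₁ m₂ : ℕ} {b : IB n K} :
    b ∈ limI hS hU m₁ m₂ ↔ Lim2 E U m₁ m₂ b := (exists_limI hS hU m₁ m₂).choose_spec b

theorem limI_mul (hS : E.IsSheets S) (hU : GPairs E S x U) (m₁ m₂ l₁ l₂ : ℕ) :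
    limI hS hU m₁ m₂ * limI hS hU l₁ l₂ ≤ limI hS hU (m₁ + l₁) (m₂ + l₂) := by
  rw [Ideal.mul_le]
  intro a ha b hb
  rw [mem_limI] at ha hb ⊢
  exact LimGen_mul hS hU ha hb

theorem limI_prim (hS : E.IsSheets S) (hU : GPairs E S x U) (m₁ m₂ : ℕ) :
    ∃ L, kx x ^ L ≤ limI hS hU m₁ m₂ := by
  have hnoeth : IsNoetherianRing (IB n K) := ib_noetherian
  refine Ideal.exists_pow_le_of_le_radical_of_fg ?_ (IsNoetherian.noetherian (kx x))
  intro s hs
  refine ⟨m₁ + m₂, ?_⟩
  rw [mem_limI]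
  exact LimGen_pow hS hU m₁ m₂ (mem_kx.1 hs)

/-- Vanishing to order `m` at one point is `choose (n + m - 1) n` linear conditions. -/
theorem LimGen_pt (hS : E.IsSheets S) (hn : 0 < n) (m : ℕ) {q : (Fin n → ℂ) × ℂ}
    (hq : q ∈ S.M) {D : ℕ} (f : Fin D → IB n K) :
    ∃ (ι : Type) (_ : Fintype ι) (g : ι → IB n K) (v : Fin D → IB n K),
      Fintype.card ι = Nat.choose (n + m - 1) n ∧
      (∀ l, v l ∈ Submodule.span ℂ (Set.range g)) ∧
      ∀ c : Fin D → ℂ, ∑ l, c l • v l = 0 →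
        E.Van m q (∑ l, algebraMap (Pol n) (IB n K) (MvPolynomial.C (c l)) * f l) := by
  rcases m with _ | k
  · refine ⟨Empty, inferInstance, fun i => i.elim, fun _ => 0, ?_,
      fun l => Submodule.zero_mem _, fun c _ => Prim.van_zero hS hq _⟩
    rw [Nat.choose_eq_zero_of_lt (by omega)]
    rfl
  · obtain ⟨e, he, hu⟩ := Prim.exists_unram hS hq
    choose v hv hm using fun l => Prim.vn_exp hS hq hu k (f l)
    refine ⟨Sym (Option (Fin n)) k, inferInstance, Prim.vnMon e q.1 k, v, ?_, hv, fun c hc => ?_⟩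
    · rw [Prim.vn_card]
      rfl
    · refine ⟨e ^ (k + 1), ?_, ?_⟩
      · rw [← Prim.vnEv_apply hS hq, map_pow]
        exact pow_ne_zero _ he
      · have h1 : e ^ (k + 1) * ∑ l, algebraMap (Pol n) (IB n K) (MvPolynomial.C (c l)) * f l
            = ∑ l, algebraMap (Pol n) (IB n K) (MvPolynomial.C (c l))
                * (e ^ (k + 1) * f l - v l) := by
          have h2 : ∑ l, algebraMap (Pol n) (IB n K) (MvPolynomial.C (c l)) * v l = 0 := by
            rw [← hc]
            apply Finset.sum_congr rfl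
            intro l _
            rw [Prim.vn_smul]
          rw [Finset.mul_sum, ← sub_zero (∑ l, e ^ (k + 1) *
            (algebraMap (Pol n) (IB n K) (MvPolynomial.C (c l)) * f l)), ← h2,
            ← Finset.sum_sub_distrib]
          apply Finset.sum_congr rfl
          intro l _
          ring
        rw [h1]
        apply Ideal.sum_mem
        intro l _
        exact Ideal.mul_mem_left _ _ (hm l)

theorem LimGen_van_comb (hS : E.IsSheets S) (hn : 0 < n) {m₁ m₂ D : ℕ}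
    (hD : Nat.choose (n + m₁ - 1) n + Nat.choose (n + m₂ - 1) n < D)
    {q₁ q₂ : (Fin n → ℂ) × ℂ} (h₁ : q₁ ∈ S.M) (h₂ : q₂ ∈ S.M) (f : Fin D → IB n K) :
    ∃ c : Fin D → ℂ, c ≠ 0 ∧
      E.Van m₁ q₁ (∑ l, algebraMap (Pol n) (IB n K) (MvPolynomial.C (c l)) * f l) ∧
      E.Van m₂ q₂ (∑ l, algebraMap (Pol n) (IB n K) (MvPolynomial.C (c l)) * f l) := by
  obtain ⟨ι₁, i₁, g₁, v₁, hc₁, hv₁, hw₁⟩ := LimGen_pt hS hn m₁ h₁ f
  obtain ⟨ι₂, i₂, g₂, v₂, hc₂, hv₂, hw₂⟩ := LimGen_pt hS hn m₂ h₂ f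
  obtain ⟨c, hc0, hc1, hc2⟩ := Prim.vn_lin g₁ g₂ (D := D) (by rw [hc₁, hc₂]; exact hD)
    v₁ v₂ hv₁ hv₂
  exact ⟨c, hc0, hw₁ c hc1, hw₂ c hc2⟩

theorem LimGen_colength (hS : E.IsSheets S) (hn : 0 < n) (hU : GPairs E S x U) {m₁ m₂ D : ℕ}
    (hD : Nat.choose (n + m₁ - 1) n + Nat.choose (n + m₂ - 1) n < D) (f : Fin D → IB n K) :
    ∃ c : Fin D → ℂ, c ≠ 0 ∧
      Lim2 E U m₁ m₂ (∑ l, algebraMap (Pol n) (IB n K) (MvPolynomial.C (c l)) * f l) := by
  classical
  have hD0 : 0 < D := by omega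
  have : Nonempty (Fin D) := ⟨⟨0, hD0⟩⟩
  have hex : ∀ u : Pairs n, ∃ c : Fin D → ℂ, ‖c‖ = 1 ∧ (u.1 ∈ S.M → u.2 ∈ S.M →
      E.Van m₁ u.1 (∑ l, algebraMap (Pol n) (IB n K) (MvPolynomial.C (c l)) * f l) ∧
      E.Van m₂ u.2 (∑ l, algebraMap (Pol n) (IB n K) (MvPolynomial.C (c l)) * f l)) := by
    intro u
    by_cases h : u.1 ∈ S.M ∧ u.2 ∈ S.M
    · obtain ⟨c, hc, h1, h2⟩ := LimGen_van_comb hS hn hD h.1 h.2 f
      have hn : ‖c‖ ≠ 0 := norm_ne_zero_iff.mpr hc
      refine ⟨((‖c‖⁻¹ : ℝ) : ℂ) • c, ?_, fun _ _ => ?_⟩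
      · rw [norm_smul, Complex.norm_real, norm_inv, norm_norm, inv_mul_cancel₀ hn]
      · have e : ∑ l, algebraMap (Pol n) (IB n K)
            (MvPolynomial.C ((((‖c‖⁻¹ : ℝ) : ℂ) • c) l)) * f l
            = LimAux.kc n K ((‖c‖⁻¹ : ℝ) : ℂ) *
              ∑ l, algebraMap (Pol n) (IB n K) (MvPolynomial.C (c l)) * f l := by
          rw [Finset.mul_sum]
          refine Finset.sum_congr rfl fun l _ => ?_
          rw [Pi.smul_apply, smul_eq_mul, map_mul, map_mul, LimAux.kc_def]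
          ring
        rw [e]
        exact ⟨LimAux.van_mul_left _ h1, LimAux.van_mul_left _ h2⟩
    · refine ⟨fun _ => 1, ?_, fun h1 h2 => absurd ⟨h1, h2⟩ h⟩
      simp
  choose c hc hv using hex
  have hle : ((U.map c : Ultrafilter (Fin D → ℂ)) : Filter (Fin D → ℂ)) ≤
      𝓟 (Metric.sphere (0 : Fin D → ℂ) 1) := by
    rw [le_principal_iff, Ultrafilter.mem_coe, Ultrafilter.mem_map]
    have : c ⁻¹' Metric.sphere (0 : Fin D → ℂ) 1 = Set.univ := by
      ext u
      simp [hc u]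
    rw [this]
    exact Filter.univ_mem
  obtain ⟨c₀, hc₀, hlim⟩ := (isCompact_sphere (0 : Fin D → ℂ) 1).ultrafilter_le_nhds _ hle
  refine ⟨c₀, ?_, D, f, c, c₀, hlim, rfl, ?_⟩
  · rintro rfl
    simp at hc₀
  · filter_upwards [LimGen_fst hU, LimGen_snd hU] with u h1 h2
    exact hv u h1 h2

theorem limI_cod (hS : E.IsSheets S) (hn : 0 < n) (hU : GPairs E S x U) (m₁ m₂ : ℕ) :
    cod (limI hS hU m₁ m₂) ≤ Nat.choose (n + m₁ - 1) n + Nat.choose (n + m₂ - 1) n := by
  refine cod_le_of_dep x (limI_prim hS hU m₁ m₂) fun f => ?_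
  obtain ⟨c, hc, h⟩ := LimGen_colength hS hn hU (Nat.lt_succ_self _) f
  exact ⟨c, hc, (mem_limI hS hU).2 h⟩

/-- Convergence of the values of combinations at the first point. -/
theorem LimGen_x_zero (hS : E.IsSheets S) (hU : GPairs E S x U) {m₁ m₂ : ℕ} (hm : 0 < m₁)
    {b : IB n K} (hb : Lim2 E U m₁ m₂ b) : x.toFun b = 0 := by
  obtain ⟨r, e, c, c₀, hc, rfl, hv⟩ := hb
  rw [tendsto_pi_nhds] at hc
  have h1 : Tendsto (fun u : Pairs n => ∑ l, c u l * E.ev (e l : K) u.1)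
      (U : Filter (Pairs n)) (𝓝 (∑ l, c₀ l * x.toFun (e l))) :=
    tendsto_finsetSum _ fun l _ => (hc l).mul (LimGen_ev_fst hU (e l))
  have h2 : Tendsto (fun u : Pairs n => ∑ l, c u l * E.ev (e l : K) u.1)
      (U : Filter (Pairs n)) (𝓝 0) := by
    refine tendsto_const_nhds.congr' ?_
    filter_upwards [hv, LimGen_fst hU] with u hu h
    have h3 := hu.1.ev_eq_zero hS h hm
    have h4 := LimAux.ev_comb hS h (c u) e
    exact (h3.symm.trans h4)
  have h3 := tendsto_nhds_unique h1 h2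
  rw [← h3, map_sum]
  refine Finset.sum_congr rfl fun l _ => ?_
  rw [map_mul, x.map_alg, MvPolynomial.eval_C]

/-- `b_k` is a graded family. -/
theorem limI_fam (hS : E.IsSheets S) (hU : GPairs E S x U) :
    Fam x (fun k => limI hS hU k k) where
  zero := by
    rw [Ideal.eq_top_iff_one, mem_limI]
    refine LimGen_of_fintype (ι := Unit) (fun _ => 1) (fun _ _ => 1) (fun _ => 1)
      (fun _ => tendsto_const_nhds) (by simp) ?_
    filter_upwards [LimGen_fst hU, LimGen_snd hU] with u h1 h2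
    exact ⟨Prim.van_zero hS h1 _, Prim.van_zero hS h2 _⟩
  mul k l := limI_mul hS hU k k l l
  anti := by
    intro k l hkl b hb
    rw [mem_limI] at hb ⊢
    exact LimGen_mono hkl hkl hb
  prim k := limI_prim hS hU k k
  le k hk := by
    intro b hb
    rw [mem_limI] at hb
    exact mem_kx.2 (LimGen_x_zero hS hU hk hb)

/-- Properties of `ψ`. -/
theorem IsPsi.map_add (hS : E.IsSheets S) (hU : GPairs E S x U) {ψ : IB n K → ℂ}
    {s : Pairs n → ℝ} (hψ : IsPsi E U ψ s) (a b : IB n K) : ψ (a + b) = ψ a + ψ b := by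
  refine tendsto_nhds_unique (hψ.lim (a + b)) (((hψ.lim a).add (hψ.lim b)).congr' ?_)
  filter_upwards [LimGen_fst hU, LimGen_snd hU] with u h1 h2
  have h : ((a + b : IB n K) : K) = (a : K) + (b : K) := rfl
  rw [h, Prim.ev_add hS h1 (Prim.isReg_ib _) (Prim.isReg_ib _),
    Prim.ev_add hS h2 (Prim.isReg_ib _) (Prim.isReg_ib _)]
  ring

theorem IsPsi.map_mul (hS : E.IsSheets S) (hU : GPairs E S x U) {ψ : IB n K → ℂ}
    {s : Pairs n → ℝ} (hψ : IsPsi E U ψ s) (a b : IB n K) :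
    ψ (a * b) = x.toFun a * ψ b + ψ a * x.toFun b := by
  refine tendsto_nhds_unique (hψ.lim (a * b)) ((((LimGen_ev_fst hU a).mul (hψ.lim b)).add
    ((hψ.lim a).mul (LimGen_ev_snd hU b))).congr' ?_)
  filter_upwards [LimGen_fst hU, LimGen_snd hU] with u h1 h2
  have h : ((a * b : IB n K) : K) = (a : K) * (b : K) := rfl
  rw [h, Prim.ev_mul hS h1 (Prim.isReg_ib _) (Prim.isReg_ib _),
    Prim.ev_mul hS h2 (Prim.isReg_ib _) (Prim.isReg_ib _)]
  ring

theorem IsPsi.map_const (hS : E.IsSheets S) (hU : GPairs E S x U) {ψ : IB n K → ℂ}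
    {s : Pairs n → ℝ} (hψ : IsPsi E U ψ s) (c : ℂ) :
    ψ (algebraMap (Pol n) (IB n K) (MvPolynomial.C c)) = 0 := by
  refine tendsto_nhds_unique (hψ.lim _) (tendsto_const_nhds.congr' ?_)
  filter_upwards [LimGen_fst hU, LimGen_snd hU] with u h1 h2
  have h3 := LimAux.ev_kc (K := K) hS h1 c
  have h4 := LimAux.ev_kc (K := K) hS h2 c
  rw [LimAux.kc_def] at h3 h4
  rw [h3, h4, sub_self, zero_div]

/-- `b₁ = m ∩ ker ψ`. -/
theorem limI_one (hS : E.IsSheets S) (hU : GPairs E S x U) {ψ : IB n K → ℂ}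
    {s : Pairs n → ℝ} (hψ : IsPsi E U ψ s) (hne : ∃ g, ψ g ≠ 0) (b : IB n K) :
    b ∈ limI hS hU 1 1 ↔ x.toFun b = 0 ∧ ψ b = 0 := by
  rw [mem_limI]
  constructor
  · intro hb
    refine ⟨LimGen_x_zero hS hU one_pos hb, ?_⟩
    obtain ⟨r, e, c, c₀, hc, hbe, hv⟩ := hb
    rw [tendsto_pi_nhds] at hc
    have h1 : Tendsto (fun u : Pairs n => ∑ l, (c₀ l - c u l) *
        ((E.ev (e l : K) u.1 - E.ev (e l : K) u.2) / (s u : ℂ)))
        (U : Filter (Pairs n)) (𝓝 (∑ l, (c₀ l - c₀ l) * ψ (e l))) :=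
      tendsto_finsetSum _ fun l _ => (tendsto_const_nhds.sub (hc l)).mul (hψ.lim (e l))
    have h0 : ∑ l, (c₀ l - c₀ l) * ψ (e l) = 0 := by simp
    rw [h0] at h1
    refine tendsto_nhds_unique (hψ.lim b) (h1.congr' ?_)
    filter_upwards [hv, LimGen_fst hU, LimGen_snd hU] with u hu h1 h2
    have e1 : ∑ l, c u l * E.ev (e l : K) u.1 = 0 :=
      (LimAux.ev_comb hS h1 (c u) e).symm.trans (hu.1.ev_eq_zero hS h1 one_pos)
    have e2 : ∑ l, c u l * E.ev (e l : K) u.2 = 0 :=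
      (LimAux.ev_comb hS h2 (c u) e).symm.trans (hu.2.ev_eq_zero hS h2 one_pos)
    have e3 : E.ev (b : K) u.1 = ∑ l, c₀ l * E.ev (e l : K) u.1 := by
      rw [hbe]
      exact LimAux.ev_comb hS h1 c₀ e
    have e4 : E.ev (b : K) u.2 = ∑ l, c₀ l * E.ev (e l : K) u.2 := by
      rw [hbe]
      exact LimAux.ev_comb hS h2 c₀ e
    have e5 : E.ev (b : K) u.1 - E.ev (b : K) u.2 =
        ∑ l, (c₀ l - c u l) * (E.ev (e l : K) u.1 - E.ev (e l : K) u.2) := by
      have e6 : ∑ l, (c₀ l - c u l) * (E.ev (e l : K) u.1 - E.ev (e l : K) u.2)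
          = (∑ l, c₀ l * E.ev (e l : K) u.1 - ∑ l, c₀ l * E.ev (e l : K) u.2)
            - (∑ l, c u l * E.ev (e l : K) u.1 - ∑ l, c u l * E.ev (e l : K) u.2) := by
        rw [← Finset.sum_sub_distrib, ← Finset.sum_sub_distrib, ← Finset.sum_sub_distrib]
        exact Finset.sum_congr rfl fun l _ => by ring
      rw [e6, e1, e2, e3, e4]
      ring
    rw [e5, Finset.sum_div]
    exact Finset.sum_congr rfl fun l _ => by ring
  · rintro ⟨hxb, hψb⟩
    obtain ⟨g, hg⟩ := hne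
    have hs : ∀ᶠ u in (U : Filter (Pairs n)), (s u : ℂ) ≠ 0 :=
      hψ.pos.mono fun u hu => by exact_mod_cast hu.ne'
    have hgne : ∀ᶠ u in (U : Filter (Pairs n)), E.ev (g : K) u.1 - E.ev (g : K) u.2 ≠ 0 := by
      filter_upwards [(hψ.lim g).eventually_ne hg] with u hu h
      rw [h, zero_div] at hu
      exact hu rfl
    have ha : Tendsto (fun u : Pairs n => (E.ev (b : K) u.1 - E.ev (b : K) u.2) /
        (E.ev (g : K) u.1 - E.ev (g : K) u.2)) (U : Filter (Pairs n)) (𝓝 0) := by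
      have h1 := (hψ.lim b).div (hψ.lim g) hg
      rw [hψb, zero_div] at h1
      refine h1.congr' ?_
      filter_upwards [hs] with u hu
      exact div_div_div_cancel_right₀ hu _ _
    have hb0 : Tendsto (fun u : Pairs n => E.ev (b : K) u.1 -
        (E.ev (b : K) u.1 - E.ev (b : K) u.2) / (E.ev (g : K) u.1 - E.ev (g : K) u.2) *
          E.ev (g : K) u.1) (U : Filter (Pairs n)) (𝓝 0) := by
      have h1 := (LimGen_ev_fst hU b).sub (ha.mul (LimGen_ev_fst hU g))
      rwa [hxb, zero_mul, sub_zero] at h1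
    refine LimGen_of_fintype (ι := Fin 3) ![b, g, 1]
      (fun u => ![1, -((E.ev (b : K) u.1 - E.ev (b : K) u.2) /
        (E.ev (g : K) u.1 - E.ev (g : K) u.2)), -(E.ev (b : K) u.1 -
        (E.ev (b : K) u.1 - E.ev (b : K) u.2) / (E.ev (g : K) u.1 - E.ev (g : K) u.2) *
          E.ev (g : K) u.1)]) ![1, 0, 0] ?_ ?_ ?_
    · intro i
      fin_cases i
      · exact tendsto_const_nhds
      · have h := ha.neg
        rw [neg_zero] at h
        exact h
      · have h := hb0.neg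
        rw [neg_zero] at h
        exact h
    · simp [Fin.sum_univ_three]
    · filter_upwards [hgne, LimGen_fst hU, LimGen_snd hU] with u hu h1 h2
      have hv : ∀ {q : (Fin n → ℂ) × ℂ} {f : IB n K}, q ∈ S.M → E.ev (f : K) q = 0 →
          E.Van 1 q f := by
        intro q f hq hf
        have := LimAux.van_pow hS hq hf 1
        rwa [pow_one] at this
      have hone : ((1 : IB n K) : K) = 1 := rfl
      constructor
      · refine hv h1 ?_
        rw [LimAux.ev_comb hS h1, Fin.sum_univ_three]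
        simp only [Matrix.cons_val_zero, Matrix.cons_val_one, Matrix.cons_val_two,
          Matrix.head_cons, Matrix.tail_cons]
        rw [hone, Prim.ev_one hS h1]
        ring
      · refine hv h2 ?_
        rw [LimAux.ev_comb hS h2, Fin.sum_univ_three]
        simp only [Matrix.cons_val_zero, Matrix.cons_val_one, Matrix.cons_val_two,
          Matrix.head_cons, Matrix.tail_cons]
        rw [hone, Prim.ev_one hS h2]
        field_simp
        ring

/-- Pairs over the same `z` are admissible if `(z)` is a reduction. -/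
theorem adm_of_isPairs (hS : E.IsSheets S) (hU : E.IsPairs S x U)
    (hz : Red x (fun i : Fin n => algebraMap (Pol n) (IB n K) (MvPolynomial.X i))) :
    Adm E S x U := by
  refine ⟨gpairs_of_isPairs hU, n, _, fun i => ?_, hz⟩
  have h := Prim.IsPairs.lim_z hS hU 1 i
  rwa [pow_one] at h

end Vale.Agent.P282.EQ
end

section

/-!
P282-EQ-10b: divergence for the limit ideals.
-/

open MeasureTheory Filter Topology
open scoped ENNReal NNReal ComplexConjugate

namespace Vale.Agent.P282.EQ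

open Vale.Agent.P282.L2

variable {n N : ℕ} {K : Type} [Field K] [Algebra ℂ K] [Algebra (Pol n) K]
  [IsScalarTower ℂ (Pol n) K] [FaithfulSMul (Pol n) K]
  [Algebra (FractionRing (Pol n)) K] [IsScalarTower (Pol n) (FractionRing (Pol n)) K]
  [FiniteDimensional (FractionRing (Pol n)) K]

variable {E : Prim n K} {S : Sheets n N} {x : Pt n K} {U : Ultrafilter (Pairs n)}

/-- Theorem N in the form `Div`. -/
theorem gpairs_div (hS : E.IsSheets S) {d : Fin n → Derivation ℂ K K} (hd : IsPartials d)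
    (hn : 0 < n) {J : K} (hJ0 : J ≠ 0) (hJ : IsIntegral (Pol n) J) (hJr : E.IsReg J⁻¹)
    (hcan : Canon x J) (hU : GPairs E S x U) {ψ : IB n K → ℂ} {s : Pairs n → ℝ}
    (hψ : IsPsi E U ψ s) {g : IB n K} (hg : ψ g ≠ 0) :
    ∀ k : ℕ, 0 < k → Div E S x J g (limI hS hU k k) ((n : ℝ) / k) := by
  intro k hk
  have hI := limI_prim hS hU k k
  obtain ⟨M, r₀, hM, h⟩ := exists_gen hS x (limI hS hU k k) hI
  obtain ⟨F, hspan, hloc, hz⟩ := h r₀ le_rfl
  have hF : ∀ j, E.Lim U k (F j) := by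
    intro j
    have h1 : F j ∈ limI hS hU k k := by
      rw [← hspan]
      exact Ideal.subset_span ⟨j, rfl⟩
    exact lim2_self.1 ((mem_limI hS hU).1 h1)
  refine div_of_one hS hn hJ0 hJ hI (by positivity) hspan (fun e he hL => ?_)
  obtain ⟨W, hW, hlt⟩ := hL
  have h2 := hU.non_integrable hS hd hn hJ0 hJ hJr hcan hψ hk F hF hM hz hloc hg he hW
  exact absurd h2 (ne_of_lt hlt)

/-- powers of elements of the first limit ideal -/
theorem divN_pow_mem (hS : E.IsSheets S) (hU : GPairs E S x U) {b : IB n K}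
    (hb : b ∈ limI hS hU 1 1) (k : ℕ) : b ^ k ∈ limI hS hU k k := by
  have hfam := limI_fam hS hU
  induction k with
  | zero =>
    have h0 : limI hS hU 0 0 = ⊤ := hfam.zero
    rw [h0]
    trivial
  | succ k ih =>
    have h1 : limI hS hU k k * limI hS hU 1 1 ≤ limI hS hU (k + 1) (k + 1) := hfam.mul k 1
    rw [pow_succ]
    exact h1 (Ideal.mul_mem_mul ih hb)

/-- The divergence (γ). -/
theorem adm_div (hS : E.IsSheets S) {d : Fin n → Derivation ℂ K K} (hd : IsPartials d)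
    (hn : 2 ≤ n) {J : K} (hJ0 : J ≠ 0) (hJ : IsIntegral (Pol n) J) (hJr : E.IsReg J⁻¹)
    (hcan : Canon x J) (hU : Adm E S x U) :
    ∀ k : ℕ, 0 < k → Div E S x J 1 (limI hS hU.pairs k k) (((n : ℝ) - 1) / k) := by
  intro k hk
  have hn0 : 0 < n := by omega
  have hkR : (0 : ℝ) < k := Nat.cast_pos.2 hk
  have hnR : (2 : ℝ) ≤ n := by exact_mod_cast hn
  obtain ⟨ψ, s, g, hψ, hg0, hg⟩ := hU.pairs.exists_psi hS
  obtain ⟨r', ζ, hζlim, hζred⟩ := hU.red
  have hgp := gpairs_div hS hd hn0 hJ0 hJ hJr hcan hU.pairs hψ hg k hk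
  have hI := limI_prim hS hU.pairs k k
  obtain ⟨M, r₀, hM, h⟩ := exists_gen hS x (limI hS hU.pairs k k) hI
  obtain ⟨F, hspan, -, -⟩ := h r₀ le_rfl
  obtain ⟨C, hC, hgC⟩ := near_red hS hζred hg0
  have hζ : ∀ i, ∃ c > 0, ∀ᶠ q in E.nhd S x, (‖E.ev (ζ i : K) q‖ ^ 2) ^ k ≤ c * nsq E F q := by
    intro i
    have h1 : ζ i ∈ limI hS hU.pairs 1 1 := (mem_limI hS hU.pairs).2 (lim2_self.2 (hζlim i))
    refine near_pow_le hS F (b := ζ i) (s := 1) k ?_ ?_
    · rw [map_one]; exact one_ne_zero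
    · rw [one_mul, hspan]
      exact divN_pow_mem hS hU.pairs h1 k
  choose c hc0 hc using hζ
  -- the bound `|g|² ≤ C' |F|^{2/k}`
  set C' : ℝ := C * ∑ i, c i ^ ((k : ℝ)⁻¹) with hC'
  have hC'0 : 0 ≤ C' := mul_nonneg hC.le (Finset.sum_nonneg fun i _ =>
    Real.rpow_nonneg (hc0 i).le _)
  have hgF : ∀ᶠ q in E.nhd S x, ‖E.ev (g : K) q‖ ^ 2 ≤ C' * nsq E F q ^ ((k : ℝ)⁻¹) := by
    filter_upwards [hgC, eventually_all.2 hc] with q h1 h2
    refine h1.trans ?_
    rw [hC', mul_assoc]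
    refine mul_le_mul_of_nonneg_left ?_ hC.le
    rw [nsq, Finset.sum_mul]
    refine Finset.sum_le_sum fun i _ => ?_
    have h3 : 0 ≤ ‖E.ev (ζ i : K) q‖ ^ 2 := by positivity
    have h4 := Real.rpow_le_rpow (pow_nonneg h3 k) (h2 i) (inv_nonneg.2 hkR.le)
    rw [Real.pow_rpow_inv_natCast h3 hk.ne', Real.mul_rpow (hc0 i).le (nsq_nonneg F q)] at h4
    exact h4
  refine div_of_one hS hn0 hJ0 hJ hI (div_nonneg (by linarith) hkR.le) hspan
    (fun e he hL => ?_)
  refine hgp r₀ F hspan e he (LInt.mono hS (C := C') ?_ hC'0 hL)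
  filter_upwards [hgF, Prim.M_mem_nhd E S x] with q h1 hq
  have h2 : E.ev ((1 : IB n K) : K) q = 1 := by
    have h3 : ((1 : IB n K) : K) = algebraMap (Pol n) K 1 := by
      rw [map_one]; rfl
    rw [h3, Prim.ev_alg hS hq, map_one]
  rw [h2, norm_one, one_pow, one_mul]
  rcases (nsq_nonneg F q : 0 ≤ nsq E F q).eq_or_lt with h0 | h0
  · rw [← h0]
    have e1 : -((n : ℝ) / k + e) ≠ 0 := by
      have : 0 < (n : ℝ) / k + e := by positivity
      linarith only [this]
    have e2 : -(((n : ℝ) - 1) / k + e) ≠ 0 := by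
      have : 0 ≤ ((n : ℝ) - 1) / k := div_nonneg (by linarith) hkR.le
      have : 0 < ((n : ℝ) - 1) / k + e := by linarith
      linarith
    rw [Real.zero_rpow e1, Real.zero_rpow e2, mul_zero, mul_zero]
  · calc ‖E.ev (g : K) q‖ ^ 2 * nsq E F q ^ (-((n : ℝ) / k + e))
        ≤ (C' * nsq E F q ^ ((k : ℝ)⁻¹)) * nsq E F q ^ (-((n : ℝ) / k + e)) :=
          mul_le_mul_of_nonneg_right h1 (Real.rpow_nonneg h0.le _)
      _ = C' * (nsq E F q ^ ((k : ℝ)⁻¹) * nsq E F q ^ (-((n : ℝ) / k + e))) := mul_assoc _ _ _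
      _ = C' * nsq E F q ^ (-(((n : ℝ) - 1) / k + e)) := by
        rw [← Real.rpow_add h0]
        congr 2
        field_simp
        ring

end Vale.Agent.P282.EQ
end

section

/-!
P282-EQ-5b: the limit valuation of a graded family with divergent integrals.
-/

open MeasureTheory Filter Topology
open scoped ENNReal NNReal ComplexConjugate

namespace Vale.Agent.P282.EQ

open Vale.Agent.P282.L2

variable {n N : ℕ} {K : Type} [Field K] [Algebra ℂ K] [Algebra (Pol n) K]
  [IsScalarTower ℂ (Pol n) K] [FaithfulSMul (Pol n) K]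
  [Algebra (FractionRing (Pol n)) K] [IsScalarTower (Pol n) (FractionRing (Pol n)) K]
  [FiniteDimensional (FractionRing (Pol n)) K]

variable {E : Prim n K} {S : Sheets n N} {x : Pt n K}

omit [Algebra ℂ K] [IsScalarTower ℂ (Pol n) K] [FaithfulSMul (Pol n) K]
  [Algebra (FractionRing (Pol n)) K] [IsScalarTower (Pol n) (FractionRing (Pol n)) K]
  [FiniteDimensional (FractionRing (Pol n)) K] in
theorem lfam_pow {I : ℕ → Ideal (IB n K)} (hI : Fam x I) {k : ℕ} {f : IB n K} (hf : f ∈ I k) :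
    ∀ l : ℕ, f ^ (l + 1) ∈ I (k * (l + 1)) := by
  intro l
  induction l with
  | zero => simpa using hf
  | succ l ih =>
    have h := hI.mul _ _ (Ideal.mul_mem_mul ih hf)
    rw [← pow_succ] at h
    have e : k * (l + 1) + k = k * (l + 1 + 1) := by ring
    rwa [e] at h

/-- (L): the limit valuation. -/
theorem exists_val_fam (hS : E.IsSheets S) {d : Fin n → Derivation ℂ K K} (hd : IsPartials d)
    (hn : 2 ≤ n) {J : K} (hJ0 : J ≠ 0) (hJ : IsIntegral (Pol n) J) (hJr : E.IsReg J⁻¹)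
    (hklt : Klt x d J) (hred : Red x (zv n K)) {I : ℕ → Ideal (IB n K)} (hI : Fam x I)
    (g : IB n K) (hg : g ≠ 0) {c : ℝ} (hc : 0 < c)
    (hdiv : ∀ k : ℕ, 0 < k → Div E S x J g (I k) (c / k)) :
    ∃ (v : Valuation K ℝ≥0) (κ : ℝ), 0 < κ ∧ Centered x v ∧
      (∀ f : IB n K, x.toFun f = 0 → v (f : K) ≤ (Real.exp (-1)).toNNReal) ∧
      (∃ i : Fin n, v (algebraMap (Pol n) K (MvPolynomial.X i)) = (Real.exp (-1)).toNNReal) ∧
      (∀ (k : ℕ) (f : IB n K), f ∈ I k → v (f : K) ≤ (Real.exp (-(k * κ))).toNNReal) ∧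
      ∀ b : Fin n → K, (∀ i, b i ≠ 0) → jac d b ≠ 0 →
        (Real.exp (-(c * κ))).toNNReal ≤ v (g : K) * v (hfun d J b) := by
  have hn0 : 0 < n := by omega
  have hm : ∀ m : ℕ, 0 < m + 1 := fun m => Nat.succ_pos m
  have hmR : ∀ m : ℕ, (0 : ℝ) < ((m + 1 : ℕ) : ℝ) := fun m => by exact_mod_cast hm m
  choose v hov hle heqx a ha0 hf _hfe hb using fun m : ℕ =>
    exists_val_one hS hd hn0 hJ0 hJ hJr hklt (hI.prim (m + 1)) g
      (c := c / ((m + 1 : ℕ) : ℝ)) (e := 1 / (((m + 1 : ℕ) : ℝ) ^ 2))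
      (by have := hmR m; positivity) (by have := hmR m; positivity) (hdiv (m + 1) (hm m))
  -- `a m` grows at most linearly
  obtain ⟨L, hL⟩ := hI.prim 1
  have hzx : ∀ i : Fin n, zv n K i ∈ kx x := by
    intro i
    rw [mem_kx, zv, x.map_alg]
    simp
  have hzL : ∀ (i : Fin n) (m : ℕ), zv n K i ^ (L * (m + 1)) ∈ I (m + 1) := by
    intro i m
    have h1 : zv n K i ^ L ∈ I 1 := hL (Ideal.pow_mem_pow (hzx i) L)
    have h2 := lfam_pow hI h1 m
    rwa [← pow_mul, one_mul] at h2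
  have hexp1 : ∀ l : ℕ, (Real.exp (-1)).toNNReal ^ l = (Real.exp (-(l : ℝ))).toNNReal := by
    intro l
    rw [← Real.toNNReal_pow (Real.exp_pos _).le, ← Real.exp_nat_mul]
    congr 2
    ring
  have haL : ∀ m : ℕ, a m ≤ L * ((m + 1 : ℕ) : ℝ) := by
    intro m
    obtain ⟨i, hi⟩ := heqx m
    have h1 := hf m _ (hzL i m)
    have h2 : v m ((zv n K i ^ (L * (m + 1)) : IB n K) : K) =
        (Real.exp (-((L * (m + 1) : ℕ) : ℝ))).toNNReal := by
      rw [SubmonoidClass.coe_pow, map_pow, ← hexp1, ← hi]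
      rfl
    rw [h2, Real.toNNReal_le_toNNReal_iff (Real.exp_pos _).le, Real.exp_le_exp] at h1
    push_cast at h1 ⊢
    linarith
  set V : Ultrafilter ℕ := hyperfilter ℕ with hV
  have hVtop : (V : Filter ℕ) ≤ atTop := by
    rw [← Nat.cofinite_eq_atTop]
    exact hyperfilter_le_cofinite
  have har : ∀ m : ℕ, a m / ((m + 1 : ℕ) : ℝ) ∈ Set.Icc (0 : ℝ) L := fun m =>
    ⟨div_nonneg (ha0 m) (hmR m).le, (div_le_iff₀ (hmR m)).2 (haL m)⟩
  obtain ⟨κ, hκ, hκlim⟩ : ∃ κ ∈ Set.Icc (0 : ℝ) L,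
      Tendsto (fun m : ℕ => a m / ((m + 1 : ℕ) : ℝ)) V (𝓝 κ) := by
    have h1 := isCompact_Icc.ultrafilter_le_nhds
      (V.map (fun m : ℕ => a m / ((m + 1 : ℕ) : ℝ))) (s := Set.Icc (0 : ℝ) L) ?_
    · obtain ⟨κ, h2, h3⟩ := h1
      exact ⟨κ, h2, h3⟩
    · rw [le_principal_iff]
      change (fun m : ℕ => a m / ((m + 1 : ℕ) : ℝ)) ⁻¹' Set.Icc (0 : ℝ) L ∈ V
      exact Filter.univ_mem' har
  have h1m : Tendsto (fun m : ℕ => 1 / ((m + 1 : ℕ) : ℝ)) V (𝓝 0) := by
    have h := (tendsto_one_div_add_atTop_nhds_zero_nat (𝕜 := ℝ)).mono_left hVtop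
    refine h.congr (fun m => ?_)
    push_cast
    rfl
  obtain ⟨w, hw, hwlim⟩ := exists_limit_valuation V v hov
  -- the exponent
  have hexpo : ∀ m : ℕ, (c / ((m + 1 : ℕ) : ℝ) + 1 / (((m + 1 : ℕ) : ℝ) ^ 2)) * a m =
      (c + 1 / ((m + 1 : ℕ) : ℝ)) * (a m / ((m + 1 : ℕ) : ℝ)) := by
    intro m
    have h := (hmR m).ne'
    field_simp
  -- lower bound
  set t : ℝ≥0 := (Real.exp (-((c + 1) * L))).toNNReal with ht
  have ht0 : 0 < t := Real.toNNReal_pos.2 (Real.exp_pos _)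
  have hgv : ∀ m, v m (g : K) ≤ 1 := fun m => (hov m).1 g
  have htb : ∀ m, ∀ b : Fin n → K, (∀ i, b i ≠ 0) → jac d b ≠ 0 → t ≤ v m (hfun d J b) := by
    intro m b h1 h2
    have h0 : v m (g : K) * v m (hfun d J b) ≤ v m (hfun d J b) :=
      (mul_le_mul' (hgv m) le_rfl).trans (one_mul _).le
    refine le_trans (Real.toNNReal_le_toNNReal (Real.exp_le_exp.2 ?_)) ((hb m b h1 h2).trans h0)
    have h3 := har m
    have h4 : (1 : ℝ) / ((m + 1 : ℕ) : ℝ) ≤ 1 := by
      rw [div_le_one (hmR m)]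
      push_cast
      have : (0 : ℝ) ≤ m := Nat.cast_nonneg m
      linarith
    have h5 : (0 : ℝ) ≤ 1 / ((m + 1 : ℕ) : ℝ) := by positivity
    rw [hexpo m]
    have h6 : (c + 1 / ((m + 1 : ℕ) : ℝ)) * (a m / ((m + 1 : ℕ) : ℝ)) ≤ (c + 1) * L :=
      mul_le_mul (by linarith) h3.2 h3.1 (by linarith)
    linarith only [h6]
  obtain ⟨c', hc', hcv⟩ := valuative_uniform (E := E) hd hJ0 hJ hklt
  set JB : IB n K := ⟨J, hJ⟩ with hJB
  have hwJ : w JB ≠ 0 := by
    intro h0
    have h1 : Tendsto (fun m => (v m (JB : K)) ^ c') V (𝓝 (w JB ^ c')) :=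
      (NNReal.continuous_rpow_const hc'.le).continuousAt.tendsto.comp (hwlim JB)
    have h2 : t ≤ w JB ^ c' := ge_of_tendsto' h1 (fun m => hcv (v m) (hov m) t (htb m))
    rw [h0, NNReal.zero_rpow hc'.ne'] at h2
    exact absurd h2 (not_le.2 ht0)
  have hne : ∀ b : IB n K, b ≠ 0 → w b ≠ 0 := by
    intro b hb0 hwb
    obtain ⟨f, j, hf0, hfj⟩ := hw.exists_chart E hb0 hwb
    have hp0 : MvPolynomial.pderiv j f ≠ 0 := by
      intro h
      rw [h, map_zero, hw.zero] at hfj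
      exact hfj rfl
    have hf00 : f ≠ 0 := by
      intro h
      rw [h, map_zero] at hp0
      exact hp0 rfl
    have hinj := FaithfulSMul.algebraMap_injective (Pol n) K
    have hbi : ∀ i : Fin n,
        algebraMap (Pol n) K (if i = j then f else 1 + MvPolynomial.X i) ≠ 0 := by
      intro i h
      have h1 := (map_eq_zero_iff _ hinj).1 h
      by_cases hij : i = j
      · rw [if_pos hij] at h1; exact hf00 h1
      · rw [if_neg hij] at h1
        have h2 := congrArg (MvPolynomial.eval (0 : Fin n → ℂ)) h1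
        simp at h2
    have key : ∀ m, t * (v m (JB : K) * v m ((algebraMap (Pol n) (IB n K)
        (MvPolynomial.pderiv j f) : IB n K) : K)) ≤
        v m ((algebraMap (Pol n) (IB n K) f : IB n K) : K) := by
      intro m
      have h1 := htb m _ hbi (endlim_jac_ne hd hp0)
      unfold hfun at h1
      rw [jac_chart hd, map_div₀, map_mul] at h1
      have h2 : 0 < v m J * v m (algebraMap (Pol n) K (MvPolynomial.pderiv j f)) := by
        refine mul_pos ?_ ?_
        · exact pos_iff_ne_zero.2 ((v m).ne_zero_iff.2 hJ0)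
        · exact pos_iff_ne_zero.2 ((v m).ne_zero_iff.2
            (fun h => hp0 ((map_eq_zero_iff _ hinj).1 h)))
      rw [le_div_iff₀ h2] at h1
      exact h1.trans (endlim_prod_le (v m) (hov m) f j)
    have h3 : t * (w JB * w (algebraMap (Pol n) (IB n K) (MvPolynomial.pderiv j f))) ≤
        w (algebraMap (Pol n) (IB n K) f) :=
      le_of_tendsto_of_tendsto' (((hwlim _).mul (hwlim _)).const_mul t) (hwlim _) key
    rw [hf0] at h3
    exact absurd h3 (not_le.2 (mul_pos ht0 (mul_pos (pos_iff_ne_zero.2 hwJ)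
      (pos_iff_ne_zero.2 hfj))))
  obtain ⟨w', hw', hov'⟩ := hw.exists_valuation hne
  have hlimK : ∀ z : K, Tendsto (fun m => v m z) V (𝓝 (w' z)) :=
    tendsto_of_limit (x := x) V v w' (fun b => by rw [hw' b]; exact hwlim b)
  have hz : ∀ i : Fin n, w' (algebraMap (Pol n) K (MvPolynomial.X i)) ≤
      (Real.exp (-1)).toNNReal := fun i => le_of_tendsto' (hlimK _) (fun m => hle m i)
  have he1 : (Real.exp (-1)).toNNReal < 1 := by
    rw [Real.toNNReal_lt_one]
    exact Real.exp_lt_one_iff.2 (by norm_num)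
  have hX0 : ∀ i : Fin n, zv n K i ≠ 0 := by
    intro i h
    have h4 : algebraMap (Pol n) K (MvPolynomial.X i) = 0 := congrArg Subtype.val h
    exact MvPolynomial.X_ne_zero _
      ((map_eq_zero_iff _ (FaithfulSMul.algebraMap_injective (Pol n) K)).1 h4)
  have hkx : ∀ f : IB n K, x.toFun f = 0 → w' (f : K) ≤ (Real.exp (-1)).toNNReal := by
    intro f hf0
    obtain ⟨i, hi⟩ := red_val hred hov' f hf0 ⟨⟨0, hn0⟩, hX0 _⟩
    exact hi.trans (hz i)
  have hlow : ∀ b : Fin n → K, (∀ i, b i ≠ 0) → jac d b ≠ 0 →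
      (Real.exp (-(c * κ))).toNNReal ≤ w' (g : K) * w' (hfun d J b) := by
    intro b h1 h2
    have h3 : Tendsto (fun m : ℕ => (Real.exp (-((c / ((m + 1 : ℕ) : ℝ) +
        1 / (((m + 1 : ℕ) : ℝ) ^ 2)) * a m))).toNNReal) V
        (𝓝 (Real.exp (-((c + 0) * κ))).toNNReal) := by
      have h4 : Tendsto (fun m : ℕ => (c / ((m + 1 : ℕ) : ℝ) +
          1 / (((m + 1 : ℕ) : ℝ) ^ 2)) * a m) V (𝓝 ((c + 0) * κ)) :=
        ((h1m.const_add c).mul hκlim).congr (fun m => (hexpo m).symm)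
      exact (continuous_real_toNNReal.tendsto _).comp ((Real.continuous_exp.tendsto _).comp h4.neg)
    rw [add_zero] at h3
    exact le_of_tendsto_of_tendsto' h3 ((hlimK _).mul (hlimK _)) (fun m => hb m b h1 h2)
  have hκ0 : 0 < κ := by
    obtain ⟨b, h1, h2, h3⟩ := hklt w' hov'
      ⟨zv n K ⟨0, hn0⟩, fun h => hX0 _ (Subtype.ext h), (hz ⟨0, hn0⟩).trans_lt he1⟩
    have h0 : w' (g : K) * w' (hfun d J b) ≤ w' (hfun d J b) :=
      (mul_le_mul' (hov'.1 g) le_rfl).trans (one_mul _).le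
    have h4 := ((hlow b h1 h2).trans h0).trans_lt h3
    rw [Real.toNNReal_lt_one, Real.exp_lt_one_iff, neg_lt_zero] at h4
    exact (pos_iff_pos_of_mul_pos h4).1 hc
  refine ⟨w', κ, hκ0, ⟨hov', fun b hb0 => (hkx b hb0).trans_lt he1⟩, hkx, ?_, ?_, hlow⟩
  · -- one of the coordinates has value exactly `1`
    have h1 : ∀ᶠ m in (V : Filter ℕ), ∃ i : Fin n,
        v m (algebraMap (Pol n) K (MvPolynomial.X i)) = (Real.exp (-1)).toNNReal :=
      Filter.Eventually.of_forall heqx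
    rw [Ultrafilter.eventually_exists_iff] at h1
    obtain ⟨i, hi⟩ := h1
    refine ⟨i, tendsto_nhds_unique (hlimK _) ?_⟩
    exact tendsto_const_nhds.congr' (hi.mono fun m h => h.symm)
  · intro k f hkf
    rcases Nat.eq_zero_or_pos k with hk | hk
    · rw [hk]
      simp only [Nat.cast_zero, zero_mul, neg_zero, Real.exp_zero, Real.toNNReal_one]
      exact hov'.1 f
    · have hkR : (0 : ℝ) < k := by exact_mod_cast hk
      have hbd : ∀ m : ℕ, v m (f : K) ≤ (Real.exp (-(a m / ((m + 1 : ℕ) : ℝ) *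
          (1 / (1 / k + 1 / ((m + 1 : ℕ) : ℝ)))))).toNNReal := by
        intro m
        have h1 := lfam_pow hI hkf ((m + 1) / k)
        have h2 : m + 1 ≤ k * ((m + 1) / k + 1) := (Nat.lt_mul_div_succ (m + 1) hk).le
        have h3 := hf m _ (hI.anti h2 h1)
        have h4 : ((v m (f : K) : ℝ≥0) : ℝ) ^ ((m + 1) / k + 1) ≤ Real.exp (-(a m)) := by
          have h5 : v m (((f ^ ((m + 1) / k + 1) : IB n K)) : K) =
              (v m (f : K)) ^ ((m + 1) / k + 1) := by
            rw [SubmonoidClass.coe_pow, map_pow]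
          rw [h5] at h3
          have h6 := NNReal.coe_le_coe.2 h3
          rw [Real.coe_toNNReal _ (Real.exp_pos _).le, NNReal.coe_pow] at h6
          exact h6
        have h7 : ((((m + 1) / k + 1 : ℕ)) : ℝ) ≤ ((m + 1 : ℕ) : ℝ) / k + 1 := by
          rw [Nat.cast_add, Nat.cast_one]
          have := @Nat.cast_div_le ℝ _ _ _ (m + 1) k
          linarith only [this]
        have h8 : (0 : ℝ) < ((m + 1 : ℕ) : ℝ) / k + 1 := by positivity
        have h9 := endlim_root (NNReal.coe_nonneg _)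
          (by exact_mod_cast (hov m).1 f) h7 h8 h4
        have h10 : a m / (((m + 1 : ℕ) : ℝ) / k + 1) = a m / ((m + 1 : ℕ) : ℝ) *
            (1 / (1 / k + 1 / ((m + 1 : ℕ) : ℝ))) := by
          have h11 := (hmR m).ne'
          have h12 := hkR.ne'
          field_simp
        rw [h10] at h9
        rw [← NNReal.coe_le_coe, Real.coe_toNNReal _ (Real.exp_pos _).le]
        exact h9
      have hlim : Tendsto (fun m : ℕ => (Real.exp (-(a m / ((m + 1 : ℕ) : ℝ) *
          (1 / (1 / k + 1 / ((m + 1 : ℕ) : ℝ)))))).toNNReal) V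
          (𝓝 (Real.exp (-(κ * (1 / (1 / k + 0))))).toNNReal) := by
        have h4 : Tendsto (fun m : ℕ => a m / ((m + 1 : ℕ) : ℝ) *
            (1 / (1 / (k : ℝ) + 1 / ((m + 1 : ℕ) : ℝ)))) V (𝓝 (κ * (1 / (1 / (k : ℝ) + 0)))) := by
          refine hκlim.mul (Tendsto.div tendsto_const_nhds (h1m.const_add _) ?_)
          rw [add_zero]
          positivity
        exact (continuous_real_toNNReal.tendsto _).comp
          ((Real.continuous_exp.tendsto _).comp h4.neg)
      have hfin := le_of_tendsto_of_tendsto' (hlimK (f : K)) hlim hbd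
      have e : κ * (1 / (1 / (k : ℝ) + 0)) = k * κ := by
        rw [add_zero, one_div_one_div, mul_comm]
      rwa [e] at hfin

end Vale.Agent.P282.EQ
end

section

/-!
P282-EQ-10a: volume comparison, asymptotics.
-/

open MeasureTheory Filter Topology
open scoped ENNReal NNReal ComplexConjugate

namespace Vale.Agent.P282.EQ

open Vale.Agent.P282.L2

variable {n N : ℕ} {K : Type} [Field K] [Algebra ℂ K] [Algebra (Pol n) K]
  [IsScalarTower ℂ (Pol n) K] [FaithfulSMul (Pol n) K]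
  [Algebra (FractionRing (Pol n)) K] [IsScalarTower (Pol n) (FractionRing (Pol n)) K]
  [FiniteDimensional (FractionRing (Pol n)) K]

variable {E : Prim n K} {S : Sheets n N} {x : Pt n K}

/-- Volume comparison: if `I_k` has colength at most `D C_k` and `v(I_k) ≥ k κ`, `A(v) ≤ a`, then
`V ≤ D a^n / κ^n`. -/
theorem volGe_le {d : Fin n → Derivation ℂ K K} {J : K} {V : ℝ} (hV : VolGe x d J V) (hn : 0 < n)
    {v : Valuation K ℝ≥0} (hv : Centered x v) {a κ D : ℝ} (ha : 0 < a) (hκ : 0 < κ)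
    (hA : ALe d J v a) {I : ℕ → Ideal (IB n K)} (hI : Fam x I)
    (hIv : ∀ (k : ℕ) (f : IB n K), f ∈ I k → v (f : K) ≤ (Real.exp (-(k * κ))).toNNReal)
    (hcod : ∀ ε : ℝ, 0 < ε → ∀ᶠ k : ℕ in atTop,
      (n.factorial * (cod (I k) : ℝ)) ≤ (D + ε) * (k : ℝ) ^ n) :
    V * κ ^ n ≤ D * a ^ n := by
  have key : ∀ ε : ℝ, 0 < ε → (V - ε) * κ ^ n ≤ a ^ n * (D + ε) := by
    intro ε hε
    have h1 := hV v hv a ha hA ε hε
    have hfl : Tendsto (fun k : ℕ => ⌊κ * (k : ℝ)⌋₊) atTop atTop :=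
      tendsto_nat_floor_atTop.comp (tendsto_natCast_atTop_atTop.const_mul_atTop hκ)
    have h2 := hfl.eventually h1
    have h3 : ∀ᶠ k : ℕ in atTop, (V - ε) * ((⌊κ * (k : ℝ)⌋₊ : ℝ) / (k : ℝ)) ^ n ≤
        a ^ n * (D + ε) := by
      filter_upwards [h2, hcod ε hε, eventually_gt_atTop 0] with k hk2 hk3 hk0
      have hk0' : (0 : ℝ) < (k : ℝ) := by exact_mod_cast hk0
      have hle : I k ≤ vIdeal hv.1 ((⌊κ * (k : ℝ)⌋₊ : ℕ) : ℝ) := by
        intro f hf
        rw [mem_vIdeal]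
        refine (hIv k f hf).trans (Real.toNNReal_le_toNNReal (Real.exp_le_exp.mpr ?_))
        have : ((⌊κ * (k : ℝ)⌋₊ : ℕ) : ℝ) ≤ κ * (k : ℝ) :=
          Nat.floor_le (mul_nonneg hκ.le hk0'.le)
        exact neg_le_neg (this.trans (le_of_eq (mul_comm _ _)))
      have hc : (cod (vIdeal hv.1 ((⌊κ * (k : ℝ)⌋₊ : ℕ) : ℝ)) : ℝ) ≤ (cod (I k) : ℝ) := by
        exact_mod_cast cod_anti x (hI.prim k) hle
      have h4 : (V - ε) * ((⌊κ * (k : ℝ)⌋₊ : ℕ) : ℝ) ^ n ≤ a ^ n * ((D + ε) * (k : ℝ) ^ n) :=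
        hk2.trans (mul_le_mul_of_nonneg_left
          ((mul_le_mul_of_nonneg_left hc (Nat.cast_nonneg _)).trans hk3) (pow_nonneg ha.le _))
      have hkn : (0 : ℝ) < (k : ℝ) ^ n := pow_pos hk0' n
      rw [div_pow, mul_div_assoc', div_le_iff₀ hkn]
      linarith [h4]
    have h5 : Tendsto (fun k : ℕ => (V - ε) * ((⌊κ * (k : ℝ)⌋₊ : ℝ) / (k : ℝ)) ^ n) atTop
        (𝓝 ((V - ε) * κ ^ n)) := by
      have := (tendsto_nat_floor_mul_div_atTop (R := ℝ) hκ.le).comp
        (tendsto_natCast_atTop_atTop (R := ℝ))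
      exact (this.pow n).const_mul (V - ε)
    exact le_of_tendsto h5 h3
  have hl : Tendsto (fun ε : ℝ => (V - ε) * κ ^ n) (𝓝[>] 0) (𝓝 ((V - 0) * κ ^ n)) :=
    (((continuous_const.sub continuous_id).mul continuous_const).tendsto 0).mono_left
      nhdsWithin_le_nhds
  have hr : Tendsto (fun ε : ℝ => a ^ n * (D + ε)) (𝓝[>] 0) (𝓝 (a ^ n * (D + 0))) :=
    ((continuous_const.mul (continuous_const.add continuous_id)).tendsto 0).mono_left
      nhdsWithin_le_nhds
  have := le_of_tendsto_of_tendsto hl hr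
    (eventually_nhdsWithin_of_forall fun ε hε => key ε hε)
  rw [sub_zero, add_zero] at this
  linarith [this]

/-- Asymptotics of binomial coefficients. -/
theorem choose_asymp (n : ℕ) (D : ℝ) (hD : 0 ≤ D) : ∀ ε : ℝ, 0 < ε → ∀ᶠ k : ℕ in atTop,
    (n.factorial * (D * (Nat.choose (n + k - 1) n : ℝ))) ≤ (D + ε) * (k : ℝ) ^ n := by
  intro ε hε
  have h1 : Tendsto (fun k : ℕ => D * (1 + (n : ℝ) / (k : ℝ)) ^ n) atTop
      (𝓝 (D * (1 + 0) ^ n)) :=
    (((tendsto_const_div_atTop_nhds_zero_nat (n : ℝ)).const_add 1).pow n).const_mul D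
  rw [add_zero, one_pow, mul_one] at h1
  filter_upwards [h1.eventually (eventually_le_nhds (lt_add_of_pos_right D hε)),
    eventually_gt_atTop 0] with k hk hk0
  have hk0' : (0 : ℝ) < (k : ℝ) := by exact_mod_cast hk0
  have h2 : (Nat.choose (n + k - 1) n : ℝ) ≤ ((n + k - 1 : ℕ) : ℝ) ^ n / (n.factorial : ℝ) :=
    Nat.choose_le_pow_div n (n + k - 1)
  have hf : (0 : ℝ) < (n.factorial : ℝ) := by exact_mod_cast n.factorial_pos
  rw [le_div_iff₀ hf] at h2
  have h3 : ((n + k - 1 : ℕ) : ℝ) ≤ (n : ℝ) + (k : ℝ) := by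
    have : n + k - 1 ≤ n + k := Nat.sub_le _ _
    exact_mod_cast this
  have h4 : ((n + k - 1 : ℕ) : ℝ) ^ n ≤ ((n : ℝ) + (k : ℝ)) ^ n :=
    pow_le_pow_left₀ (Nat.cast_nonneg _) h3 n
  have h5 : ((n : ℝ) + (k : ℝ)) ^ n = (1 + (n : ℝ) / (k : ℝ)) ^ n * (k : ℝ) ^ n := by
    rw [← mul_pow]
    congr 1
    field_simp
    ring
  have hkn : (0 : ℝ) ≤ (k : ℝ) ^ n := pow_nonneg hk0'.le n
  calc (n.factorial : ℝ) * (D * (Nat.choose (n + k - 1) n : ℝ))
      = D * ((Nat.choose (n + k - 1) n : ℝ) * (n.factorial : ℝ)) := by ring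
    _ ≤ D * ((n : ℝ) + (k : ℝ)) ^ n := mul_le_mul_of_nonneg_left (h2.trans h4) hD
    _ = (D * (1 + (n : ℝ) / (k : ℝ)) ^ n) * (k : ℝ) ^ n := by rw [h5]; ring
    _ ≤ (D + ε) * (k : ℝ) ^ n := mul_le_mul_of_nonneg_right hk hkn

/-- Positivity of log discrepancies (klt). -/
theorem pos_of_ALe {d : Fin n → Derivation ℂ K K} (hn : 0 < n) {J : K} (hklt : Klt x d J)
    {v : Valuation K ℝ≥0} (hv : Centered x v) {a : ℝ} (hA : ALe d J v a) : 0 < a := by
  have hX : ((algebraMap (Pol n) (IB n K) (MvPolynomial.X ⟨0, hn⟩) : IB n K) : K) ≠ 0 := by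
    change algebraMap (Pol n) K (MvPolynomial.X ⟨0, hn⟩) ≠ 0
    intro h0
    rw [← map_zero (algebraMap (Pol n) K)] at h0
    exact MvPolynomial.X_ne_zero (R := ℂ) (⟨0, hn⟩ : Fin n)
      (FaithfulSMul.algebraMap_injective (Pol n) K h0)
  have hx0 : x.toFun (algebraMap (Pol n) (IB n K) (MvPolynomial.X ⟨0, hn⟩)) = 0 := by
    rw [x.map_alg]
    simp
  obtain ⟨b, hb, hj, hlt⟩ := hklt v hv.1 ⟨_, hX, hv.2 _ hx0⟩
  have h1 := (hA b hb hj).trans_lt hlt
  by_contra hna
  have hna' : 0 ≤ -a := by linarith [not_lt.mp hna]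
  have h2 : (1 : ℝ≥0) ≤ (Real.exp (-a)).toNNReal := by
    rw [← Real.toNNReal_one]
    exact Real.toNNReal_le_toNNReal (Real.one_le_exp hna')
  exact absurd h1 (not_lt.mpr h2)

end Vale.Agent.P282.EQ
end

section

/-!
P282-EQ-10c: Step A.
-/

open MeasureTheory Filter Topology
open scoped ENNReal NNReal ComplexConjugate

namespace Vale.Agent.P282.EQ

open Vale.Agent.P282.L2

variable {n N : ℕ} {K : Type} [Field K] [Algebra ℂ K] [Algebra (Pol n) K]
  [IsScalarTower ℂ (Pol n) K] [FaithfulSMul (Pol n) K]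
  [Algebra (FractionRing (Pol n)) K] [IsScalarTower (Pol n) (FractionRing (Pol n)) K]
  [FiniteDimensional (FractionRing (Pol n)) K]

variable {E : Prim n K} {S : Sheets n N} {x : Pt n K} {U : Ultrafilter (Pairs n)}

omit [Algebra ℂ K] [Algebra (Pol n) K] [IsScalarTower ℂ (Pol n) K] [FaithfulSMul (Pol n) K]
  [Algebra (FractionRing (Pol n)) K] [IsScalarTower (Pol n) (FractionRing (Pol n)) K]
  [FiniteDimensional (FractionRing (Pol n)) K] in
/-- Real values of a valuation. -/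
theorem stepA_le_iff {v : Valuation K ℝ≥0} {a : K} {t : ℝ} :
    v a ≤ (Real.exp (-t)).toNNReal ↔ ((v a : ℝ≥0) : ℝ) ≤ Real.exp (-t) := by
  rw [← NNReal.coe_le_coe, Real.coe_toNNReal _ (Real.exp_pos _).le]

omit [Algebra ℂ K] [IsScalarTower ℂ (Pol n) K] [FaithfulSMul (Pol n) K]
  [Algebra (FractionRing (Pol n)) K] [IsScalarTower (Pol n) (FractionRing (Pol n)) K]
  [FiniteDimensional (FractionRing (Pol n)) K] in
/-- A reduction is not zero. -/
theorem stepA_ne {r : ℕ} {ζ : Fin r → IB n K} (hζ : Red x ζ) {b : IB n K}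
    (hb : x.toFun b = 0) (hb0 : b ≠ 0) : ∃ i, ζ i ≠ 0 := by
  by_contra hcon
  push Not at hcon
  obtain ⟨k, hk⟩ := hζ
  obtain ⟨s, hs, hs'⟩ := hk (b ^ (k + 1)) (Ideal.pow_mem_pow (mem_kx.2 hb) _)
  have h0 : Ideal.span (Set.range ζ) = ⊥ := by
    rw [Ideal.span_eq_bot]
    rintro _ ⟨i, rfl⟩
    exact hcon i
  rw [h0, Ideal.bot_mul, Ideal.mem_bot] at hs'
  have hs0 : s ≠ 0 := by
    rintro rfl
    exact hs (map_zero _)
  exact (mul_ne_zero hs0 (pow_ne_zero _ hb0)) hs'

/-- Step A. -/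
theorem stepA (hS : E.IsSheets S) {d : Fin n → Derivation ℂ K K} (hd : IsPartials d)
    (hn : 2 ≤ n) {J : K} (hJ0 : J ≠ 0) (hJ : IsIntegral (Pol n) J) (hJr : E.IsReg J⁻¹)
    (hcan : Canon x J) (hklt : Klt x d J) (hred : Red x (zv n K))
    (hV : VolGe x d J (2 * ((n : ℝ) - 1) ^ n)) (hU : Adm E S x U)
    {ψ : IB n K → ℂ} {s : Pairs n → ℝ} (hψ : IsPsi E U ψ s) {g : IB n K} (hg0 : x.toFun g = 0)
    (hg : ψ g ≠ 0) :
    ∃ v : Valuation K ℝ≥0, Centered x v ∧
      (∀ f : IB n K, x.toFun f = 0 → v (f : K) ≤ (Real.exp (-1)).toNNReal) ∧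
      (∃ i : Fin n, v (algebraMap (Pol n) K (MvPolynomial.X i)) = (Real.exp (-1)).toNNReal) ∧
      (∀ (k : ℕ) (f : IB n K), E.Lim U k f → v (f : K) ≤ (Real.exp (-(k : ℝ))).toNNReal) ∧
      ALe d J v (n - 1) ∧ v (g : K) = (Real.exp (-1)).toNNReal := by
  have hn0 : 0 < n := by omega
  have hnR : (2 : ℝ) ≤ n := by exact_mod_cast hn
  have hgne : g ≠ 0 := by
    rintro rfl
    have h1 := IsPsi.map_add hS hU.pairs hψ 0 0
    rw [add_zero] at h1
    exact hg (by linear_combination -h1)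
  have hgK : (g : K) ≠ 0 := by
    intro h
    exact hgne (Subtype.ext h)
  obtain ⟨v, κ, hκ, hv, hv1, ⟨i, hi⟩, hI, hb⟩ := exists_val_fam hS hd hn hJ0 hJ hJr hklt hred
    (limI_fam hS hU.pairs) g hgne (c := n) (by positivity)
    (gpairs_div hS hd hn0 hJ0 hJ hJr hcan hU.pairs hψ hg)
  -- `κ ≤ 1`
  have hκ1 : κ ≤ 1 := by
    obtain ⟨r, ζ, hζ, hζr⟩ := hU.red
    set X : IB n K := algebraMap (Pol n) (IB n K) (MvPolynomial.X i) with hX
    have hXv : v (X : K) = (Real.exp (-1)).toNNReal := hi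
    have hXlt : v (X : K) < 1 := by
      rw [hXv, ← NNReal.coe_lt_coe, Real.coe_toNNReal _ (Real.exp_pos _).le, NNReal.coe_one]
      rw [Real.exp_lt_one_iff]
      norm_num
    have hX0 : x.toFun X = 0 := by
      by_contra h
      exact absurd (hv.1.2 X h) hXlt.ne
    have hXne : X ≠ 0 := by
      intro h
      rw [h] at hXv
      have h1 : v ((0 : IB n K) : K) = 0 := by simp
      rw [h1] at hXv
      have h2 := congrArg ((↑) : ℝ≥0 → ℝ) hXv
      rw [Real.coe_toNNReal _ (Real.exp_pos _).le, NNReal.coe_zero] at h2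
      exact (Real.exp_pos _).ne h2
    obtain ⟨j, hj⟩ := red_val hζr hv.1 X hX0 (stepA_ne hζr hX0 hXne)
    have h1 := hI 1 (ζ j) ((mem_limI hS hU.pairs).2 (lim2_self.2 (hζ j)))
    have h2 := hj.trans h1
    rw [hXv, ← NNReal.coe_le_coe, Real.coe_toNNReal _ (Real.exp_pos _).le,
      Real.coe_toNNReal _ (Real.exp_pos _).le, Real.exp_le_exp] at h2
    push_cast at h2
    linarith
  -- `γ`
  have hvg0 : 0 < ((v (g : K) : ℝ≥0) : ℝ) := by
    rw [NNReal.coe_pos]
    exact (Valuation.pos_iff v).2 hgK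
  obtain ⟨γ, hγ⟩ : ∃ γ : ℝ, ((v (g : K) : ℝ≥0) : ℝ) = Real.exp (-γ) :=
    ⟨-Real.log (v (g : K) : ℝ≥0), by rw [neg_neg, Real.exp_log hvg0]⟩
  have hγ1 : 1 ≤ γ := by
    have h1 := stepA_le_iff.1 (hv1 g hg0)
    rw [hγ, Real.exp_le_exp] at h1
    linarith
  have hA : ALe d J v (n * κ - γ) := by
    intro b hb0 hbj
    have h1 := hb b hb0 hbj
    rw [← NNReal.coe_le_coe, Real.coe_toNNReal _ (Real.exp_pos _).le, NNReal.coe_mul, hγ] at h1
    rw [← NNReal.coe_le_coe, Real.coe_toNNReal _ (Real.exp_pos _).le]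
    have h2 : Real.exp (-(n * κ - γ)) = Real.exp γ * Real.exp (-(n * κ)) := by
      rw [← Real.exp_add]
      congr 1
      ring
    have h3 : Real.exp γ * Real.exp (-γ) = 1 := by
      rw [← Real.exp_add, add_neg_cancel, Real.exp_zero]
    rw [h2]
    calc Real.exp γ * Real.exp (-(n * κ)) ≤
          Real.exp γ * (Real.exp (-γ) * ((v (hfun d J b) : ℝ≥0) : ℝ)) :=
          mul_le_mul_of_nonneg_left h1 (Real.exp_pos _).le
      _ = ((v (hfun d J b) : ℝ≥0) : ℝ) := by rw [← mul_assoc, h3, one_mul]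
  have ha : 0 < n * κ - γ := pos_of_ALe hn0 hklt hv hA
  have hcod : ∀ ε : ℝ, 0 < ε → ∀ᶠ k : ℕ in atTop,
      (n.factorial * (cod (limI hS hU.pairs k k) : ℝ)) ≤ (2 + ε) * (k : ℝ) ^ n := by
    intro ε hε
    filter_upwards [choose_asymp n 2 (by norm_num) ε hε] with k hk
    refine le_trans ?_ hk
    have h1 : (cod (limI hS hU.pairs k k) : ℝ) ≤ 2 * (Nat.choose (n + k - 1) n : ℝ) := by
      have := limI_cod hS hn0 hU.pairs k k
      have h2 : (cod (limI hS hU.pairs k k) : ℝ) ≤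
        ((Nat.choose (n + k - 1) n + Nat.choose (n + k - 1) n : ℕ) : ℝ) := by exact_mod_cast this
      push_cast at h2
      linarith
    exact mul_le_mul_of_nonneg_left h1 (by positivity)
  have hvol := volGe_le hV hn0 hv ha hκ hA (limI_fam hS hU.pairs) hI hcod
  have hγκ : γ ≤ κ := by
    have h1 : (((n : ℝ) - 1) * κ) ^ n ≤ (n * κ - γ) ^ n := by
      rw [mul_pow]
      linarith
    have h2 := le_of_pow_le_pow_left₀ hn0.ne' ha.le h1
    linarith
  have hκe : κ = 1 := by linarith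
  have hγe : γ = 1 := by linarith
  refine ⟨v, hv, hv1, ⟨i, hi⟩, ?_, ?_, ?_⟩
  · intro k f hf
    have h1 := hI k f ((mem_limI hS hU.pairs).2 (lim2_self.2 hf))
    rwa [hκe, mul_one] at h1
  · rwa [hκe, hγe, mul_one] at hA
  · rw [hγe] at hγ
    rw [← NNReal.coe_inj, hγ, Real.coe_toNNReal _ (Real.exp_pos _).le]

end Vale.Agent.P282.EQ
end

section

/-!
P282, equality case: points of two charts.
-/

open MeasureTheory Filter Topology
open scoped NNReal ENNReal Nat WithZero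
open IsLocalRing

namespace Vale.Agent.P282.Full

open Vale.Agent.P282.L2 Vale.Agent.P282.EQ

variable {n : ℕ} {R K : Type} [CommRing R] [IsDomain R] [IsLocalRing R] [Algebra ℂ R]
  [Field K] [Algebra ℂ K] [Algebra R K] [IsScalarTower ℂ R K] [IsFractionRing R K]
  [Algebra (Pol n) R] [IsScalarTower ℂ (Pol n) R]
  [Algebra (Pol n) K] [IsScalarTower (Pol n) R K] [IsScalarTower ℂ (Pol n) K]
  [FaithfulSMul (Pol n) K]
  [Algebra (FractionRing (Pol n)) K] [IsScalarTower (Pol n) (FractionRing (Pol n)) K]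
  [FiniteDimensional (FractionRing (Pol n)) K]
  {R' K' : Type} [CommRing R'] [IsDomain R'] [IsLocalRing R'] [Algebra ℂ R']
  [Field K'] [Algebra ℂ K'] [Algebra R' K'] [IsScalarTower ℂ R' K'] [IsFractionRing R' K']
  [Algebra (Pol n) R'] [IsScalarTower ℂ (Pol n) R']
  [Algebra (Pol n) K'] [IsScalarTower (Pol n) R' K'] [IsScalarTower ℂ (Pol n) K']
  [FaithfulSMul (Pol n) K']
  [Algebra (FractionRing (Pol n)) K'] [IsScalarTower (Pol n) (FractionRing (Pol n)) K']
  [FiniteDimensional (FractionRing (Pol n)) K']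

set_option linter.unusedSectionVars false

section push_aux

/-- Elements of `R` integral over the base, as elements of the integral closure. -/
theorem push_int {x : Pt n K} (hc : IsChart R x) {a : R} (ha : IsIntegral (Pol n) a) :
    ∃ b : IB n K, (b : K) = algebraMap R K a ∧ (x.toFun b = 0 ↔ a ∈ maximalIdeal R) := by
  have h1 : IsIntegral (Pol n) (algebraMap R K a) := ha.algebraMap
  obtain ⟨a', ha', h⟩ := hc.pt ⟨algebraMap R K a, h1⟩
  have h2 : a' = a := IsFractionRing.injective R K ha'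
  subst h2
  exact ⟨_, rfl, h⟩

/-- Elements of `R` are fractions. -/
theorem push_frac {x : Pt n K} (hc : IsChart R x) (a : R) :
    ∃ (s : R) (σ t : IB n K), IsUnit s ∧ (σ : K) = algebraMap R K s ∧
      (t : K) = algebraMap R K (s * a) ∧ x.toFun σ ≠ 0 ∧
      (x.toFun t = 0 ↔ s * a ∈ maximalIdeal R) := by
  obtain ⟨s, hs, h1, h2⟩ := hc.zmt a
  obtain ⟨σ, hσ, hσ'⟩ := push_int hc h1
  obtain ⟨t, ht, ht'⟩ := push_int hc h2
  exact ⟨s, σ, t, hs, hσ, ht, fun h => (mem_nonunits_iff.1 ((mem_maximalIdeal _).1 (hσ'.1 h))) hs,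
    ht'⟩

end push_aux

section push_val

/-- The image of an element of the integral closure is a fraction. -/
theorem push_val (e : R ≃ₐ[ℂ] R') (f : K ≃ₐ[ℂ] K')
    (hef : ∀ a : R, f (algebraMap R K a) = algebraMap R' K' (e a)) {x : Pt n K} {x' : Pt n K'}
    (hc : IsChart R x) (hc' : IsChart R' x') (b : IB n K) :
    ∃ s t : IB n K', x'.toFun s ≠ 0 ∧ f (b : K) * (s : K') = (t : K') ∧
      x'.toFun t = x.toFun b * x'.toFun s := by
  obtain ⟨a, ha, ha'⟩ := hc.pt (b - algebraMap (Pol n) (IB n K) (MvPolynomial.C (x.toFun b)))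
  have hx0 : x.toFun (b - algebraMap (Pol n) (IB n K) (MvPolynomial.C (x.toFun b))) = 0 := by
    rw [map_sub, x.map_alg, MvPolynomial.eval_C, sub_self]
  have hae : e a ∈ maximalIdeal R' := by
    rw [mem_maximalIdeal, mem_nonunits_iff, isUnit_map_iff]
    exact (mem_nonunits_iff.1 ((mem_maximalIdeal _).1 (ha'.1 hx0)))
  obtain ⟨s, σ, t, hs, hσ, ht, hx, ht'⟩ := push_frac hc' (e a)
  refine ⟨σ, t + algebraMap (Pol n) (IB n K') (MvPolynomial.C (x.toFun b)) * σ, hx, ?_, ?_⟩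
  · have h1 : (b : K) = algebraMap R K a + algebraMap ℂ K (x.toFun b) := by
      rw [ha, IsScalarTower.algebraMap_apply ℂ (Pol n) K]
      change (b : K) = ((b : K) - algebraMap (Pol n) K (MvPolynomial.C (x.toFun b))) +
        algebraMap (Pol n) K (MvPolynomial.C (x.toFun b))
      ring
    have h2 : ((t + algebraMap (Pol n) (IB n K') (MvPolynomial.C (x.toFun b)) * σ : IB n K') : K')
        = (t : K') + algebraMap ℂ K' (x.toFun b) * (σ : K') := by
      rw [IsScalarTower.algebraMap_apply ℂ (Pol n) K']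
      rfl
    rw [h2, h1, map_add, hef, AlgEquiv.commutes, ht, hσ, map_mul]
    ring
  · rw [map_add, map_mul, x'.map_alg, MvPolynomial.eval_C, ht'.2 (Ideal.mul_mem_left _ _ hae),
      zero_add]

end push_val

section push_ev

variable {E : Prim n K} {E' : Prim n K'} {N' : ℕ} {S' : Sheets n N'} {q : (Fin n → ℂ) × ℂ}

/-- The map between the total spaces. -/
noncomputable def pushMap (f : K ≃ₐ[ℂ] K') (E : Prim n K) (E' : Prim n K')
    (q : (Fin n → ℂ) × ℂ) : (Fin n → ℂ) × ℂ :=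
  (fun i => E'.ev (f (algebraMap (Pol n) K (MvPolynomial.X i))) q, E'.ev (f E.y) q)

theorem push_coe_alg (c : Pol n) :
    ((algebraMap (Pol n) (IB n K) c : IB n K) : K) = algebraMap (Pol n) K c := rfl

theorem push_eval (f : K ≃ₐ[ℂ] K') (hS' : E'.IsSheets S') (hq : q ∈ S'.M)
    (hr : ∀ b : IB n K, E'.IsReg (f (b : K))) (c : Pol n) :
    MvPolynomial.eval (pushMap f E E' q).1 c = E'.ev (f (algebraMap (Pol n) K c)) q := by
  have hr' : ∀ c : Pol n, E'.IsReg (f (algebraMap (Pol n) K c)) := fun c => by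
    have := hr (algebraMap (Pol n) (IB n K) c)
    rwa [push_coe_alg] at this
  induction c using MvPolynomial.induction_on with
  | C a =>
    have h1 : f (algebraMap (Pol n) K (MvPolynomial.C a)) = algebraMap ℂ K' a := by
      have h2 : algebraMap (Pol n) K (MvPolynomial.C a) = algebraMap ℂ K a :=
        (IsScalarTower.algebraMap_apply ℂ (Pol n) K a).symm
      rw [h2, AlgEquiv.commutes]
    rw [h1, Prim.ev_const hS' hq, MvPolynomial.eval_C]
  | add p p' hp hp' =>
    rw [map_add, map_add, map_add, Prim.ev_add hS' hq (hr' _) (hr' _), hp, hp']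
  | mul_X p i hp =>
    rw [map_mul, map_mul, map_mul, Prim.ev_mul hS' hq (hr' _) (hr' _), hp, MvPolynomial.eval_X]
    rfl

theorem push_reg_aeval {f : K ≃ₐ[ℂ] K'} (hr : ∀ b : IB n K, E'.IsReg (f (b : K)))
    (g : Polynomial (Pol n)) : E'.IsReg (f (Polynomial.aeval E.y g)) :=
  hr ⟨Polynomial.aeval E.y g, (adjoin_le_integralClosure E.integral)
    (Polynomial.aeval_mem_adjoin_singleton _ _)⟩

theorem push_pev (f : K ≃ₐ[ℂ] K') (hS' : E'.IsSheets S') (hq : q ∈ S'.M)
    (hr : ∀ b : IB n K, E'.IsReg (f (b : K))) (g : Polynomial (Pol n)) :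
    pev g (pushMap f E E' q) = E'.ev (f (Polynomial.aeval E.y g)) q := by
  have hr' : ∀ c : Pol n, E'.IsReg (f (algebraMap (Pol n) K c)) := fun c => by
    have := hr (algebraMap (Pol n) (IB n K) c)
    rwa [push_coe_alg] at this
  have hry : E'.IsReg (f E.y) := hr ⟨E.y, E.integral⟩
  induction g using Polynomial.induction_on' with
  | add p p' hp hp' =>
    rw [Prim.pev_add, map_add, map_add,
      Prim.ev_add hS' hq (push_reg_aeval hr _) (push_reg_aeval hr _), hp, hp']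
  | monomial m c =>
    rw [Polynomial.aeval_monomial, map_mul, map_pow, Prim.ev_mul hS' hq (hr' _) (hry.pow m),
      Prim.ev_pow hS' hq hry, ← push_eval f hS' hq hr c (E := E)]
    simp [pev, pushMap]

theorem push_mem (f : K ≃ₐ[ℂ] K') {N : ℕ} {S : Sheets n N} (hS : E.IsSheets S)
    (hS' : E'.IsSheets S') (hq : q ∈ S'.M) (hr : ∀ b : IB n K, E'.IsReg (f (b : K)))
    (hh : E'.IsReg (f (algebraMap (Pol n) K E.h))⁻¹) : pushMap f E E' q ∈ S.M := by
  have hr' : E'.IsReg (f (algebraMap (Pol n) K E.h)) := by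
    have := hr (algebraMap (Pol n) (IB n K) E.h)
    rwa [push_coe_alg] at this
  have h0 : f (algebraMap (Pol n) K E.h) ≠ 0 := by
    rw [Ne, map_eq_zero_iff f f.injective]
    exact Prim.ev_aux_h E
  refine ⟨(hS.1 _).2 ?_, (hS.2 _ _).2 ?_⟩
  · rw [push_eval f hS' hq hr]
    exact Prim.ev_ne_zero_of_inv hS' hq h0 hr' hh
  · have h1 := push_pev f hS' hq hr (minpoly (Pol n) E.y) (E := E)
    rw [minpoly.aeval, map_zero, Prim.ev_zero hS' hq] at h1
    exact h1

theorem push_ev_eq (f : K ≃ₐ[ℂ] K') {N : ℕ} {S : Sheets n N} (hS : E.IsSheets S)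
    (hS' : E'.IsSheets S') (hq : q ∈ S'.M) (hr : ∀ b : IB n K, E'.IsReg (f (b : K)))
    (hh : E'.IsReg (f (algebraMap (Pol n) K E.h))⁻¹) (b : IB n K) :
    E.ev (b : K) (pushMap f E E' q) = E'.ev (f (b : K)) q := by
  have hr' : E'.IsReg (f (algebraMap (Pol n) K E.h)) := by
    have := hr (algebraMap (Pol n) (IB n K) E.h)
    rwa [push_coe_alg] at this
  have h0 : f (algebraMap (Pol n) K E.h) ≠ 0 := by
    rw [Ne, map_eq_zero_iff f f.injective]
    exact Prim.ev_aux_h E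
  obtain ⟨g, k, hg⟩ := Prim.isReg_ib (E := E) b
  have h1 := Prim.ev_ne_zero_of_inv hS' hq h0 hr' hh
  rw [Prim.ev_eq hS (push_mem f hS hS' hq hr hh) hg, push_pev f hS' hq hr, push_eval f hS' hq hr,
    ← hg, map_mul, map_pow, Prim.ev_mul hS' hq (hr'.pow k) (hr b), Prim.ev_pow hS' hq hr']
  field_simp

end push_ev

section push_reg

theorem push_inv {E' : Prim n K'} {a b : IB n K'} (hab : a ∣ b) (h0 : b ≠ 0)
    (hb : E'.IsReg (b : K')⁻¹) : E'.IsReg (a : K')⁻¹ := by
  obtain ⟨c, rfl⟩ := hab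
  have ha : (a : K') ≠ 0 := fun h => h0 (by
    have : a = 0 := Subtype.ext h
    rw [this, zero_mul])
  have hc : (c : K') ≠ 0 := fun h => h0 (by
    have : c = 0 := Subtype.ext h
    rw [this, mul_zero])
  have h1 : (a : K')⁻¹ = (c : K') * ((a * c : IB n K') : K')⁻¹ := by
    change (a : K')⁻¹ = (c : K') * ((a : K') * (c : K'))⁻¹
    field_simp
  rw [h1]
  exact (Prim.isReg_ib c).mul hb

/-- Finitely many conditions suffice for the regularity of all elements. -/
theorem push_fin (f : K ≃ₐ[ℂ] K') : ∃ G : Finset (IB n K), ∀ E' : Prim n K',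
    (∀ g ∈ G, E'.IsReg (f (g : K))) → ∀ b : IB n K, E'.IsReg (f (b : K)) := by
  classical
  have hfin : Module.Finite (Pol n) (IB n K) := ib_finite
  obtain ⟨G0, hG0⟩ := hfin.fg_top
  refine ⟨G0 ∪ Finset.univ.image fun i : Fin n => algebraMap (Pol n) (IB n K) (MvPolynomial.X i),
    fun E' h b => ?_⟩
  have hX : ∀ i : Fin n, E'.IsReg (f (algebraMap (Pol n) K (MvPolynomial.X i))) := fun i => by
    have := h (algebraMap (Pol n) (IB n K) (MvPolynomial.X i))
      (Finset.mem_union_right _ (Finset.mem_image_of_mem _ (Finset.mem_univ i)))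
    rwa [push_coe_alg] at this
  have hP : ∀ c : Pol n, E'.IsReg (f (algebraMap (Pol n) K c)) := by
    intro c
    induction c using MvPolynomial.induction_on with
    | C a =>
      have h2 : algebraMap (Pol n) K (MvPolynomial.C a) = algebraMap ℂ K a :=
        (IsScalarTower.algebraMap_apply ℂ (Pol n) K a).symm
      rw [h2, AlgEquiv.commutes]
      exact Prim.isReg_const a
    | add p p' hp hp' =>
      rw [map_add, map_add]
      exact hp.add hp'
    | mul_X p i hp =>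
      rw [map_mul, map_mul]
      exact hp.mul (hX i)
  have hb : b ∈ Submodule.span (Pol n) (G0 : Set (IB n K)) := by
    rw [hG0]
    exact Submodule.mem_top
  induction hb using Submodule.span_induction with
  | mem g hg => exact h g (Finset.mem_union_left _ hg)
  | zero =>
    have : f ((0 : IB n K) : K) = 0 := by
      change f 0 = 0
      rw [map_zero]
    rw [this]
    exact Prim.isReg_zero
  | add a c _ _ ha hc =>
    have : f ((a + c : IB n K) : K) = f (a : K) + f (c : K) := by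
      change f ((a : K) + (c : K)) = _
      rw [map_add]
    rw [this]
    exact ha.add hc
  | smul p a _ ha =>
    have : f ((p • a : IB n K) : K) = f (algebraMap (Pol n) K p) * f (a : K) := by
      rw [Algebra.smul_def, ← map_mul]
      rfl
    rw [this]
    exact (hP p).mul ha

end push_reg

/-- Points of the second chart give points of the first chart. -/
theorem exists_push (e : R ≃ₐ[ℂ] R') (f : K ≃ₐ[ℂ] K')
    (hef : ∀ a : R, f (algebraMap R K a) = algebraMap R' K' (e a)) {x : Pt n K} {x' : Pt n K'}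
    (hc : IsChart R x) (hc' : IsChart R' x') {N : ℕ} {E : Prim n K} {S : Sheets n N}
    (hS : E.IsSheets S) :
    ∃ δ : IB n K', δ ≠ 0 ∧ ∀ (E' : Prim n K') {N' : ℕ} {S' : Sheets n N'}, E'.IsSheets S' →
      E'.IsReg (δ : K')⁻¹ → ∃ τ : (Fin n → ℂ) × ℂ → (Fin n → ℂ) × ℂ,
        (∀ q ∈ S'.M, τ q ∈ S.M) ∧
        (∀ b : IB n K, E'.IsReg (f b) ∧ ∀ q ∈ S'.M, E.ev (b : K) (τ q) = E'.ev (f b) q) ∧
        Tendsto τ (E'.nhd S' x') (E.nhd S x) ∧
        ∃ W ∈ E'.nhd S' x', Set.InjOn τ W := by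
  classical
  obtain ⟨G, hG⟩ := push_fin (n := n) f
  choose s t hs hst hxt using push_val e f hef hc hc'
  set hh : IB n K := algebraMap (Pol n) (IB n K) E.h with hhdef
  have hne : ∀ {a : IB n K'}, x'.toFun a ≠ 0 → a ≠ 0 := fun h h0 => h (by rw [h0, map_zero])
  have hcoe : ∀ {a : IB n K'}, a ≠ 0 → (a : K') ≠ 0 := fun h h0 => h (Subtype.ext h0)
  have hh0 : f (hh : K) ≠ 0 := by
    rw [Ne, map_eq_zero_iff f f.injective, hhdef, push_coe_alg]
    exact Prim.ev_aux_h E
  have hth : t hh ≠ 0 := by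
    intro h0
    have h1 := hst hh
    rw [h0] at h1
    exact (mul_ne_zero hh0 (hcoe (hne (hs hh)))) h1
  have hprod : ∏ g ∈ G, s g ≠ 0 := Finset.prod_ne_zero_iff.2 fun g _ => hne (hs g)
  refine ⟨(∏ g ∈ G, s g) * t hh, mul_ne_zero hprod hth, fun E' N' S' hS' hδ => ?_⟩
  have hr : ∀ b : IB n K, E'.IsReg (f (b : K)) := by
    refine hG E' fun g hg => ?_
    have h1 : E'.IsReg (s g : K')⁻¹ := push_inv
      ((Finset.dvd_prod_of_mem s hg).trans (dvd_mul_right _ _)) (mul_ne_zero hprod hth) hδ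
    have h2 : f (g : K) = (t g : K') * (s g : K')⁻¹ := by
      rw [← hst g, mul_assoc, mul_inv_cancel₀ (hcoe (hne (hs g))), mul_one]
    rw [h2]
    exact (Prim.isReg_ib _).mul h1
  have hhi : E'.IsReg (f (algebraMap (Pol n) K E.h))⁻¹ := by
    have h1 : E'.IsReg (t hh : K')⁻¹ := push_inv (dvd_mul_left _ _) (mul_ne_zero hprod hth) hδ
    have h2 : (f (algebraMap (Pol n) K E.h))⁻¹ = (s hh : K') * (t hh : K')⁻¹ := by
      have h3 := hcoe (hne (hs hh))
      have h4 := hst hh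
      rw [hhdef, push_coe_alg] at h4 hh0
      rw [← hhdef] at h4
      rw [← h4]
      field_simp
    rw [h2]
    exact (Prim.isReg_ib _).mul h1
  have hev : ∀ b : IB n K, ∀ q ∈ S'.M, E.ev (b : K) (pushMap f E E' q) = E'.ev (f b) q :=
    fun b q hq => push_ev_eq f hS hS' hq hr hhi b
  have hmem : ∀ q ∈ S'.M, pushMap f E E' q ∈ S.M := fun q hq => push_mem f hS hS' hq hr hhi
  have hM' := Prim.M_mem_nhd E' S' x'
  have htend : Tendsto (pushMap f E E') (E'.nhd S' x') (E.nhd S x) := by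
    unfold Prim.nhd
    rw [tendsto_inf, tendsto_principal, tendsto_iInf]
    refine ⟨?_, fun b => ?_⟩
    · filter_upwards [hM'] with q hq
      exact hmem q hq
    · rw [tendsto_comap_iff]
      have h1 := Prim.tendsto_ev_nhd E' S' x' (t b)
      have h2 := Prim.tendsto_ev_nhd E' S' x' (s b)
      have h3 := h1.div h2 (hs b)
      rw [hxt b, mul_div_assoc, div_self (hs b), mul_one] at h3
      refine h3.congr' ?_
      filter_upwards [hM', h2.eventually_ne (hs b)] with q hq hq0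
      simp only [Function.comp, Pi.div_apply]
      rw [hev b q hq, div_eq_iff hq0, ← Prim.ev_mul hS' hq (hr b) (Prim.isReg_ib _), hst b]
  refine ⟨pushMap f E E', hmem, fun b => ⟨hr b, hev b⟩, htend, ?_⟩
  have hef' : ∀ a : R', f.symm (algebraMap R' K' a) = algebraMap R K (e.symm a) := fun a => by
    rw [AlgEquiv.symm_apply_eq, hef, AlgEquiv.apply_symm_apply]
  choose σ ρ hσ hσρ _hx using push_val e.symm f.symm hef' hc' hc
  have hval : ∀ (a : IB n K') (q : (Fin n → ℂ) × ℂ), q ∈ S'.M →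
      E.ev (σ a : K) (pushMap f E E' q) ≠ 0 →
      E'.ev (a : K') q =
        E.ev (ρ a : K) (pushMap f E E' q) / E.ev (σ a : K) (pushMap f E E' q) := by
    intro a q hq h0
    rw [eq_div_iff h0, hev _ q hq, hev _ q hq, ← Prim.ev_mul hS' hq (Prim.isReg_ib _) (hr _),
      ← hσρ a, map_mul, AlgEquiv.apply_symm_apply]
  have hσt : ∀ a : IB n K', ∀ᶠ q in E'.nhd S' x', E.ev (σ a : K) (pushMap f E E' q) ≠ 0 :=
    fun a => ((Prim.tendsto_ev_nhd E S x (σ a)).comp htend).eventually_ne (hσ a)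
  refine ⟨{q | q ∈ S'.M ∧ E.ev (σ ⟨E'.y, E'.integral⟩ : K) (pushMap f E E' q) ≠ 0 ∧
    ∀ j : Fin n, E.ev (σ (algebraMap (Pol n) (IB n K') (MvPolynomial.X j)) : K)
      (pushMap f E E' q) ≠ 0}, ?_, ?_⟩
  · filter_upwards [hM', hσt ⟨E'.y, E'.integral⟩, eventually_all.2 fun j : Fin n =>
      hσt (algebraMap (Pol n) (IB n K') (MvPolynomial.X j))] with q h1 h2 h3
    exact ⟨h1, h2, h3⟩
  · rintro q ⟨hq, hy, hX⟩ q' ⟨hq', hy', hX'⟩ hqq
    refine Prod.ext (funext fun j => ?_) ?_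
    · have h1 := hval _ q hq (hX j)
      have h2 := hval _ q' hq' (hX' j)
      rw [hqq, ← h2, push_coe_alg, Prim.ev_alg hS' hq, Prim.ev_alg hS' hq', MvPolynomial.eval_X,
        MvPolynomial.eval_X] at h1
      exact h1
    · have h1 := hval _ q hq hy
      have h2 := hval _ q' hq' hy'
      rw [hqq, ← h2] at h1
      change E'.ev E'.y q = E'.ev E'.y q' at h1
      rwa [Prim.ev_y hS' hq, Prim.ev_y hS' hq'] at h1

end Vale.Agent.P282.Full
end

section

/-!
P282, equality case: change of the coordinates of the base.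
-/

open MeasureTheory Filter Topology
open scoped NNReal ENNReal Nat WithZero
open IsLocalRing

namespace Vale.Agent.P282.Full

open Vale.Agent.P282.L2 Vale.Agent.P282.EQ

set_option linter.unusedSectionVars false

/-! ### Algebra of one chart -/

section one

variable {n : ℕ} {R K : Type} [CommRing R] [IsDomain R] [IsLocalRing R] [Algebra ℂ R]
  [Field K] [Algebra ℂ K] [Algebra R K] [IsScalarTower ℂ R K] [IsFractionRing R K]
  [Algebra (Pol n) R] [IsScalarTower ℂ (Pol n) R]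
  [Algebra (Pol n) K] [IsScalarTower (Pol n) R K] [IsScalarTower ℂ (Pol n) K]
  [FaithfulSMul (Pol n) K]

/-- The integral closure is contained in `R`. -/
theorem transp_hom {x : Pt n K} (hc : IsChart R x) : ∃ i : IB n K →+* R,
    (∀ b : IB n K, algebraMap R K (i b) = (b : K)) ∧
      ∀ b : IB n K, x.toFun b = 0 ↔ i b ∈ maximalIdeal R := by
  have hinj : Function.Injective (algebraMap R K) := IsFractionRing.injective R K
  choose i hi hx using hc.pt
  refine ⟨{ toFun := i, map_one' := ?_, map_mul' := ?_, map_zero' := ?_, map_add' := ?_ }, hi, hx⟩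
  · apply hinj
    rw [hi, map_one]
    rfl
  · intro a b
    apply hinj
    rw [hi, map_mul, hi, hi]
    rfl
  · apply hinj
    rw [hi, map_zero]
    rfl
  · intro a b
    apply hinj
    rw [hi, map_add, hi, hi]
    rfl

variable {x : Pt n K} {i : IB n K →+* R}

theorem transp_inj (hi : ∀ b : IB n K, algebraMap R K (i b) = (b : K)) :
    Function.Injective i := by
  intro a b hab
  apply Subtype.ext
  rw [← hi, ← hi, hab]

/-- Denominators. -/
theorem transp_den (hc : IsChart R x) (hi : ∀ b : IB n K, algebraMap R K (i b) = (b : K)) (a : R) :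
    ∃ s t : IB n K, IsUnit (i s) ∧ i t = i s * a := by
  have hinj : Function.Injective (algebraMap R K) := IsFractionRing.injective R K
  obtain ⟨s, hs, h1, h2⟩ := hc.zmt a
  have h1' : IsIntegral (Pol n) (algebraMap R K s) := h1.algebraMap
  have h2' : IsIntegral (Pol n) (algebraMap R K (s * a)) := h2.algebraMap
  have e1 : i ⟨algebraMap R K s, h1'⟩ = s := hinj (hi _)
  have e2 : i ⟨algebraMap R K (s * a), h2'⟩ = s * a := hinj (hi _)
  exact ⟨⟨_, h1'⟩, ⟨_, h2'⟩, by rwa [e1], by rw [e1, e2]⟩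

theorem transp_unit (hx : ∀ b : IB n K, x.toFun b = 0 ↔ i b ∈ maximalIdeal R) {s : IB n K}
    (hs : IsUnit (i s)) : x.toFun s ≠ 0 := fun h =>
  (mem_maximalIdeal _).1 ((hx s).1 h) hs

theorem transp_map (hc : IsChart R x) (hi : ∀ b : IB n K, algebraMap R K (i b) = (b : K))
    (hx : ∀ b : IB n K, x.toFun b = 0 ↔ i b ∈ maximalIdeal R) :
    (kx x).map i = maximalIdeal R := by
  apply le_antisymm
  · rw [Ideal.map_le_iff_le_comap]
    intro b hb
    exact (hx b).1 (mem_kx.1 hb)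
  · intro c hcm
    obtain ⟨s, t, hs, ht⟩ := transp_den hc hi c
    obtain ⟨u, hu⟩ := hs
    have h1 : t ∈ kx x := by
      rw [mem_kx, hx, ht]
      exact Ideal.mul_mem_left _ _ hcm
    have h2 : c = (↑u⁻¹ : R) * i t := by
      rw [ht, ← hu, Units.inv_mul_cancel_left]
    rw [h2]
    exact Ideal.mul_mem_left _ _ (Ideal.mem_map_of_mem i h1)

/-- Clearing denominators. -/
theorem transp_clear (hc : IsChart R x) (hi : ∀ b : IB n K, algebraMap R K (i b) = (b : K))
    (hx : ∀ b : IB n K, x.toFun b = 0 ↔ i b ∈ maximalIdeal R) (I : Ideal (IB n K)) {c : R}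
    (h : c ∈ I.map i) : ∃ t : IB n K, x.toFun t ≠ 0 ∧ ∃ b ∈ I, i t * c = i b := by
  unfold Ideal.map at h
  induction h using Submodule.span_induction with
  | mem c hcI =>
    obtain ⟨b, hb, rfl⟩ := hcI
    exact ⟨1, by rw [map_one]; exact one_ne_zero, b, hb, by rw [map_one, one_mul]⟩
  | zero => exact ⟨1, by rw [map_one]; exact one_ne_zero, 0, I.zero_mem, by simp⟩
  | add c d _ _ h1 h2 =>
    obtain ⟨t, ht, b, hb, e⟩ := h1
    obtain ⟨t', ht', b', hb', e'⟩ := h2
    refine ⟨t * t', by rw [map_mul]; exact mul_ne_zero ht ht', t' * b + t * b',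
      I.add_mem (I.mul_mem_left _ hb) (I.mul_mem_left _ hb'), ?_⟩
    rw [map_mul, map_add, map_mul, map_mul, ← e, ← e']
    ring
  | smul r c _ h1 =>
    obtain ⟨t, ht, b, hb, e⟩ := h1
    obtain ⟨s, p, hs, hp⟩ := transp_den hc hi r
    refine ⟨s * t, by rw [map_mul]; exact mul_ne_zero (transp_unit hx hs) ht, p * b,
      I.mul_mem_left _ hb, ?_⟩
    rw [map_mul, map_mul, ← e, hp, smul_eq_mul]
    ring

end one

/-! ### Differences -/

section diff

variable {n N : ℕ} {K : Type} [Field K] [Algebra ℂ K] [Algebra (Pol n) K]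
  [IsScalarTower ℂ (Pol n) K] [FaithfulSMul (Pol n) K]
  [Algebra (FractionRing (Pol n)) K] [IsScalarTower (Pol n) (FractionRing (Pol n)) K]
  [FiniteDimensional (FractionRing (Pol n)) K]
  {E : Prim n K} {S : Sheets n N} {x : Pt n K} {U : Ultrafilter (Pairs n)}

/-- Differences of a quotient. -/
theorem transp_quot (hS : E.IsSheets S) (hU : GPairs E S x U) {g : IB n K} (hg : Dom E U g)
    {a : K} (ha : E.IsReg a) {s t : IB n K} (hs : x.toFun s ≠ 0) (h : (s : K) * a = t) :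
    ∃ C : ℝ, 0 ≤ C ∧ ∀ᶠ u in (U : Filter (Pairs n)),
      ‖E.ev a u.1 - E.ev a u.2‖ ≤ C * ‖E.ev (g : K) u.1 - E.ev (g : K) u.2‖ := by
  obtain ⟨C₁, h₁⟩ := hg s
  obtain ⟨C₂, h₂⟩ := hg t
  have hc : 0 < ‖x.toFun s‖ / 2 := by
    have := norm_pos_iff.2 hs
    linarith
  have hlt : ‖x.toFun s‖ / 2 < ‖x.toFun s‖ := by linarith
  have l1 := ((LimGen_ev_fst hU s).norm).eventually (lt_mem_nhds hlt)
  have l2 := ((LimGen_ev_snd hU s).norm).eventually (lt_mem_nhds hlt)
  have l3 := ((LimGen_ev_snd hU t).norm).eventually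
    (gt_mem_nhds (lt_add_one ‖x.toFun t‖))
  set c := ‖x.toFun s‖ / 2 with hcdef
  set D := ‖x.toFun t‖ + 1 with hD
  have hD0 : 0 ≤ D := by positivity
  refine ⟨(|C₂| + |C₁| * (D / c)) / c, by positivity, ?_⟩
  filter_upwards [h₁, h₂, l1, l2, l3, LimGen_fst hU, LimGen_snd hU] with u k₁ k₂ m1 m2 m3 q1 q2
  have e1 : E.ev (s : K) u.1 * E.ev a u.1 = E.ev (t : K) u.1 := by
    rw [← Prim.ev_mul hS q1 (Prim.isReg_ib s) ha, h]
  have e2 : E.ev (s : K) u.2 * E.ev a u.2 = E.ev (t : K) u.2 := by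
    rw [← Prim.ev_mul hS q2 (Prim.isReg_ib s) ha, h]
  have hG := norm_nonneg (E.ev (g : K) u.1 - E.ev (g : K) u.2)
  set G := ‖E.ev (g : K) u.1 - E.ev (g : K) u.2‖ with hGdef
  have k₁' : ‖E.ev (s : K) u.1 - E.ev (s : K) u.2‖ ≤ |C₁| * G :=
    k₁.trans (mul_le_mul_of_nonneg_right (le_abs_self _) hG)
  have k₂' : ‖E.ev (t : K) u.1 - E.ev (t : K) u.2‖ ≤ |C₂| * G :=
    k₂.trans (mul_le_mul_of_nonneg_right (le_abs_self _) hG)
  have ha2 : ‖E.ev a u.2‖ ≤ D / c := by
    rw [le_div_iff₀ hc]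
    have e3 := congrArg norm e2
    rw [norm_mul] at e3
    have := norm_nonneg (E.ev a u.2)
    (by_contra nlg; linarith only [nlg, mul_nonneg (sub_nonneg.2 hD0) (le_of_lt (sub_pos.2 m2)), mul_eq_zero_of_left (sub_eq_zero.2 hcdef) (‖E.ev (↑s) u.2‖ * ‖E.ev a u.2‖ - (‖E.ev (↑t) u.2‖)), mul_eq_zero_of_left (sub_eq_zero.2 hcdef) (D - (‖E.ev (↑t) u.2‖)), mul_eq_zero_of_left (sub_eq_zero.2 e3) (‖x.toFun s‖ - (c)), mul_pos (sub_pos.2 hlt) (sub_pos.2 m3), mul_pos (sub_pos.2 (not_le.1 nlg)) (sub_pos.2 m2), mul_eq_zero_of_left (sub_eq_zero.2 hcdef) (‖E.ev a u.2‖ * c - (D)), mul_pos (sub_pos.2 (not_le.1 nlg)) (sub_pos.2 hlt)])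
  have e4 : E.ev (s : K) u.1 * (E.ev a u.1 - E.ev a u.2) =
      (E.ev (t : K) u.1 - E.ev (t : K) u.2) -
        (E.ev (s : K) u.1 - E.ev (s : K) u.2) * E.ev a u.2 := by
    rw [mul_sub, sub_mul, e1, e2]
    ring
  have e5 : ‖E.ev (s : K) u.1‖ * ‖E.ev a u.1 - E.ev a u.2‖ ≤
      |C₂| * G + |C₁| * G * (D / c) := by
    rw [← norm_mul, e4]
    refine (norm_sub_le _ _).trans (add_le_add k₂' ?_)
    rw [norm_mul]
    exact mul_le_mul k₁' ha2 (norm_nonneg _) (by positivity)
  rw [div_mul_eq_mul_div, le_div_iff₀ hc]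
  have e6 : ‖E.ev a u.1 - E.ev a u.2‖ * c ≤
      ‖E.ev (s : K) u.1‖ * ‖E.ev a u.1 - E.ev a u.2‖ := by
    rw [mul_comm]
    exact mul_le_mul_of_nonneg_right m1.le (norm_nonneg _)
  refine e6.trans (e5.trans (le_of_eq ?_))
  ring

/-- `Dom` implies `ψ g ≠ 0`. -/
theorem transp_dom {ψ : IB n K → ℂ} {s : Pairs n → ℝ} (hψ : IsPsi E U ψ s)
    {g₀ : IB n K} (hg₀ : ψ g₀ ≠ 0) {g : IB n K} (hg : Dom E U g) : ψ g ≠ 0 := by
  intro h0
  obtain ⟨C, hC⟩ := hg g₀
  have h1 := (hψ.lim g₀).norm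
  have h2 := ((hψ.lim g).norm).const_mul C
  rw [h0, norm_zero, mul_zero] at h2
  refine hg₀ (norm_eq_zero.1 (le_antisymm ?_ (norm_nonneg _)))
  refine le_of_tendsto_of_tendsto h1 h2 ?_
  filter_upwards [hC, hψ.pos] with u hu hs
  rw [norm_div, norm_div, ← mul_div_assoc]
  exact div_le_div_of_nonneg_right hu (norm_nonneg _)

end diff

variable {n : ℕ} {R K : Type} [CommRing R] [IsDomain R] [IsLocalRing R] [Algebra ℂ R]
  [Field K] [Algebra ℂ K] [Algebra R K] [IsScalarTower ℂ R K] [IsFractionRing R K]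
  [Algebra (Pol n) R] [IsScalarTower ℂ (Pol n) R]
  [Algebra (Pol n) K] [IsScalarTower (Pol n) R K] [IsScalarTower ℂ (Pol n) K]
  [FaithfulSMul (Pol n) K]
  [Algebra (FractionRing (Pol n)) K] [IsScalarTower (Pol n) (FractionRing (Pol n)) K]
  [FiniteDimensional (FractionRing (Pol n)) K]
  {R' K' : Type} [CommRing R'] [IsDomain R'] [IsLocalRing R'] [Algebra ℂ R']
  [Field K'] [Algebra ℂ K'] [Algebra R' K'] [IsScalarTower ℂ R' K'] [IsFractionRing R' K']
  [Algebra (Pol n) R'] [IsScalarTower ℂ (Pol n) R']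
  [Algebra (Pol n) K'] [IsScalarTower (Pol n) R' K'] [IsScalarTower ℂ (Pol n) K']
  [FaithfulSMul (Pol n) K']
  [Algebra (FractionRing (Pol n)) K'] [IsScalarTower (Pol n) (FractionRing (Pol n)) K']
  [FiniteDimensional (FractionRing (Pol n)) K']

/-- The coordinates of the second chart give a reduction. -/
theorem transp_red (e : R ≃ₐ[ℂ] R') {x : Pt n K} {x' : Pt n K'}
    (hc : IsChart R x) (hc' : IsChart R' x') {i : IB n K →+* R}
    (hi : ∀ b : IB n K, algebraMap R K (i b) = (b : K))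
    (hx : ∀ b : IB n K, x.toFun b = 0 ↔ i b ∈ maximalIdeal R)
    {s ζ : Fin n → IB n K} (hs : ∀ l, IsUnit (i (s l)))
    (hζ : ∀ l, i (ζ l) = i (s l) * e.symm (algebraMap (Pol n) R' (MvPolynomial.X l))) :
    Red x ζ := by
  obtain ⟨k, hk⟩ := hc'.red
  have hm : (maximalIdeal R').map (e.symm : R' →+* R) = maximalIdeal R := by
    apply le_antisymm
    · rw [Ideal.map_le_iff_le_comap]
      intro a ha
      rw [Ideal.mem_comap, mem_maximalIdeal, mem_nonunits_iff]
      rw [mem_maximalIdeal, mem_nonunits_iff] at ha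
      intro hu
      apply ha
      have := hu.map (e : R →+* R')
      simpa using this
    · intro a ha
      have h1 : e a ∈ maximalIdeal R' := by
        rw [mem_maximalIdeal, mem_nonunits_iff]
        rw [mem_maximalIdeal, mem_nonunits_iff] at ha
        intro hu
        apply ha
        have := hu.map (e.symm : R' →+* R)
        simpa using this
      have h2 := Ideal.mem_map_of_mem (e.symm : R' →+* R) h1
      simpa using h2
  refine ⟨k, fun a ha => ?_⟩
  have h1 : i a ∈ maximalIdeal R ^ (k + 1) := by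
    rw [← transp_map hc hi hx, ← Ideal.map_pow]
    exact Ideal.mem_map_of_mem i ha
  have h2 : maximalIdeal R ^ (k + 1) ≤
      (Ideal.span (Set.range ζ) * kx x ^ k).map i := by
    rw [Ideal.map_mul, Ideal.map_pow, transp_map hc hi hx, ← hm, ← Ideal.map_pow,
      ← Ideal.map_pow]
    refine (Ideal.map_mono hk).trans ?_
    rw [Ideal.map_mul]
    refine Ideal.mul_mono_left ?_
    rw [Ideal.map_span, Ideal.span_le]
    rintro _ ⟨_, ⟨l, rfl⟩, rfl⟩
    obtain ⟨u, hu⟩ := hs l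
    have h3 : (e.symm : R' →+* R) (algebraMap (Pol n) R' (MvPolynomial.X l)) =
        (↑u⁻¹ : R) * i (ζ l) := by
      rw [hζ, ← hu, Units.inv_mul_cancel_left]
      rfl
    rw [SetLike.mem_coe, h3]
    exact Ideal.mul_mem_left _ _ (Ideal.mem_map_of_mem i (Ideal.subset_span ⟨l, rfl⟩))
  obtain ⟨t, ht, b, hb, hb'⟩ := transp_clear hc hi hx _ (h2 h1)
  refine ⟨t, ht, ?_⟩
  have h3 : t * a = b := transp_inj hi (by rw [map_mul, hb'])
  rw [h3]
  exact hb

/-- Pairs over the same point of the second base are admissible for the first base. -/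
theorem transport (e : R ≃ₐ[ℂ] R') (f : K ≃ₐ[ℂ] K')
    (hef : ∀ a : R, f (algebraMap R K a) = algebraMap R' K' (e a)) {x : Pt n K} {x' : Pt n K'}
    (hc : IsChart R x) (hc' : IsChart R' x') {N : ℕ} {E : Prim n K} {S : Sheets n N}
    (hS : E.IsSheets S) :
    ∃ δ : IB n K', δ ≠ 0 ∧ ∀ (E' : Prim n K') {N' : ℕ} {S' : Sheets n N'}, E'.IsSheets S' →
      E'.IsReg (δ : K')⁻¹ → ∀ U' : Ultrafilter (Pairs n), E'.IsPairs S' x' U' →
        ∃ U : Ultrafilter (Pairs n), Adm E S x U ∧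
          ∀ g' : IB n K', x'.toFun g' = 0 → Dom E' U' g' → ∃ g : IB n K, x.toFun g = 0 ∧
            (∃ (ψ : IB n K → ℂ) (s : Pairs n → ℝ), IsPsi E U ψ s ∧ ψ g ≠ 0) ∧
            ∃ s : R', IsUnit s ∧ f g = algebraMap R' K' s * g' := by
  obtain ⟨δ, hδ, hpush⟩ := exists_push e f hef hc hc' hS
  obtain ⟨i, hi, hx⟩ := transp_hom hc
  obtain ⟨i', hi', hx'⟩ := transp_hom hc'
  refine ⟨δ, hδ, fun E' N' S' hS' hreg U' hU' => ?_⟩
  obtain ⟨τ, hτM, hτ, hτt, W, hW, hτW⟩ := hpush E' hS' hreg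
  have hG' : GPairs E' S' x' U' := gpairs_of_isPairs hU'
  obtain ⟨U, hUdef⟩ : ∃ U : Ultrafilter (Pairs n), U = U'.map (Prod.map τ τ) := ⟨_, rfl⟩
  have hev : ∀ {p : Pairs n → Prop}, (∀ᶠ u in (U : Filter (Pairs n)), p u) ↔
      ∀ᶠ u in (U' : Filter (Pairs n)), p (τ u.1, τ u.2) := by
    intro p
    rw [hUdef, Ultrafilter.coe_map, Filter.eventually_map]
    rfl
  have htd : ∀ {F : Pairs n → ℂ} {l : Filter ℂ}, Tendsto F (U : Filter (Pairs n)) l ↔
      Tendsto (fun u => F (τ u.1, τ u.2)) (U' : Filter (Pairs n)) l := by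
    intro F l
    rw [hUdef, Ultrafilter.coe_map, Filter.tendsto_map'_iff]
    rfl
  have hG : GPairs E S x U := by
    refine ⟨?_, ?_, ?_⟩
    · rw [hUdef, Ultrafilter.coe_map, Filter.tendsto_map'_iff]
      exact hτt.comp hU'.fst
    · rw [hUdef, Ultrafilter.coe_map, Filter.tendsto_map'_iff]
      exact hτt.comp hU'.snd
    · rw [hev]
      filter_upwards [hU'.ne, hU'.fst hW, hU'.snd hW] with u h1 h2 h3 h4
      exact h1.2 (hτW h2 h3 h4)
  obtain ⟨ψ, sc, g₀, hψ, -, hg₀⟩ := GPairs.exists_psi hS hG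
  -- values
  have hval : ∀ b : IB n K, ∀ᶠ u in (U' : Filter (Pairs n)),
      E.ev (b : K) (τ u.1) = E'.ev (f b) u.1 ∧ E.ev (b : K) (τ u.2) = E'.ev (f b) u.2 := by
    intro b
    filter_upwards [LimGen_fst hG', LimGen_snd hG'] with u h1 h2
    exact ⟨(hτ b).2 _ h1, (hτ b).2 _ h2⟩
  -- the reduction
  choose s ζ hs hζ using fun l : Fin n =>
    transp_den hc hi (e.symm (algebraMap (Pol n) R' (MvPolynomial.X l)))
  have hfb : ∀ b : IB n K, f b = algebraMap R' K' (e (i b)) := by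
    intro b
    rw [← hef, hi]
  have hfζ : ∀ l, f (ζ l) = f (s l) * algebraMap (Pol n) K' (MvPolynomial.X l) := by
    intro l
    rw [hfb, hfb, hζ, map_mul, map_mul, AlgEquiv.apply_symm_apply,
      ← IsScalarTower.algebraMap_apply]
  have hψζ : ∀ l, ψ (ζ l) = 0 := by
    intro l
    have h1 := htd.1 (hψ.lim (ζ l))
    have h2 := htd.1 (hψ.lim (s l))
    have h3 : Tendsto (fun u : Pairs n => u.1.1 l) (U' : Filter (Pairs n)) (𝓝 0) := by
      have h4 := (Prim.tendsto_fst_nhd hS' x').comp hU'.fst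
      rw [tendsto_pi_nhds] at h4
      exact h4 l
    have h4 := h2.mul h3
    rw [mul_zero] at h4
    refine tendsto_nhds_unique h1 (h4.congr' ?_)
    filter_upwards [hval (ζ l), hval (s l), LimGen_fst hG', LimGen_snd hG', hU'.ne]
      with u k1 k2 m1 m2 m3
    rw [k1.1, k1.2, k2.1, k2.2, hfζ, Prim.ev_mul hS' m1 (hτ (s l)).1 (Prim.isReg_alg _),
      Prim.ev_mul hS' m2 (hτ (s l)).1 (Prim.isReg_alg _), Prim.ev_alg hS' m1, Prim.ev_alg hS' m2,
      MvPolynomial.eval_X, MvPolynomial.eval_X, ← m3.1]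
    ring
  have hxζ : ∀ l, x.toFun (ζ l) = 0 := by
    intro l
    rw [hx, hζ]
    apply Ideal.mul_mem_left
    rw [mem_maximalIdeal, mem_nonunits_iff]
    intro hu
    have h1 := hc'.mem l
    rw [mem_maximalIdeal, mem_nonunits_iff] at h1
    apply h1
    have h2 := hu.map (e : R →+* R')
    simpa using h2
  refine ⟨U, ⟨hG, n, ζ, fun l => ?_, transp_red e hc hc' hi hx hs hζ⟩, fun g' hg'0 hg' => ?_⟩
  · have h1 := (limI_one hS hG hψ ⟨g₀, hg₀⟩ (ζ l)).2 ⟨hxζ l, hψζ l⟩
    rw [mem_limI] at h1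
    exact h1
  -- the function
  obtain ⟨s₀, g, hs₀, hg⟩ := transp_den hc hi (e.symm (i' g'))
  have hfg : f g = algebraMap R' K' (e (i s₀)) * g' := by
    rw [hfb, hg, map_mul, map_mul, AlgEquiv.apply_symm_apply, hi']
  have hfg' : f g = f s₀ * g' := by rw [hfg, ← hfb]
  have hxg : x.toFun g = 0 := by
    rw [hx, hg]
    apply Ideal.mul_mem_left
    rw [mem_maximalIdeal, mem_nonunits_iff]
    intro hu
    have h1 := (hx' g').1 hg'0
    rw [mem_maximalIdeal, mem_nonunits_iff] at h1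
    apply h1
    have h2 := hu.map (e : R →+* R')
    simpa using h2
  refine ⟨g, hxg, ⟨ψ, sc, hψ, transp_dom hψ hg₀ ?_⟩, e (i s₀), hs₀.map e, hfg⟩
  -- `Dom`
  have hA : ∀ b : IB n K, ∃ C : ℝ, 0 ≤ C ∧ ∀ᶠ u in (U' : Filter (Pairs n)),
      ‖E'.ev (f b) u.1 - E'.ev (f b) u.2‖ ≤
        C * ‖E'.ev (g' : K') u.1 - E'.ev (g' : K') u.2‖ := by
    intro b
    obtain ⟨s₁, t₁, hs₁, ht₁⟩ := transp_den hc' hi' (e (i b))
    refine transp_quot hS' hG' hg' (hτ b).1 (transp_unit hx' hs₁) (t := t₁) ?_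
    rw [hfb, ← hi', ← hi', ht₁, map_mul]
  obtain ⟨C₀, hC₀, h₀⟩ := hA s₀
  have hlim : Tendsto (fun u : Pairs n => E'.ev (f s₀) u.1) (U' : Filter (Pairs n))
      (𝓝 (x.toFun s₀)) := by
    refine ((Prim.tendsto_ev_nhd E S x s₀).comp (hτt.comp hU'.fst)).congr' ?_
    filter_upwards [hval s₀] with u hu
    exact hu.1
  have hlimg : Tendsto (fun u : Pairs n => E'.ev (g' : K') u.2) (U' : Filter (Pairs n))
      (𝓝 0) := by
    have h1 := LimGen_ev_snd hG' g'
    rwa [hg'0] at h1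
  have hx0 : 0 < ‖x.toFun s₀‖ := norm_pos_iff.2 (transp_unit hx hs₀)
  have l1 := (hlim.norm).eventually (lt_mem_nhds (show ‖x.toFun s₀‖ / 2 < ‖x.toFun s₀‖ by linarith))
  have l2 := (hlimg.norm).eventually (gt_mem_nhds
    (show ‖(0 : ℂ)‖ < ‖x.toFun s₀‖ / (4 * (C₀ + 1)) by rw [norm_zero]; positivity))
  intro b
  obtain ⟨C, hC, h⟩ := hA b
  refine ⟨C * (4 / ‖x.toFun s₀‖), ?_⟩
  rw [hev]
  filter_upwards [h₀, l1, l2, h, hval b, hval g, LimGen_fst hG', LimGen_snd hG'] with u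
    k₀ k1 k2 k3 v1 v2 m1 m2
  rw [v1.1, v1.2, v2.1, v2.2, hfg', Prim.ev_mul hS' m1 (hτ s₀).1 (Prim.isReg_ib _),
    Prim.ev_mul hS' m2 (hτ s₀).1 (Prim.isReg_ib _)]
  refine k3.trans ?_
  rw [mul_assoc]
  refine mul_le_mul_of_nonneg_left ?_ hC
  rw [div_mul_eq_mul_div, le_div_iff₀ hx0]
  have e1 : E'.ev (f s₀) u.1 * E'.ev (g' : K') u.1 - E'.ev (f s₀) u.2 * E'.ev (g' : K') u.2 =
      E'.ev (f s₀) u.1 * (E'.ev (g' : K') u.1 - E'.ev (g' : K') u.2) +
        (E'.ev (f s₀) u.1 - E'.ev (f s₀) u.2) * E'.ev (g' : K') u.2 := by ring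
  rw [e1]
  have e2 : ‖E'.ev (f s₀) u.1 * (E'.ev (g' : K') u.1 - E'.ev (g' : K') u.2)‖ -
      ‖(E'.ev (f s₀) u.1 - E'.ev (f s₀) u.2) * E'.ev (g' : K') u.2‖ ≤
      ‖E'.ev (f s₀) u.1 * (E'.ev (g' : K') u.1 - E'.ev (g' : K') u.2) +
        (E'.ev (f s₀) u.1 - E'.ev (f s₀) u.2) * E'.ev (g' : K') u.2‖ := norm_sub_le_norm_add _ _
  rw [norm_mul, norm_mul] at e2
  have hD := norm_nonneg (E'.ev (g' : K') u.1 - E'.ev (g' : K') u.2)
  have e3 : ‖x.toFun s₀‖ / 2 * ‖E'.ev (g' : K') u.1 - E'.ev (g' : K') u.2‖ ≤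
      ‖E'.ev (f s₀) u.1‖ * ‖E'.ev (g' : K') u.1 - E'.ev (g' : K') u.2‖ :=
    mul_le_mul_of_nonneg_right k1.le hD
  have e4 : ‖E'.ev (f s₀) u.1 - E'.ev (f s₀) u.2‖ * ‖E'.ev (g' : K') u.2‖ ≤
      C₀ * ‖E'.ev (g' : K') u.1 - E'.ev (g' : K') u.2‖ * (‖x.toFun s₀‖ / (4 * (C₀ + 1))) :=
    mul_le_mul k₀ k2.le (norm_nonneg _) (by positivity)
  have e5 : C₀ * ‖E'.ev (g' : K') u.1 - E'.ev (g' : K') u.2‖ * (‖x.toFun s₀‖ / (4 * (C₀ + 1))) ≤
      ‖x.toFun s₀‖ / 4 * ‖E'.ev (g' : K') u.1 - E'.ev (g' : K') u.2‖ := by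
    have e6 : C₀ * ‖E'.ev (g' : K') u.1 - E'.ev (g' : K') u.2‖ * (‖x.toFun s₀‖ / (4 * (C₀ + 1))) =
        C₀ / (C₀ + 1) * (‖x.toFun s₀‖ / 4 * ‖E'.ev (g' : K') u.1 - E'.ev (g' : K') u.2‖) := by
      field_simp
    rw [e6]
    refine mul_le_of_le_one_left (by positivity) ?_
    rw [div_le_one (by positivity)]
    linarith
  linarith

end Vale.Agent.P282.Full
end

section

/-!
P282, converse: approximation of derivations.
-/

open IsLocalRing

namespace Vale.Agent.P282.CV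

/-- Homomorphisms of a finite module to the completion are approximated by homomorphisms to the
ring. -/
theorem derApp_hom {R S Ω : Type*} [CommRing R] [IsNoetherianRing R] [CommRing S] [Algebra R S]
    (m : Ideal R) (q : Ideal S) (hmem : ∀ (N : ℕ) (f : R), algebraMap R S f ∈ q ^ N → f ∈ m ^ N)
    (hmem' : ∀ (N : ℕ) (f : R), f ∈ m ^ N → algebraMap R S f ∈ q ^ N)
    (hdense : ∀ (N : ℕ) (s : S), ∃ f : R, s - algebraMap R S f ∈ q ^ N) [AddCommGroup Ω]
    [Module R Ω] [Module.Finite R Ω] (ℓ : Ω →ₗ[R] S) (N : ℕ) :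
    ∃ ℓ' : Ω →ₗ[R] R, ∀ ω, algebraMap R S (ℓ' ω) - ℓ ω ∈ q ^ N := by
  obtain ⟨b, π, hπ⟩ := Module.Finite.exists_fin' R Ω
  obtain ⟨a, k, hk⟩ := Submodule.fg_iff_exists_fin_generating_family.1
    (IsNoetherian.noetherian (LinearMap.ker π))
  have hkπ : ∀ l, π (k l) = 0 := by
    intro l
    have h1 : k l ∈ LinearMap.ker π := by
      rw [← hk]
      exact Submodule.subset_span ⟨l, rfl⟩
    exact h1
  obtain ⟨φ, hφ⟩ : ∃ φ : (Fin b → R) →ₗ[R] (Fin a → R),
      ∀ c l, φ c l = ∑ i, k l i * c i :=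
    ⟨(Matrix.of k).mulVecLin, fun c l => rfl⟩
  obtain ⟨c, hc⟩ : ∃ c : Fin b → S, ∀ v : Fin b → R, ℓ (π v) = ∑ i, algebraMap R S (v i) * c i := by
    refine ⟨fun i => ℓ (π (Pi.single i 1)), fun v => ?_⟩
    conv_lhs => rw [pi_eq_sum_univ' v]
    rw [map_sum, map_sum]
    refine Finset.sum_congr rfl fun i _ => ?_
    rw [map_smul, map_smul, Algebra.smul_def]
  obtain ⟨k₀, hk₀⟩ := Ideal.exists_pow_inf_eq_pow_smul m (LinearMap.range φ)
  choose c' hc' using fun i => hdense (N + k₀) (c i)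
  have hle : ∀ (x : S), x ∈ q ^ (N + k₀) → x ∈ q ^ N := fun x hx =>
    Ideal.pow_le_pow_right (Nat.le_add_right _ _) hx
  have h1 : φ c' ∈ m ^ (N + k₀) • (⊤ : Submodule R (Fin a → R)) := by
    rw [pi_eq_sum_univ' (φ c')]
    refine Submodule.sum_mem _ fun l _ => Submodule.smul_mem_smul (hmem _ _ ?_) trivial
    rw [hφ, map_sum]
    have h2 : ∑ i, algebraMap R S (k l i) * c i = 0 := by
      rw [← hc, hkπ, map_zero]
    have h3 : ∑ i, algebraMap R S (k l i * c' i) =
        -∑ i, algebraMap R S (k l i) * (c i - algebraMap R S (c' i)) := by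
      rw [← sub_zero (∑ i, algebraMap R S (k l i * c' i)), ← h2, ← Finset.sum_sub_distrib,
        ← Finset.sum_neg_distrib]
      refine Finset.sum_congr rfl fun i _ => ?_
      rw [map_mul]
      ring
    rw [h3]
    exact neg_mem (Ideal.sum_mem _ fun i _ => Ideal.mul_mem_left _ _ (hc' i))
  have h2 : φ c' ∈ m ^ N • LinearMap.range φ := by
    have h3 : φ c' ∈ m ^ (N + k₀) • (⊤ : Submodule R (Fin a → R)) ⊓ LinearMap.range φ :=
      ⟨h1, LinearMap.mem_range_self _ _⟩
    rw [hk₀ _ (Nat.le_add_left _ _), Nat.add_sub_cancel] at h3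
    exact Submodule.smul_mono le_rfl inf_le_right h3
  have h3 : ∃ e ∈ m ^ N • (⊤ : Submodule R (Fin b → R)), φ e = φ c' := by
    rw [LinearMap.range_eq_map, ← Submodule.map_smul''] at h2
    exact h2
  obtain ⟨e, he, hφe⟩ := h3
  have hei : ∀ i, e i ∈ m ^ N := by
    intro i
    refine Submodule.smul_induction_on (p := fun e : Fin b → R => e i ∈ m ^ N) he ?_ ?_
    · intro r hr n _
      rw [Pi.smul_apply, smul_eq_mul]
      exact Ideal.mul_mem_right _ _ hr
    · intro x y hx hy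
      exact add_mem hx hy
  obtain ⟨g, hg⟩ : ∃ g : (Fin b → R) →ₗ[R] R, ∀ v, g v = ∑ i, v i * (c' i - e i) := by
    refine ⟨∑ i, (c' i - e i) • LinearMap.proj i, fun v => ?_⟩
    rw [LinearMap.sum_apply]
    refine Finset.sum_congr rfl fun i _ => ?_
    rw [LinearMap.smul_apply, LinearMap.proj_apply, smul_eq_mul, mul_comm]
  have hker : LinearMap.ker π ≤ LinearMap.ker g := by
    rw [← hk, Submodule.span_le]
    rintro _ ⟨l, rfl⟩
    rw [SetLike.mem_coe, LinearMap.mem_ker, hg]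
    have h4 : φ (c' - e) l = 0 := by
      rw [map_sub, hφe, sub_self]
      rfl
    rw [hφ] at h4
    exact h4
  refine ⟨(Submodule.liftQ (LinearMap.ker π) g hker).comp
    (π.quotKerEquivOfSurjective hπ).symm.toLinearMap, fun ω => ?_⟩
  obtain ⟨v, rfl⟩ := hπ ω
  have h4 : (π.quotKerEquivOfSurjective hπ).symm (π v) = Submodule.Quotient.mk v := by
    rw [LinearEquiv.symm_apply_eq]
    rfl
  rw [LinearMap.comp_apply, LinearEquiv.coe_coe, h4, Submodule.liftQ_apply, hg, hc, map_sum,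
    ← Finset.sum_sub_distrib]
  refine Ideal.sum_mem _ fun i _ => ?_
  have h5 : algebraMap R S (v i * (c' i - e i)) - algebraMap R S (v i) * c i =
      algebraMap R S (v i) * (-(c i - algebraMap R S (c' i)) - algebraMap R S (e i)) := by
    rw [map_mul, map_sub]
    ring
  rw [h5]
  exact Ideal.mul_mem_left _ _ (sub_mem (neg_mem (hle _ (hc' i))) (hmem' _ _ (hei i)))

/-- Derivations of the completion are approximated by derivations of `R`. -/
theorem approx_der {n : ℕ} {R : Type} [CommRing R] [IsLocalRing R] [Algebra ℂ R]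
    (hess : Algebra.EssFiniteType ℂ R) {j : R →ₐ[ℂ] Q n} (hj : IsJet j)
    (D : Derivation ℂ (Q n) (Q n)) (N : ℕ) :
    ∃ D' : Derivation ℂ R R, ∀ f : R, j (D' f) - D (j f) ∈ qm n ^ N := by
  have hnoeth : IsNoetherianRing R := Algebra.EssFiniteType.isNoetherianRing ℂ R
  let _ : Algebra R (Q n) := j.toRingHom.toAlgebra
  have hst : IsScalarTower ℂ R (Q n) := IsScalarTower.of_algebraMap_eq fun x => by
    rw [RingHom.algebraMap_toAlgebra]
    exact (j.commutes x).symm
  obtain ⟨ℓ', hℓ'⟩ := derApp_hom (maximalIdeal R) (qm n) (fun N f h => (hj.mem N f).1 h)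
    (fun N f h => (hj.mem N f).2 h) (fun N s => hj.dense N s)
    ((D.compAlgebraMap R).liftKaehlerDifferential) N
  refine ⟨ℓ'.compDer (KaehlerDifferential.D ℂ R), fun f => ?_⟩
  have h1 := hℓ' (KaehlerDifferential.D ℂ R f)
  rw [Derivation.liftKaehlerDifferential_comp_D] at h1
  exact h1

end Vale.Agent.P282.CV
end
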