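import Mathlib
import Vale.Agent.P282.Bd3.B6
import Vale.Agent.P282.Bd3.B9
import Vale.Agent.P282.Bd3.B10
import Vale.Agent.P282.Bd3.B5
import Vale.Agent.P282.Bd3.B8
import Vale.Agent.P282.Bd3.B4
import Vale.Agent.P282.Bd3.B7
import Vale.Agent.P282.Bd3.B2
import Vale.Agent.P282.Gap.Germ
import Vale.Agent.P282.Full.Germ

set_option linter.all false

namespace AFastf38e86x14a
theorem a0 {x1 : Type} [x2 : Field x1] : MulHomClass (Valuation x1 NNReal) x1 NNReal := inferInstance
@[reducible] noncomputable def a1 {x1 : ℕ} {x2 : Type} [x3 : Field x2] [x4 : Algebra (FractionRing (Vale.Agent.P282.L2.Pol x1)) x2] : Module (FractionRing (Vale.Agent.P282.L2.Pol x1)) x2 := inferInstance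
theorem a2 {x1 : Type} {x2 : Type} [x3 : CommRing x1] [x4 : Field x2] : MulHomClass (x1 →+* x2) x1 x2 := inferInstance
theorem a3 {x1 : Type} {x2 : Type} [x3 : CommRing x1] [x4 : Field x2] : NonUnitalRingHomClass (x1 →+* x2) x1 x2 := inferInstance
theorem a4 {x1 : Type} [x2 : Field x1] : MonoidHomClass (Valuation x1 NNReal) x1 NNReal := inferInstance
theorem a5 : CharZero ℝ := inferInstance
@[reducible] noncomputable def a6 {x1 : ℕ} : DivisionRing (OreLocalization (nonZeroDivisors (Vale.Agent.P282.L2.Pol x1)) (Vale.Agent.P282.L2.Pol x1)) := inferInstance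
@[reducible] noncomputable def a7 {x1 : ℕ} : SMul (Vale.Agent.P282.L2.Pol x1) (OreLocalization (nonZeroDivisors (Vale.Agent.P282.L2.Pol x1)) (Vale.Agent.P282.L2.Pol x1)) := inferInstance
theorem a8 : CovariantClass NNReal NNReal (Function.swap fun x1 x2 => x1 * x2) fun x1 x2 => x1 ≤ x2 := inferInstance
@[reducible] noncomputable def a9 {x1 : ℕ} : Algebra (Vale.Agent.P282.L2.Pol x1) (OreLocalization (nonZeroDivisors (Vale.Agent.P282.L2.Pol x1)) (Vale.Agent.P282.L2.Pol x1)) := inferInstance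
@[reducible] def a10 {x1 : Type} [x2 : CommRing x1] : Pow (Submodule x1 x1) ℕ := inferInstance
theorem a11 : AddLeftMono ℝ := inferInstance
theorem a12 : CovariantClass ℝ ℝ (Function.swap fun x1 x2 => x1 + x2) fun x1 x2 => x1 ≤ x2 := inferInstance
@[reducible] def a13 {x1 : Type} [x2 : CommRing x1] : NPow (Ideal x1) := inferInstance
theorem a14 {x1 : Type} {x2 : Type} [x3 : CommRing x1] [x4 : Field x2] : MonoidHomClass (x1 →+* x2) x1 x2 := inferInstance
@[reducible] def a15 {x1 : Type} [x2 : CommRing x1] : Monoid (Ideal x1) := inferInstance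
@[reducible] noncomputable def a16 {x1 : ℕ} : CommSemiring (OreLocalization (nonZeroDivisors (Vale.Agent.P282.L2.Pol x1)) (Vale.Agent.P282.L2.Pol x1)) := inferInstance
@[reducible] def a17 {x1 : Type} [x2 : CommRing x1] : Pow (Ideal x1) ℕ := inferInstance
theorem a18 {x1 : Type} [x2 : Field x1] : OneHomClass (Valuation x1 NNReal) x1 NNReal := inferInstance
theorem a19 : CovariantClass ENNReal ENNReal (Function.swap fun x1 x2 => x1 * x2) fun x1 x2 => x1 ≤ x2 := inferInstance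
@[reducible] noncomputable def a20 {x1 : ℕ} : OreLocalization.OreSet (nonZeroDivisors (Vale.Agent.P282.L2.Pol x1)) := inferInstance
@[reducible] def a21 {x1 : Type} [x2 : CommRing x1] {x3 : Ideal x1} [x4 : Algebra ℂ x1] : Module ℂ (x1 ⧸ x3) := inferInstance
@[reducible] noncomputable def a22 {x1 : Type} {x2 : ℕ} [x3 : Field x1] [x4 : Algebra (Vale.Agent.P282.L2.Pol x2) x1] : Zero ↥(integralClosure (Vale.Agent.P282.L2.Pol x2) x1) := inferInstance
@[reducible] noncomputable def a23 : Pow ENNReal ℕ := inferInstance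
theorem a24 : AddRightStrictMono ℝ := inferInstance
theorem a25 {x1 : Type} [x2 : CommRing x1] {x3 : Ideal x1} : MulHomClass (x1 →+* x1 ⧸ x3) x1 (x1 ⧸ x3) := inferInstance
@[reducible] noncomputable def a26 : NPow ENNReal := inferInstance
theorem a27 : PosMulReflectLT ℝ := inferInstance
theorem a28 : PosMulReflectLE ℝ := inferInstance
@[reducible] noncomputable def a29 : Monoid ENNReal := inferInstance
theorem a30 {x1 : Type} [x2 : Field x1] [x3 : Algebra ℂ x1] : ZeroHomClass (Derivation ℂ x1 x1) x1 x1 := inferInstance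
theorem a31 : PosMulStrictMono ℝ := inferInstance
@[reducible] def a32 {x1 : Type} [x2 : CommRing x1] : Semiring (Ideal x1) := inferInstance
theorem a33 {x1 : Type} {x2 : Type} [x3 : CommRing x1] [x4 : Field x2] : MonoidWithZeroHomClass (x1 →+* x2) x1 x2 := inferInstance
@[reducible] def a34 {x1 : Type} [x2 : CommRing x1] : Mul (Ideal x1) := inferInstance
@[reducible] def a35 {x1 : Type} [x2 : CommRing x1] [x3 : Algebra ℂ x1] : Module ℂ (OreLocalization (nonZeroDivisors x1) x1) := inferInstance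
@[reducible] noncomputable def a36 {x1 : ℕ} : CommMonoid (Vale.Agent.P282.L2.Pol x1) := inferInstance
theorem a37 : ZeroLEOneClass ENNReal := inferInstance
@[reducible] def a38 : Monoid ℂ := inferInstance
@[reducible] def a39 {x1 : Type} [x2 : CommRing x1] : MulOne (Ideal x1) := inferInstance
@[reducible] def a40 : Pow NNReal ℕ := inferInstance
@[reducible] def a41 : AddMonoidWithOne ENNReal := inferInstance
@[reducible] def a42 : Monoid NNReal := inferInstance
@[reducible] noncomputable def a43 {x1 : Type} {x2 : ℕ} [x3 : Field x1] : Algebra ℤ (AddMonoidAlgebra x1 (Fin x2 →₀ ℕ)) := inferInstance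
@[reducible] def a44 {x1 : Type} [x2 : CommRing x1] : MulOneClass (Ideal x1) := inferInstance
@[reducible] noncomputable def a45 {x1 : ℕ} : Monoid (Vale.Agent.P282.L2.Pol x1) := inferInstance
theorem a46 {x1 : ℕ} : NoZeroDivisors (MvPolynomial (Fin x1) ℂ) := inferInstance
@[reducible] def a47 : NPow NNReal := inferInstance
theorem a48 {x1 : ℕ} : IsScalarTower (Vale.Agent.P282.L2.Pol x1) (Vale.Agent.P282.L2.Pol x1) (Vale.Agent.P282.L2.Pol x1) := inferInstance
@[reducible] noncomputable def a49 {x1 : ℕ} {x2 : Type} [x3 : Field x2] [x4 : Algebra (Vale.Agent.P282.L2.Pol x1) x2] : NPow (Ideal (Vale.Agent.P282.L2.IB x1 x2)) := inferInstance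
@[reducible] noncomputable def a50 {x1 : ℕ} {x2 : Type} [x3 : Field x2] [x4 : Algebra (Vale.Agent.P282.L2.Pol x1) x2] : Monoid (Ideal (Vale.Agent.P282.L2.IB x1 x2)) := inferInstance
theorem a51 {x1 : Type} [x2 : CommRing x1] {x3 : Ideal x1} : NonUnitalRingHomClass (x1 →+* x1 ⧸ x3) x1 (x1 ⧸ x3) := inferInstance
theorem a52 : MulLeftMono ENNReal := inferInstance
theorem a53 : IsNoetherian ℂ ℂ := inferInstance
theorem a54 {x1 : Type} {x2 : ℕ} [x3 : CommRing x1] [x4 : Algebra ℂ x1] : MonoidHomClass (x1 →ₐ[ℂ] Vale.Agent.P282.CV.Q x2) x1 (Vale.Agent.P282.CV.Q x2) := inferInstance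
theorem a55 {x1 : Type} {x2 : Type} [x3 : CommRing x1] [x4 : Field x2] : OneHomClass (x1 →+* x2) x1 x2 := inferInstance
theorem a56 {x1 : ℕ} : IsLocalization (nonZeroDivisors (Vale.Agent.P282.L2.Pol x1)) (Localization (nonZeroDivisors (Vale.Agent.P282.L2.Pol x1))) := inferInstance
theorem a57 {x1 : ℕ} {x2 : Type} [x3 : Field x2] [x4 : Algebra (Vale.Agent.P282.L2.Pol x1) x2] : AddSubmonoidClass (Subalgebra (Vale.Agent.P282.L2.Pol x1) x2) x2 := inferInstance
theorem a58 {x1 : Type} {x2 : Type} [x3 : CommRing x1] [x4 : CommRing x2] [x5 : Algebra ℂ x1] [x6 : Algebra ℂ x2] : NonUnitalAlgHomClass (x1 ≃ₐ[ℂ] x2) ℂ x1 x2 := inferInstance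
theorem a59 {x1 : Type} {x2 : ℕ} [x3 : CommRing x1] [x4 : Algebra ℂ x1] : AddMonoidHomClass (x1 →ₐ[ℂ] Vale.Agent.P282.CV.Q x2) x1 (Vale.Agent.P282.CV.Q x2) := inferInstance
theorem a60 {x1 : Type} [x2 : Field x1] : ZeroHomClass (Valuation x1 NNReal) x1 NNReal := inferInstance
theorem a61 : IsRegularRing ℂ := inferInstance
theorem a62 {x1 : Type} {x2 : Type} [x3 : Field x2] [x4 : Algebra ℂ x2] : MulHomClass (MvPolynomial x1 ℂ →ₐ[ℂ] x2) (MvPolynomial x1 ℂ) x2 := inferInstance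
@[reducible] noncomputable def a63 {x1 : ℕ} {x2 : Type} [x3 : Field x2] [x4 : Algebra (Vale.Agent.P282.L2.Pol x1) x2] : Semiring (Ideal (Vale.Agent.P282.L2.IB x1 x2)) := inferInstance
@[reducible] noncomputable def a64 : MulAction ℚ≥0 ℝ := inferInstance
@[reducible] noncomputable def a65 : MulAction ℚ ℝ := inferInstance
theorem a66 {x1 : ℕ} {x2 : Type} [x3 : Field x2] [x4 : Algebra (Vale.Agent.P282.L2.Pol x1) x2] : ZeroMemClass (Subalgebra (Vale.Agent.P282.L2.Pol x1) x2) x2 := inferInstance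
end AFastf38e86x14a
attribute [local instance] AFastf38e86x14a.a0 AFastf38e86x14a.a1 AFastf38e86x14a.a2
  AFastf38e86x14a.a3 AFastf38e86x14a.a4 AFastf38e86x14a.a5 AFastf38e86x14a.a6 AFastf38e86x14a.a7
  AFastf38e86x14a.a8 AFastf38e86x14a.a9 AFastf38e86x14a.a10 AFastf38e86x14a.a11
  AFastf38e86x14a.a12 AFastf38e86x14a.a13 AFastf38e86x14a.a14 AFastf38e86x14a.a15
  AFastf38e86x14a.a16 AFastf38e86x14a.a17 AFastf38e86x14a.a18 AFastf38e86x14a.a19
  AFastf38e86x14a.a20 AFastf38e86x14a.a21 AFastf38e86x14a.a22 AFastf38e86x14a.a23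
  AFastf38e86x14a.a24 AFastf38e86x14a.a25 AFastf38e86x14a.a26 AFastf38e86x14a.a27
  AFastf38e86x14a.a28 AFastf38e86x14a.a29 AFastf38e86x14a.a30 AFastf38e86x14a.a31
  AFastf38e86x14a.a32 AFastf38e86x14a.a33 AFastf38e86x14a.a34 AFastf38e86x14a.a35
  AFastf38e86x14a.a36 AFastf38e86x14a.a37 AFastf38e86x14a.a38 AFastf38e86x14a.a39
  AFastf38e86x14a.a40 AFastf38e86x14a.a41 AFastf38e86x14a.a42 AFastf38e86x14a.a43
  AFastf38e86x14a.a44 AFastf38e86x14a.a45 AFastf38e86x14a.a46 AFastf38e86x14a.a47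
  AFastf38e86x14a.a48 AFastf38e86x14a.a49 AFastf38e86x14a.a50 AFastf38e86x14a.a51
  AFastf38e86x14a.a52 AFastf38e86x14a.a53 AFastf38e86x14a.a54 AFastf38e86x14a.a55
  AFastf38e86x14a.a56 AFastf38e86x14a.a57 AFastf38e86x14a.a58 AFastf38e86x14a.a59
  AFastf38e86x14a.a60 AFastf38e86x14a.a61 AFastf38e86x14a.a62 AFastf38e86x14a.a63
  AFastf38e86x14a.a64 AFastf38e86x14a.a65 AFastf38e86x14a.a66
namespace AFastf38e86x14b
theorem a0 {x1 : Type} {x2 : Type} [x3 : CommRing x1] [x4 : Field x2] : AddMonoidHomClass (x1 →+* x2) x1 x2 := inferInstance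
@[reducible] noncomputable def a1 {x1 : ℕ} {x2 : Type} [x3 : Field x2] [x4 : Algebra (Vale.Agent.P282.L2.Pol x1) x2] : Algebra (Vale.Agent.P282.L2.Pol x1) ↥(integralClosure (Vale.Agent.P282.L2.Pol x1) x2) := inferInstance
@[reducible] noncomputable def a2 {x1 : ℕ} : Pow (Submodule (Vale.Agent.P282.CV.Q x1) (Vale.Agent.P282.CV.Q x1)) ℕ := inferInstance
@[reducible] def a3 {x1 : ℕ} {x2 : Type} [x3 : Field x2] [x4 : Algebra (Vale.Agent.P282.L2.Pol x1) x2] : SMul (Vale.Agent.P282.L2.Pol x1) x2 := inferInstance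
theorem a4 {x1 : Type} {x2 : Type} [x3 : CommRing x1] [x4 : Field x2] : AddHomClass (x1 →+* x2) x1 x2 := inferInstance
@[reducible] noncomputable def a5 {x1 : ℕ} {x2 : Type} [x3 : Field x2] : SMul (MvPolynomial (Fin x1) x2) (Derivation ℤ (MvPolynomial (Fin x1) x2) (MvPolynomial (Fin x1) x2)) := inferInstance
theorem a6 {x1 : ℕ} : IsScalarTower (Vale.Agent.P282.CV.Q x1) (Vale.Agent.P282.CV.Q x1) (Vale.Agent.P282.CV.Q x1) := inferInstance
@[reducible] def a7 {x1 : ℕ} {x2 : Type} [x3 : Field x2] [x4 : Algebra (FractionRing (Vale.Agent.P282.L2.Pol x1)) x2] : SMul (FractionRing (Vale.Agent.P282.L2.Pol x1)) x2 := inferInstance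
@[reducible] noncomputable def a8 {x1 : ℕ} {x2 : Type} [x3 : Field x2] [x4 : Algebra (Vale.Agent.P282.L2.Pol x1) x2] [x5 : Algebra ℂ x2] [x6 : IsScalarTower ℂ (Vale.Agent.P282.L2.Pol x1) x2] : Module ℂ (Vale.Agent.P282.L2.IB x1 x2) := inferInstance
@[reducible] noncomputable def a9 {x1 : ℕ} {x2 : Type} [x3 : Field x2] [x4 : Algebra (Vale.Agent.P282.L2.Pol x1) x2] {x5 : Fin (x1 + 1) → Vale.Agent.P282.L2.IB x1 x2} {x6 : Fin (x1 + 1) → ℕ} {x7 : ℕ} [x8 : Algebra ℂ x2] [x9 : IsScalarTower ℂ (Vale.Agent.P282.L2.Pol x1) x2] : Module ℂ (Vale.Agent.P282.L2.IB x1 x2 ⧸ Vale.Agent.P282.EQ.wIdeal x5 x6 x7) := inferInstance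
theorem a10 {x1 : Type} {x2 : Type} [x3 : Field x2] [x4 : Algebra ℂ x2] : AddHomClass (MvPolynomial x1 ℂ →ₐ[ℂ] x2) (MvPolynomial x1 ℂ) x2 := inferInstance
theorem a11 {x1 : Type} [x2 : CommRing x1] [x3 : IsLocalRing x1] : AddMonoidHomClass (x1 →+* IsLocalRing.ResidueField x1) x1 (IsLocalRing.ResidueField x1) := inferInstance
theorem a12 {x1 : ℕ} {x2 : Type} [x3 : Field x2] [x4 : Algebra (Vale.Agent.P282.L2.Pol x1) x2] : AddMonoidHomClass (Vale.Agent.P282.L2.IB x1 x2 →+* ℂ) (Vale.Agent.P282.L2.IB x1 x2) ℂ := inferInstance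
theorem a13 {x1 : Type} {x2 : Type} [x3 : Field x2] [x4 : Algebra ℂ x2] : LinearMapClass (MvPolynomial x1 ℂ →ₐ[ℂ] x2) ℂ (MvPolynomial x1 ℂ) x2 := inferInstance
theorem a14 {x1 : Type} {x2 : Type} [x3 : Field x1] [x4 : Field x2] [x5 : Algebra ℂ x1] [x6 : Algebra ℂ x2] : AddHomClass (x1 ≃ₐ[ℂ] x2) x1 x2 := inferInstance
theorem a15 {x1 : ℕ} {x2 : Type} [x3 : Field x2] [x4 : Algebra (Vale.Agent.P282.L2.Pol x1) x2] [x5 : Algebra ℂ x2] [x6 : IsScalarTower ℂ (Vale.Agent.P282.L2.Pol x1) x2] : IsScalarTower ℂ (Vale.Agent.P282.L2.IB x1 x2) (Vale.Agent.P282.L2.IB x1 x2) := inferInstance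
theorem a16 : ContinuousSMul ℚ≥0 ℝ := inferInstance
theorem a17 {x1 : Type} {x2 : Type} [x3 : Field x1] [x4 : Field x2] [x5 : Algebra x1 x2] : AddHomClass Gal(x2/x1) x2 x2 := inferInstance
theorem a18 {x1 : Type} {x2 : Type} [x3 : Field x1] [x4 : Field x2] [x5 : Algebra x1 x2] : LinearMapClass Gal(x2/x1) x1 x2 x2 := inferInstance
theorem a19 {x1 : Type} {x2 : Type} [x3 : CommRing x1] [x4 : CommRing x2] [x5 : Algebra ℂ x1] [x6 : Algebra ℂ x2] : LinearMapClass (x1 ≃ₐ[ℂ] x2) ℂ x1 x2 := inferInstance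
theorem a20 {x1 : Type} [x2 : Field x1] : AddMonoidHomClass (ℂ →+* x1) ℂ x1 := inferInstance
@[reducible] noncomputable def a21 {x1 : Type} [x2 : CommRing x1] [x3 : IsDomain x1] : DivisionRing (FractionRing x1) := inferInstance
theorem a22 {x1 : Type} [x2 : Field x1] [x3 : Algebra ℂ x1] : AddHomClass (Derivation ℂ x1 x1) x1 x1 := inferInstance
@[reducible] noncomputable def a23 {x1 : Type} {x2 : ℕ} [x3 : Field x1] [x4 : Algebra (Vale.Agent.P282.L2.Pol x2) x1] [x5 : Algebra ℂ x1] [x6 : IsScalarTower ℂ (Vale.Agent.P282.L2.Pol x2) x1] : Algebra ℂ ↥(integralClosure (Vale.Agent.P282.L2.Pol x2) x1) := inferInstance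
@[reducible] noncomputable def a24 {x1 : ℕ} : DistribMulAction (Vale.Agent.P282.L2.Pol x1) (Vale.Agent.P282.L2.Pol x1) := inferInstance
@[reducible] noncomputable def a25 {x1 : ℕ} {x2 : Type} [x3 : Field x2] : DistribMulAction (MvPolynomial (Fin x1) x2) (MvPolynomial (Fin x1) x2) := inferInstance
theorem a26 {x1 : ℕ} {x2 : Type} [x3 : Field x2] : AddMonoidHomClass (Vale.Agent.P282.L2.Pol x1 →+* x2) (Vale.Agent.P282.L2.Pol x1) x2 := inferInstance
theorem a27 {x1 : ℕ} {x2 : Type} [x3 : CommRing x2] [x4 : Algebra (Vale.Agent.P282.L2.Pol x1) x2] : IsScalarTower (Vale.Agent.P282.L2.Pol x1) (Vale.Agent.P282.L2.Pol x1) x2 := inferInstance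
theorem a28 : IsScalarTower ℚ≥0 ℚ ℝ := inferInstance
@[reducible] noncomputable def a29 {x1 : ℕ} {x2 : Type} [x3 : CommRing x2] [x4 : Algebra (Vale.Agent.P282.L2.Pol x1) x2] : MulAction (Vale.Agent.P282.L2.Pol x1) x2 := inferInstance
@[reducible] noncomputable def a30 : Module ℚ ℝ := inferInstance
theorem a31 {x1 : Type} [x2 : CommRing x1] : AddMonoidHomClass (x1 →+* x1) x1 x1 := inferInstance
@[reducible] noncomputable def a32 {x1 : ℕ} {x2 : Type} [x3 : Field x2] [x4 : Algebra (Vale.Agent.P282.L2.Pol x1) x2] [x5 : Algebra ℂ x2] [x6 : IsScalarTower ℂ (Vale.Agent.P282.L2.Pol x1) x2] : SMul ℂ (Vale.Agent.P282.L2.IB x1 x2) := inferInstance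
end AFastf38e86x14b
attribute [local instance] AFastf38e86x14b.a0 AFastf38e86x14b.a1 AFastf38e86x14b.a2
  AFastf38e86x14b.a3 AFastf38e86x14b.a4 AFastf38e86x14b.a5 AFastf38e86x14b.a6 AFastf38e86x14b.a7
  AFastf38e86x14b.a8 AFastf38e86x14b.a9 AFastf38e86x14b.a10 AFastf38e86x14b.a11
  AFastf38e86x14b.a12 AFastf38e86x14b.a13 AFastf38e86x14b.a14 AFastf38e86x14b.a15
  AFastf38e86x14b.a16 AFastf38e86x14b.a17 AFastf38e86x14b.a18 AFastf38e86x14b.a19
  AFastf38e86x14b.a20 AFastf38e86x14b.a21 AFastf38e86x14b.a22 AFastf38e86x14b.a23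
  AFastf38e86x14b.a24 AFastf38e86x14b.a25 AFastf38e86x14b.a26 AFastf38e86x14b.a27
  AFastf38e86x14b.a28 AFastf38e86x14b.a29 AFastf38e86x14b.a30 AFastf38e86x14b.a31
  AFastf38e86x14b.a32
section

open scoped NNReal ENNReal Nat WithZero
open IsLocalRing

namespace Vale.Agent.P282.Full

open Vale.Agent.P282.L2

/-- Reflections act trivially modulo the equation of the mirror. -/
theorem ixr_trivial {R : Type} [CommRing R] [IsDomain R] [IsLocalRing R] [IsNoetherianRing R]
    [Algebra ℂ R] (hres : Function.Surjective (algebraMap ℂ (ResidueField R)))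
    {x : Fin 2 → R} (hx : Ideal.span (Set.range x) = maximalIdeal R) (s : R →+* R)
    (hsC : ∀ c : ℂ, s (algebraMap ℂ R c) = algebraMap ℂ R c)
    (hsm : ∀ a ∈ maximalIdeal R, s a ∈ maximalIdeal R) (h0 : s (x 0) = x 0)
    (h1 : s (x 1) = -x 1) (p : R) : s p - p ∈ Ideal.span {x 1} := by
  let _ : Algebra (Pol 2) R := (MvPolynomial.aeval x).toAlgebra
  have hmap : ∀ Q : Pol 2, algebraMap (Pol 2) R Q = MvPolynomial.aeval x Q := fun Q => rfl
  have htow : IsScalarTower ℂ (Pol 2) R :=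
    IsScalarTower.of_algebraMap_eq fun c => ((MvPolynomial.aeval x).commutes c).symm
  have hx' : Ideal.span (Set.range fun i : Fin 2 => algebraMap (Pol 2) R (MvPolynomial.X i)) =
      maximalIdeal R := by
    rw [← hx]
    congr 2
    ext i
    rw [hmap, MvPolynomial.aeval_X]
  have hpow : ∀ k : ℕ, ∀ a ∈ maximalIdeal R ^ k, s a ∈ maximalIdeal R ^ k := by
    intro k a ha
    have e1 : maximalIdeal R ≤ (maximalIdeal R).comap s := hsm
    have e2 : maximalIdeal R ^ k ≤ (maximalIdeal R ^ k).comap s :=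
      (Ideal.pow_right_mono e1 k).trans (Ideal.le_comap_pow s k)
    exact e2 ha
  have hpoly : ∀ Q : Pol 2, s (algebraMap (Pol 2) R Q) - algebraMap (Pol 2) R Q ∈
      Ideal.span {x 1} := by
    intro Q
    induction Q using MvPolynomial.induction_on with
    | C c =>
      rw [hmap, MvPolynomial.aeval_C, hsC, sub_self]
      exact Ideal.zero_mem _
    | add P Q hP hQ =>
      rw [map_add, map_add]
      have e : s (algebraMap (Pol 2) R P) + s (algebraMap (Pol 2) R Q) -
          (algebraMap (Pol 2) R P + algebraMap (Pol 2) R Q) =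
          (s (algebraMap (Pol 2) R P) - algebraMap (Pol 2) R P) +
          (s (algebraMap (Pol 2) R Q) - algebraMap (Pol 2) R Q) := by ring
      rw [e]
      exact Ideal.add_mem _ hP hQ
    | mul_X P i hP =>
      rw [map_mul, map_mul]
      have e : s (algebraMap (Pol 2) R P) * s (algebraMap (Pol 2) R (MvPolynomial.X i)) -
          algebraMap (Pol 2) R P * algebraMap (Pol 2) R (MvPolynomial.X i) =
          (s (algebraMap (Pol 2) R P) - algebraMap (Pol 2) R P) *
            s (algebraMap (Pol 2) R (MvPolynomial.X i)) +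
          algebraMap (Pol 2) R P * (s (algebraMap (Pol 2) R (MvPolynomial.X i)) -
            algebraMap (Pol 2) R (MvPolynomial.X i)) := by ring
      rw [e]
      refine Ideal.add_mem _ (Ideal.mul_mem_right _ _ hP) (Ideal.mul_mem_left _ _ ?_)
      rw [hmap, MvPolynomial.aeval_X]
      fin_cases i
      · change s (x 0) - x 0 ∈ _
        rw [h0, sub_self]
        exact Ideal.zero_mem _
      · change s (x 1) - x 1 ∈ _
        rw [h1]
        exact Ideal.sub_mem _ ((Ideal.neg_mem_iff _).2 (Ideal.mem_span_singleton_self _))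
          (Ideal.mem_span_singleton_self _)
  apply ordD_krull
  intro k
  obtain ⟨Q, hQ⟩ := ordD_approx hres hx' k p
  have e : s p - p = (s (algebraMap (Pol 2) R Q) - algebraMap (Pol 2) R Q) +
      (s (p - algebraMap (Pol 2) R Q) - (p - algebraMap (Pol 2) R Q)) := by
    rw [map_sub]
    ring
  rw [e]
  exact Ideal.add_mem _ (Ideal.mem_sup_left (hpoly Q))
    (Ideal.mem_sup_right (Ideal.sub_mem _ (hpow k _ hQ) hQ))

variable {r : ℕ} {R K R' K' : Type} [CommRing R] [IsDomain R] [IsLocalRing R] [Algebra ℂ R]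
  [Field K] [Algebra ℂ K] [Algebra R K] [IsScalarTower ℂ R K] [IsFractionRing R K]
  [CommRing R'] [IsDomain R'] [IsLocalRing R'] [Algebra ℂ R']
  [Field K'] [Algebra ℂ K'] [Algebra R' K'] [IsScalarTower ℂ R' K'] [IsFractionRing R' K']
  [Algebra K K'] [IsScalarTower ℂ K K'] [Algebra R R'] [Algebra R K'] [IsScalarTower R R' K']
  [IsScalarTower R K K'] [IsScalarTower ℂ R R']

/-- The decomposition group contains no reflection. -/
theorem ixr_refl {ω : (Fin 2 → Derivation ℂ K K) → K} (h : IsKltGerm R 2 r ω)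
    {g : K} {b : Fin 2 → K} (hgb : ∀ D, ω D = g * Matrix.det (Matrix.of fun i j => D i (b j)) ^ r)
    {ε : K'} (hc : IsCover (R := R) (R' := R') 2 r g ε)
    (h' : IsKltGerm R' 2 1 (coverForm ε b))
    {x : Fin 2 → R'} (hx : Ideal.span (Set.range x) = maximalIdeal R') (s : R' →+* R')
    (hsR : ∀ a : R, s (algebraMap R R' a) = algebraMap R R' a)
    (hsm : ∀ a ∈ maximalIdeal R', s a ∈ maximalIdeal R') (h0 : s (x 0) = x 0)
    (h1 : s (x 1) = -x 1) : False := by
  have hess' := hc.essFiniteType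
  have hnoeth : IsNoetherianRing R' := Algebra.EssFiniteType.isNoetherianRing ℂ R'
  have hnorm' := hc.normal
  have hsC : ∀ c : ℂ, s (algebraMap ℂ R' c) = algebraMap ℂ R' c := by
    intro c
    rw [IsScalarTower.algebraMap_apply ℂ R R', hsR]
  have htriv := ixr_trivial hc.residue hx s hsC hsm h0 h1
  have hprime := ixr_prime hc.essFiniteType hc.residue hc.dim hx
  have hPp : (Ideal.span {x 1}).IsPrime := (Ideal.span_singleton_prime hprime.ne_zero).2 hprime
  have hP1 : (Ideal.span {x 1}).height = 1 := by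
    apply ixr_height hprime.ne_zero
    rw [Ideal.minimalPrimes_eq_subsingleton_self]
    rfl
  obtain ⟨v, hvn, hvc, hloc, hval⟩ := ixr_val (K := K') (Ideal.span {x 1}) hP1
  -- the value of the parameter
  have hvx : (v (algebraMap R' K' (x 1)) : ℝ) = Real.exp (-1) := by
    apply le_antisymm
    · exact hvn.2 _ ((hvc _).2.2 (Ideal.mem_span_singleton_self _))
    · obtain ⟨f, hf⟩ := hvn.1
      have hf1 : v f < 1 := by
        rw [← NNReal.coe_lt_coe, hf, NNReal.coe_one]
        exact Real.exp_lt_one_iff.2 (by norm_num)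
      obtain ⟨p, q, hq, hpq⟩ := hloc f hf1.le
      have hvp : v (algebraMap R' K' p) = v f := by
        rw [← hpq, map_mul, ixr_unit hvc hq, mul_one]
      have hpP : p ∈ Ideal.span {x 1} := by
        rw [← (hvc p).2, hvp]
        exact hf1
      obtain ⟨c, rfl⟩ := Ideal.mem_span_singleton'.1 hpP
      rw [← hf, ← hvp, map_mul, map_mul, NNReal.coe_mul]
      have h2 : (v (algebraMap R' K' c) : ℝ) ≤ 1 := by exact_mod_cast (hvc c).1
      exact mul_le_of_le_one_left (NNReal.coe_nonneg _) h2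
  have htwo : (2 : R') ∉ Ideal.span {x 1} := by
    intro h2
    have h3 : (2 : R') ∈ maximalIdeal R' := by
      rw [← hx]
      exact (Ideal.span_mono (by rintro _ rfl; exact ⟨1, rfl⟩)) h2
    have h4 : (2 : R') = algebraMap ℂ R' 2 := by rw [map_ofNat]
    rw [h4] at h3
    exact (mem_maximalIdeal _).1 h3 ((IsUnit.mk0 (2 : ℂ) two_ne_zero).map _)
  -- the values on `R` are even
  have hinj : Function.Injective (algebraMap R R') := by
    have e1 : Function.Injective (algebraMap R K') := by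
      rw [IsScalarTower.algebraMap_eq R K K']
      exact (algebraMap K K').injective.comp (IsFractionRing.injective R K)
    rw [IsScalarTower.algebraMap_eq R R' K'] at e1
    exact Function.Injective.of_comp e1
  have heven : ∀ f : R, f ≠ 0 → ∃ j : ℕ,
      (v (algebraMap R' K' (algebraMap R R' f)) : ℝ) = Real.exp (-(2 * j : ℕ)) := by
    intro f hf
    have hf0 : algebraMap R R' f ≠ 0 := by
      rw [Ne, map_eq_zero_iff _ hinj]
      exact hf
    obtain ⟨k, f1, hf1, hfk⟩ := WfDvdMonoid.max_power_factor' hf0 hprime.not_isUnit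
    have hf1' : f1 ∉ Ideal.span {x 1} := by rwa [Ideal.mem_span_singleton]
    have hs1 := hsR f
    rw [hfk, map_mul, map_pow, h1] at hs1
    have hs2 : s f1 - f1 ∈ Ideal.span {x 1} := htriv f1
    have hk : Even k := by
      by_contra hodd
      rw [Nat.not_even_iff_odd] at hodd
      rw [hodd.neg_pow, neg_mul] at hs1
      have hs3 : s f1 = -f1 := by
        have e1 : x 1 ^ k * (s f1 + f1) = 0 := by linear_combination -hs1
        rcases mul_eq_zero.1 e1 with e2 | e2
        · exact absurd e2 (pow_ne_zero _ hprime.ne_zero)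
        · linear_combination e2
      rw [hs3] at hs2
      have e1 : (2 : R') * f1 ∈ Ideal.span {x 1} := by
        have e2 : (2 : R') * f1 = -(-f1 - f1) := by ring
        rw [e2]
        exact (Ideal.neg_mem_iff _).2 hs2
      rcases hPp.mem_or_mem e1 with e2 | e2
      · exact htwo e2
      · exact hf1' e2
    obtain ⟨j, hj⟩ := hk
    refine ⟨j, ?_⟩
    rw [hfk, map_mul, map_pow, map_mul, map_pow, ixr_unit hvc hf1', mul_one, NNReal.coe_pow, hvx,
      ← Real.exp_nat_mul, hj]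
    congr 1
    push_cast
    ring
  set v0 := v.comap (algebraMap K K') with hv0
  have heven' : ∀ a : K, a ≠ 0 → ∃ j : ℤ, (v0 a : ℝ) = Real.exp (-(2 * j : ℤ)) := by
    intro a ha
    obtain ⟨p, q, hq, rfl⟩ := IsFractionRing.div_surjective (A := R) a
    have hq0 : q ≠ 0 := nonZeroDivisors.ne_zero hq
    have hp0 : p ≠ 0 := by
      rintro rfl
      rw [map_zero, zero_div] at ha
      exact ha rfl
    obtain ⟨j, hj⟩ := heven p hp0
    obtain ⟨l, hl⟩ := heven q hq0
    refine ⟨(j : ℤ) - l, ?_⟩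
    have e1 : ∀ f : R, v0 (algebraMap R K f) = v (algebraMap R' K' (algebraMap R R' f)) := by
      intro f
      rw [hv0, Valuation.comap_apply, ← IsScalarTower.algebraMap_apply R K K',
        ← IsScalarTower.algebraMap_apply R R' K']
    rw [map_div₀, NNReal.coe_div, e1, e1, hj, hl, ← Real.exp_sub]
    congr 1
    push_cast
    ring
  -- the restriction
  have hvc0 := HasCenter.comap hc hvc
  have hP0 := comap_height hc h.normal hP1
  obtain ⟨w, t, ht, hwn, hwc, hvw⟩ := exists_normalized one_le_two h.essFiniteType h.normal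
    h.residue h.dim hvc0 hP0
  have ht2 : 2 ≤ t := by
    obtain ⟨f, hf⟩ := hwn.1
    have hf0 : f ≠ 0 := by
      rintro rfl
      rw [map_zero] at hf
      exact (Real.exp_pos _).ne hf
    obtain ⟨j, hj⟩ := heven' f hf0
    have e1 := hvw f
    have e2 : (v0 f : ℝ) = Real.exp (-t) := by
      rw [hv0, e1, NNReal.coe_rpow, hf, ← Real.exp_mul]
      congr 1
      ring
    rw [hj, Real.exp_eq_exp] at e2
    push_cast at e2
    have e3 : (0 : ℝ) < j := by linarith
    have e4 : (1 : ℤ) ≤ j := by exact_mod_cast e3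
    have e5 : (1 : ℝ) ≤ j := by exact_mod_cast e4
    linarith
  have hlub := h.canonical w _ hwc hP0 hwn
  obtain ⟨t0, ht0, ht0'⟩ := (lt_isLUB_iff hlub).1 (show (1 / 2 : ℝ) < 1 by norm_num)
  have hsub := logSet_cover (cg_trdeg h.dim) (cg_ess h.essFiniteType) hc.finite h.index_pos
    h.form.1 hgb hc.pow v
  have hmem : t * t0 ∈ logSet 2 r ω v0 := by
    obtain ⟨c, k, hc0, hD, rfl⟩ := ht0
    refine ⟨c, k, hc0, hD, ?_⟩
    have hk : 0 < (w k : ℝ) := by
      rw [NNReal.coe_pos, zero_lt_iff]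
      intro h2
      rw [h2] at ht0'
      simp at ht0'
      norm_num at ht0'
    have e1 : (v0 k : ℝ) = (w k : ℝ) ^ t := by
      rw [hv0, hvw k, NNReal.coe_rpow]
    rw [e1, Real.log_rpow hk]
    ring
  have hle := (h'.canonical v _ hvc hP1 hvn).1 (hsub hmem)
  linarith only [mul_pos (sub_pos.2 ht) (sub_pos.2 ht0'), mul_nonneg (mul_self_nonneg (1 : ℝ)) (sub_nonneg.2 hle), mul_nonneg (mul_self_nonneg (1 : ℝ)) (sub_nonneg.2 ht2)]

end Vale.Agent.P282.Full
end

section

/-!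
P282, equality case, arbitrary index: regular covers of dimension two.
-/

open scoped NNReal ENNReal Nat WithZero
open IsLocalRing

namespace Vale.Agent.P282.Full

variable {r : ℕ} {R K R' K' : Type} [CommRing R] [IsDomain R] [IsLocalRing R] [Algebra ℂ R]
  [Field K] [Algebra ℂ K] [Algebra R K] [IsScalarTower ℂ R K] [IsFractionRing R K]
  [CommRing R'] [IsDomain R'] [IsLocalRing R'] [Algebra ℂ R']
  [Field K'] [Algebra ℂ K'] [Algebra R' K'] [IsScalarTower ℂ R' K'] [IsFractionRing R' K']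
  [Algebra K K'] [IsScalarTower ℂ K K'] [Algebra R R'] [Algebra R K'] [IsScalarTower R R' K']
  [IsScalarTower R K K'] [IsScalarTower ℂ R R']

open Vale.Agent.P282.L2 in
/-- The case of determinant one. -/
theorem ixr_det_one {ω : (Fin 2 → Derivation ℂ K K) → K} (h : IsKltGerm R 2 r ω)
    {g : K} {b : Fin 2 → K} (hgb : ∀ D, ω D = g * Matrix.det (Matrix.of fun i j => D i (b j)) ^ r)
    {ε : K'} (hc : IsCover (R := R) (R' := R') 2 r g ε)
    (h' : IsKltGerm R' 2 1 (coverForm ε b))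
    {σ : K' ≃ₐ[K] K'} (hσ1 : σ ≠ 1) (hσ2 : ∀ a, σ (σ a) = a)
    {x : Fin 2 → R'} (hx : Ideal.span (Set.range x) = maximalIdeal R') (s : R' →+* R')
    (hs : ∀ a, algebraMap R' K' (s a) = σ (algebraMap R' K' a))
    (hsC : ∀ c : ℂ, s (algebraMap ℂ R' c) = algebraMap ℂ R' c)
    (hsm : ∀ a ∈ maximalIdeal R', s a ∈ maximalIdeal R') {e : Fin 2 → R'}
    (he : ∀ i, e i = 1 ∨ e i = -1) (he1 : e 0 * e 1 = 1) (hse : ∀ i, s (x i) = e i * x i) :
    False := by
  classical
  have hess := h'.essFiniteType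
  let _ : Algebra (Pol 2) R' := (MvPolynomial.aeval x).toAlgebra
  have _ : IsScalarTower ℂ (Pol 2) R' :=
    IsScalarTower.of_algebraMap_eq fun c => ((MvPolynomial.aeval x).commutes c).symm
  have hpar : par 2 R' = x := by
    ext i
    change MvPolynomial.aeval x (MvPolynomial.X i) = x i
    rw [MvPolynomial.aeval_X]
  have hmem : ∀ i : Fin 2, par 2 R' i ∈ maximalIdeal R' := by
    intro i
    rw [hpar, ← hx]
    exact Ideal.subset_span ⟨i, rfl⟩
  have hx' : Ideal.span (Set.range (par 2 R')) = maximalIdeal R' := by rw [hpar, hx]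
  have hzmt : ∀ a : R', ∃ s : R', IsUnit s ∧ IsIntegral (Pol 2) s ∧ IsIntegral (Pol 2) (s * a) :=
    fun a => zmt h'.residue hmem ⟨1, by rw [pow_one]; exact hx'.ge⟩ a
  have htb := par_transcendenceBasis hzmt h'.dim
  have hinj : Function.Injective (algebraMap (Pol 2) R') := by
    have h1 : Function.Injective (MvPolynomial.aeval (R := ℂ) (par 2 R')) := htb.1
    intro p q hpq
    apply h1
    rw [aeval_par, aeval_par, hpq]
  let _ : Algebra (Pol 2) K' := ((algebraMap R' K').comp (algebraMap (Pol 2) R')).toAlgebra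
  have _ : IsScalarTower (Pol 2) R' K' := IsScalarTower.of_algebraMap_eq fun _ => rfl
  have hfaithK : FaithfulSMul (Pol 2) K' := by
    rw [faithfulSMul_iff_algebraMap_injective, IsScalarTower.algebraMap_eq _ R' K']
    exact (IsFractionRing.injective R' K').comp hinj
  let _ : Algebra (FractionRing (Pol 2)) K' := FractionRing.liftAlgebra (Pol 2) K'
  have _ : IsScalarTower (Pol 2) (FractionRing (Pol 2)) K' :=
    FractionRing.isScalarTower_liftAlgebra _ _
  have _ : IsScalarTower ℂ (Pol 2) K' :=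
    IsScalarTower.of_algebraMap_eq fun c => by
      rw [IsScalarTower.algebraMap_apply (Pol 2) R' K',
        ← IsScalarTower.algebraMap_apply ℂ (Pol 2) R',
        ← IsScalarTower.algebraMap_apply ℂ R' K']
  have _ : IsScalarTower ℂ (FractionRing (Pol 2)) K' :=
    IsScalarTower.of_algebraMap_eq fun c => by
      rw [IsScalarTower.algebraMap_apply ℂ (Pol 2) (FractionRing (Pol 2)),
        ← IsScalarTower.algebraMap_apply (Pol 2) (FractionRing (Pol 2)) K',
        ← IsScalarTower.algebraMap_apply ℂ (Pol 2) K']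
  have halgR : Algebra.IsAlgebraic (Pol 2) R' := by
    constructor
    intro r
    obtain ⟨s, hs1, hs2, hs3⟩ := hzmt r
    exact IsAlgebraic.of_mul (y := s) (hs1.mem_nonZeroDivisors) hs2.isAlgebraic hs3.isAlgebraic
  have halgRK : Algebra.IsAlgebraic R' K' := IsLocalization.isAlgebraic _ (nonZeroDivisors R')
  have halgPK : Algebra.IsAlgebraic (Pol 2) K' := Algebra.IsAlgebraic.trans _ R' _
  have halg : Algebra.IsAlgebraic (FractionRing (Pol 2)) K' :=
    (IsFractionRing.comap_isAlgebraic_iff (A := Pol 2) (K := FractionRing (Pol 2))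
      (C := K')).mp halgPK
  have hessRK : Algebra.EssFiniteType R' K' :=
    Algebra.EssFiniteType.of_isLocalization _ (nonZeroDivisors R')
  have hessCK : Algebra.EssFiniteType ℂ K' := Algebra.EssFiniteType.comp ℂ R' _
  have hessK : Algebra.EssFiniteType (FractionRing (Pol 2)) K' :=
    Algebra.EssFiniteType.of_comp ℂ (FractionRing (Pol 2)) _
  have hfd : FiniteDimensional (FractionRing (Pol 2)) K' :=
    Algebra.finite_of_essFiniteType_of_isAlgebraic
  obtain ⟨d, hd⟩ := exists_partials 2 K'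
  obtain ⟨a, hau, ha⟩ := ixr_isUnit (K := K') h' hx' hd
  -- the form is anti-invariant
  have hg : g ≠ 0 := by
    rintro rfl
    obtain ⟨D, hD⟩ := h.form.1
    rw [hgb D, zero_mul] at hD
    exact hD rfl
  have hε := ixr_eps hg h.index_pos hc.pow hc.adjoin hσ1 hσ2
  have hX : ∀ i, algebraMap (Pol 2) K' (MvPolynomial.X i) = algebraMap R' K' (x i) := by
    intro i
    rw [IsScalarTower.algebraMap_apply (Pol 2) R' K']
    congr 1
    exact congrFun hpar i
  have hjac := ixr_jac (K := K) hσ2 hd (e := fun i => algebraMap R' K' (e i))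
    (fun i => by
      rcases he i with h1 | h1
      · left
        rw [h1, map_one]
      · right
        rw [h1, map_neg, map_one])
    (by rw [← map_mul, he1, map_one])
    (fun i => by rw [hX, ← hs, hse, map_mul]) b
  have hneg : σ (coverForm ε b d) = -coverForm ε b d := by
    unfold coverForm
    rw [map_mul, hε, hjac]
    ring
  have hsa : s a = -a := by
    apply IsFractionRing.injective R' K'
    rw [hs, ha, map_inv₀, hneg, map_neg, ha, inv_neg]
  obtain ⟨c, hcr⟩ := h'.residue (residue R' a)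
  have hac : a - algebraMap ℂ R' c ∈ maximalIdeal R' := by
    rw [← residue_eq_zero_iff, map_sub, ← hcr, sub_eq_zero,
      IsScalarTower.algebraMap_apply ℂ R' (ResidueField R')]
    rfl
  have h2 := hsm _ hac
  rw [map_sub, hsa, hsC] at h2
  have h3 : a - algebraMap ℂ R' c - (-a - algebraMap ℂ R' c) ∈ maximalIdeal R' :=
    Ideal.sub_mem _ hac h2
  have h4 : a - algebraMap ℂ R' c - (-a - algebraMap ℂ R' c) = algebraMap ℂ R' 2 * a := by
    rw [map_ofNat]
    ring
  rw [h4] at h3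
  exact (mem_maximalIdeal _).1 h3 (((IsUnit.mk0 (2 : ℂ) two_ne_zero).map _).mul hau)

/-- The decomposition group of a regular cover of dimension two contains no involution. -/
theorem no_involution {ω : (Fin 2 → Derivation ℂ K K) → K} (h : IsKltGerm R 2 r ω)
    {g : K} {b : Fin 2 → K} (hgb : ∀ D, ω D = g * Matrix.det (Matrix.of fun i j => D i (b j)) ^ r)
    {ε : K'} (hc : IsCover (R := R) (R' := R') 2 r g ε)
    (h' : IsKltGerm R' 2 1 (coverForm ε b)) (hreg' : IsRegularLocalRing R')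
    {σ : K' ≃ₐ[K] K'} (hσ : ∀ a : R', ∃ b : R', algebraMap R' K' b = σ (algebraMap R' K' a))
    (hσ1 : σ ≠ 1) (hσ2 : σ * σ = 1) : False := by
  have hess' := hc.essFiniteType
  have hnoeth : IsNoetherianRing R' := Algebra.EssFiniteType.isNoetherianRing ℂ R'
  have hinj : Function.Injective (algebraMap R' K') := IsFractionRing.injective R' K'
  have hinv : ∀ a, σ (σ a) = a := fun a => DFunLike.congr_fun hσ2 a
  choose s0 hs0 using hσ
  let s : R' →+* R' :=
    { toFun := s0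
      map_one' := hinj (by rw [hs0]; simp)
      map_zero' := hinj (by rw [hs0]; simp)
      map_mul' := fun a b => hinj (by rw [hs0, map_mul, map_mul, map_mul, hs0, hs0])
      map_add' := fun a b => hinj (by rw [hs0, map_add, map_add, map_add, hs0, hs0]) }
  have hs : ∀ a, algebraMap R' K' (s a) = σ (algebraMap R' K' a) := hs0
  have hss : ∀ a, s (s a) = a := fun a => hinj (by rw [hs, hs, hinv])
  have hsR : ∀ a : R, s (algebraMap R R' a) = algebraMap R R' a := by
    intro a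
    apply hinj
    rw [hs, ← IsScalarTower.algebraMap_apply R R' K', IsScalarTower.algebraMap_apply R K K' a,
      AlgEquiv.commutes]
  have hsC : ∀ c : ℂ, s (algebraMap ℂ R' c) = algebraMap ℂ R' c := by
    intro c
    rw [IsScalarTower.algebraMap_apply ℂ R R', hsR]
  have hsm : ∀ a ∈ maximalIdeal R', s a ∈ maximalIdeal R' := by
    intro a ha
    rw [mem_maximalIdeal, mem_nonunits_iff] at ha ⊢
    intro h1
    apply ha
    rw [← hss a]
    exact h1.map s
  obtain ⟨x, hx⟩ := exists_regular_params h'.essFiniteType h'.residue h'.dim hreg'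
  obtain ⟨y, e, hy, he, hse⟩ := ixr_eigen hx s hss hsm
  rcases he 0 with h0 | h0 <;> rcases he 1 with h1 | h1
  · exact ixr_det_one h hgb hc h' hσ1 hinv hy s hs hsC hsm he (by rw [h0, h1, one_mul]) hse
  · exact ixr_refl h hgb hc h' hy s hsR hsm (by rw [hse, h0, one_mul])
      (by rw [hse, h1, neg_one_mul])
  · have hy' : Ideal.span (Set.range ![y 1, y 0]) = maximalIdeal R' := by
      rw [← hy]
      congr 1
      ext a
      simp only [Set.mem_range, Fin.exists_fin_two, Matrix.cons_val_zero, Matrix.cons_val_one]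
      tauto
    exact ixr_refl h hgb hc h' hy' s hsR hsm
      (by
        change s (y 1) = y 1
        rw [hse, h1, one_mul])
      (by
        change s (y 0) = -y 0
        rw [hse, h0, neg_one_mul])
  · exact ixr_det_one h hgb hc h' hσ1 hinv hy s hs hsC hsm he
      (by rw [h0, h1, neg_mul_neg, one_mul]) hse

end Vale.Agent.P282.Full
end

section

/-!
P282-EQ-12a: Step C (volume comparison).
-/

open MeasureTheory Filter Topology
open scoped ENNReal NNReal ComplexConjugate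

namespace Vale.Agent.P282.EQ

open Vale.Agent.P282.L2

section stepCpure

/-- The exponent bookkeeping of Step C. -/
theorem stepC_numer {lam : ℝ} (hl : 1 < lam) :
    ∀ᶠ m : ℕ in atTop, ∃ j m' : ℕ, (m : ℝ) ≤ lam * j + m' ∧
      (j : ℝ) + m' ≤ m - (⌊(lam - 1) / (4 * lam) * m⌋₊ : ℝ) := by
  have h0 : 0 < lam := by linarith
  have h1 : 0 < lam - 1 := by linarith
  filter_upwards [tendsto_natCast_atTop_atTop.eventually_ge_atTop (4 * lam ^ 2 / (lam - 1))]
    with m hm
  have hm0 : (0 : ℝ) ≤ m := Nat.cast_nonneg m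
  set j : ℕ := ⌊(m : ℝ) / (2 * lam)⌋₊ with hj
  set l : ℕ := ⌊(j : ℝ) * lam⌋₊ with hl'
  have hj1 : (j : ℝ) ≤ m / (2 * lam) := Nat.floor_le (by positivity)
  have hj2 : (m : ℝ) / (2 * lam) < j + 1 := Nat.lt_floor_add_one _
  have hl1 : (l : ℝ) ≤ j * lam := Nat.floor_le (by positivity)
  have hl2 : (j : ℝ) * lam < l + 1 := Nat.lt_floor_add_one _
  have hjm : (j : ℝ) * lam ≤ m / 2 := by
    calc (j : ℝ) * lam ≤ m / (2 * lam) * lam := mul_le_mul_of_nonneg_right hj1 h0.le
      _ = m / 2 := by field_simp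
  have hlm : l ≤ m := by
    have : (l : ℝ) ≤ m := by linarith only [hjm, hl2, hl1]
    exact_mod_cast this
  refine ⟨j, m - l, ?_, ?_⟩
  · rw [Nat.cast_sub hlm]
    linarith only [hl1]
  · rw [Nat.cast_sub hlm]
    have h2 : ((⌊(lam - 1) / (4 * lam) * m⌋₊ : ℕ) : ℝ) ≤ (lam - 1) / (4 * lam) * m :=
      Nat.floor_le (by positivity)
    have h3 : (m : ℝ) / (2 * lam) * (lam - 1) < (j + 1) * (lam - 1) :=
      mul_lt_mul_of_pos_right hj2 h1
    have h4 : (m : ℝ) / (2 * lam) * (lam - 1) = 2 * ((lam - 1) / (4 * lam) * m) := by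
      field_simp
      ring
    have h5 : lam ≤ (lam - 1) / (4 * lam) * m := by
      rw [div_le_iff₀ h1] at hm
      rw [div_mul_eq_mul_div, le_div_iff₀ (by positivity)]
      linarith only [hm]
    linarith only [h5, h4, h3, h2, hl2]

/-- The final contradiction of Step C. -/
theorem stepC_contra {n : ℕ} {c e : ℝ} (hc : 0 < c) (he : 0 < e) (hec : e * (2 + c) ≤ c)
    {A B C m : ℝ} (hm : 0 < m) (hA : (2 - e) * (c * m ^ n) ≤ A) (hB : (2 - e) * m ^ n ≤ B)
    (hAB : A + B ≤ C) (hC : C ≤ (2 + e) * m ^ n) : False := by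
  have h1 : (2 - e) * (c * m ^ n) + (2 - e) * m ^ n ≤ (2 + e) * m ^ n := by linarith
  have h2 : 0 < m ^ n := pow_pos hm n
  have h3 : ((2 - e) * c + (2 - e)) * m ^ n ≤ (2 + e) * m ^ n := by linarith
  have h4 : (2 - e) * c + (2 - e) ≤ 2 + e := le_of_mul_le_mul_right h3 h2
  have h5 : 0 < e * (2 + c) := by positivity
  linarith only [h5, hec, h4]

theorem sc_exp_mul (a b : ℝ) :
    (Real.exp a).toNNReal * (Real.exp b).toNNReal = (Real.exp (a + b)).toNNReal := by
  rw [← Real.toNNReal_mul (Real.exp_pos a).le, Real.exp_add]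

theorem sc_exp_pow (a : ℝ) (k : ℕ) :
    (Real.exp a).toNNReal ^ k = (Real.exp (k * a)).toNNReal := by
  rw [← Real.toNNReal_pow (Real.exp_pos a).le, Real.exp_nat_mul]

theorem sc_exp_le {a b : ℝ} (h : a ≤ b) :
    (Real.exp a).toNNReal ≤ (Real.exp b).toNNReal :=
  Real.toNNReal_le_toNNReal (Real.exp_le_exp.mpr h)

theorem sc_exp_pos (a : ℝ) : 0 < (Real.exp a).toNNReal :=
  Real.toNNReal_pos.mpr (Real.exp_pos a)

/-- Every nonzero value is `exp (-λ)`. -/
theorem sc_exists_exp {y : ℝ≥0} (hy : y ≠ 0) : ∃ lam : ℝ, y = (Real.exp (-lam)).toNNReal := by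
  refine ⟨-Real.log y, ?_⟩
  rw [neg_neg, Real.exp_log (by exact_mod_cast pos_iff_ne_zero.mpr hy), Real.toNNReal_coe]

theorem sc_le_of_exp {a b : ℝ}
    (h : (Real.exp a).toNNReal ≤ (Real.exp b).toNNReal) : a ≤ b := by
  rw [Real.toNNReal_le_toNNReal_iff (Real.exp_pos b).le] at h
  exact Real.exp_le_exp.mp h

end stepCpure

variable {n N : ℕ} {K : Type} [Field K] [Algebra ℂ K] [Algebra (Pol n) K]
  [IsScalarTower ℂ (Pol n) K] [FaithfulSMul (Pol n) K]
  [Algebra (FractionRing (Pol n)) K] [IsScalarTower (Pol n) (FractionRing (Pol n)) K]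
  [FiniteDimensional (FractionRing (Pol n)) K]

variable {E : Prim n K} {S : Sheets n N} {x : Pt n K}

omit [FaithfulSMul (Pol n) K] [Algebra (FractionRing (Pol n)) K]
  [IsScalarTower (Pol n) (FractionRing (Pol n)) K] [FiniteDimensional (FractionRing (Pol n)) K] in
/-- The volume bound for valuations with `A(v) ≤ n - 1`. -/
theorem sc_volGe_two (hn : 2 ≤ n) {d : Fin n → Derivation ℂ K K} {J : K}
    (hV : VolGe x d J (2 * ((n : ℝ) - 1) ^ n)) {v : Valuation K ℝ≥0} (hv : Centered x v)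
    (hA : ALe d J v (n - 1)) {e : ℝ} (he : 0 < e) :
    ∀ᶠ t : ℕ in atTop, (2 - e) * (t : ℝ) ^ n ≤ n.factorial * (cod (vIdeal hv.1 t) : ℝ) := by
  have hn' : (0 : ℝ) < (n : ℝ) - 1 := by
    have : (2 : ℝ) ≤ n := by exact_mod_cast hn
    linarith
  have hp : 0 < ((n : ℝ) - 1) ^ n := pow_pos hn' n
  filter_upwards [hV v hv (n - 1) hn' hA (e * ((n : ℝ) - 1) ^ n) (by positivity)] with t ht
  have h1 : ((n : ℝ) - 1) ^ n * ((2 - e) * (t : ℝ) ^ n) ≤
      ((n : ℝ) - 1) ^ n * (n.factorial * (cod (vIdeal hv.1 t) : ℝ)) := by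
    calc ((n : ℝ) - 1) ^ n * ((2 - e) * (t : ℝ) ^ n)
        = (2 * ((n : ℝ) - 1) ^ n - e * ((n : ℝ) - 1) ^ n) * (t : ℝ) ^ n := by ring
      _ ≤ _ := ht
  exact le_of_mul_le_mul_left h1 hp

omit [Algebra ℂ K] [IsScalarTower ℂ (Pol n) K] [Algebra (FractionRing (Pol n)) K]
  [IsScalarTower (Pol n) (FractionRing (Pol n)) K] [FiniteDimensional (FractionRing (Pol n)) K] in
/-- A reduction of the maximal ideal is nonzero. -/
theorem sc_red_ne_zero (hn : 0 < n) {r : ℕ} {ζ : Fin r → IB n K} (hζ : Red x ζ) :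
    ∃ i, ζ i ≠ 0 := by
  by_contra hcon
  push Not at hcon
  obtain ⟨k, hk⟩ := hζ
  set b : IB n K := algebraMap (Pol n) (IB n K) (MvPolynomial.X ⟨0, hn⟩) with hb
  have hb0 : x.toFun b = 0 := by
    rw [hb, x.map_alg]
    simp
  have hbne : b ≠ 0 := by
    intro h
    have h1 : (algebraMap (Pol n) K) (MvPolynomial.X ⟨0, hn⟩) = 0 := by
      have h2 : ((b : IB n K) : K) = 0 := by rw [h]; rfl
      exact h2
    rw [map_eq_zero_iff _ (FaithfulSMul.algebraMap_injective (Pol n) K)] at h1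
    exact MvPolynomial.X_ne_zero _ h1
  obtain ⟨s, hs, hs2⟩ := hk (b ^ (k + 1)) (Ideal.pow_mem_pow (mem_kx.mpr hb0) _)
  have hspan : Ideal.span (Set.range ζ) = ⊥ := by
    rw [Ideal.span_eq_bot]
    rintro _ ⟨i, rfl⟩
    exact hcon i
  rw [hspan, Ideal.bot_mul, Ideal.mem_bot] at hs2
  rcases mul_eq_zero.mp hs2 with h | h
  · rw [h, map_zero] at hs
    exact hs rfl
  · exact hbne (pow_eq_zero_iff (Nat.succ_ne_zero k) |>.mp h)

/-- Step C. `v` is a valuation with `A(v) ≤ n - 1` and `v(b_k^U) ≥ k`. -/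
theorem stepC (hS : E.IsSheets S) {d : Fin n → Derivation ℂ K K} (hd : IsPartials d)
    (hn : 2 ≤ n) {J : K} (hJ0 : J ≠ 0) (hJ : IsIntegral (Pol n) J) (hJr : E.IsReg J⁻¹)
    (hcan : Canon x J) (hklt : Klt x d J) (hred : Red x (zv n K))
    (hV : VolGe x d J (2 * ((n : ℝ) - 1) ^ n)) {U : Ultrafilter (Pairs n)}
    (hU : Adm E S x U) {v : Valuation K ℝ≥0} (hv : Centered x v) (hA : ALe d J v (n - 1))
    (hvU : ∀ (k : ℕ) (f : IB n K), E.Lim U k f → v (f : K) ≤ (Real.exp (-(k : ℝ))).toNNReal)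
    {ψ : IB n K → ℂ} {s : Pairs n → ℝ} (hψ : IsPsi E U ψ s) {g : IB n K} (hg0 : x.toFun g = 0)
    (hg : ψ g ≠ 0) : (Real.exp (-1)).toNNReal ≤ v (g : K) := by
  obtain ⟨w, hw, -, ⟨i₀, hi₀⟩, hwU, hwA, hwg⟩ :=
    stepA hS hd hn hJ0 hJ hJr hcan hklt hred hV hU hψ hg0 hg
  have hn0 : 0 < n := by omega
  by_contra hcon
  push Not at hcon
  -- `g ≠ 0`
  have hg1 : (g : K) ≠ 0 := by
    intro h
    rw [h, map_zero] at hwg
    exact (sc_exp_pos (-1)).ne hwg
  have hvg : v (g : K) ≠ 0 := (Valuation.ne_zero_iff v).mpr hg1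
  obtain ⟨lam, hlam⟩ := sc_exists_exp hvg
  have hlam1 : 1 < lam := by
    rw [hlam] at hcon
    by_contra h
    push Not at h
    exact absurd (sc_exp_le (by linarith : (-1 : ℝ) ≤ -lam)) (not_le.mpr hcon)
  -- the element `ζ i` with `w (ζ i) = exp (-1)`
  obtain ⟨r, ζ, hζU, hζ⟩ := hU.red
  obtain ⟨i, hi⟩ : ∃ i, w (ζ i : K) = (Real.exp (-1)).toNNReal := by
    have hX : x.toFun (algebraMap (Pol n) (IB n K) (MvPolynomial.X i₀)) = 0 := by
      rw [x.map_alg]
      simp
    obtain ⟨i, hi⟩ := red_val hζ hw.1 _ hX (sc_red_ne_zero hn0 hζ)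
    refine ⟨i, le_antisymm ?_ ?_⟩
    · have := hwU 1 _ (hζU i)
      simpa using this
    · rw [← hi₀]
      exact hi
  have hvζ : v (ζ i : K) ≤ (Real.exp (-1)).toNNReal := by
    have := hvU 1 _ (hζU i)
    simpa using this
  -- constants
  obtain ⟨eta, heta⟩ : ∃ eta, eta = (lam - 1) / (4 * lam) := ⟨_, rfl⟩
  have heta0 : 0 < eta := by
    rw [heta]
    have : 0 < lam - 1 := by linarith
    have : 0 < lam := by linarith
    positivity
  obtain ⟨c, hc⟩ : ∃ c, c = (eta / 2) ^ n := ⟨_, rfl⟩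
  have hc0 : 0 < c := by rw [hc]; positivity
  obtain ⟨e, he⟩ : ∃ e, e = c / (2 + c) := ⟨_, rfl⟩
  have he0 : 0 < e := by rw [he]; positivity
  have hec : e * (2 + c) ≤ c := by
    rw [he]
    field_simp
    rfl
  have he2 : e < 2 := by
    have : e * (2 + c) < 2 * (2 + c) := by linarith
    exact lt_of_mul_lt_mul_right this (by positivity)
  -- the asymptotic statements
  have E1 := sc_volGe_two hn hV hv hA he0
  have E2 := sc_volGe_two hn hV hw hwA he0
  have htend : Tendsto (fun m : ℕ => ⌊eta * (m : ℝ)⌋₊) atTop atTop :=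
    tendsto_nat_floor_atTop.comp (tendsto_natCast_atTop_atTop.const_mul_atTop heta0)
  have E3 := choose_asymp n 2 (by norm_num) e he0
  have E4 := stepC_numer hlam1
  have E5 : ∀ᶠ m : ℕ in atTop, 2 / eta ≤ (m : ℝ) :=
    tendsto_natCast_atTop_atTop.eventually_ge_atTop _
  obtain ⟨m, ⟨⟨⟨⟨h1, h2⟩, h3⟩, h4⟩, h5⟩, h6⟩ :=
    (((((E1.and (htend.eventually E2)).and E3).and E4).and E5).and
      (eventually_ge_atTop 1)).exists
  have hm0 : (0 : ℝ) < m := by exact_mod_cast h6
  obtain ⟨j, m', hj1, hj2⟩ := h4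
  rw [← heta] at hj2
  set t : ℕ := ⌊eta * (m : ℝ)⌋₊ with ht
  have ht1 : eta / 2 * m ≤ t := by
    have h7 : eta * (m : ℝ) < t + 1 := Nat.lt_floor_add_one _
    have h8 : 1 ≤ eta / 2 * m := by
      rw [div_le_iff₀ heta0] at h5
      linarith only [h5]
    linarith only [h8, h7]
  -- the three ideals
  have hI : ∃ L, kx x ^ L ≤ limI hS hU.pairs m m := limI_prim hS hU.pairs m m
  have hII : limI hS hU.pairs m m ≤ vIdeal hv.1 (m : ℝ) := by
    intro b hb
    rw [mem_vIdeal]
    exact hvU m b (lim2_self.mp ((mem_limI hS hU.pairs).mp hb))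
  have hh : g ^ j * ζ i ^ m' ∈ vIdeal hv.1 (m : ℝ) := by
    rw [mem_vIdeal]
    push_cast
    rw [map_mul, map_pow, map_pow, hlam]
    calc (Real.exp (-lam)).toNNReal ^ j * v (ζ i : K) ^ m'
        ≤ (Real.exp (-lam)).toNNReal ^ j * (Real.exp (-1)).toNNReal ^ m' :=
          mul_le_mul' le_rfl (pow_le_pow_left' hvζ m')
      _ = (Real.exp (j * (-lam) + m' * (-1))).toNNReal := by
          rw [sc_exp_pow, sc_exp_pow, sc_exp_mul]
      _ ≤ _ := sc_exp_le (by linarith only [hj1])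
  have hinj : ∀ r : IB n K, g ^ j * ζ i ^ m' * r ∈ limI hS hU.pairs m m →
      r ∈ vIdeal hw.1 (t : ℝ) := by
    intro r hr
    rw [mem_vIdeal]
    have h7 := hwU m _ (lim2_self.mp ((mem_limI hS hU.pairs).mp hr))
    push_cast at h7
    rw [map_mul, map_mul, map_pow, map_pow, hwg, hi, sc_exp_pow, sc_exp_pow,
      sc_exp_mul] at h7
    have h8 : (Real.exp (j * (-1) + m' * (-1))).toNNReal * w (r : K) ≤
        (Real.exp (j * (-1) + m' * (-1))).toNNReal * (Real.exp (-(t : ℝ))).toNNReal := by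
      rw [sc_exp_mul]
      exact h7.trans (sc_exp_le (by linarith only [hj2]))
    exact le_of_mul_le_mul_left h8 (sc_exp_pos _)
  have h9 := cod_add_le x hI hII hh hinj
  have h10 := limI_cod hS hn0 hU.pairs m m
  refine stepC_contra (n := n) hc0 he0 hec hm0 (A := n.factorial * (cod (vIdeal hw.1 t) : ℝ))
    (B := n.factorial * (cod (vIdeal hv.1 m) : ℝ))
    (C := n.factorial * (2 * (Nat.choose (n + m - 1) n : ℝ))) ?_ h1 ?_ h3
  · refine le_trans ?_ h2
    refine mul_le_mul_of_nonneg_left ?_ (by linarith only [he2])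
    rw [hc, ← mul_pow]
    exact pow_le_pow_left₀ (by (clear * - heta0 h6; positivity)) ht1 n
  · have h11 : cod (vIdeal hw.1 t) + cod (vIdeal hv.1 m) ≤ 2 * Nat.choose (n + m - 1) n := by
      omega
    have h12 : (cod (vIdeal hw.1 t) : ℝ) + cod (vIdeal hv.1 m) ≤
        2 * (Nat.choose (n + m - 1) n : ℝ) := by exact_mod_cast h11
    calc (n.factorial : ℝ) * (cod (vIdeal hw.1 t) : ℝ) + n.factorial * (cod (vIdeal hv.1 m) : ℝ)
        = n.factorial * ((cod (vIdeal hw.1 t) : ℝ) + cod (vIdeal hv.1 m)) := by ring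
      _ ≤ _ := mul_le_mul_of_nonneg_left h12 (Nat.cast_nonneg _)

end Vale.Agent.P282.EQ
end

section

/-!
P282-EQ-11a: the colength of the sum family.
-/

open MeasureTheory Filter Topology
open scoped ENNReal NNReal ComplexConjugate

namespace Vale.Agent.P282.EQ

open Vale.Agent.P282.L2

variable {n N : ℕ} {K : Type} [Field K] [Algebra ℂ K] [Algebra (Pol n) K]
  [IsScalarTower ℂ (Pol n) K] [FaithfulSMul (Pol n) K]
  [Algebra (FractionRing (Pol n)) K] [IsScalarTower (Pol n) (FractionRing (Pol n)) K]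
  [FiniteDimensional (FractionRing (Pol n)) K]

variable {E : Prim n K} {S : Sheets n N} {x : Pt n K}

/-- Passing from the scale `t = ⌊κ k⌋` to the scale `k`. -/
theorem sc11_floor (n : ℕ) {κ b : ℝ} (hκ : 0 < κ) (hb : 0 < b) {C D : ℕ → ℝ}
    (hC : ∀ ε : ℝ, 0 < ε → ∀ᶠ t : ℕ in atTop, (2 * b ^ n - ε) * (t : ℝ) ^ n ≤
      (2 * b * κ) ^ n * C t)
    (hCD : ∀ k : ℕ, C ⌊κ * k⌋₊ ≤ D k) :
    ∀ ε : ℝ, 0 < ε → ∀ᶠ k : ℕ in atTop, (2 / 2 ^ n - ε) * (k : ℝ) ^ n ≤ D k := by
  intro ε hε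
  have hP : (0 : ℝ) < (2 * b * κ) ^ n := by positivity
  have hκn : (0 : ℝ) < κ ^ n := by positivity
  set ε' : ℝ := ε * (2 * b * κ) ^ n / (2 * κ ^ n) with hε'
  have hε'0 : 0 < ε' := by positivity
  have h1 : Tendsto (fun k : ℕ => ⌊κ * (k : ℝ)⌋₊) atTop atTop :=
    tendsto_nat_floor_atTop.comp (tendsto_natCast_atTop_atTop.const_mul_atTop hκ)
  have h2 : Tendsto (fun k : ℕ => ((⌊κ * (k : ℝ)⌋₊ : ℕ) : ℝ) / (k : ℝ)) atTop (𝓝 κ) :=
    (tendsto_nat_floor_mul_div_atTop hκ.le).comp tendsto_natCast_atTop_atTop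
  have h3 : Tendsto (fun k : ℕ => (2 * b ^ n - ε') *
      (((⌊κ * (k : ℝ)⌋₊ : ℕ) : ℝ) / (k : ℝ)) ^ n) atTop (𝓝 ((2 * b ^ n - ε') * κ ^ n)) :=
    (h2.pow n).const_mul _
  have h4 : 2 * b ^ n * κ ^ n - ε * (2 * b * κ) ^ n < (2 * b ^ n - ε') * κ ^ n := by
    have : ε' * κ ^ n = ε * (2 * b * κ) ^ n / 2 := by
      rw [hε']; field_simp
    have h5 : 0 < ε * (2 * b * κ) ^ n := by positivity
    rw [sub_mul, this]
    linarith
  filter_upwards [h1.eventually (hC ε' hε'0), h3.eventually (lt_mem_nhds h4),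
    eventually_gt_atTop 0] with k hk1 hk2 hk0
  have hk : (0 : ℝ) < (k : ℝ) ^ n := by
    have : (0 : ℝ) < (k : ℝ) := by exact_mod_cast hk0
    positivity
  have hk' : (k : ℝ) ≠ 0 := by
    have : (0 : ℝ) < (k : ℝ) := by exact_mod_cast hk0
    exact this.ne'
  have h6 : (2 * b ^ n * κ ^ n - ε * (2 * b * κ) ^ n) * (k : ℝ) ^ n ≤
      (2 * b ^ n - ε') * ((⌊κ * (k : ℝ)⌋₊ : ℕ) : ℝ) ^ n := by
    calc (2 * b ^ n * κ ^ n - ε * (2 * b * κ) ^ n) * (k : ℝ) ^ n
        ≤ ((2 * b ^ n - ε') * (((⌊κ * (k : ℝ)⌋₊ : ℕ) : ℝ) / (k : ℝ)) ^ n) * (k : ℝ) ^ n :=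
          mul_le_mul_of_nonneg_right hk2.le hk.le
      _ = _ := by
          rw [div_pow, mul_assoc, div_mul_cancel₀ _ hk.ne']
  have h7 : (2 * b * κ) ^ n * ((2 / 2 ^ n - ε) * (k : ℝ) ^ n)
      = (2 * b ^ n * κ ^ n - ε * (2 * b * κ) ^ n) * (k : ℝ) ^ n := by
    have h2n : (2 : ℝ) ^ n ≠ 0 := by positivity
    rw [mul_pow, mul_pow]
    field_simp
  have h8 : (2 * b * κ) ^ n * ((2 / 2 ^ n - ε) * (k : ℝ) ^ n) ≤ (2 * b * κ) ^ n * D k := by
    rw [h7]
    exact (h6.trans hk1).trans (mul_le_mul_of_nonneg_left (hCD k) hP.le)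
  exact le_of_mul_le_mul_left h8 hP

/-- The colength of the sum family is at least `2 (k/2)^n / n!`. -/
theorem stair_cod (hS : E.IsSheets S) {d : Fin n → Derivation ℂ K K} (hd : IsPartials d)
    (hn : 2 ≤ n) {J : K} (hJ0 : J ≠ 0) (hJ : IsIntegral (Pol n) J) (hJr : E.IsReg J⁻¹)
    (hcan : Canon x J) (hklt : Klt x d J) (hred : Red x (zv n K))
    (hV : VolGe x d J (2 * ((n : ℝ) - 1) ^ n)) {I I' : ℕ → Ideal (IB n K)} (hI : Fam x I)
    (hI' : Fam x I')
    (hdiv : ∀ k : ℕ, 0 < k → Div E S x J 1 (I k) (((n : ℝ) - 1) / k))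
    (hdiv' : ∀ k : ℕ, 0 < k → Div E S x J 1 (I' k) (((n : ℝ) - 1) / k)) :
    ∀ ε : ℝ, 0 < ε → ∀ᶠ k : ℕ in atTop,
      (2 / 2 ^ n - ε) * (k : ℝ) ^ n ≤ n.factorial * (cod (stairI I I' k) : ℝ) := by
  have hn1 : (0 : ℝ) < (n : ℝ) - 1 := by
    have : (2 : ℝ) ≤ (n : ℝ) := by exact_mod_cast hn
    linarith
  have hfam : Fam x (stairI I I') := stairI_fam hI hI'
  have hD := fam_sum hS hd (by omega) hJ0 hJ hJr hcan hred hI hI' hn1 hdiv hdiv'
  obtain ⟨v, κ, hκ, hv, -, -, hIv, hA⟩ := exists_val_fam hS hd hn hJ0 hJ hJr hklt hred hfam 1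
    one_ne_zero (c := 2 * ((n : ℝ) - 1)) (by positivity) hD
  have hALe : ALe d J v (2 * ((n : ℝ) - 1) * κ) := by
    intro b hb hjac
    have := hA b hb hjac
    simpa using this
  have hVg := hV v hv (2 * ((n : ℝ) - 1) * κ) (by positivity) hALe
  refine sc11_floor n hκ hn1 (C := fun t => n.factorial * (cod (vIdeal hv.1 t) : ℝ)) hVg
    (fun k => ?_)
  have hle : stairI I I' k ≤ vIdeal hv.1 ((⌊κ * (k : ℝ)⌋₊ : ℕ) : ℝ) := by
    intro f hf
    rw [mem_vIdeal]
    refine (hIv k f hf).trans ?_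
    refine Real.toNNReal_le_toNNReal (Real.exp_le_exp.2 ?_)
    have : ((⌊κ * (k : ℝ)⌋₊ : ℕ) : ℝ) ≤ κ * k := Nat.floor_le (by (clear * - hκ; positivity))
    linarith
  have hc := cod_anti x (hfam.prim k) hle
  have : ((cod (vIdeal hv.1 ((⌊κ * (k : ℝ)⌋₊ : ℕ) : ℝ)) : ℕ) : ℝ) ≤ (cod (stairI I I' k) : ℝ) := by
    exact_mod_cast hc
  exact mul_le_mul_of_nonneg_left this (by positivity)

end Vale.Agent.P282.EQ
end

section

/-!
P282-EQ-11b: Step B (uniqueness).
-/

open MeasureTheory Filter Topology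
open scoped ENNReal NNReal ComplexConjugate

namespace Vale.Agent.P282.EQ

open Vale.Agent.P282.L2

variable {n N : ℕ} {K : Type} [Field K] [Algebra ℂ K] [Algebra (Pol n) K]
  [IsScalarTower ℂ (Pol n) K] [FaithfulSMul (Pol n) K]
  [Algebra (FractionRing (Pol n)) K] [IsScalarTower (Pol n) (FractionRing (Pol n)) K]
  [FiniteDimensional (FractionRing (Pol n)) K]

variable {E : Prim n K} {S : Sheets n N} {x : Pt n K}

section stepBpure

/-- The exponent bookkeeping of Step B. -/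
theorem sb_numer {eta p : ℝ} (h0 : 0 < eta) :
    ∀ᶠ s : ℕ in atTop, ∀ j : ℕ, (s : ℝ) = j * p →
      (⌊(eta / 2) * (s : ℝ) - 1⌋₊ : ℝ) + j * ((1 - eta) * p) ≤
        (⌊(1 - eta / 2) * (s : ℝ)⌋₊ : ℝ) ∧
      eta / 4 * (s : ℝ) ≤ (⌊(eta / 2) * (s : ℝ) - 1⌋₊ : ℝ) := by
  filter_upwards [tendsto_natCast_atTop_atTop.eventually_ge_atTop (8 / eta)] with s hs j hj
  rw [div_le_iff₀ h0] at hs
  have h1 : 0 ≤ (eta / 2) * (s : ℝ) - 1 := by linarith
  have h2 : (⌊(eta / 2) * (s : ℝ) - 1⌋₊ : ℝ) ≤ (eta / 2) * (s : ℝ) - 1 := Nat.floor_le h1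
  have h3 : (eta / 2) * (s : ℝ) - 1 < (⌊(eta / 2) * (s : ℝ) - 1⌋₊ : ℝ) + 1 :=
    Nat.lt_floor_add_one _
  have h4 : (1 - eta / 2) * (s : ℝ) < (⌊(1 - eta / 2) * (s : ℝ)⌋₊ : ℝ) + 1 :=
    Nat.lt_floor_add_one _
  have h5 : (j : ℝ) * ((1 - eta) * p) = (1 - eta) * s := by rw [hj]; ring
  constructor
  · rw [h5]
    linarith only [h4, h2]
  · linarith only [h3, hs]

theorem sb_stair {A : Type*} [CommRing A] [Algebra ℂ A] (I I' : ℕ → Ideal A) (m : ℕ) :
    stairSum (fun i => (I i).restrictScalars ℂ) (fun i => (I' i).restrictScalars ℂ) m =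
      (⨆ i ∈ Finset.range (m + 1), I i ⊓ I' (m - i) : Ideal A).restrictScalars ℂ := by
  unfold stairSum
  apply Submodule.toAddSubmonoid_injective
  rw [Submodule.toAddSubmonoid_restrictScalars]
  simp only [Submodule.iSup_toAddSubmonoid]
  rfl

end stepBpure


/-- Step B. -/
theorem stepB (hS : E.IsSheets S) {d : Fin n → Derivation ℂ K K} (hd : IsPartials d)
    (hn : 2 ≤ n) {J : K} (hJ0 : J ≠ 0) (hJ : IsIntegral (Pol n) J) (hJr : E.IsReg J⁻¹)
    (hcan : Canon x J) (hklt : Klt x d J) (hred : Red x (zv n K))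
    (hV : VolGe x d J (2 * ((n : ℝ) - 1) ^ n)) {U₀ U : Ultrafilter (Pairs n)}
    (hU₀ : Adm E S x U₀) (hU : Adm E S x U) {v : Valuation K ℝ≥0} (hv : Centered x v)
    (hA : ALe d J v (n - 1))
    (hv₀ : ∀ (k : ℕ) (f : IB n K), E.Lim U₀ k f → v (f : K) ≤ (Real.exp (-(k : ℝ))).toNNReal) :
    ∀ (k : ℕ) (f : IB n K), E.Lim U k f → v (f : K) ≤ (Real.exp (-(k : ℝ))).toNNReal := by
  have hn0 : 0 < n := by omega
  intro p f hf
  rcases Nat.eq_zero_or_pos p with rfl | hp
  · simpa using hv.1.1 f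
  by_contra hcon
  push Not at hcon
  have hp' : (0 : ℝ) < p := by exact_mod_cast hp
  have hvf : v (f : K) ≠ 0 := (lt_of_le_of_lt bot_le hcon).ne'
  obtain ⟨lam, hlam⟩ := sc_exists_exp hvf
  have hlamp : lam < p := by
    rw [hlam] at hcon
    by_contra h
    push Not at h
    exact absurd (sc_exp_le (by linarith : -lam ≤ -(p : ℝ))) (not_le.mpr hcon)
  have hlam0 : 0 ≤ lam := by
    have h := hv.1.1 f
    rw [hlam] at h
    have h1 : (Real.exp (-lam)).toNNReal ≤ (Real.exp 0).toNNReal := by simpa using h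
    have := sc_le_of_exp h1
    linarith
  -- constants
  obtain ⟨eta, heta⟩ : ∃ eta, eta = (p - lam) / p := ⟨_, rfl⟩
  have heta0 : 0 < eta := by
    rw [heta]
    have : 0 < p - lam := by linarith
    positivity
  have heta1 : lam = (1 - eta) * p := by
    rw [heta]
    field_simp
    ring
  obtain ⟨ε, hε⟩ : ∃ ε : ℝ, ε = (eta / 4) ^ n / (2 * n.factorial) := ⟨_, rfl⟩
  have hfac : (0 : ℝ) < n.factorial := by exact_mod_cast Nat.factorial_pos n
  have hε0 : 0 < ε := by rw [hε]; positivity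
  -- the two filtrations
  set I₀ : ℕ → Ideal (IB n K) := fun k => limI hS hU₀.pairs k k with hI₀
  set I₁ : ℕ → Ideal (IB n K) := fun k => limI hS hU.pairs k k with hI₁
  have hF₀ : Fam x I₀ := limI_fam hS hU₀.pairs
  have hF₁ : Fam x I₁ := limI_fam hS hU.pairs
  have hcod : ∀ I : Ideal (IB n K),
      Module.finrank ℂ (IB n K ⧸ I.restrictScalars ℂ) = cod I := fun I => rfl
  have hup : ∀ (W : Ultrafilter (Pairs n)) (hW : GPairs E S x W), ∀ δ > 0, ∀ᶠ m : ℕ in atTop,
      (Module.finrank ℂ (IB n K ⧸ (limI hS hW m m).restrictScalars ℂ) : ℝ) ≤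
        (2 / n.factorial + δ) * (m : ℝ) ^ n := by
    intro W hW δ hδ
    filter_upwards [choose_asymp n 2 (by norm_num) (n.factorial * δ) (by positivity)] with m hm
    rw [hcod]
    have h1 : cod (limI hS hW m m) ≤ 2 * Nat.choose (n + m - 1) n := by
      have := limI_cod hS hn0 hW m m
      omega
    have h2 : (cod (limI hS hW m m) : ℝ) ≤ 2 * (Nat.choose (n + m - 1) n : ℝ) := by
      exact_mod_cast h1
    have h3 : (n.factorial : ℝ) * (cod (limI hS hW m m) : ℝ) ≤
        (2 + n.factorial * δ) * (m : ℝ) ^ n :=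
      (mul_le_mul_of_nonneg_left h2 hfac.le).trans hm
    have h4 : (n.factorial : ℝ) * ((2 / n.factorial + δ) * (m : ℝ) ^ n) =
        (2 + n.factorial * δ) * (m : ℝ) ^ n := by
      field_simp
    rw [← h4] at h3
    exact le_of_mul_le_mul_left h3 hfac
  have hlow : ∀ δ > 0, ∀ᶠ m : ℕ in atTop,
      (2 / (n.factorial : ℝ) / 2 ^ n - δ) * (m : ℝ) ^ n ≤
        Module.finrank ℂ (IB n K ⧸ stairSum (fun i => (I₀ i).restrictScalars ℂ)
          (fun i => (I₁ i).restrictScalars ℂ) m) := by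
    intro δ hδ
    filter_upwards [stair_cod hS hd hn hJ0 hJ hJr hcan hklt hred hV hF₀ hF₁
      (adm_div hS hd hn hJ0 hJ hJr hcan hU₀) (adm_div hS hd hn hJ0 hJ hJr hcan hU)
      (n.factorial * δ) (by positivity)] with m hm
    rw [sb_stair]
    have h1 : (n.factorial : ℝ) * ((2 / (n.factorial : ℝ) / 2 ^ n - δ) * (m : ℝ) ^ n) ≤
        n.factorial * (cod (stairI I₀ I₁ m) : ℝ) := by
      refine le_trans (le_of_eq ?_) hm
      field_simp
    exact le_of_mul_le_mul_left h1 hfac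
  have key := two_fil (k := ℂ) (B := IB n K) (F := fun i => (I₀ i).restrictScalars ℂ)
    (G := fun i => (I₁ i).restrictScalars ℂ)
    (fun i => finite_quotient x (limI_prim hS hU₀.pairs i i))
    (fun i => finite_quotient x (limI_prim hS hU.pairs i i))
    (fun a b hab => by
      have := hF₀.anti hab
      exact this) (fun a b hab => by
      have := hF₁.anti hab
      exact this)
    (by simp only [hF₀.zero]; rfl) (by simp only [hF₁.zero]; rfl) (n := n) hn0
    (A := 2 / n.factorial) (by positivity) (hup U₀ hU₀.pairs) (hup U hU.pairs) hlow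
    (θ := 1 - eta / 2) (ε := ε) (by linarith) hε0
  have E2 := sc_volGe_two hn hV hv hA (e := 1) one_pos
  have htend : Tendsto (fun s : ℕ => ⌊eta / 2 * (s : ℝ) - 1⌋₊) atTop atTop :=
    tendsto_nat_floor_atTop.comp (tendsto_atTop_add_const_right _ _
      (tendsto_natCast_atTop_atTop.const_mul_atTop (half_pos heta0)))
  have E3 := sb_numer (p := (p : ℝ)) heta0
  have hmul : Tendsto (fun j : ℕ => j * p) atTop atTop :=
    tendsto_id.atTop_mul_const' hp
  obtain ⟨j, ⟨⟨h1, h2⟩, h3⟩, h4⟩ := ((((hmul.eventually key).and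
    ((htend.comp hmul).eventually E2)).and (hmul.eventually E3)).and
    (eventually_ge_atTop 1)).exists
  set s : ℕ := j * p with hs
  have hsj : (s : ℝ) = j * p := by rw [hs]; push_cast; rfl
  obtain ⟨h3a, h3b⟩ := h3 j hsj
  set t : ℕ := ⌊eta / 2 * (s : ℝ) - 1⌋₊ with ht
  have h2' : (2 - 1) * (t : ℝ) ^ n ≤ n.factorial * (cod (vIdeal hv.1 t) : ℝ) := h2
  have hs0 : (0 : ℝ) < s := by
    rw [hsj]
    have : (1 : ℝ) ≤ j := by exact_mod_cast h4
    positivity
  have hfin := h1 ⌊(1 - eta / 2) * (s : ℝ)⌋₊ (Nat.floor_le (by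
      have : eta ≤ 1 := by (by_contra nlg; linarith only [nlg, mul_pos (sub_pos.2 (not_le.1 nlg)) (sub_pos.2 hp'), hlam0, heta1])
      have : 0 ≤ 1 - eta / 2 := by linarith only [this]
      (clear * - this h4 hp; positivity)))
    (LinearMap.mulLeft ℂ (f ^ j)) ((vIdeal hv.1 (t : ℝ)).restrictScalars ℂ) ?_ ?_
  · rw [hcod] at hfin
    have h5 : (eta / 4 * (s : ℝ)) ^ n ≤ (t : ℝ) ^ n := pow_le_pow_left₀ (by (clear * - heta0 h4 hp; positivity)) h3b n
    have h6 : (n.factorial : ℝ) * (cod (vIdeal hv.1 (t : ℝ)) : ℝ) ≤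
        n.factorial * (ε * (s : ℝ) ^ n) := mul_le_mul_of_nonneg_left hfin hfac.le
    have h7 : (n.factorial : ℝ) * (ε * (s : ℝ) ^ n) = (eta / 4 * (s : ℝ)) ^ n / 2 := by
      rw [hε, mul_pow]
      field_simp
    have h8 : 0 < (eta / 4 * (s : ℝ)) ^ n := by (clear * - heta0 h4 hp; positivity)
    linarith only [h8, h7, h6, h5, h2']
  · intro a
    change f ^ j * a ∈ I₁ s
    have h5 : f ^ j ∈ I₁ s := by
      have h6 : ∀ i : ℕ, f ^ i ∈ I₁ (i * p) := by
        intro i
        induction i with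
        | zero => rw [pow_zero, zero_mul, hF₁.zero]; trivial
        | succ i ih =>
          rw [pow_succ, Nat.succ_mul]
          exact hF₁.mul _ _ (Ideal.mul_mem_mul ih
            ((mem_limI hS hU.pairs).mpr (lim2_self.mpr hf)))
      exact h6 j
    exact Ideal.mul_mem_right _ _ h5
  · intro a ha
    change a ∈ vIdeal hv.1 (t : ℝ)
    rw [mem_vIdeal]
    have h5 : f ^ j * a ∈ limI hS hU₀.pairs ⌊(1 - eta / 2) * (s : ℝ)⌋₊
      ⌊(1 - eta / 2) * (s : ℝ)⌋₊ := ha
    have h6 := hv₀ _ _ (lim2_self.mp ((mem_limI hS hU₀.pairs).mp h5))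
    push_cast at h6
    rw [map_mul, map_pow, hlam, sc_exp_pow] at h6
    have h8 : (Real.exp (j * (-lam))).toNNReal * v (a : K) ≤
        (Real.exp (j * (-lam))).toNNReal * (Real.exp (-(t : ℝ))).toNNReal := by
      rw [sc_exp_mul]
      refine h6.trans (sc_exp_le ?_)
      rw [heta1]
      linarith only [h3a]
    exact le_of_mul_le_mul_left h8 (sc_exp_pos _)

end Vale.Agent.P282.EQ
end

section

/-!
P282-EQ-12b: Step D.
-/

open MeasureTheory Filter Topology
open scoped ENNReal NNReal ComplexConjugate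

namespace Vale.Agent.P282.EQ

open Vale.Agent.P282.L2

variable {n N : ℕ} {K : Type} [Field K] [Algebra ℂ K] [Algebra (Pol n) K]
  [IsScalarTower ℂ (Pol n) K] [FaithfulSMul (Pol n) K]
  [Algebra (FractionRing (Pol n)) K] [IsScalarTower (Pol n) (FractionRing (Pol n)) K]
  [FiniteDimensional (FractionRing (Pol n)) K]

variable {E : Prim n K} {S : Sheets n N} {x : Pt n K}

theorem sd_exp : (Real.exp (-(((3 : ℕ) : ℝ)))).toNNReal =
    (Real.exp (-(3 / 2))).toNNReal * (Real.exp (-(3 / 2))).toNNReal := by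
  rw [← Real.toNNReal_mul (Real.exp_pos _).le, ← Real.exp_add]
  norm_num

/-- One of the two mixed limit ideals has values at least `3/2`. -/
theorem sd_dichotomy (hS : E.IsSheets S) {U : Ultrafilter (Pairs n)} (hU : GPairs E S x U)
    {v : Valuation K ℝ≥0}
    (hvU : ∀ (k : ℕ) (f : IB n K), E.Lim U k f → v (f : K) ≤ (Real.exp (-(k : ℝ))).toNNReal) :
    (∀ a ∈ limI hS hU 2 1, v ((a : IB n K) : K) ≤ (Real.exp (-(3 / 2))).toNNReal) ∨
      (∀ b ∈ limI hS hU 1 2, v ((b : IB n K) : K) ≤ (Real.exp (-(3 / 2))).toNNReal) := by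
  by_contra hc
  rw [not_or] at hc
  obtain ⟨h1, h2⟩ := hc
  rw [not_forall] at h1 h2
  obtain ⟨a, ha⟩ := h1
  obtain ⟨b, hb⟩ := h2
  rw [Classical.not_imp, not_le] at ha hb
  have hab : a * b ∈ limI hS hU 3 3 :=
    limI_mul hS hU 2 1 1 2 (Ideal.mul_mem_mul ha.1 hb.1)
  have h3 := hvU 3 (a * b) ((mem_limI hS hU).1 hab)
  rw [sd_exp] at h3
  have h4 : v ((a * b : IB n K) : K) = v (a : K) * v (b : K) := map_mul v (a : K) (b : K)
  rw [h4] at h3
  exact absurd h3 (not_le.2 (mul_lt_mul'' ha.2 hb.2 zero_le zero_le))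

/-- Step D. -/
theorem stepD (hS : E.IsSheets S) (hn : 2 ≤ n) {U : Ultrafilter (Pairs n)}
    (hU : GPairs E S x U) {v : Valuation K ℝ≥0} (hv : Centered x v)
    (hvU : ∀ (k : ℕ) (f : IB n K), E.Lim U k f → v (f : K) ≤ (Real.exp (-(k : ℝ))).toNNReal)
    (f : Fin (n + 3) → IB n K) : ∃ c : Fin (n + 3) → ℂ, c ≠ 0 ∧
      v ((∑ l, algebraMap (Pol n) (IB n K) (MvPolynomial.C (c l)) * f l : IB n K) : K) ≤
        (Real.exp (-(3 / 2))).toNNReal := by
  have hn0 : 0 < n := by omega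
  have e1 : Nat.choose (n + 2 - 1) n = n + 1 := Nat.choose_succ_self_right n
  have e2 : Nat.choose (n + 1 - 1) n = 1 := Nat.choose_self n
  rcases sd_dichotomy hS hU hvU with h | h
  · have hc := limI_cod hS hn0 hU 2 1
    rw [e1, e2] at hc
    obtain ⟨c, hc0, hcI⟩ := dep_of_cod x (limI_prim hS hU 2 1) (D := n + 3) (by omega) f
    exact ⟨c, hc0, h _ hcI⟩
  · have hc := limI_cod hS hn0 hU 1 2
    rw [e1, e2] at hc
    obtain ⟨c, hc0, hcI⟩ := dep_of_cod x (limI_prim hS hU 1 2) (D := n + 3) (by omega) f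
    exact ⟨c, hc0, h _ hcI⟩

end Vale.Agent.P282.EQ
end

section

/-!
P282-EQ: the output of Steps A-D.
-/

open MeasureTheory Filter Topology
open scoped ENNReal NNReal ComplexConjugate

namespace Vale.Agent.P282.EQ

open Vale.Agent.P282.L2

variable {n N : ℕ} {K : Type} [Field K] [Algebra ℂ K] [Algebra (Pol n) K]
  [IsScalarTower ℂ (Pol n) K] [FaithfulSMul (Pol n) K]
  [Algebra (FractionRing (Pol n)) K] [IsScalarTower (Pol n) (FractionRing (Pol n)) K]
  [FiniteDimensional (FractionRing (Pol n)) K]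

variable {E : Prim n K} {S : Sheets n N} {x : Pt n K}

/-- The valuation `v*` and its properties: `v*(m) = 1`, `A(v*) ≤ n - 1`, `v*(g) = 1` for all `g`
with `ψ_U(g) ≠ 0` for some admissible `U`, and `dim m / {v* > 1} ≤ n + 1`. -/
theorem phase1 (hS : E.IsSheets S) {d : Fin n → Derivation ℂ K K} (hd : IsPartials d)
    (hn : 2 ≤ n) {J : K} (hJ0 : J ≠ 0) (hJ : IsIntegral (Pol n) J) (hJr : E.IsReg J⁻¹)
    (hcan : Canon x J) (hklt : Klt x d J) (hred : Red x (zv n K))
    (hV : VolGe x d J (2 * ((n : ℝ) - 1) ^ n)) {U₀ : Ultrafilter (Pairs n)}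
    (hU₀ : Adm E S x U₀) :
    ∃ v : Valuation K ℝ≥0, Centered x v ∧
      (∀ f : IB n K, x.toFun f = 0 → v (f : K) ≤ (Real.exp (-1)).toNNReal) ∧
      (∃ i : Fin n, v (algebraMap (Pol n) K (MvPolynomial.X i)) = (Real.exp (-1)).toNNReal) ∧
      ALe d J v (n - 1) ∧
      (∀ (U : Ultrafilter (Pairs n)), Adm E S x U → ∀ (ψ : IB n K → ℂ) (s : Pairs n → ℝ),
        IsPsi E U ψ s → ∀ g : IB n K, x.toFun g = 0 → ψ g ≠ 0 →
          (Real.exp (-1)).toNNReal ≤ v (g : K)) ∧
      (∀ (U : Ultrafilter (Pairs n)), Adm E S x U → ∀ (k : ℕ) (f : IB n K),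
        E.Lim U k f → v (f : K) ≤ (Real.exp (-(k : ℝ))).toNNReal) ∧
      ∀ f : Fin (n + 3) → IB n K, ∃ c : Fin (n + 3) → ℂ, c ≠ 0 ∧
        v ((∑ l, algebraMap (Pol n) (IB n K) (MvPolynomial.C (c l)) * f l : IB n K) : K) ≤
          (Real.exp (-(3 / 2))).toNNReal := by
  obtain ⟨ψ, s, g, hψ, hg0, hg⟩ := GPairs.exists_psi hS hU₀.pairs
  obtain ⟨v, hv, hm, hz, hv₀, hA, -⟩ := stepA hS hd hn hJ0 hJ hJr hcan hklt hred hV hU₀ hψ hg0 hg
  have hB : ∀ (U : Ultrafilter (Pairs n)), Adm E S x U → ∀ (k : ℕ) (f : IB n K),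
      E.Lim U k f → v (f : K) ≤ (Real.exp (-(k : ℝ))).toNNReal := fun U hU =>
    stepB hS hd hn hJ0 hJ hJr hcan hklt hred hV hU₀ hU hv hA hv₀
  refine ⟨v, hv, hm, hz, hA, fun U hU ψ s hψ g hg0 hg => ?_, hB, ?_⟩
  · exact stepC hS hd hn hJ0 hJ hJr hcan hklt hred hV hU hv hA (hB U hU) hψ hg0 hg
  · exact stepD hS hn hU₀.pairs hv hv₀

end Vale.Agent.P282.EQ
end

section

/-!
P282, equality case: good coordinates.
-/

open MeasureTheory Filter Topology
open scoped NNReal ENNReal Nat WithZero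
open IsLocalRing

namespace Vale.Agent.P282.Full

open Vale.Agent.P282.L2 Vale.Agent.P282.EQ

variable {n : ℕ} {R K : Type} [CommRing R] [IsDomain R] [IsLocalRing R] [Algebra ℂ R]
  [Field K] [Algebra ℂ K] [Algebra R K] [IsScalarTower ℂ R K] [IsFractionRing R K]
  [Algebra (Pol n) R] [IsScalarTower ℂ (Pol n) R]
  [Algebra (Pol n) K] [IsScalarTower (Pol n) R K] [IsScalarTower ℂ (Pol n) K]
  [FaithfulSMul (Pol n) K]
  [Algebra (FractionRing (Pol n)) K] [IsScalarTower (Pol n) (FractionRing (Pol n)) K]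
  [FiniteDimensional (FractionRing (Pol n)) K]

omit [Algebra (FractionRing (Pol n)) K]
  [IsScalarTower (Pol n) (FractionRing (Pol n)) K]
  [FiniteDimensional (FractionRing (Pol n)) K] in
/-- The point derivation of pairs over the same point kills polynomials. -/
theorem goodq_psi_alg {E : Prim n K} {N : ℕ} {S : Sheets n N} (hS : E.IsSheets S) {x : Pt n K}
    {U : Ultrafilter (Pairs n)} (hU : E.IsPairs S x U) {ψ : IB n K → ℂ} {s : Pairs n → ℝ}
    (hψ : IsPsi E U ψ s) (P : Pol n) : ψ (algebraMap (Pol n) (IB n K) P) = 0 := by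
  refine tendsto_nhds_unique (hψ.lim _) (tendsto_const_nhds.congr' ?_)
  filter_upwards [hU.ne, hU.fst (Prim.M_mem_nhd E S x), hU.snd (Prim.M_mem_nhd E S x)]
    with u hu h1 h2
  have h : ((algebraMap (Pol n) (IB n K) P : IB n K) : K) = algebraMap (Pol n) K P := rfl
  rw [h, Prim.ev_alg hS h1, Prim.ev_alg hS h2, hu.1, sub_self, zero_div]

/-- The output of Steps A-D and the choice of coordinates. -/
theorem exists_good (hn : 2 ≤ n) {ω : (Fin n → Derivation ℂ K K) → K} (h : IsKltGerm R n 1 ω)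
    (hreg : ¬ IsRegularLocalRing R) (hV : NVolGe R n 1 ω (2 * ((n : ℝ≥0∞) - 1) ^ n))
    {x : Pt n K} {d : Fin n → Derivation ℂ K K} {J : K} (hc : IsChart R x) (hd : IsPartials d)
    (hJ0 : J ≠ 0) (hJ : IsIntegral (Pol n) J) (hcan : Canon x J) (hklt : Klt x d J)
    (hred : Red x (zv n K))
    (hsing : ∃ f : IB n K, x.toFun f = 0 ∧ ∀ s : IB n K, x.toFun s ≠ 0 → s * f ∉ zI n K)
    (hcen : ∀ v : Valuation K ℝ≥0, Centered x v → HasCenter R v (maximalIdeal R))
    (hA : ∀ (v : Valuation K ℝ≥0), HasCenter R v (maximalIdeal R) → ∀ a : ℝ, ALe d J v a →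
      ∃ a' : ℝ, 0 < a' ∧ a' ≤ a ∧ IsLogDiscrepancy n 1 ω v a')
    {E : Prim n K} {N : ℕ} {S : Sheets n N} (hS : E.IsSheets S) (hJr : E.IsReg J⁻¹) :
    ∃ (v : Valuation K ℝ≥0) (a : ℝ) (ζ : Fin n → R) (y : R),
      HasCenter R v (maximalIdeal R) ∧ IsLogDiscrepancy n 1 ω v a ∧ 0 < a ∧ a ≤ n - 1 ∧
      (∀ f ∈ maximalIdeal R, v (algebraMap R K f) ≤ (Real.exp (-1)).toNNReal) ∧
      (∃ f ∈ maximalIdeal R, v (algebraMap R K f) = (Real.exp (-1)).toNNReal) ∧
      (∀ (U : Ultrafilter (Pairs n)), Adm E S x U → ∀ (ψ : IB n K → ℂ) (s : Pairs n → ℝ),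
        IsPsi E U ψ s → ∀ g : IB n K, x.toFun g = 0 → ψ g ≠ 0 →
          (Real.exp (-1)).toNNReal ≤ v (g : K)) ∧
      (∀ i, ζ i ∈ maximalIdeal R) ∧ y ∈ maximalIdeal R ∧
      (∃ k, maximalIdeal R ^ (k + 1) ≤ Ideal.span (Set.range ζ) * maximalIdeal R ^ k) ∧
      ∀ f ∈ maximalIdeal R, ∃ (c : Fin n → ℂ) (c' : ℂ),
        v (algebraMap R K (f - ∑ i, c i • ζ i - c' • y)) < (Real.exp (-1)).toNNReal := by
  have := h.essFiniteType
  have hnoeth : IsNoetherianRing R := Algebra.EssFiniteType.isNoetherianRing ℂ R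
  have hinj : Function.Injective (algebraMap R K) := IsFractionRing.injective R K
  have hn1 : (0 : ℝ) ≤ (n : ℝ) - 1 := by
    have : (2 : ℝ) ≤ n := by exact_mod_cast hn
    linarith
  have hVe : (2 * ((n : ℝ≥0∞) - 1) ^ n) = ENNReal.ofReal (2 * ((n : ℝ) - 1) ^ n) := by
    rw [ENNReal.ofReal_mul (by norm_num), ENNReal.ofReal_pow hn1,
      ENNReal.ofReal_sub _ (by norm_num), ENNReal.ofReal_natCast, ENNReal.ofReal_one]
    norm_num
  rw [hVe] at hV
  have hVg : VolGe x d J (2 * ((n : ℝ) - 1) ^ n) :=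
    volGe_of_nVolGe hn h (by positivity) hV hc hcen hA
  obtain ⟨U₀, hU₀⟩ := Prim.exists_isPairs hS x hsing
  have hadm : Adm E S x U₀ := adm_of_isPairs hS hU₀ hred
  obtain ⟨v, hv, hm, ⟨i₀, hi₀⟩, hALe, hkill, -, hcomb⟩ :=
    phase1 hS hd hn hJ0 hJ hJr hcan hklt hred hVg hadm
  have hvc := hcen v hv
  obtain ⟨a, ha0, han, hla⟩ := hA v hvc (n - 1) hALe
  -- values
  have hKX : ∀ i : Fin n, algebraMap R K (algebraMap (Pol n) R (MvPolynomial.X i)) =
      algebraMap (Pol n) K (MvPolynomial.X i) := fun i =>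
    (IsScalarTower.algebraMap_apply (Pol n) R K _).symm
  have hm1 : ∀ f ∈ maximalIdeal R, v (algebraMap R K f) ≤ (Real.exp (-1)).toNNReal := by
    intro f hf
    obtain ⟨s, hs, -, hsf⟩ := hc.zmt f
    have hint : IsIntegral (Pol n) (algebraMap R K (s * f)) :=
      hsf.map (IsScalarTower.toAlgHom (Pol n) R K)
    obtain ⟨b, hb⟩ : ∃ b : IB n K, (b : K) = algebraMap R K (s * f) := ⟨⟨_, hint⟩, rfl⟩
    obtain ⟨a, hab, hxa⟩ := hc.pt b
    have h1 : a = s * f := hinj (by rw [hab, hb])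
    have h2 : x.toFun b = 0 := by
      rw [hxa, h1]
      exact Ideal.mul_mem_left _ _ hf
    have h3 := hm b h2
    rw [hb, map_mul, map_mul] at h3
    have h4 : v (algebraMap R K s) = 1 := by
      refine le_antisymm (hvc s).1 (not_lt.1 fun hlt => ?_)
      exact (IsLocalRing.mem_maximalIdeal s).1 ((hvc s).2.1 hlt) hs
    rwa [h4, one_mul] at h3
  have he : (Real.exp (-1)).toNNReal < 1 := by
    rw [← Real.toNNReal_one]
    exact (Real.toNNReal_lt_toNNReal_iff one_pos).2 (Real.exp_lt_one_iff.2 (by norm_num))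
  have he0 : 0 < (Real.exp (-1)).toNNReal := Real.toNNReal_pos.2 (Real.exp_pos _)
  have hm2 : ∀ f ∈ maximalIdeal R ^ 2, v (algebraMap R K f) < (Real.exp (-1)).toNNReal := by
    intro f hf
    have h1 : v (algebraMap R K f) ≤ (Real.exp (-1)).toNNReal ^ 2 := by
      rw [pow_two] at hf
      refine Submodule.mul_induction_on hf ?_ ?_
      · intro p hp q hq
        rw [map_mul, map_mul, pow_two]
        exact mul_le_mul' (hm1 p hp) (hm1 q hq)
      · intro p q hp hq
        rw [map_add]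
        exact (v.map_add _ _).trans (max_le hp hq)
    refine lt_of_le_of_lt h1 ?_
    rw [pow_two]
    exact mul_lt_of_lt_one_left he0 he
  have hvC : ∀ c : ℂ, v (algebraMap ℂ K c) ≤ 1 := by
    intro c
    rw [IsScalarTower.algebraMap_apply ℂ R K]
    exact (hvc _).1
  have hsmul : ∀ (c : ℂ) (f : R), algebraMap R K (c • f) = algebraMap ℂ K c * algebraMap R K f := by
    intro c f
    rw [Algebra.smul_def, map_mul, ← IsScalarTower.algebraMap_apply ℂ R K]
  let Λ : Submodule ℂ R :=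
    { carrier := {f | v (algebraMap R K f) < (Real.exp (-1)).toNNReal}
      zero_mem' := by
        change v (algebraMap R K 0) < _
        rw [map_zero, map_zero]
        exact he0
      add_mem' := by
        intro p q hp hq
        change v (algebraMap R K (p + q)) < _
        rw [map_add]
        exact lt_of_le_of_lt (v.map_add _ _) (max_lt hp hq)
      smul_mem' := by
        intro c p hp
        change v (algebraMap R K (c • p)) < _
        rw [hsmul, map_mul]
        exact lt_of_le_of_lt (mul_le_of_le_one_left' (hvC c)) hp }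
  have hΛm : ∀ f, f ∈ Λ ↔ v (algebraMap R K f) < (Real.exp (-1)).toNNReal := fun f => Iff.rfl
  have hΛ : ∀ f ∈ Λ, f ∈ maximalIdeal R := fun f hf =>
    (hvc f).2.1 (lt_trans ((hΛm f).1 hf) he)
  have hCK : ∀ c : ℂ, algebraMap (Pol n) K (MvPolynomial.C c) = algebraMap ℂ K c := by
    intro c
    rw [IsScalarTower.algebraMap_apply ℂ (Pol n) K, MvPolynomial.algebraMap_eq]
  have hprop : ∃ g ∈ maximalIdeal R, g ∉ Λ ⊔ Submodule.span ℂ
      (Set.range fun i : Fin n => algebraMap (Pol n) R (MvPolynomial.X i)) := by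
    obtain ⟨ψ, s, g, hψ, hg0, hg⟩ := GPairs.exists_psi hS hadm.pairs
    obtain ⟨g', hg', hgm⟩ := hc.pt g
    refine ⟨g', hgm.1 hg0, fun hmem => ?_⟩
    obtain ⟨l, hl, w, hw, hlw⟩ := Submodule.mem_sup.1 hmem
    obtain ⟨c, hcw⟩ := (Submodule.mem_span_range_iff_exists_fun ℂ).1 hw
    obtain ⟨P, hP⟩ : ∃ P : Pol n, P = ∑ i, MvPolynomial.C (c i) * MvPolynomial.X i := ⟨_, rfl⟩
    have hPw : algebraMap (Pol n) K P = algebraMap R K w := by
      rw [← hcw, map_sum, hP, map_sum]
      refine Finset.sum_congr rfl fun i _ => ?_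
      rw [hsmul, map_mul, hCK, hKX]
    have hPx : x.toFun (algebraMap (Pol n) (IB n K) P) = 0 := by
      rw [x.map_alg, hP, map_sum]
      refine Finset.sum_eq_zero fun i _ => ?_
      rw [map_mul, MvPolynomial.eval_X]
      simp
    obtain ⟨b, hb⟩ : ∃ b : IB n K, b = g - algebraMap (Pol n) (IB n K) P := ⟨_, rfl⟩
    have hbx : x.toFun b = 0 := by rw [hb, map_sub, hg0, hPx, sub_zero]
    have hbψ : ψ b ≠ 0 := by
      have h1 : g = b + algebraMap (Pol n) (IB n K) P := by rw [hb]; ring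
      rw [h1, hψ.map_add hS hadm.pairs, goodq_psi_alg hS hU₀ hψ, add_zero] at hg
      exact hg
    have hbK : (b : K) = algebraMap R K l := by
      have h1 : (b : K) = (g : K) - algebraMap (Pol n) K P := by rw [hb]; rfl
      rw [h1, ← hg', hPw, ← hlw, map_add, add_sub_cancel_right]
    have h1 := hkill U₀ hadm ψ s hψ b hbx hbψ
    rw [hbK] at h1
    exact absurd ((hΛm l).1 hl) (not_lt.2 h1)
  have hdim : ∀ f : Fin (n + 3) → R, ∃ c : Fin (n + 3) → ℂ, c ≠ 0 ∧ ∑ i, c i • f i ∈ Λ := by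
    intro f
    choose b μ hμ hbμ using fun l => exists_approx_ib h.residue hc (f l)
    obtain ⟨c, hc0, hcb⟩ := hcomb b
    refine ⟨c, hc0, ?_⟩
    rw [hΛm]
    have h0 : ((∑ l, algebraMap (Pol n) (IB n K) (MvPolynomial.C (c l)) * b l : IB n K) : K) =
        ∑ l, algebraMap ℂ K (c l) * (b l : K) := by
      push_cast
      refine Finset.sum_congr rfl fun i _ => ?_
      congr 1
      exact hCK (c i)
    have h1 : algebraMap R K (∑ i, c i • f i) =
        ((∑ l, algebraMap (Pol n) (IB n K) (MvPolynomial.C (c l)) * b l : IB n K) : K) +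
          algebraMap R K (∑ i, c i • μ i) := by
      rw [h0, map_sum, map_sum, ← Finset.sum_add_distrib]
      refine Finset.sum_congr rfl fun i _ => ?_
      rw [hsmul, hsmul, hbμ i, mul_add]
    rw [h1]
    refine lt_of_le_of_lt (v.map_add _ _) (max_lt (lt_of_le_of_lt hcb ?_) ?_)
    · exact (Real.toNNReal_lt_toNNReal_iff (Real.exp_pos _)).2 (Real.exp_lt_exp.2 (by norm_num))
    · refine hm2 _ (Submodule.sum_mem _ fun i _ => ?_)
      rw [Algebra.smul_def]
      exact Ideal.mul_mem_left _ _ (hμ i)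
  obtain ⟨ζ, y, hζ, hy, hk, hrep⟩ := exists_coords
    h.residue
    (fun i : Fin n => algebraMap (Pol n) R (MvPolynomial.X i)) hc.mem hc.red Λ hΛ hprop hdim
  refine ⟨v, a, ζ, y, hvc, hla, ha0, han, hm1, ⟨_, hc.mem i₀, ?_⟩, hkill, hζ, hy, hk, ?_⟩
  · rw [hKX, hi₀]
  · intro f hf
    obtain ⟨c, c', h1⟩ := hrep f hf
    exact ⟨c, c', (hΛm _).1 h1⟩

end Vale.Agent.P282.Full
end

section

/-!
P282, equality case: the weighted bound.
-/

open MeasureTheory Filter Topology
open scoped ENNReal NNReal ComplexConjugate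

namespace Vale.Agent.P282.EQ

open Vale.Agent.P282.L2

variable {n N : ℕ} {K : Type} [Field K] [Algebra ℂ K] [Algebra (Pol n) K]
  [IsScalarTower ℂ (Pol n) K] [FaithfulSMul (Pol n) K]
  [Algebra (FractionRing (Pol n)) K] [IsScalarTower (Pol n) (FractionRing (Pol n)) K]
  [FiniteDimensional (FractionRing (Pol n)) K]

/-- Divergence of the integrals of the weighted ideals. -/
theorem bmain_div {E : Prim n K} {S : Sheets n N} (hS : E.IsSheets S) {x : Pt n K}
    (hn : 0 < n) {J : K} (hJ0 : J ≠ 0) (hJ : IsIntegral (Pol n) J) (hJr : E.IsReg J⁻¹)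
    {u : Fin (n + 1) → IB n K} {F : MvPolynomial (Fin (n + 1)) ℂ} (h : Hyp x J u F)
    {W : Fin (n + 1) → ℕ} (hW : ∀ i, 0 < W i) {p : ℕ} (hp1 : 0 < p)
    (hp : MvPolynomial.coeff (Finsupp.single 0 p) F ≠ 0)
    (hD : ∀ e ∈ F.support, p * W 0 ≤ ∑ i, W i * e i)
    {c : ℝ} (hc : 0 < c) (hc' : (∑ i : Fin n, (W i.succ : ℝ)) + W 0 - p * W 0 ≤ c)
    {k : ℕ} (hk : 0 < k) : Div E S x J 1 (wIdeal u W k) (c / k) := by
  intro r G hG e he hL
  obtain ⟨V, hV, hfin⟩ := hL
  have h1 := bound_div hn hS hJ0 hJ hJr h hW hp1 hp hD hc hc' hk G hG he hV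
  have h2 : ∫⁻ q in V, ENNReal.ofReal (‖E.ev ((1 : IB n K) : K) q‖ ^ 2 *
      nsq E G q ^ (-(c / k + e)) * ‖E.ev J⁻¹ q‖ ^ 2) ∂S.μ =
      ∫⁻ q in V, ENNReal.ofReal ((∑ j, ‖E.ev (G j : K) q‖ ^ 2) ^ (-(c / k + e)) *
        ‖E.ev J⁻¹ q‖ ^ 2) ∂S.μ := by
    refine lintegral_congr_ae ((ae_restrict_of_ae (Sheets.ae_mem_M (S := S))).mono fun q hq => ?_)
    have h3 : E.ev ((1 : IB n K) : K) q = 1 := Prim.ev_one hS hq
    simp only
    rw [h3, norm_one, one_pow, one_mul]
    rfl
  rw [h2, h1] at hfin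
  exact lt_irrefl _ hfin

/-- Asymptotics of the colengths of the weighted ideals. -/
theorem bmain_cod (hn : 0 < n) {x : Pt n K} {J : K}
    {u : Fin (n + 1) → IB n K} {F : MvPolynomial (Fin (n + 1)) ℂ} (h : Hyp x J u F)
    {W : Fin (n + 1) → ℕ} (hW : ∀ i, 0 < W i) {p : ℕ} (hp1 : 0 < p)
    (hp : MvPolynomial.coeff (Finsupp.single 0 p) F ≠ 0)
    (hD : ∀ e ∈ F.support, p * W 0 ≤ ∑ i, W i * e i) {ε : ℝ} (hε : 0 < ε) :
    ∀ᶠ k : ℕ in atTop, (n.factorial * (cod (wIdeal u W k) : ℝ)) ≤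
      (p / ∏ i : Fin n, (W i.succ : ℝ) + ε) * (k : ℝ) ^ n := by
  have hf : (0 : ℝ) < n.factorial := by exact_mod_cast Nat.factorial_pos n
  have hp0 : (0 : ℝ) < p := by exact_mod_cast hp1
  have hP : (0 : ℝ) < ∏ i : Fin n, (W i.succ : ℝ) :=
    Finset.prod_pos fun i _ => by exact_mod_cast hW i.succ
  have hε' : 0 < ε / (n.factorial * p) := by positivity
  filter_upwards [card_weighted (w := fun i : Fin n => W i.succ) hn (fun i => hW i.succ) hε']
    with k hk
  have h1 : (cod (wIdeal u W k) : ℝ) ≤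
      p * (Nat.card {a : Fin n → ℕ // ∑ i, W i.succ * a i < k} : ℝ) := by
    exact_mod_cast (finrank_wIdeal_le h hW hp hD k).2
  calc (n.factorial : ℝ) * (cod (wIdeal u W k) : ℝ)
      ≤ n.factorial * (p * ((1 / ((n.factorial : ℝ) * ∏ i : Fin n, (W i.succ : ℝ)) +
          ε / (n.factorial * p)) * (k : ℝ) ^ n)) :=
        mul_le_mul_of_nonneg_left (h1.trans (mul_le_mul_of_nonneg_left hk hp0.le)) hf.le
    _ = _ := by
        field_simp

/-- The weighted bound. -/
theorem bound_main {E : Prim n K} {S : Sheets n N} (hS : E.IsSheets S) {x : Pt n K}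
    {d : Fin n → Derivation ℂ K K} (hd : IsPartials d)
    (hn : 2 ≤ n) {J : K} (hJ0 : J ≠ 0) (hJ : IsIntegral (Pol n) J) (hJr : E.IsReg J⁻¹)
    (hklt : Klt x d J) (hred : Red x (zv n K)) (hV : VolGe x d J (2 * ((n : ℝ) - 1) ^ n)) :
    BoundProp x J := by
  intro u F h W hW p hp1 hp hD c hc hc'
  have hn0 : 0 < n := by omega
  obtain ⟨g0, g1, g2, g3, g4⟩ := wIdeal_graded h hW
  have hI : Fam x (wIdeal u W) := ⟨g0, g2, g1, g4, g3⟩
  obtain ⟨v, κ, hκ, hv, _, _, hIv, hlow⟩ := exists_val_fam hS hd hn hJ0 hJ hJr hklt hred hI 1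
    one_ne_zero hc fun k hk => bmain_div hS hn0 hJ0 hJ hJr h hW hp1 hp hD hc hc' hk
  have hA : ALe d J v (c * κ) := by
    intro b hb hjb
    have h1 := hlow b hb hjb
    have h2 : v ((1 : IB n K) : K) = 1 := map_one v
    rwa [h2, one_mul] at h1
  have key := volGe_le hV hn0 hv (mul_pos hc hκ) hκ hA hI hIv
    fun ε hε => bmain_cod hn0 h hW hp1 hp hD hε
  have hP : (0 : ℝ) < ∏ i : Fin n, (W i.succ : ℝ) :=
    Finset.prod_pos fun i _ => by exact_mod_cast hW i.succ
  rw [mul_pow, ← mul_assoc] at key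
  have h3 := le_of_mul_le_mul_right key (pow_pos hκ n)
  rwa [div_mul_eq_mul_div, le_div_iff₀ hP] at h3

end Vale.Agent.P282.EQ
end

section

/-!
P282, equality case: `R` is a hypersurface.
-/

open MeasureTheory Filter Topology

namespace Vale.Agent.P282.EQ

open Vale.Agent.P282.L2

variable {n N : ℕ} {K : Type} [Field K] [Algebra ℂ K] [Algebra (Pol n) K]
  [IsScalarTower ℂ (Pol n) K] [FaithfulSMul (Pol n) K]
  [Algebra (FractionRing (Pol n)) K] [IsScalarTower (Pol n) (FractionRing (Pol n)) K]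
  [FiniteDimensional (FractionRing (Pol n)) K]

theorem hyper_aux {E : Prim n K} {S : Sheets n N} (hS : E.IsSheets S) {x : Pt n K} {y : IB n K}
    (hxy : x.toFun y = 0) (hsep : ∀ x' : Pt n K, x'.toFun y = 0 → x'.toFun = x.toFun)
    (hL : ∀ U : Ultrafilter (Pairs n), E.IsPairs S x U → Dom E U y)
    (L : Type) [Field L] [Algebra ℂ L] [Algebra (Pol n) L]
    [IsScalarTower ℂ (Pol n) L] [FaithfulSMul (Pol n) L]
    [Algebra (FractionRing (Pol n)) L] [IsScalarTower (Pol n) (FractionRing (Pol n)) L]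
    [FiniteDimensional (FractionRing (Pol n)) L] [IsGalois (FractionRing (Pol n)) L]
    [Algebra K L] [IsScalarTower (FractionRing (Pol n)) K L] [IsScalarTower (Pol n) K L] :
    ∃ s : IB n K, s ∈ Algebra.adjoin (Pol n) {y} ∧ x.toFun s ≠ 0 ∧
      ∀ b : IB n K, s * b ∈ Algebra.adjoin (Pol n) {y} := by
  classical
  have hfinB : Module.Finite (Pol n) (IB n K) := ib_finite
  have hnB : IsNoetherianRing (IB n K) := ib_noetherian
  have hicB : IsIntegrallyClosed (IB n K) :=
    integralClosure.isIntegrallyClosedOfFiniteExtension (FractionRing (Pol n))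
  have hfB : IsFractionRing (IB n K) K := ib_isFractionRing
  have hfinC : Module.Finite (Pol n) (IB n L) := ib_finite
  have hnC : IsNoetherianRing (IB n L) := ib_noetherian
  have hicC : IsIntegrallyClosed (IB n L) :=
    integralClosure.isIntegrallyClosedOfFiniteExtension (FractionRing (Pol n))
  have hfC : IsFractionRing (IB n L) L := ib_isFractionRing
  let i₀ : IB n K →ₐ[Pol n] IB n L := (IsScalarTower.toAlgHom (Pol n) K L).mapIntegralClosure
  have hi₀ : ∀ b : IB n K, ((i₀ b : IB n L) : L) = algebraMap K L (b : K) := fun _ => rfl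
  have hi₀inj : Function.Injective i₀ := by
    intro a b hab
    apply Subtype.ext
    apply (algebraMap K L).injective
    rw [← hi₀, ← hi₀, hab]
  letI : Algebra (IB n K) (IB n L) := i₀.toRingHom.toAlgebra
  have hmap : ∀ b : IB n K, algebraMap (IB n K) (IB n L) b = i₀ b := fun _ => rfl
  have htow : IsScalarTower (Pol n) (IB n K) (IB n L) :=
    IsScalarTower.of_algebraMap_eq fun p => by rw [hmap, AlgHom.commutes]
  -- the action of the Galois group
  letI actG : MulSemiringAction Gal(L/FractionRing (Pol n)) (IB n L) :=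
    IsIntegralClosure.MulSemiringAction (Pol n) (FractionRing (Pol n)) L (IB n L)
  have hinvG : Algebra.IsInvariant (Pol n) (IB n L) Gal(L/FractionRing (Pol n)) :=
    Algebra.isInvariant_of_isGalois (Pol n) (FractionRing (Pol n)) L (IB n L)
  have hcommG : SMulCommClass Gal(L/FractionRing (Pol n)) (Pol n) (IB n L) := by
    refine ⟨fun g p c => ?_⟩
    exact map_smul (galRestrict (Pol n) (FractionRing (Pol n)) L (IB n L) g) p c
  have hint : Algebra.IsIntegral (Pol n) (IB n L) := inferInstance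
  have htow2 : IsScalarTower (IB n K) (IB n L) L :=
    IsScalarTower.of_algebraMap_eq fun b => rfl
  have hintBC : Algebra.IsIntegral (IB n K) (IB n L) :=
    Algebra.IsIntegral.tower_top (R := Pol n)
  have hICL : IsIntegralClosure (IB n L) (IB n K) L := by
    refine ⟨Subtype.val_injective, fun {c} => ⟨fun hc => ?_, ?_⟩⟩
    · have hPB : Algebra.IsIntegral (Pol n) (IB n K) := inferInstance
      exact ⟨⟨c, isIntegral_trans (R := Pol n) (A := IB n K) c hc⟩, rfl⟩
    · rintro ⟨c, rfl⟩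
      exact (Algebra.IsIntegral.isIntegral (R := IB n K) c).map
        (IsScalarTower.toAlgHom (IB n K) (IB n L) L)
  have hgal : IsGalois K L := IsGalois.tower_top_of_isGalois (FractionRing (Pol n)) K L
  have hfinK : FiniteDimensional K L := FiniteDimensional.right (FractionRing (Pol n)) K L
  letI actH : MulSemiringAction Gal(L/K) (IB n L) :=
    IsIntegralClosure.MulSemiringAction (IB n K) K L (IB n L)
  have hinvH : Algebra.IsInvariant (IB n K) (IB n L) Gal(L/K) :=
    Algebra.isInvariant_of_isGalois (IB n K) K L (IB n L)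
  have hcommH : SMulCommClass Gal(L/K) (IB n K) (IB n L) := by
    refine ⟨fun g p c => ?_⟩
    exact map_smul (galRestrict (IB n K) K L (IB n L) g) p c
  -- the point of `C` over `x`
  have hxc : ∀ c : ℂ, x.toFun (algebraMap ℂ (IB n K) c) = c := by
    intro c
    rw [IsScalarTower.algebraMap_apply ℂ (Pol n) (IB n K), x.map_alg]
    exact MvPolynomial.eval_C c
  let xc : IB n K →ₐ[ℂ] ℂ := { x.toFun with commutes' := hxc }
  obtain ⟨π, hπ⟩ := exists_point_over (i₀.restrictScalars ℂ) hintBC.isIntegral xc (by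
    intro a ha
    have h0 : a = 0 := hi₀inj (by rw [map_zero]; exact ha)
    rw [h0, map_zero])
  have hπ' : ∀ b, π (i₀ b) = x.toFun b := hπ
  let X : Pt n L :=
    { toFun := (π : IB n L →+* ℂ)
      map_alg := fun f => by
        show π (algebraMap (Pol n) (IB n L) f) = _
        rw [← AlgHom.commutes i₀, hπ', x.map_alg] }
  have hX : ∀ c, X.toFun c = π c := fun _ => rfl
  let M : Ideal (IB n L) := RingHom.ker X.toFun
  have hMmem : ∀ c, c ∈ M ↔ π c = 0 := fun _ => Iff.rfl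
  have hM : M.IsMaximal := RingHom.ker_isMaximal_of_surjective _ fun z =>
    ⟨algebraMap ℂ (IB n L) z, π.commutes z⟩
  have hres : ∀ c, ∃ p : Pol n, c - algebraMap (Pol n) (IB n L) p ∈ M := by
    intro c
    refine ⟨MvPolynomial.C (π c), ?_⟩
    rw [hMmem, map_sub, ← hX (algebraMap (Pol n) (IB n L) _), X.map_alg, MvPolynomial.eval_C,
      sub_self]
  have F1 : ∀ σ : Gal(L/FractionRing (Pol n)), ∀ b : IB n K, ∃ s, s ∉ M ∧
      (σ • algebraMap (IB n K) (IB n L) y - algebraMap (IB n K) (IB n L) y) ∣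
      s * (σ • algebraMap (IB n K) (IB n L) b - algebraMap (IB n K) (IB n L) b) := by
    intro σ b
    by_cases h : π (σ • i₀ y) = 0
    · let i₁ : IB n K →ₐ[Pol n] IB n L :=
        (MulSemiringAction.toAlgHom (Pol n) (IB n L) σ).comp i₀
      have hi₁ : ∀ b, i₁ b = σ • i₀ b := fun _ => rfl
      obtain ⟨s, hs, hd⟩ := f1_pair hS hxy hsep hL X i₀ i₁ hi₀inj
        (fun a b hab => hi₀inj (MulAction.injective σ hab)) hπ' h b
      exact ⟨s, hs, hd⟩
    · refine ⟨σ • algebraMap (IB n K) (IB n L) y - algebraMap (IB n K) (IB n L) y, ?_,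
        dvd_mul_right _ _⟩
      rw [hMmem, map_sub]
      show π (σ • i₀ y) - π (i₀ y) ≠ 0
      rw [hπ', hxy, sub_zero]
      exact h
  obtain ⟨s, hs, hsM, h⟩ := alg (H := Gal(L/K)) hi₀inj M hres y F1
  refine ⟨s, hs, ?_, h⟩
  intro h0
  apply hsM
  rw [hMmem]
  show π (i₀ s) = 0
  rw [hπ', h0]

/-- The local ring of `x` is generated by `y` over `ℂ[z]`. -/
theorem hypersurface {E : Prim n K} {S : Sheets n N} (hS : E.IsSheets S) {x : Pt n K} {y : IB n K}
    (hxy : x.toFun y = 0) (hsep : ∀ x' : Pt n K, x'.toFun y = 0 → x'.toFun = x.toFun)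
    (hL : ∀ U : Ultrafilter (Pairs n), E.IsPairs S x U → Dom E U y) (b : IB n K) :
    ∃ s a : Polynomial (Pol n), x.toFun (Polynomial.aeval y s) ≠ 0 ∧
      Polynomial.aeval y s * b = Polynomial.aeval y a := by
  have h0 := px_charZero n
  let L := IntermediateField.normalClosure (FractionRing (Pol n)) K (AlgebraicClosure K)
  have hLfin : FiniteDimensional (FractionRing (Pol n)) L := inferInstance
  have hLnorm : Normal (FractionRing (Pol n)) L := inferInstance
  have hLgal : IsGalois (FractionRing (Pol n)) L := inferInstance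
  have hKL : IsScalarTower (FractionRing (Pol n)) K L := inferInstance
  letI a1 : Algebra (Pol n) L :=
    ((algebraMap (FractionRing (Pol n)) L).comp
      (algebraMap (Pol n) (FractionRing (Pol n)))).toAlgebra
  letI a2 : Algebra ℂ L := ((algebraMap (Pol n) L).comp (algebraMap ℂ (Pol n))).toAlgebra
  have t1 : IsScalarTower ℂ (Pol n) L := IsScalarTower.of_algebraMap_eq fun _ => rfl
  have t2 : IsScalarTower (Pol n) (FractionRing (Pol n)) L :=
    IsScalarTower.of_algebraMap_eq fun _ => rfl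
  have t3 : FaithfulSMul (Pol n) L := by
    rw [faithfulSMul_iff_algebraMap_injective]
    exact (algebraMap (FractionRing (Pol n)) L).injective.comp
      (IsFractionRing.injective (Pol n) (FractionRing (Pol n)))
  have t4 : IsScalarTower (Pol n) K L := by
    refine IsScalarTower.of_algebraMap_eq fun p => ?_
    rw [IsScalarTower.algebraMap_apply (Pol n) (FractionRing (Pol n)) K,
      ← IsScalarTower.algebraMap_apply (FractionRing (Pol n)) K L]
    rfl
  obtain ⟨s, hs, hx, h⟩ := hyper_aux hS hxy hsep hL L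
  have h1 := h b
  rw [Algebra.adjoin_singleton_eq_range_aeval] at hs h1
  obtain ⟨s', hs'⟩ := hs
  obtain ⟨a, ha⟩ := h1
  refine ⟨s', a, ?_, ?_⟩
  · rw [show Polynomial.aeval y s' = s from hs']
    exact hx
  · rw [show Polynomial.aeval y s' = s from hs']
    exact ha.symm

end Vale.Agent.P282.EQ
end

section

/-!
P282, equality case: the conclusion in good coordinates.
-/

open MeasureTheory Filter Topology
open scoped NNReal ENNReal Nat WithZero
open IsLocalRing

namespace Vale.Agent.P282.Full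

open Vale.Agent.P282.L2 Vale.Agent.P282.EQ

variable {n : ℕ} {R K : Type} [CommRing R] [IsDomain R] [IsLocalRing R] [Algebra ℂ R]
  [Field K] [Algebra ℂ K] [Algebra R K] [IsScalarTower ℂ R K] [IsFractionRing R K]
  [Algebra (Pol n) R] [IsScalarTower ℂ (Pol n) R]
  [Algebra (Pol n) K] [IsScalarTower (Pol n) R K] [IsScalarTower ℂ (Pol n) K]
  [FaithfulSMul (Pol n) K]
  [Algebra (FractionRing (Pol n)) K] [IsScalarTower (Pol n) (FractionRing (Pol n)) K]
  [FiniteDimensional (FractionRing (Pol n)) K]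

/-- The conclusion in good coordinates. -/
theorem odp_of_dom (hn : 2 ≤ n) {ω : (Fin n → Derivation ℂ K K) → K} (h : IsKltGerm R n 1 ω)
    (hreg : ¬ IsRegularLocalRing R) (hV : NVolGe R n 1 ω (2 * ((n : ℝ≥0∞) - 1) ^ n))
    {x : Pt n K} {d : Fin n → Derivation ℂ K K} {J : K} (hc : IsChart R x) (hd : IsPartials d)
    (hJ0 : J ≠ 0) (hJ : IsIntegral (Pol n) J) (hcan : Canon x J) (hklt : Klt x d J)
    (hred : Red x (zv n K))
    (hsing : ∃ f : IB n K, x.toFun f = 0 ∧ ∀ s : IB n K, x.toFun s ≠ 0 → s * f ∉ zI n K)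
    (hcen : ∀ v : Valuation K ℝ≥0, Centered x v → HasCenter R v (maximalIdeal R))
    (hA : ∀ (v : Valuation K ℝ≥0), HasCenter R v (maximalIdeal R) → ∀ a : ℝ, ALe d J v a →
      ∃ a' : ℝ, 0 < a' ∧ a' ≤ a ∧ IsLogDiscrepancy n 1 ω v a')
    {y : IB n K} (hxy : x.toFun y = 0) (hsep : ∀ x' : Pt n K, x'.toFun y = 0 → x'.toFun = x.toFun)
    {δ : IB n K} (hδ : δ ≠ 0)
    (hdom : ∀ (E : Prim n K) {N : ℕ} {S : Sheets n N}, E.IsSheets S → E.IsReg (δ : K)⁻¹ →
      ∀ U : Ultrafilter (Pairs n), E.IsPairs S x U → Dom E U y) :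
    IsODP R n ∧ ∀ k : ℕ,
      Module.length R (R ⧸ maximalIdeal R ^ k) ≤ (2 * Nat.choose (n + k - 1) n : ℕ) := by
  have hft := h.essFiniteType
  have hN : IsNoetherianRing R := Algebra.EssFiniteType.isNoetherianRing ℂ R
  have hδK : (δ : K) ≠ 0 := fun h0 => hδ (Subtype.ext h0)
  obtain ⟨E, hE⟩ := exists_prim (n := n) (K := K) ((δ : K) * J)⁻¹
  have hEδ : E.IsReg (δ : K)⁻¹ := by
    have h1 : (δ : K)⁻¹ = J * ((δ : K) * J)⁻¹ := by field_simp
    rw [h1]
    exact (Prim.isReg_of_integral hJ).mul hE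
  have hEJ : E.IsReg J⁻¹ := by
    have h1 : J⁻¹ = (δ : K) * ((δ : K) * J)⁻¹ := by field_simp
    rw [h1]
    exact (Prim.isReg_ib δ).mul hE
  obtain ⟨S, hS⟩ := E.exists_sheets
  have hloc := hypersurface hS hxy hsep (fun U hU => hdom E hS hEδ U hU)
  obtain ⟨F, hF⟩ := exists_hyp hcan hxy hsep hloc
  have hn1 : (0 : ℝ) ≤ (n : ℝ) - 1 := by
    have h2 : (2 : ℝ) ≤ n := by exact_mod_cast hn
    linarith
  have hV' : NVolGe R n 1 ω (ENNReal.ofReal (2 * ((n : ℝ) - 1) ^ n)) := by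
    have h1 : ENNReal.ofReal (2 * ((n : ℝ) - 1) ^ n) = 2 * ((n : ℝ≥0∞) - 1) ^ n := by
      rw [ENNReal.ofReal_mul (by norm_num), ENNReal.ofReal_pow hn1,
        ENNReal.ofReal_sub _ zero_le_one, ENNReal.ofReal_natCast, ENNReal.ofReal_one,
        ENNReal.ofReal_ofNat]
    rw [h1]
    exact hV
  have hVol : VolGe x d J (2 * ((n : ℝ) - 1) ^ n) :=
    volGe_of_nVolGe hn h (mul_nonneg (by norm_num) (pow_nonneg hn1 n)) hV' hc hcen hA
  have hB : BoundProp x J := bound_main hS hd hn hJ0 hJ hEJ hklt hred hVol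
  obtain ⟨p, hp2, hp, hFp⟩ := exists_order hF hred hsing
  obtain rfl := order_eq_two hn hB hF hp2 hp hFp
  obtain ⟨A, hAs, hAd, hAq⟩ := quad_nondeg hn hB hF hp hFp
  exact ⟨isODP_of_hyp h.residue hc.zmt hc.pt hF A hAs hAd hAq,
    fun k => length_le_of_hyp h.residue hc.zmt hc.pt hF hp hFp k⟩

end Vale.Agent.P282.Full
end

section

/-!
P282, equality case: the Lipschitz property.
-/

open MeasureTheory Filter Topology
open scoped NNReal ENNReal Nat WithZero
open IsLocalRing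

namespace Vale.Agent.P282.Full

open Vale.Agent.P282.L2 Vale.Agent.P282.EQ

variable {n : ℕ} {R K : Type} [CommRing R] [IsDomain R] [IsLocalRing R] [Algebra ℂ R]
  [Field K] [Algebra ℂ K] [Algebra R K] [IsScalarTower ℂ R K] [IsFractionRing R K]
  [Algebra (Pol n) R] [IsScalarTower ℂ (Pol n) R]
  [Algebra (Pol n) K] [IsScalarTower (Pol n) R K] [IsScalarTower ℂ (Pol n) K]
  [FaithfulSMul (Pol n) K]
  [Algebra (FractionRing (Pol n)) K] [IsScalarTower (Pol n) (FractionRing (Pol n)) K]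
  [FiniteDimensional (FractionRing (Pol n)) K]
  {R' K' : Type} [CommRing R'] [IsDomain R'] [IsLocalRing R'] [Algebra ℂ R']
  [Field K'] [Algebra ℂ K'] [Algebra R' K'] [IsScalarTower ℂ R' K'] [IsFractionRing R' K']
  [Algebra (Pol n) R'] [IsScalarTower ℂ (Pol n) R']
  [Algebra (Pol n) K'] [IsScalarTower (Pol n) R' K'] [IsScalarTower ℂ (Pol n) K']
  [FaithfulSMul (Pol n) K']
  [Algebra (FractionRing (Pol n)) K'] [IsScalarTower (Pol n) (FractionRing (Pol n)) K']
  [FiniteDimensional (FractionRing (Pol n)) K']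

set_option linter.unusedSectionVars false in
/-- `ψ g ≠ 0` implies `Dom E U g`. -/
theorem lips_dom {E : Prim n K} {U : Ultrafilter (Pairs n)} {ψ : IB n K → ℂ} {s : Pairs n → ℝ}
    (hψ : IsPsi E (U : Filter (Pairs n)) ψ s) {g : IB n K} (hg : ψ g ≠ 0) : Dom E U g := by
  intro b
  have h1 := ((hψ.lim b).norm).div ((hψ.lim g).norm) (norm_ne_zero_iff.2 hg)
  refine ⟨‖ψ b‖ / ‖ψ g‖ + 1, ?_⟩
  filter_upwards [h1.eventually_le_const (lt_add_one _), hψ.pos,
    ((hψ.lim g).norm).eventually_ne (norm_ne_zero_iff.2 hg)] with u hu hs hne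
  have hs' : (0 : ℝ) < ‖(s u : ℂ)‖ := norm_pos_iff.2 (by exact_mod_cast hs.ne')
  simp only [Pi.div_apply, norm_div] at hu hne
  rw [div_div_div_cancel_right₀ hs'.ne'] at hu
  have h3 : ‖E.ev (g : K) u.1 - E.ev (g : K) u.2‖ ≠ 0 := fun h => hne (by rw [h, zero_div])
  rwa [div_le_iff₀ (lt_of_le_of_ne (norm_nonneg _) (Ne.symm h3))] at hu

/-- The Lipschitz property of `y` in good coordinates. -/
theorem lipschitz (e : R ≃ₐ[ℂ] R') (f : K ≃ₐ[ℂ] K')
    (hef : ∀ a : R, f (algebraMap R K a) = algebraMap R' K' (e a)) {x : Pt n K} {x' : Pt n K'}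
    (hc : IsChart R x) (hc' : IsChart R' x') {N : ℕ} {E : Prim n K} {S : Sheets n N}
    (hS : E.IsSheets S) {v : Valuation K ℝ≥0} (hv : HasCenter R v (maximalIdeal R))
    (hkill : ∀ (U : Ultrafilter (Pairs n)), Adm E S x U → ∀ (ψ : IB n K → ℂ) (s : Pairs n → ℝ),
      IsPsi E U ψ s → ∀ g : IB n K, x.toFun g = 0 → ψ g ≠ 0 →
        (Real.exp (-1)).toNNReal ≤ v (g : K))
    {y : IB n K'} (hy : ∀ g : IB n K', x'.toFun g = 0 → ∃ (c : Fin n → ℂ) (c' : ℂ),
      v (f.symm ((g : K') - ∑ i, algebraMap ℂ K' (c i) *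
        algebraMap (Pol n) K' (MvPolynomial.X i) - algebraMap ℂ K' c' * (y : K'))) <
          (Real.exp (-1)).toNNReal) :
    ∃ δ : IB n K', δ ≠ 0 ∧ ∀ (E' : Prim n K') {N' : ℕ} {S' : Sheets n N'}, E'.IsSheets S' →
      E'.IsReg (δ : K')⁻¹ → ∀ U' : Ultrafilter (Pairs n), E'.IsPairs S' x' U' →
        Dom E' U' y := by
  obtain ⟨δ, hδ, htr⟩ := transport e f hef hc hc' hS
  refine ⟨δ, hδ, fun E' N' S' hS' hreg U' hU' => ?_⟩
  obtain ⟨U, hAdm, hT⟩ := htr E' hS' hreg U' hU'
  obtain ⟨ψ', s', g0, hpos, hlim, hg0, hψg0⟩ := Prim.IsPairs.exists_psi hS' hU'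
  have hψ' : IsPsi E' (U' : Filter (Pairs n)) ψ' s' := ⟨hpos, hlim⟩
  have hsymm : ∀ b : R', f.symm (algebraMap R' K' b) = algebraMap R K (e.symm b) := by
    intro b
    apply f.injective
    rw [f.apply_symm_apply, hef, e.apply_symm_apply]
  have hunit : ∀ b : R', IsUnit b → v (f.symm (algebraMap R' K' b)) = 1 := by
    intro b hb
    rw [hsymm]
    have h1 := hv (e.symm b)
    have h2 : e.symm b ∉ maximalIdeal R := by
      rw [mem_maximalIdeal, mem_nonunits_iff, not_not]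
      exact hb.map e.symm
    exact le_antisymm h1.1 (not_lt.1 fun h => h2 (h1.2.1 h))
  have ha : ∀ g' : IB n K', x'.toFun g' = 0 →
      v (f.symm (g' : K')) < (Real.exp (-1)).toNNReal → ψ' g' = 0 := by
    intro g' hg' hlt
    by_contra hne
    obtain ⟨g, hg, ⟨ψ, s, hψ, hψg⟩, sR, hsu, hfg⟩ := hT g' hg' (lips_dom hψ' hne)
    have h1 := hkill U hAdm ψ s hψ g hg hψg
    have h2 : (g : K) = f.symm (algebraMap R' K' sR) * f.symm (g' : K') := by
      rw [← map_mul, ← hfg, f.symm_apply_apply]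
    rw [h2, map_mul, hunit sR hsu, one_mul] at h1
    exact absurd hlt (not_lt.2 h1)
  obtain ⟨c, c', hcc⟩ := hy g0 hg0
  obtain ⟨p, hp⟩ : ∃ p : Pol n, p = ∑ i, MvPolynomial.C (c i) * MvPolynomial.X i := ⟨_, rfl⟩
  obtain ⟨ρ, hρ⟩ : ∃ ρ : IB n K', ρ = g0 - algebraMap (Pol n) (IB n K') p -
    algebraMap (Pol n) (IB n K') (MvPolynomial.C c') * y := ⟨_, rfl⟩
  have hρK : (ρ : K') = (g0 : K') - algebraMap (Pol n) K' p -
      algebraMap ℂ K' c' * (y : K') := by
    rw [hρ, IsScalarTower.algebraMap_apply ℂ (Pol n) K']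
    rfl
  have hpK : algebraMap (Pol n) K' p = ∑ i, algebraMap ℂ K' (c i) *
      algebraMap (Pol n) K' (MvPolynomial.X i) := by
    rw [hp, map_sum]
    refine Finset.sum_congr rfl fun i _ => ?_
    rw [map_mul, IsScalarTower.algebraMap_apply ℂ (Pol n) K']
    rfl
  have hvρ : v (f.symm (ρ : K')) < (Real.exp (-1)).toNNReal := by
    rw [hρK, hpK]
    exact hcc
  have hρ0 : x'.toFun ρ = 0 := by
    obtain ⟨a, ha1, ha2⟩ := hc'.pt ρ
    rw [ha2]
    have h1 : v (algebraMap R K (e.symm a)) < 1 := by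
      rw [← hsymm, ha1]
      refine hvρ.trans_le ?_
      rw [Real.toNNReal_le_one]
      exact Real.exp_le_one_iff.2 (by norm_num)
    have h2 : e.symm a ∈ maximalIdeal R := (hv (e.symm a)).2.1 h1
    rw [mem_maximalIdeal, mem_nonunits_iff] at h2 ⊢
    intro hu
    exact h2 (hu.map e.symm)
  have hψρ := ha ρ hρ0 hvρ
  -- linearity of the limit
  have hM1 : ∀ᶠ u in (U' : Filter (Pairs n)), u.1 ∈ S'.M :=
    hU'.fst (Prim.M_mem_nhd E' S' x')
  have hM2 : ∀ᶠ u in (U' : Filter (Pairs n)), u.2 ∈ S'.M :=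
    hU'.snd (Prim.M_mem_nhd E' S' x')
  have hl := (hlim ρ).add ((hlim y).const_mul c')
  have hl2 : Tendsto (fun u : Pairs n =>
      (E'.ev (g0 : K') u.1 - E'.ev (g0 : K') u.2) / (s' u : ℂ)) U' (𝓝 (ψ' ρ + c' * ψ' y)) := by
    refine hl.congr' ?_
    filter_upwards [hM1, hM2, hU'.ne] with u h1 h2 h3
    have hev : ∀ q ∈ S'.M, E'.ev (ρ : K') q =
        E'.ev (g0 : K') q - MvPolynomial.eval q.1 p - c' * E'.ev (y : K') q := by
      intro q hq
      rw [hρK, Prim.ev_sub hS' hq ((Prim.isReg_ib g0).sub (Prim.isReg_alg p))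
        ((Prim.isReg_const c').mul (Prim.isReg_ib y)),
        Prim.ev_sub hS' hq (Prim.isReg_ib g0) (Prim.isReg_alg p), Prim.ev_alg hS' hq,
        Prim.ev_mul hS' hq (Prim.isReg_const c') (Prim.isReg_ib y), Prim.ev_const hS' hq]
    rw [hev _ h1, hev _ h2, h3.1]
    ring
  have huniq := tendsto_nhds_unique hl2 (hlim g0)
  rw [hψρ, zero_add] at huniq
  have hψy : ψ' y ≠ 0 := by
    intro h0
    rw [h0, mul_zero] at huniq
    exact hψg0 huniq.symm
  exact lips_dom hψ' hψy

end Vale.Agent.P282.Full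
end

section

/-!
P282, equality case: assembly for `K_X` Cartier.
-/

open scoped NNReal ENNReal Nat WithZero
open IsLocalRing

namespace Vale.Agent.P282.Full

open Vale.Agent.P282.L2 Vale.Agent.P282.EQ

/-! ### copies of `R` and `K` -/

/-- a copy of the ring `R`, to carry a second structure of algebra over the polynomials -/
def FaCR (A : Type) : Type := A

/-- a copy of the field `K` -/
def FaCK (A : Type) : Type := A

noncomputable section inst

variable {R K : Type} [CommRing R] [Algebra ℂ R] [Field K] [Algebra ℂ K] [Algebra R K]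

instance : CommRing (FaCR R) := inferInstanceAs (CommRing R)
instance [IsDomain R] : IsDomain (FaCR R) := inferInstanceAs (IsDomain R)
instance [IsLocalRing R] : IsLocalRing (FaCR R) := inferInstanceAs (IsLocalRing R)
instance : Algebra ℂ (FaCR R) := inferInstanceAs (Algebra ℂ R)
instance : Field (FaCK K) := inferInstanceAs (Field K)
instance : Algebra ℂ (FaCK K) := inferInstanceAs (Algebra ℂ K)
instance : Algebra (FaCR R) (FaCK K) := inferInstanceAs (Algebra R K)
instance [IsScalarTower ℂ R K] : IsScalarTower ℂ (FaCR R) (FaCK K) :=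
  inferInstanceAs (IsScalarTower ℂ R K)
instance [IsFractionRing R K] : IsFractionRing (FaCR R) (FaCK K) :=
  inferInstanceAs (IsFractionRing R K)

end inst

/-! ### the algebra structures of a reduction -/

/-- The structures of algebra over the polynomial ring given by a reduction `z` of the maximal
ideal. -/
theorem fa_inst {n : ℕ} {R K : Type} [CommRing R] [IsDomain R] [IsLocalRing R]
    [Algebra ℂ R] [Field K] [Algebra ℂ K] [Algebra R K] [IsScalarTower ℂ R K] [IsFractionRing R K]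
    {ω : (Fin n → Derivation ℂ K K) → K} (h : IsKltGerm R n 1 ω) {x : Fin n → R}
    (hx : ∀ i, x i ∈ maximalIdeal R)
    (hk0 : ∃ k : ℕ, maximalIdeal R ^ (k + 1) ≤ Ideal.span (Set.range x) * maximalIdeal R ^ k) :
    ∃ (_ : Algebra (Pol n) R) (_ : Algebra (Pol n) K) (_ : Algebra (FractionRing (Pol n)) K),
      IsScalarTower ℂ (Pol n) R ∧ IsScalarTower (Pol n) R K ∧ IsScalarTower ℂ (Pol n) K ∧
      FaithfulSMul (Pol n) K ∧ IsScalarTower (Pol n) (FractionRing (Pol n)) K ∧
      FiniteDimensional (FractionRing (Pol n)) K ∧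
      ∀ i, algebraMap (Pol n) R (MvPolynomial.X i) = x i := by
  classical
  obtain ⟨k, hk⟩ := hk0
  have hess := h.essFiniteType
  have hnoeth : IsNoetherianRing R := Algebra.EssFiniteType.isNoetherianRing ℂ R
  let _ : Algebra (Pol n) R := (MvPolynomial.aeval x).toAlgebra
  have i1 : IsScalarTower ℂ (Pol n) R :=
    IsScalarTower.of_algebraMap_eq fun c => ((MvPolynomial.aeval x).commutes c).symm
  have hX : (fun i : Fin n => algebraMap (Pol n) R (MvPolynomial.X i)) = x := by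
    ext i
    show MvPolynomial.aeval x (MvPolynomial.X i) = x i
    rw [MvPolynomial.aeval_X]
  have hxi : ∀ i : Fin n, algebraMap (Pol n) R (MvPolynomial.X i) ∈ maximalIdeal R := fun i => by
    rw [show algebraMap (Pol n) R (MvPolynomial.X i) = x i from congrFun hX i]
    exact hx i
  have hk' : maximalIdeal R ^ (k + 1) ≤ Ideal.span (Set.range fun i : Fin n =>
      algebraMap (Pol n) R (MvPolynomial.X i)) * maximalIdeal R ^ k := by
    rw [hX]; exact hk
  have hzmt : ∀ a : R, ∃ s : R, IsUnit s ∧ IsIntegral (Pol n) s ∧ IsIntegral (Pol n) (s * a) :=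
    fun a => Vale.Agent.P282.zmt h.residue hxi ⟨k + 1, hk'.trans Ideal.mul_le_left⟩ a
  have htb := Vale.Agent.P282.par_transcendenceBasis hzmt h.dim
  have hinj : Function.Injective (algebraMap (Pol n) R) := by
    have h1 : Function.Injective (MvPolynomial.aeval (R := ℂ) (Vale.Agent.P282.par n R)) := htb.1
    intro p q hpq
    apply h1
    rw [Vale.Agent.P282.aeval_par, Vale.Agent.P282.aeval_par, hpq]
  let F := FractionRing (Pol n)
  let _ : Algebra (Pol n) K := ((algebraMap R K).comp (algebraMap (Pol n) R)).toAlgebra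
  have i2 : IsScalarTower (Pol n) R K := IsScalarTower.of_algebraMap_eq fun _ => rfl
  have _ : FaithfulSMul (Pol n) R := (faithfulSMul_iff_algebraMap_injective _ _).mpr hinj
  have i4 : FaithfulSMul (Pol n) K := by
    rw [faithfulSMul_iff_algebraMap_injective, IsScalarTower.algebraMap_eq _ R K]
    exact (IsFractionRing.injective R K).comp hinj
  let _ : Algebra F K := FractionRing.liftAlgebra (Pol n) K
  have i5 : IsScalarTower (Pol n) F K := FractionRing.isScalarTower_liftAlgebra _ _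
  have i3 : IsScalarTower ℂ (Pol n) K :=
    IsScalarTower.of_algebraMap_eq fun c => by
      rw [IsScalarTower.algebraMap_apply (Pol n) R K,
        ← IsScalarTower.algebraMap_apply ℂ (Pol n) R, ← IsScalarTower.algebraMap_apply ℂ R K]
  have _ : IsScalarTower ℂ F K :=
    IsScalarTower.of_algebraMap_eq fun c => by
      rw [IsScalarTower.algebraMap_apply ℂ (Pol n) F,
        ← IsScalarTower.algebraMap_apply (Pol n) F K,
        ← IsScalarTower.algebraMap_apply ℂ (Pol n) K]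
  have halgR : Algebra.IsAlgebraic (Pol n) R := by
    constructor
    intro r
    obtain ⟨s, hs1, hs2, hs3⟩ := hzmt r
    exact IsAlgebraic.of_mul (y := s) (hs1.mem_nonZeroDivisors) hs2.isAlgebraic hs3.isAlgebraic
  have halgRK : Algebra.IsAlgebraic R K := IsLocalization.isAlgebraic _ (nonZeroDivisors R)
  have halgPK : Algebra.IsAlgebraic (Pol n) K := Algebra.IsAlgebraic.trans _ R _
  have halg : Algebra.IsAlgebraic F K :=
    (IsFractionRing.comap_isAlgebraic_iff (A := Pol n) (K := F) (C := K)).mp halgPK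
  have hessRK : Algebra.EssFiniteType R K :=
    Algebra.EssFiniteType.of_isLocalization _ (nonZeroDivisors R)
  have hessCK : Algebra.EssFiniteType ℂ K := Algebra.EssFiniteType.comp ℂ R _
  have hessK : Algebra.EssFiniteType F K := Algebra.EssFiniteType.of_comp ℂ F _
  have hfd : FiniteDimensional F K := Algebra.finite_of_essFiniteType_of_isAlgebraic
  exact ⟨_, _, _, i1, i2, i3, i4, i5, hfd, fun i => congrFun hX i⟩

/-! ### the second chart -/

section second

variable {R K : Type} [CommRing R] [IsDomain R] [IsLocalRing R] [Algebra ℂ R]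
  [Field K] [Algebra ℂ K] [Algebra R K] [IsScalarTower ℂ R K] [IsFractionRing R K]
  {R' : Type} [CommRing R'] [IsDomain R'] [IsLocalRing R'] [Algebra ℂ R']

omit [IsDomain R] [IsDomain R'] in
theorem fa_mem_max (e : R ≃ₐ[ℂ] R') {a : R'} (ha : a ∈ maximalIdeal R') :
    e.symm a ∈ maximalIdeal R := by
  rw [mem_maximalIdeal, mem_nonunits_iff] at ha ⊢
  intro h
  apply ha
  have h1 := h.map e
  rwa [AlgEquiv.apply_symm_apply] at h1

omit [IsDomain R] [IsDomain R'] in
theorem fa_mem_sq (e : R ≃ₐ[ℂ] R') {a : R'} (ha : a ∈ maximalIdeal R' ^ 2) :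
    e.symm a ∈ maximalIdeal R ^ 2 := by
  rw [pow_two] at ha ⊢
  refine Submodule.mul_induction_on ha ?_ ?_
  · intro b hb c hc
    rw [map_mul]
    exact Ideal.mul_mem_mul (fa_mem_max e hb) (fa_mem_max e hc)
  · intro b c hb hc
    rw [map_add]
    exact Ideal.add_mem _ hb hc

omit [IsDomain R] [Algebra ℂ R] [Algebra ℂ K] [IsScalarTower ℂ R K] [IsFractionRing R K] in
theorem fa_sq_lt {v : Valuation K ℝ≥0}
    (hvm : ∀ f ∈ maximalIdeal R, v (algebraMap R K f) ≤ (Real.exp (-1)).toNNReal) {a : R}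
    (ha : a ∈ maximalIdeal R ^ 2) : v (algebraMap R K a) < (Real.exp (-1)).toNNReal := by
  have hle : v (algebraMap R K a) ≤ (Real.exp (-1)).toNNReal * (Real.exp (-1)).toNNReal := by
    rw [pow_two] at ha
    refine Submodule.mul_induction_on ha ?_ ?_
    · intro b hb c hc
      rw [map_mul, map_mul]
      exact mul_le_mul' (hvm b hb) (hvm c hc)
    · intro b c hb hc
      rw [map_add]
      exact (v.map_add _ _).trans (max_le hb hc)
  refine hle.trans_lt ?_
  have hpos : 0 < (Real.exp (-1)).toNNReal := Real.toNNReal_pos.2 (Real.exp_pos _)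
  have h1 : (Real.exp (-1)).toNNReal < 1 := by
    rw [Real.toNNReal_lt_one]
    exact Real.exp_lt_one_iff.2 (by norm_num)
  calc (Real.exp (-1)).toNNReal * (Real.exp (-1)).toNNReal < 1 * (Real.exp (-1)).toNNReal :=
        mul_lt_mul_of_pos_right h1 hpos
    _ = (Real.exp (-1)).toNNReal := one_mul _

variable {n : ℕ} [Algebra (Pol n) R] [IsScalarTower ℂ (Pol n) R]
  [Algebra (Pol n) K] [IsScalarTower (Pol n) R K] [IsScalarTower ℂ (Pol n) K]
  [FaithfulSMul (Pol n) K]
  [Algebra (FractionRing (Pol n)) K] [IsScalarTower (Pol n) (FractionRing (Pol n)) K]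
  [FiniteDimensional (FractionRing (Pol n)) K]
  {K' : Type} [Field K'] [Algebra ℂ K'] [Algebra R' K'] [IsScalarTower ℂ R' K']
  [IsFractionRing R' K']
  [Algebra (Pol n) R'] [IsScalarTower ℂ (Pol n) R']
  [Algebra (Pol n) K'] [IsScalarTower (Pol n) R' K'] [IsScalarTower ℂ (Pol n) K']
  [FaithfulSMul (Pol n) K']
  [Algebra (FractionRing (Pol n)) K'] [IsScalarTower (Pol n) (FractionRing (Pol n)) K']
  [FiniteDimensional (FractionRing (Pol n)) K']

omit [IsDomain R'] [Algebra ℂ R'] [Algebra ℂ K'] [IsScalarTower ℂ R' K'] [IsFractionRing R' K']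
  [IsScalarTower ℂ (Pol n) R'] [IsScalarTower (Pol n) R' K'] [IsScalarTower ℂ (Pol n) K']
  [FaithfulSMul (Pol n) K'] [Algebra (FractionRing (Pol n)) K']
  [IsScalarTower (Pol n) (FractionRing (Pol n)) K']
  [FiniteDimensional (FractionRing (Pol n)) K'] in
/-- elements of `n_x ^ 2` come from `m ^ 2` -/
theorem fa_kx_sq {x' : Pt n K'} (hc' : IsChart R' x') {w : IB n K'} (hw : w ∈ kx x' ^ 2) :
    ∃ r ∈ maximalIdeal R' ^ 2, algebraMap R' K' r = (w : K') := by
  rw [pow_two] at hw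
  refine Submodule.mul_induction_on hw ?_ ?_
  · intro b hb c hc
    obtain ⟨b', hb', hb2⟩ := hc'.pt b
    obtain ⟨c', hc1, hc2⟩ := hc'.pt c
    refine ⟨b' * c', ?_, ?_⟩
    · rw [pow_two]
      exact Ideal.mul_mem_mul (hb2.1 (mem_kx.1 hb)) (hc2.1 (mem_kx.1 hc))
    · rw [map_mul, hb', hc1]
      rfl
  · rintro b c ⟨b', hb1, hb2⟩ ⟨c', hc1, hc2⟩
    refine ⟨b' + c', Ideal.add_mem _ hb1 hc1, ?_⟩
    rw [map_add, hb2, hc2]
    rfl

/-- The conclusion from the second chart. -/
theorem fa_second (e : R ≃ₐ[ℂ] R') (f : K ≃ₐ[ℂ] K')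
    (hef : ∀ a : R, f (algebraMap R K a) = algebraMap R' K' (e a)) (hn : 2 ≤ n)
    {ω' : (Fin n → Derivation ℂ K' K') → K'} (h' : IsKltGerm R' n 1 ω')
    (hreg' : ¬ IsRegularLocalRing R') (hV' : NVolGe R' n 1 ω' (2 * ((n : ℝ≥0∞) - 1) ^ n))
    {ζ : Fin n → R} (hζ : ∀ i, algebraMap (Pol n) R' (MvPolynomial.X i) = e (ζ i))
    (hx' : ∀ i : Fin n, algebraMap (Pol n) R' (MvPolynomial.X i) ∈ maximalIdeal R')
    (hk' : ∃ k : ℕ, maximalIdeal R' ^ (k + 1) ≤ Ideal.span (Set.range fun i : Fin n =>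
      algebraMap (Pol n) R' (MvPolynomial.X i)) * maximalIdeal R' ^ k)
    {x : Pt n K} (hc : IsChart R x) {N : ℕ} {E : Prim n K} {S : Sheets n N}
    (hS : E.IsSheets S) {v : Valuation K ℝ≥0} (hv : HasCenter R v (maximalIdeal R))
    (hvm : ∀ f ∈ maximalIdeal R, v (algebraMap R K f) ≤ (Real.exp (-1)).toNNReal)
    (hkill : ∀ (U : Ultrafilter (Pairs n)), Adm E S x U → ∀ (ψ : IB n K → ℂ) (s : Pairs n → ℝ),
      IsPsi E U ψ s → ∀ g : IB n K, x.toFun g = 0 → ψ g ≠ 0 →
        (Real.exp (-1)).toNNReal ≤ v (g : K))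
    {y : R} (hym : e y ∈ maximalIdeal R')
    (hgen : ∀ f ∈ maximalIdeal R, ∃ (c : Fin n → ℂ) (c' : ℂ),
      v (algebraMap R K (f - ∑ i, c i • ζ i - c' • y)) < (Real.exp (-1)).toNNReal) :
    IsODP R' n ∧ ∀ k : ℕ,
      Module.length R' (R' ⧸ maximalIdeal R' ^ k) ≤ (2 * Nat.choose (n + k - 1) n : ℕ) := by
  have hess := h'.essFiniteType
  have hnoeth : IsNoetherianRing R' := Algebra.EssFiniteType.isNoetherianRing ℂ R'
  obtain ⟨x', d', J', hc', hd', hJ0', hJ', hcan', hklt', hred', hsing', hcen', hA'⟩ :=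
    exists_chart hn h' hreg' hx' hk'
  have hinj : Function.Injective (algebraMap R' K') := IsFractionRing.injective R' K'
  obtain ⟨b, μ, hμ, hbμ⟩ : ∃ (b : IB n K') (μ : R'), μ ∈ maximalIdeal R' ^ 2 ∧
      algebraMap R' K' (e y) = (b : K') + algebraMap R' K' μ := by
    first
      | exact exists_approx_ib h'.residue hc' (e y)
      | exact exists_approx h'.residue hc' (e y)
  have hμ1 : μ ∈ maximalIdeal R' := Ideal.pow_le_self two_ne_zero hμ
  have hb0 : x'.toFun b = 0 := by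
    obtain ⟨a, ha, hab⟩ := hc'.pt b
    rw [hab]
    have h1 : a = e y - μ := by
      apply hinj
      rw [ha, map_sub, hbμ]
      ring
    rw [h1]
    exact Ideal.sub_mem _ hym hμ1
  obtain ⟨y', hy'1, hsep⟩ := exists_sep x' b hb0
  have hy'0 : x'.toFun y' = 0 := by
    have h1 : y' - b ∈ kx x' := Ideal.pow_le_self two_ne_zero hy'1
    rw [mem_kx, map_sub, hb0, sub_zero] at h1
    exact h1
  obtain ⟨r, hr, hrw⟩ := fa_kx_sq hc' hy'1
  have hrw' : (y' : K') = (b : K') + algebraMap R' K' r := by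
    rw [hrw]
    push_cast
    ring
  have hy : ∀ g : IB n K', x'.toFun g = 0 → ∃ (c : Fin n → ℂ) (c' : ℂ),
      v (f.symm ((g : K') - ∑ i, algebraMap ℂ K' (c i) *
        algebraMap (Pol n) K' (MvPolynomial.X i) - algebraMap ℂ K' c' * (y' : K'))) <
          (Real.exp (-1)).toNNReal := by
    intro g hg
    obtain ⟨a', ha', hab'⟩ := hc'.pt g
    have ham : a' ∈ maximalIdeal R' := hab'.1 hg
    obtain ⟨c, c', hcc⟩ := hgen (e.symm a') (fa_mem_max e ham)
    refine ⟨c, c', ?_⟩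
    have hs : c' • e.symm (μ - r) ∈ maximalIdeal R ^ 2 := by
      rw [Algebra.smul_def]
      exact Ideal.mul_mem_left _ _ (fa_mem_sq e (Ideal.sub_mem _ hμ hr))
    have hs' := fa_sq_lt hvm hs
    have hkey : f.symm ((g : K') - ∑ i, algebraMap ℂ K' (c i) *
        algebraMap (Pol n) K' (MvPolynomial.X i) - algebraMap ℂ K' c' * (y' : K')) =
        algebraMap R K (e.symm a' - ∑ i, c i • ζ i - c' • y) +
          algebraMap R K (c' • e.symm (μ - r)) := by
      apply f.injective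
      rw [AlgEquiv.apply_symm_apply, map_add, hef, hef]
      have h1 : e (e.symm a' - ∑ i, c i • ζ i - c' • y) =
          a' - ∑ i, c i • algebraMap (Pol n) R' (MvPolynomial.X i) - c' • e y := by
        rw [map_sub, map_sub, AlgEquiv.apply_symm_apply, map_sum, map_smul]
        congr 2
        refine Finset.sum_congr rfl fun i _ => ?_
        rw [map_smul, hζ]
      have h2 : e (c' • e.symm (μ - r)) = c' • (μ - r) := by
        rw [map_smul, AlgEquiv.apply_symm_apply]
      rw [h1, h2, map_sub, map_sub, map_sum, ha']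
      have h3 : ∀ (t : ℂ) (s : R'), algebraMap R' K' (t • s) =
          algebraMap ℂ K' t * algebraMap R' K' s := by
        intro t s
        rw [Algebra.smul_def, map_mul, ← IsScalarTower.algebraMap_apply ℂ R' K']
      simp only [h3]
      rw [map_sub, hbμ, hrw']
      have h4 : ∀ i : Fin n, algebraMap R' K' (algebraMap (Pol n) R' (MvPolynomial.X i)) =
          algebraMap (Pol n) K' (MvPolynomial.X i) := fun i =>
        (IsScalarTower.algebraMap_apply (Pol n) R' K' _).symm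
      simp only [h4]
      ring
    rw [hkey]
    exact (v.map_add _ _).trans_lt (max_lt hcc hs')
  obtain ⟨δ, hδ, hdom⟩ := lipschitz e f hef hc hc' hS hv hkill hy
  exact odp_of_dom hn h' hreg' hV' hc' hd' hJ0' hJ' hcan' hklt' hred' hsing' hcen' hA' hy'0 hsep
    hδ hdom

end second

/-- The equality case for `K_X` Cartier. -/
theorem equality_cartier {n : ℕ} {R K : Type} [CommRing R] [IsDomain R] [IsLocalRing R]
    [Algebra ℂ R] [Field K] [Algebra ℂ K] [Algebra R K] [IsScalarTower ℂ R K] [IsFractionRing R K]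
    (hn : 2 ≤ n) {ω : (Fin n → Derivation ℂ K K) → K} (h : IsKltGerm R n 1 ω)
    (hreg : ¬ IsRegularLocalRing R) (hV : NVolGe R n 1 ω (2 * ((n : ℝ≥0∞) - 1) ^ n)) :
    IsODP R n ∧
    (∀ k : ℕ, Module.length R (R ⧸ maximalIdeal R ^ k) ≤ (2 * Nat.choose (n + k - 1) n : ℕ)) ∧
    ∃ (v : Valuation K ℝ≥0) (a : ℝ),
      HasCenter R v (maximalIdeal R) ∧ IsLogDiscrepancy n 1 ω v a ∧ 0 < a ∧ a ≤ n - 1 ∧
      (∀ f ∈ maximalIdeal R, v (algebraMap R K f) ≤ (Real.exp (-1)).toNNReal) ∧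
      ∃ f ∈ maximalIdeal R, v (algebraMap R K f) = (Real.exp (-1)).toNNReal := by
  classical
  have hess := h.essFiniteType
  have hnoeth : IsNoetherianRing R := Algebra.EssFiniteType.isNoetherianRing ℂ R
  obtain ⟨z, hz, k, hk⟩ := Vale.Agent.P282.exists_reduction R h.residue n h.dim
  obtain ⟨i1, i2, i3, t1, t2, t3, t4, t5, t6, hX⟩ := fa_inst (K := K) h hz ⟨k, hk⟩
  have hzX : (fun i : Fin n => algebraMap (Pol n) R (MvPolynomial.X i)) = z := funext hX
  obtain ⟨x, d, J, hc, hd, hJ0, hJ, hcan, hklt, hred, hsing, hcen, hA⟩ :=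
    exists_chart hn h hreg (fun i => by rw [hX]; exact hz i) ⟨k, by rw [hzX]; exact hk⟩
  obtain ⟨E, hE⟩ := exists_prim (n := n) (K := K) J⁻¹
  obtain ⟨S, hS⟩ := E.exists_sheets
  obtain ⟨v, a, ζ, y, hv, hlog, ha0, ha, hvm, hvx, hkill, hζm, hym, hζk, hgen⟩ :=
    exists_good hn h hreg hV hc hd hJ0 hJ hcan hklt hred hsing hcen hA hS hE
  -- the second chart
  let ω' : (Fin n → Derivation ℂ (FaCK K) (FaCK K)) → FaCK K := ω
  have h' : IsKltGerm (FaCR R) n 1 ω' := h
  have hreg' : ¬ IsRegularLocalRing (FaCR R) := hreg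
  have hV' : NVolGe (FaCR R) n 1 ω' (2 * ((n : ℝ≥0∞) - 1) ^ n) := hV
  let ζ' : Fin n → FaCR R := ζ
  have hζm' : ∀ i, ζ' i ∈ maximalIdeal (FaCR R) := hζm
  have hζk' : ∃ k : ℕ, maximalIdeal (FaCR R) ^ (k + 1) ≤
      Ideal.span (Set.range ζ') * maximalIdeal (FaCR R) ^ k := hζk
  obtain ⟨j1, j2, j3, s1, s2, s3, s4, s5, s6, hX'⟩ := fa_inst (K := FaCK K) h' hζm' hζk'
  have hzX' : (fun i : Fin n => algebraMap (Pol n) (FaCR R) (MvPolynomial.X i)) = ζ' := funext hX'
  let e : R ≃ₐ[ℂ] FaCR R := AlgEquiv.refl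
  let f : K ≃ₐ[ℂ] FaCK K := AlgEquiv.refl
  have hef : ∀ a : R, f (algebraMap R K a) = algebraMap (FaCR R) (FaCK K) (e a) := fun _ => rfl
  have hfin := fa_second (R := R) (K := K) (R' := FaCR R) (K' := FaCK K) e f hef hn h' hreg' hV'
    (ζ := ζ) (fun i => hX' i) (fun i => by rw [hX']; exact hζm' i)
    (by rw [hzX']; exact hζk') hc hS hv hvm hkill (y := y) hym hgen
  exact ⟨hfin.1, hfin.2, v, a, hv, hlog, ha0, ha, hvm, hvx⟩

end Vale.Agent.P282.Full
end

section

open scoped NNReal ENNReal Nat WithZero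
open IsLocalRing

namespace Vale.Agent.P282.Full

private theorem general_num_nat (n : ℕ) (hn : 2 ≤ n) : n ^ n ≤ 4 * (n - 1) ^ n := by
  obtain ⟨m, rfl⟩ : ∃ m, n = m + 2 := ⟨n - 2, by omega⟩
  rcases m with _ | _ | m
  · norm_num
  · norm_num
  · have e1 : m + 1 + 1 + 2 - 1 = m + 3 := by omega
    have e2 : m + 1 + 1 + 2 = m + 3 + 1 := by omega
    rw [e1, e2]
    have hm : (0 : ℝ) < (m : ℝ) + 3 := by positivity
    have hx : (1 : ℝ) + 1 / ((m : ℝ) + 3) ≤ Real.exp (1 / ((m : ℝ) + 3)) := by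
      have := Real.add_one_le_exp (1 / ((m : ℝ) + 3))
      linarith only [this]
    have h2 : (1 + 1 / ((m : ℝ) + 3)) ^ (m + 3) ≤ Real.exp 1 := by
      calc (1 + 1 / ((m : ℝ) + 3)) ^ (m + 3) ≤ Real.exp (1 / ((m : ℝ) + 3)) ^ (m + 3) := by
            gcongr
        _ = Real.exp 1 := by
            rw [← Real.exp_nat_mul]
            congr 1
            push_cast
            field_simp
    have h3 : (1 + 1 / ((m : ℝ) + 3)) ≤ 4 / 3 := by
      have : 1 / ((m : ℝ) + 3) ≤ 1 / 3 := by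
        apply one_div_le_one_div_of_le (by norm_num)
        have : (0 : ℝ) ≤ m := Nat.cast_nonneg m
        linarith only [this]
      linarith only [this]
    have h4 : (1 + 1 / ((m : ℝ) + 3)) ^ (m + 3 + 1) ≤ 4 := by
      rw [pow_succ]
      have he : Real.exp 1 < 2.7182818286 := Real.exp_one_lt_d9
      calc (1 + 1 / ((m : ℝ) + 3)) ^ (m + 3) * (1 + 1 / ((m : ℝ) + 3))
          ≤ Real.exp 1 * (4 / 3) := by gcongr
        _ ≤ 4 := by linarith only [he]
    have h5 : ((m : ℝ) + 3 + 1) ^ (m + 3 + 1) ≤ 4 * ((m : ℝ) + 3) ^ (m + 3 + 1) := by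
      have e3 : (m : ℝ) + 3 + 1 = (1 + 1 / ((m : ℝ) + 3)) * ((m : ℝ) + 3) := by
        field_simp
      calc ((m : ℝ) + 3 + 1) ^ (m + 3 + 1)
          = (1 + 1 / ((m : ℝ) + 3)) ^ (m + 3 + 1) * ((m : ℝ) + 3) ^ (m + 3 + 1) := by
            rw [e3, mul_pow]
        _ ≤ 4 * ((m : ℝ) + 3) ^ (m + 3 + 1) := by gcongr
    exact_mod_cast h5

private theorem general_num (n : ℕ) (hn : 2 ≤ n) :
    (n : ℝ≥0∞) ^ n * (1 / 2) ≤ 2 * ((n : ℝ≥0∞) - 1) ^ n := by
  have h1 : ((n : ℝ≥0∞) - 1) = ((n - 1 : ℕ) : ℝ≥0∞) := by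
    rw [ENNReal.natCast_sub, Nat.cast_one]
  rw [h1]
  have h2 : (n : ℝ≥0∞) ^ n ≤ 4 * ((n - 1 : ℕ) : ℝ≥0∞) ^ n := by
    exact_mod_cast general_num_nat n hn
  calc (n : ℝ≥0∞) ^ n * (1 / 2) ≤ 4 * ((n - 1 : ℕ) : ℝ≥0∞) ^ n * (1 / 2) := by gcongr
    _ = (4 * (1 / 2)) * ((n - 1 : ℕ) : ℝ≥0∞) ^ n := by ring
    _ = 2 * ((n - 1 : ℕ) : ℝ≥0∞) ^ n := by
        congr 1
        have : (4 : ℝ≥0∞) = 2 * 2 := by norm_num
        rw [this, mul_assoc, one_div, ENNReal.mul_inv_cancel (by norm_num) (by norm_num), mul_one]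

/-- The inequality for all klt germs. -/
theorem general {n r : ℕ} (hn : 2 ≤ n) {R K : Type} [CommRing R] [IsDomain R] [IsLocalRing R]
    [Algebra ℂ R] [Field K] [Algebra ℂ K] [Algebra R K] [IsScalarTower ℂ R K] [IsFractionRing R K]
    {ω : (Fin n → Derivation ℂ K K) → K} (h : IsKltGerm R n r ω)
    (hreg : ¬ IsRegularLocalRing R) :
    ∃ (v : Valuation K ℝ≥0) (a : ℝ), 0 ≤ a ∧ HasCenter R v (maximalIdeal R) ∧
      IsLogDiscrepancy n r ω v a ∧
      ENNReal.ofReal a ^ n * vol R n v ≤ 2 * ((n : ℝ≥0∞) - 1) ^ n := by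
  have hn1 : 1 ≤ n := by omega
  have hr := h.index_pos
  obtain ⟨hne, g, b, hgb⟩ := h.form
  have hg : g ≠ 0 := by
    rintro rfl
    obtain ⟨D, hD⟩ := hne
    exact hD (by rw [hgb D, zero_mul])
  obtain ⟨R', K', i1, i2, i3, i4, i5, i6, i7, i8, i9, i10, i11, i12, i13, i14, i15, i16, ε, hc⟩ :=
    exists_cover (n := n) (K := K) hr h.essFiniteType h.normal h.residue h.dim g hg
  have h' : IsKltGerm R' n 1 (coverForm ε b) := isKltGerm_cover hn1 h hgb hc
  have hfin := hc.finite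
  have hessR := h.essFiniteType
  have hessR' := hc.essFiniteType
  have hnR : IsNoetherianRing R := Algebra.EssFiniteType.isNoetherianRing ℂ R
  have hnR' : IsNoetherianRing R' := Algebra.EssFiniteType.isNoetherianRing ℂ R'
  -- the function field
  have hessK : Algebra.EssFiniteType ℂ K := by
    have : Algebra.EssFiniteType R K :=
      Algebra.EssFiniteType.of_isLocalization K (nonZeroDivisors R)
    exact Algebra.EssFiniteType.comp ℂ R K
  have hdimK : Algebra.trdeg ℂ K = n := by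
    have hinj : Function.Injective (algebraMap R K) := IsFractionRing.injective R K
    have hfs : FaithfulSMul R K := (faithfulSMul_iff_algebraMap_injective R K).mpr hinj
    have hfs' : FaithfulSMul ℂ R := (faithfulSMul_iff_algebraMap_injective ℂ R).mpr
      (algebraMap ℂ R).injective
    have halg : Algebra.IsAlgebraic R K := IsLocalization.isAlgebraic K (nonZeroDivisors R)
    have h2 := trdeg_add_eq ℂ R (A := K)
    have h3 : Algebra.trdeg R K = 0 := trdeg_eq_zero
    rw [h3, add_zero] at h2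
    rw [← h2, h.dim]
  -- the maximal ideal is not zero
  have hbot : maximalIdeal R ≠ ⊥ := by
    intro h0
    have hF : IsField R := IsLocalRing.isField_iff_maximalIdeal_eq.mpr h0
    have : IsPrincipalIdealRing R := hF.isPrincipalIdealRing
    exact hreg inferInstance
  -- restriction of a valuation
  have key : ∀ (v' : Valuation K' ℝ≥0) (a' : ℝ), HasCenter R' v' (maximalIdeal R') →
      IsLogDiscrepancy n 1 (coverForm ε b) v' a' →
      ∃ a : ℝ, 0 ≤ a ∧ a ≤ a' ∧
        HasCenter R (v'.comap (algebraMap K K')) (maximalIdeal R) ∧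
        IsLogDiscrepancy n r ω (v'.comap (algebraMap K K')) a := by
    intro v' a' hv' ha'
    have hcen : HasCenter R (v'.comap (algebraMap K K')) (maximalIdeal R) := by
      have := HasCenter.comap hc hv'
      rwa [comap_maximalIdeal hc] at this
    have hsub := logSet_cover hdimK hessK hfin hr hne hgb hc.pow v'
    have hub : a' ∈ upperBounds (logSet n r ω (v'.comap (algebraMap K K'))) := fun t ht =>
      ha'.1 (hsub ht)
    have hnonempty := logSet_nonempty hdimK hessK hr h.form (v'.comap (algebraMap K K'))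
    have hlub : IsLogDiscrepancy n r ω (v'.comap (algebraMap K K'))
        (sSup (logSet n r ω (v'.comap (algebraMap K K')))) :=
      isLUB_csSup hnonempty ⟨a', hub⟩
    exact ⟨_, (h.klt _ _ _ hcen hbot hlub).le, csSup_le hnonempty hub, hcen, hlub⟩
  by_cases hreg' : IsRegularLocalRing R'
  · by_cases hσ : ∃ σ : K' ≃ₐ[K] K', (∀ a : R', ∃ b : R', algebraMap R' K' b =
        σ (algebraMap R' K' a)) ∧ σ ≠ 1
    · obtain ⟨σ, hσ, hσ1⟩ := hσ
      obtain ⟨w, a', -, han, hld, hw, hlen⟩ := exists_ord_germ hn1 h' hreg'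
      have hcw : HasCenter R' w (maximalIdeal R') := by
        intro f
        have hle : (w (algebraMap R' K' f) : ℝ) ≤ 1 := by
          have := (hw f 0).mpr (by simp)
          simpa using this
        refine ⟨by exact_mod_cast hle, ?_, ?_⟩
        · intro hlt
          have hlt' : (w (algebraMap R' K' f) : ℝ) < 1 := by exact_mod_cast hlt
          obtain ⟨N, hN⟩ := exists_pow_lt_of_lt_one (Real.exp_pos (-(1 : ℕ) : ℝ)) hlt'
          have h1 : f ^ N ∈ maximalIdeal R' ^ 1 := by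
            refine (hw (f ^ N) 1).mp ?_
            rw [map_pow, map_pow]
            push_cast at hN ⊢
            exact hN.le
          rw [pow_one] at h1
          exact (IsLocalRing.maximalIdeal.isMaximal R').isPrime.mem_of_pow_mem N h1
        · intro hf
          have h1 := (hw f 1).mpr (by rwa [pow_one])
          have h2 : Real.exp (-(1 : ℕ) : ℝ) < 1 := by
            rw [Real.exp_lt_one_iff]
            norm_num
          have h3 : (w (algebraMap R' K' f) : ℝ) < 1 := h1.trans_lt h2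
          exact_mod_cast h3
      obtain ⟨a, ha0, haa, hcen, hldv⟩ := key w a' hcw hld
      refine ⟨_, a, ha0, hcen, hldv, ?_⟩
      have hvol := vol_le_half hn1 h.essFiniteType h.normal h.residue hg hr hc hw hlen hσ hσ1
      have h1 : ENNReal.ofReal a ≤ (n : ℝ≥0∞) := by
        rw [← ENNReal.ofReal_natCast]
        exact ENNReal.ofReal_le_ofReal (haa.trans han)
      calc ENNReal.ofReal a ^ n * vol R n (w.comap (algebraMap K K'))
          ≤ (n : ℝ≥0∞) ^ n * (1 / 2) := by gcongr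
        _ ≤ _ := general_num n hn
    · exfalso
      push Not at hσ
      exact hreg (regular_of_trivial h.essFiniteType h.normal h.residue h.dim hc hreg' hσ)
  · obtain ⟨v', a', ha', hv', hld', hle'⟩ := cartier hn h' hreg'
    obtain ⟨a, ha0, haa, hcen, hldv⟩ := key v' a' hv' hld'
    refine ⟨_, a, ha0, hcen, hldv, ?_⟩
    refine le_trans ?_ hle'
    have hvol := vol_comap_le h.residue hc hv'
    gcongr

/-- The normalized volume of a singular klt germ of dimension `n ≥ 2` is at most `2 (n - 1) ^ n`. -/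
theorem normalizedVolume_le {n r : ℕ} (hn : 2 ≤ n) {R : Type} [CommRing R] [IsDomain R]
    [IsLocalRing R] [Algebra ℂ R] {ω : (Fin n → Derivation ℂ (FractionRing R) (FractionRing R)) →
      FractionRing R} (h : IsKltGerm R n r ω) (hreg : ¬ IsRegularLocalRing R) :
    normalizedVolume R n r ω ≤ 2 * ((n : ℝ≥0∞) - 1) ^ n := by
  obtain ⟨v, a, _, hv, ha, hle⟩ := general hn h hreg
  refine le_trans ?_ hle
  exact iInf_le_of_le v (iInf_le_of_le hv (iInf_le_of_le a (iInf_le_of_le ha le_rfl)))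

end Vale.Agent.P282.Full
end

section

/-!
P282, equality case, arbitrary index: assembly.
-/

open scoped NNReal ENNReal Nat WithZero
open IsLocalRing

namespace Vale.Agent.P282.Full


/-- The numerical estimate. -/
theorem ixm_liminf {n e : ℕ} {L : ℕ → ℕ∞}
    (hL : ∀ t : ℕ, L t ≤ (e * Nat.choose (n + t - 1) n : ℕ)) :
    Filter.liminf (fun t : ℕ => (n ! : ℝ≥0∞) * (L t : ℝ≥0∞) / (t : ℝ≥0∞) ^ n) Filter.atTop ≤
      (e : ℝ≥0∞) := by
  have hlim : Filter.Tendsto (fun t : ℕ => ENNReal.ofReal ((e : ℝ) * (1 + (n : ℝ) / (t : ℝ)) ^ n))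
      Filter.atTop (nhds (e : ℝ≥0∞)) := by
    have h0 : (e : ℝ≥0∞) = ENNReal.ofReal (e : ℝ) := by rw [ENNReal.ofReal_natCast]
    rw [h0]
    refine ENNReal.tendsto_ofReal ?_
    have h1 : Filter.Tendsto (fun t : ℕ => (e : ℝ) * (1 + (n : ℝ) / (t : ℝ)) ^ n) Filter.atTop
        (nhds ((e : ℝ) * (1 + 0) ^ n)) :=
      ((tendsto_const_nhds.add
        (tendsto_const_div_atTop_nhds_zero_nat (n : ℝ))).pow n).const_mul _
    simpa using h1
  rw [← hlim.liminf_eq]
  refine Filter.liminf_le_liminf ?_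
  filter_upwards [Filter.eventually_ge_atTop 1] with t ht
  have ht0 : (0 : ℝ) < t := by exact_mod_cast ht
  have hne : L t ≠ ⊤ := by
    intro h
    have := hL t
    rw [h] at this
    exact absurd this (by simp only [top_le_iff]; exact ENat.natCast_ne_top _)
  obtain ⟨l, hl⟩ := ENat.ne_top_iff_exists.mp hne
  have h1 := hL t
  rw [← hl] at h1
  have h2 : l ≤ e * Nat.choose (n + t - 1) n := by exact_mod_cast h1
  have h3 : n ! * l ≤ e * (n + t - 1) ^ n := by
    calc n ! * l ≤ n ! * (e * Nat.choose (n + t - 1) n) := Nat.mul_le_mul_left _ h2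
      _ = e * (n ! * Nat.choose (n + t - 1) n) := by ring
      _ ≤ _ := by
        refine Nat.mul_le_mul_left _ ?_
        rw [← Nat.descFactorial_eq_factorial_mul_choose]
        exact Nat.descFactorial_le_pow _ _
  have h4 : n ! * l ≤ e * (t + n) ^ n :=
    h3.trans (Nat.mul_le_mul_left _ (Nat.pow_le_pow_left (by omega) _))
  have h5 : ((n ! : ℝ) * l) ≤ (e : ℝ) * ((t : ℝ) + (n : ℝ)) ^ n := by exact_mod_cast h4
  rw [← hl]
  have h6 : (n ! : ℝ≥0∞) * (((l : ℕ∞) : ℝ≥0∞)) / (t : ℝ≥0∞) ^ n =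
      ENNReal.ofReal ((n ! : ℝ) * l / (t : ℝ) ^ n) := by
    rw [ENNReal.ofReal_div_of_pos (by positivity), ENNReal.ofReal_pow ht0.le,
      ENNReal.ofReal_natCast, ENNReal.ofReal_mul (by positivity), ENNReal.ofReal_natCast,
      ENNReal.ofReal_natCast]
    simp
  rw [h6]
  refine ENNReal.ofReal_le_ofReal ?_
  have h7 : (e : ℝ) * (1 + (n : ℝ) / (t : ℝ)) ^ n =
      (e : ℝ) * ((t : ℝ) + (n : ℝ)) ^ n / (t : ℝ) ^ n := by
    have h8 : (1 + (n : ℝ) / (t : ℝ)) = ((t : ℝ) + (n : ℝ)) / t := by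
      field_simp
    rw [h8, div_pow]
    ring
  rw [h7]
  exact div_le_div_of_nonneg_right h5 (by positivity)

theorem ixm_cast (n : ℕ) : ((n : ℝ≥0∞) - 1) = ((n - 1 : ℕ) : ℝ≥0∞) := by
  rw [ENNReal.natCast_sub, Nat.cast_one]

theorem ixm_pow_ne {n : ℕ} (hn : 2 ≤ n) : ((n : ℝ≥0∞) - 1) ^ n ≠ 0 := by
  rw [ixm_cast]
  refine pow_ne_zero _ ?_
  have : n - 1 ≠ 0 := by omega
  exact_mod_cast this

theorem ixm_pow_top (n : ℕ) : ((n : ℝ≥0∞) - 1) ^ n ≠ ⊤ := by
  rw [ixm_cast]
  exact ENNReal.pow_ne_top (ENNReal.natCast_ne_top _)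

/-- `n ^ n < 4 (n - 1) ^ n` for `n ≥ 3`. -/
theorem ixm_num_nat (n : ℕ) (hn : 3 ≤ n) : n ^ n < 4 * (n - 1) ^ n := by
  obtain ⟨m, rfl⟩ : ∃ m, n = m + 3 := ⟨n - 3, by omega⟩
  rcases m with _ | m
  · norm_num
  · have e1 : m + 1 + 3 - 1 = m + 3 := by omega
    have e2 : m + 1 + 3 = m + 3 + 1 := by omega
    rw [e1, e2]
    have hm : (0 : ℝ) < (m : ℝ) + 3 := by positivity
    have hx : (1 : ℝ) + 1 / ((m : ℝ) + 3) ≤ Real.exp (1 / ((m : ℝ) + 3)) := by
      have := Real.add_one_le_exp (1 / ((m : ℝ) + 3))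
      linarith only [this]
    have h2 : (1 + 1 / ((m : ℝ) + 3)) ^ (m + 3) ≤ Real.exp 1 := by
      calc (1 + 1 / ((m : ℝ) + 3)) ^ (m + 3) ≤ Real.exp (1 / ((m : ℝ) + 3)) ^ (m + 3) := by
            gcongr
        _ = Real.exp 1 := by
            rw [← Real.exp_nat_mul]
            congr 1
            push_cast
            field_simp
    have h3 : (1 + 1 / ((m : ℝ) + 3)) ≤ 4 / 3 := by
      have : 1 / ((m : ℝ) + 3) ≤ 1 / 3 := by
        apply one_div_le_one_div_of_le (by norm_num)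
        have : (0 : ℝ) ≤ m := Nat.cast_nonneg m
        linarith only [this]
      linarith only [this]
    have h4 : (1 + 1 / ((m : ℝ) + 3)) ^ (m + 3 + 1) < 4 := by
      rw [pow_succ]
      have he : Real.exp 1 < 2.7182818286 := Real.exp_one_lt_d9
      calc (1 + 1 / ((m : ℝ) + 3)) ^ (m + 3) * (1 + 1 / ((m : ℝ) + 3))
          ≤ Real.exp 1 * (4 / 3) := by gcongr
        _ < 4 := by linarith only [he]
    have h5 : ((m : ℝ) + 3 + 1) ^ (m + 3 + 1) < 4 * ((m : ℝ) + 3) ^ (m + 3 + 1) := by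
      have e3 : (m : ℝ) + 3 + 1 = (1 + 1 / ((m : ℝ) + 3)) * ((m : ℝ) + 3) := by
        field_simp
      calc ((m : ℝ) + 3 + 1) ^ (m + 3 + 1)
          = (1 + 1 / ((m : ℝ) + 3)) ^ (m + 3 + 1) * ((m : ℝ) + 3) ^ (m + 3 + 1) := by
            rw [e3, mul_pow]
        _ < 4 * ((m : ℝ) + 3) ^ (m + 3 + 1) := by gcongr
    exact_mod_cast h5

theorem ixm_num {n : ℕ} (hn : 3 ≤ n) {A V : ℝ≥0∞} (hA : A ≤ (n : ℝ≥0∞)) (hV : V ≤ 1 / 2)
    (h : 2 * ((n : ℝ≥0∞) - 1) ^ n ≤ A ^ n * V) : False := by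
  rw [ixm_cast] at h
  have h1 : (n : ℝ≥0∞) ^ n < 4 * ((n - 1 : ℕ) : ℝ≥0∞) ^ n := by
    exact_mod_cast ixm_num_nat n hn
  have h2 : 2 * ((n - 1 : ℕ) : ℝ≥0∞) ^ n ≤ (n : ℝ≥0∞) ^ n * (1 / 2) := h.trans (by gcongr)
  have h3 : 4 * ((n - 1 : ℕ) : ℝ≥0∞) ^ n ≤ (n : ℝ≥0∞) ^ n := by
    calc 4 * ((n - 1 : ℕ) : ℝ≥0∞) ^ n = 2 * (2 * ((n - 1 : ℕ) : ℝ≥0∞) ^ n) := by ring
      _ ≤ 2 * ((n : ℝ≥0∞) ^ n * (1 / 2)) := by gcongr
      _ = (n : ℝ≥0∞) ^ n * (2 * (1 / 2)) := by ring
      _ = (n : ℝ≥0∞) ^ n := by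
        rw [one_div, ENNReal.mul_inv_cancel (by norm_num) (by norm_num), mul_one]
  exact absurd h1 (not_lt.mpr h3)

/-- Case `n = 2`, order at least three. -/
theorem ixm_num2 {d : ℕ} (hd : 3 ≤ d) {A V : ℝ≥0∞} (hA : A ≤ ((2 : ℕ) : ℝ≥0∞))
    (hV : (d : ℝ≥0∞) * V ≤ 1)
    (h : 2 * (((2 : ℕ) : ℝ≥0∞) - 1) ^ 2 ≤ A ^ 2 * V) : False := by
  rw [ixm_cast] at h
  norm_num at h
  have hd' : (3 : ℝ≥0∞) ≤ d := by exact_mod_cast hd
  have h1 : (3 : ℝ≥0∞) * V ≤ 1 := le_trans (by gcongr) hV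
  have h2 : (2 : ℝ≥0∞) ≤ 2 ^ 2 * V := h.trans (by gcongr; exact_mod_cast hA)
  have h3 : (3 : ℝ≥0∞) * 2 ≤ 2 ^ 2 * 1 := by
    calc (3 : ℝ≥0∞) * 2 ≤ 3 * (2 ^ 2 * V) := by gcongr
      _ = 2 ^ 2 * (3 * V) := by ring
      _ ≤ 2 ^ 2 * 1 := by gcongr
  norm_num at h3

/-- Singular cover. -/
theorem ixm_num3 {n d : ℕ} (hn : 2 ≤ n) (hd : 2 ≤ d) {A V W : ℝ≥0∞} (hA : A ≤ (n : ℝ≥0∞) - 1)
    (hV : (d : ℝ≥0∞) * V ≤ W) (hW : W ≤ 2)
    (h : 2 * ((n : ℝ≥0∞) - 1) ^ n ≤ A ^ n * V) : False := by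
  have hd' : (2 : ℝ≥0∞) ≤ d := by exact_mod_cast hd
  have h1 : (2 : ℝ≥0∞) * V ≤ 2 * 1 := by
    calc (2 : ℝ≥0∞) * V ≤ d * V := by gcongr
      _ ≤ 2 := hV.trans hW
      _ = 2 * 1 := by norm_num
  have h2 : V ≤ 1 := (ENNReal.mul_le_mul_iff_right (by norm_num) (by norm_num)).1 h1
  have h3 : 2 * ((n : ℝ≥0∞) - 1) ^ n ≤ 1 * ((n : ℝ≥0∞) - 1) ^ n := by
    calc 2 * ((n : ℝ≥0∞) - 1) ^ n ≤ A ^ n * V := h
      _ ≤ ((n : ℝ≥0∞) - 1) ^ n * 1 := by gcongr
      _ = 1 * ((n : ℝ≥0∞) - 1) ^ n := by ring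
  have h4 := (ENNReal.mul_le_mul_iff_left (ixm_pow_ne hn) (ixm_pow_top n)).1 h3
  norm_num at h4

theorem ixm_num4 {n : ℕ} (hn : 2 ≤ n) {A W : ℝ≥0∞} (hA : A ≤ (n : ℝ≥0∞) - 1)
    (h : 2 * ((n : ℝ≥0∞) - 1) ^ n ≤ A ^ n * W) : 2 ≤ W := by
  have h3 : 2 * ((n : ℝ≥0∞) - 1) ^ n ≤ W * ((n : ℝ≥0∞) - 1) ^ n := by
    calc 2 * ((n : ℝ≥0∞) - 1) ^ n ≤ A ^ n * W := h
      _ ≤ ((n : ℝ≥0∞) - 1) ^ n * W := by gcongr
      _ = W * ((n : ℝ≥0∞) - 1) ^ n := by ring
  exact (ENNReal.mul_le_mul_iff_left (ixm_pow_ne hn) (ixm_pow_top n)).1 h3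

theorem ixm_ofReal {n : ℕ} {a : ℝ} (ha : a ≤ n - 1) : ENNReal.ofReal a ≤ (n : ℝ≥0∞) - 1 := by
  refine (ENNReal.ofReal_le_ofReal ha).trans ?_
  rw [ENNReal.ofReal_sub _ (by norm_num)]
  simp


/-- An upper bound for the volume. -/
theorem ixm_volI_le {n e : ℕ} {R K : Type} [CommRing R] [IsLocalRing R] [Field K] [Algebra R K]
    {v : Valuation K ℝ≥0} (hv1 : ∀ f : R, v (algebraMap R K f) ≤ 1)
    (hm : ∀ f ∈ maximalIdeal R, v (algebraMap R K f) ≤ (Real.exp (-1)).toNNReal)
    (hlen : ∀ k : ℕ,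
      Module.length R (R ⧸ maximalIdeal R ^ k) ≤ (e * Nat.choose (n + k - 1) n : ℕ)) :
    volI R n v ≤ (e : ℝ≥0∞) := by
  have hsub : ∀ k : ℕ, maximalIdeal R ^ k ≤ valIdeal R v (k : ℝ) := by
    intro k
    induction k with
    | zero =>
      intro f _
      rw [half_mem_valIdeal hv1]
      have := hv1 f
      have h1 : (v (algebraMap R K f) : ℝ) ≤ 1 := by exact_mod_cast this
      simpa using h1
    | succ k ih =>
      rw [pow_succ, Ideal.mul_le]
      intro a ha b hb
      have h1 := (half_mem_valIdeal hv1).1 (ih ha)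
      have h2 : (v (algebraMap R K b) : ℝ) ≤ Real.exp (-1) := by
        have := NNReal.coe_le_coe.2 (hm b hb)
        rwa [Real.coe_toNNReal _ (Real.exp_pos _).le] at this
      rw [half_mem_valIdeal hv1, map_mul, map_mul, NNReal.coe_mul]
      have h3 : Real.exp (-((k + 1 : ℕ) : ℝ)) = Real.exp (-(k : ℝ)) * Real.exp (-1) := by
        rw [← Real.exp_add]
        congr 1
        push_cast
        ring
      rw [h3]
      exact mul_le_mul h1 h2 (NNReal.coe_nonneg _) (Real.exp_pos _).le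
  unfold volI
  refine ixm_liminf fun t => le_trans ?_ (hlen t)
  exact Module.length_le_of_surjective (Submodule.factor (hsub t)) (Submodule.factor_surjective _)

section ring

variable {R' K K' : Type} [CommRing R'] [IsLocalRing R'] [Field K] [Field K'] [Algebra K K']
  [Algebra R' K'] [FaithfulSMul R' K'] [FiniteDimensional K K']

/-- An automorphism preserving `R'` preserves the powers of the maximal ideal. -/
theorem ixm_pow_mem {σ : K' ≃ₐ[K] K'}
    (hσ : ∀ a : R', ∃ b : R', algebraMap R' K' b = σ (algebraMap R' K' a)) (k : ℕ) {a b : R'}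
    (hab : algebraMap R' K' b = σ (algebraMap R' K' a)) :
    b ∈ maximalIdeal R' ^ k ↔ a ∈ maximalIdeal R' ^ k := by
  have hinj : Function.Injective (algebraMap R' K') := FaithfulSMul.algebraMap_injective R' K'
  choose s0 hs0 using hσ
  let s : R' →+* R' :=
    { toFun := s0
      map_one' := hinj (by rw [hs0]; simp)
      map_zero' := hinj (by rw [hs0]; simp)
      map_mul' := fun a b => hinj (by rw [hs0, map_mul, map_mul, map_mul, hs0, hs0])
      map_add' := fun a b => hinj (by rw [hs0, map_add, map_add, map_add, hs0, hs0]) }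
  have hs : ∀ a, algebraMap R' K' (s a) = σ (algebraMap R' K' a) := hs0
  obtain ⟨m, hm⟩ : ∃ m : ℕ, ∀ a : R', s^[m] (s a) = a := by
    obtain ⟨m, hm, hm1⟩ := (isOfFinOrder_of_finite σ).exists_pow_eq_one
    have h1 : ∀ k : ℕ, ∀ b : R', algebraMap R' K' (s^[k] b) = (σ ^ k) (algebraMap R' K' b) := by
      intro k
      induction k with
      | zero => intro b; simp
      | succ k ih =>
        intro b
        rw [Function.iterate_succ_apply, ih, hs, pow_succ]
        rfl
    obtain ⟨m', rfl⟩ : ∃ m', m = m' + 1 := ⟨m - 1, by omega⟩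
    refine ⟨m', fun a => ?_⟩
    rw [← Function.iterate_succ_apply]
    exact hinj (by rw [h1, hm1]; rfl)
  have hunit : ∀ k : ℕ, ∀ b : R', IsUnit b → IsUnit (s^[k] b) := by
    intro k
    induction k with
    | zero => intro b hb; simpa using hb
    | succ k ih =>
      intro b hb
      rw [Function.iterate_succ_apply]
      exact ih _ (hb.map s)
  have hsmax : maximalIdeal R' ≤ (maximalIdeal R').comap s := by
    intro a ha
    rw [Ideal.mem_comap, mem_maximalIdeal, mem_nonunits_iff]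
    rw [mem_maximalIdeal, mem_nonunits_iff] at ha
    intro h
    apply ha
    rw [← hm a]
    exact hunit m _ h
  have hspow : ∀ (k : ℕ) (a : R'), a ∈ maximalIdeal R' ^ k → s a ∈ maximalIdeal R' ^ k := by
    intro k a ha
    have h1 : maximalIdeal R' ^ k ≤ (maximalIdeal R' ^ k).comap s :=
      (Ideal.pow_right_mono hsmax k).trans (Ideal.le_comap_pow s k)
    exact h1 ha
  have hiter : ∀ (j : ℕ) (a : R'), a ∈ maximalIdeal R' ^ k → s^[j] a ∈ maximalIdeal R' ^ k := by
    intro j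
    induction j with
    | zero => intro a ha; simpa using ha
    | succ j ih =>
      intro a ha
      rw [Function.iterate_succ_apply]
      exact ih _ (hspow k a ha)
  have hb : b = s a := hinj (by rw [hab, hs])
  rw [hb]
  refine ⟨fun h => ?_, hspow k a⟩
  rw [← hm a]
  exact hiter m _ h

end ring

/-- The center of the order valuation. -/
theorem ixm_center {R K : Type} [CommRing R] [IsDomain R] [IsLocalRing R] [Algebra ℂ R] [Field K]
    [Algebra ℂ K] [Algebra R K] {w : Valuation K ℝ≥0}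
    (hw : ∀ (f : R) (k : ℕ),
      (w (algebraMap R K f) : ℝ) ≤ Real.exp (-k) ↔ f ∈ maximalIdeal R ^ k) :
    HasCenter R w (maximalIdeal R) := by
  intro f
  have hle : (w (algebraMap R K f) : ℝ) ≤ 1 := by
    have := (hw f 0).mpr (by simp)
    simpa using this
  refine ⟨by exact_mod_cast hle, ?_, ?_⟩
  · intro hlt
    have hlt' : (w (algebraMap R K f) : ℝ) < 1 := by exact_mod_cast hlt
    obtain ⟨N, hN⟩ := exists_pow_lt_of_lt_one (Real.exp_pos (-(1 : ℕ) : ℝ)) hlt'
    have h1 : f ^ N ∈ maximalIdeal R ^ 1 := by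
      refine (hw (f ^ N) 1).mp ?_
      rw [map_pow, map_pow]
      push_cast at hN ⊢
      exact hN.le
    rw [pow_one] at h1
    exact (IsLocalRing.maximalIdeal.isMaximal R).isPrime.mem_of_pow_mem N h1
  · intro hf
    have h1 := (hw f 1).mpr (by rwa [pow_one])
    have h2 : Real.exp (-(1 : ℕ) : ℝ) < 1 := by
      rw [Real.exp_lt_one_iff]
      norm_num
    have h3 : (w (algebraMap R K f) : ℝ) < 1 := h1.trans_lt h2
    exact_mod_cast h3

/-- The order valuation is invariant. -/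
theorem ixm_ord_inv {n : ℕ} {R' K K' : Type} [CommRing R'] [IsDomain R'] [IsLocalRing R']
    [Algebra ℂ R'] [Field K] [Field K'] [Algebra K K'] [Algebra ℂ K'] [Algebra R' K']
    [IsScalarTower ℂ R' K'] [IsFractionRing R' K'] [FiniteDimensional K K']
    (hess : Algebra.EssFiniteType ℂ R')
    (hres : Function.Surjective (algebraMap ℂ (ResidueField R'))) (hdim : Algebra.trdeg ℂ R' = n)
    (hreg : IsRegularLocalRing R') {w : Valuation K' ℝ≥0}
    (hw : ∀ (f : R') (k : ℕ),
      (w (algebraMap R' K' f) : ℝ) ≤ Real.exp (-k) ↔ f ∈ maximalIdeal R' ^ k)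
    {σ : K' ≃ₐ[K] K'}
    (hσ : ∀ a : R', ∃ b : R', algebraMap R' K' b = σ (algebraMap R' K' a)) (a : K') :
    w (σ a) = w a := by
  obtain ⟨x, hx⟩ := exists_regular_params hess hres hdim hreg
  have key : ∀ f : R', w (σ (algebraMap R' K' f)) = w (algebraMap R' K' f) := by
    intro f
    obtain ⟨g, hg⟩ := hσ f
    rw [← hg]
    by_cases hf : f = 0
    · have : g = 0 := by
        have h1 : algebraMap R' K' g = 0 := by rw [hg, hf, map_zero, map_zero]
        exact (FaithfulSMul.algebraMap_eq_zero_iff R' K').1 h1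
      rw [hf, this]
    · obtain ⟨k, hk1, hk2⟩ := ora_exists hw hf
      have h1 := ora_val hess hres hdim hx hw hk1 hk2
      have h2 := ora_val hess hres hdim hx hw ((ixm_pow_mem hσ k hg).2 hk1)
        (fun h => hk2 ((ixm_pow_mem hσ (k + 1) hg).1 h))
      exact NNReal.coe_injective (h2.trans h1.symm)
  obtain ⟨p, q, hq, rfl⟩ := IsFractionRing.div_surjective (A := R') a
  rw [map_div₀, map_div₀, map_div₀, key, key]

/-- The equality case for all klt germs. -/
theorem equality_general {n r : ℕ} (hn : 2 ≤ n) {R K : Type} [CommRing R] [IsDomain R]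
    [IsLocalRing R] [Algebra ℂ R] [Field K] [Algebra ℂ K] [Algebra R K] [IsScalarTower ℂ R K]
    [IsFractionRing R K] {ω : (Fin n → Derivation ℂ K K) → K} (h : IsKltGerm R n r ω)
    (hreg : ¬ IsRegularLocalRing R) (hV : NVolGe R n r ω (2 * ((n : ℝ≥0∞) - 1) ^ n)) :
    IsODP R n := by
  have hn1 : 1 ≤ n := by omega
  have hr := h.index_pos
  obtain ⟨hne, g, b, hgb⟩ := h.form
  have hg : g ≠ 0 := by
    rintro rfl
    obtain ⟨D, hD⟩ := hne
    exact hD (by rw [hgb D, zero_mul])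
  obtain ⟨R', K', i1, i2, i3, i4, i5, i6, i7, i8, i9, i10, i11, i12, i13, i14, i15, i16, ε, hc⟩ :=
    exists_cover (n := n) (K := K) hr h.essFiniteType h.normal h.residue h.dim g hg
  have h' : IsKltGerm R' n 1 (coverForm ε b) := isKltGerm_cover hn1 h hgb hc
  have hfin := hc.finite
  have hessR := h.essFiniteType
  have hessR' := hc.essFiniteType
  have hnR : IsNoetherianRing R := Algebra.EssFiniteType.isNoetherianRing ℂ R
  have hnR' : IsNoetherianRing R' := Algebra.EssFiniteType.isNoetherianRing ℂ R'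
  -- the function field
  have hessK : Algebra.EssFiniteType ℂ K := by
    have : Algebra.EssFiniteType R K :=
      Algebra.EssFiniteType.of_isLocalization K (nonZeroDivisors R)
    exact Algebra.EssFiniteType.comp ℂ R K
  have hdimK : Algebra.trdeg ℂ K = n := by
    have hinj : Function.Injective (algebraMap R K) := IsFractionRing.injective R K
    have hfs : FaithfulSMul R K := (faithfulSMul_iff_algebraMap_injective R K).mpr hinj
    have hfs' : FaithfulSMul ℂ R := (faithfulSMul_iff_algebraMap_injective ℂ R).mpr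
      (algebraMap ℂ R).injective
    have halg : Algebra.IsAlgebraic R K := IsLocalization.isAlgebraic K (nonZeroDivisors R)
    have h2 := trdeg_add_eq ℂ R (A := K)
    have h3 : Algebra.trdeg R K = 0 := trdeg_eq_zero
    rw [h3, add_zero] at h2
    rw [← h2, h.dim]
  -- the maximal ideal is not zero
  have hbot : maximalIdeal R ≠ ⊥ := by
    intro h0
    have hF : IsField R := IsLocalRing.isField_iff_maximalIdeal_eq.mpr h0
    have : IsPrincipalIdealRing R := hF.isPrincipalIdealRing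
    exact hreg inferInstance
  -- restriction of a valuation
  have key : ∀ (v' : Valuation K' ℝ≥0) (a' : ℝ), HasCenter R' v' (maximalIdeal R') →
      IsLogDiscrepancy n 1 (coverForm ε b) v' a' →
      ∃ a : ℝ, 0 ≤ a ∧ a ≤ a' ∧
        HasCenter R (v'.comap (algebraMap K K')) (maximalIdeal R) ∧
        IsLogDiscrepancy n r ω (v'.comap (algebraMap K K')) a := by
    intro v' a' hv' ha'
    have hcen : HasCenter R (v'.comap (algebraMap K K')) (maximalIdeal R) := by
      have := HasCenter.comap hc hv'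
      rwa [comap_maximalIdeal hc] at this
    have hsub := logSet_cover hdimK hessK hfin hr hne hgb hc.pow v'
    have hub : a' ∈ upperBounds (logSet n r ω (v'.comap (algebraMap K K'))) := fun t ht =>
      ha'.1 (hsub ht)
    have hnonempty := logSet_nonempty hdimK hessK hr h.form (v'.comap (algebraMap K K'))
    have hlub : IsLogDiscrepancy n r ω (v'.comap (algebraMap K K'))
        (sSup (logSet n r ω (v'.comap (algebraMap K K')))) :=
      isLUB_csSup hnonempty ⟨a', hub⟩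
    exact ⟨_, (h.klt _ _ _ hcen hbot hlub).le, csSup_le hnonempty hub, hcen, hlub⟩
  by_cases hreg' : IsRegularLocalRing R'
  · exfalso
    by_cases hσ : ∃ σ : K' ≃ₐ[K] K', (∀ a : R', ∃ b : R', algebraMap R' K' b =
        σ (algebraMap R' K' a)) ∧ σ ≠ 1
    · obtain ⟨σ, hσ, hσ1⟩ := hσ
      obtain ⟨w, a', -, han, hld, hw, hlen⟩ := exists_ord_germ hn1 h' hreg'
      have hcw : HasCenter R' w (maximalIdeal R') := ixm_center hw
      obtain ⟨a, ha0, haa, hcen, hldv⟩ := key w a' hcw hld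
      have hlow := hV _ _ hcen hldv
      have h1 : ENNReal.ofReal a ≤ (n : ℝ≥0∞) := by
        rw [← ENNReal.ofReal_natCast]
        exact ENNReal.ofReal_le_ofReal (haa.trans han)
      rcases Nat.lt_or_ge 2 n with hn3 | hn2
      · have hvol := vol_le_half hn1 h.essFiniteType h.normal h.residue hg hr hc hw hlen hσ hσ1
        have hvol' : volI R n (w.comap (algebraMap K K')) ≤ 1 / 2 :=
          le_trans (Filter.liminf_le_limsup) hvol
        exact ixm_num hn3 h1 hvol' hlow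
      · obtain rfl : n = 2 := le_antisymm hn2 hn
        have hinv : ∀ a : K', w (σ a) = w a :=
          ixm_ord_inv hc.essFiniteType hc.residue hc.dim hreg' hw hσ
        by_cases h2 : σ * σ = 1
        · exact no_involution h hgb hc h' hreg' hσ hσ1 h2
        · have hpos : 0 < orderOf σ := orderOf_pos σ
          have hord1 : orderOf σ ≠ 1 := fun hh => hσ1 (orderOf_eq_one_iff.1 hh)
          have hord2 : orderOf σ ≠ 2 := by
            intro hh
            apply h2
            have := pow_orderOf_eq_one σ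
            rwa [hh, pow_two] at this
          have hd : 3 ≤ orderOf σ := by omega
          have hvv := volI_comap_of_inv hn1 h.residue hc.residue hc hcw hσ hinv
          have hm1 : ∀ f ∈ maximalIdeal R', w (algebraMap R' K' f) ≤ (Real.exp (-1)).toNNReal := by
            intro f hf
            rw [← NNReal.coe_le_coe, Real.coe_toNNReal _ (Real.exp_pos _).le]
            have := (hw f 1).2 (by rwa [pow_one])
            simpa using this
          have hvol1 : volI R' 2 w ≤ ((1 : ℕ) : ℝ≥0∞) :=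
            ixm_volI_le (fun f => (hcw f).1) hm1 (fun k => by rw [one_mul]; exact hlen k)
          refine ixm_num2 hd h1 (hvv.trans ?_) hlow
          simpa using hvol1
    · push Not at hσ
      exact hreg (regular_of_trivial h.essFiniteType h.normal h.residue h.dim hc hreg' hσ)
  · have hV' : NVolGe R' n 1 (coverForm ε b) (2 * ((n : ℝ≥0∞) - 1) ^ n) := by
      intro v' a' hv' hld'
      obtain ⟨a, ha0, haa, hcen, hldv⟩ := key v' a' hv' hld'
      refine (hV _ _ hcen hldv).trans ?_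
      have := volI_comap_le h.residue hc hv'
      gcongr
    obtain ⟨hodp, hlen, v', a', hv', hld', ha'0, ha'n, hm, hm'⟩ :=
      equality_cartier hn h' hreg' hV'
    by_cases hσ : ∃ σ : K' ≃ₐ[K] K', (∀ a : R', ∃ b : R', algebraMap R' K' b =
        σ (algebraMap R' K' a)) ∧ σ ≠ 1
    · exfalso
      obtain ⟨σ, hσ, hσ1⟩ := hσ
      have hA := ixm_ofReal ha'n
      have hlow' := hV' _ _ hv' hld'
      have h2le : 2 ≤ volI R' n v' := ixm_num4 hn hA hlow'
      have hofin : IsOfFinOrder (σ.restrictScalars ℂ) := by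
        have := (AlgEquiv.restrictScalarsHom ℂ : (K' ≃ₐ[K] K') →* (K' ≃ₐ[ℂ] K')).isOfFinOrder
          (isOfFinOrder_of_finite σ)
        simpa using this
      have hinv : ∀ a : K', v' (σ a) = v' a := fun a =>
        val_invariant hn1 hc.residue (e := 2) (by norm_num) hlen hv' hm hm'
          (by exact_mod_cast h2le) hofin hσ a
      have hvv := volI_comap_of_inv hn1 h.residue hc.residue hc hv' hσ hinv
      have hvol2 : volI R' n v' ≤ ((2 : ℕ) : ℝ≥0∞) :=
        ixm_volI_le (fun f => (hv' f).1) hm hlen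
      obtain ⟨a, ha0, haa, hcen, hldv⟩ := key v' a' hv' hld'
      have hlow := hV _ _ hcen hldv
      have hpos : 0 < orderOf σ := orderOf_pos σ
      have hord1 : orderOf σ ≠ 1 := fun hh => hσ1 (orderOf_eq_one_iff.1 hh)
      exact ixm_num3 hn (by omega) ((ENNReal.ofReal_le_ofReal haa).trans hA) hvv
        (by simpa using hvol2) hlow
    · push Not at hσ
      exact isODP_of_trivial h.essFiniteType h.normal h.residue hc hσ hodp

end Vale.Agent.P282.Full
end

section

open scoped NNReal ENNReal Nat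
open IsLocalRing

namespace Vale.Agent.P282.Gap

variable {n r : ℕ} {R : Type} [CommRing R] [IsDomain R] [IsLocalRing R] [Algebra ℂ R]
  {ω : (Fin n → Derivation ℂ (FractionRing R) (FractionRing R)) → FractionRing R}

theorem IsKltGerm.toFull (h : IsKltGerm R n r ω) : Full.IsKltGerm R n r ω where
  essFiniteType := h.essFiniteType
  normal := h.normal
  residue := h.residue
  dim := h.dim
  index_pos := h.index_pos
  form := h.form
  canonical := h.canonical
  klt := h.klt

theorem vol_le_full (v : Valuation (FractionRing R) ℝ≥0) : vol R n v ≤ Full.vol R n v :=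
  Filter.liminf_le_limsup

/-- The inequality. -/
theorem normalizedVolume_le (hn : 2 ≤ n) (h : IsKltGerm R n r ω)
    (hreg : ¬ IsRegularLocalRing R) :
    normalizedVolume R n r ω ≤ 2 * ((n : ℝ≥0∞) - 1) ^ n := by
  obtain ⟨v, a, _, hv, ha, hle⟩ := Full.general hn h.toFull hreg
  refine le_trans ?_ (le_trans (mul_le_mul_right (vol_le_full v) _) hle)
  exact iInf_le_of_le v (iInf_le_of_le hv (iInf_le_of_le a (iInf_le_of_le ha le_rfl)))

/-- The case of equality. -/
theorem isODP (hn : 2 ≤ n) (h : IsKltGerm R n r ω) (hreg : ¬ IsRegularLocalRing R)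
    (heq : normalizedVolume R n r ω = 2 * ((n : ℝ≥0∞) - 1) ^ n) : IsODP R n := by
  refine Full.equality_general hn h.toFull hreg fun v a hv ha => ?_
  rw [← heq]
  exact iInf_le_of_le v (iInf_le_of_le hv (iInf_le_of_le a (iInf_le_of_le ha le_rfl)))

end Vale.Agent.P282.Gap
end

section

/-!
P282, converse: the generator of `r K_X` in the coordinates of the quadric cone.
-/

open scoped NNReal ENNReal Nat
open IsLocalRing

namespace Vale.Agent.P282.Full

open Vale.Agent.P282.CV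

variable {n r : ℕ} {R K : Type} [CommRing R] [IsDomain R] [IsLocalRing R] [Algebra ℂ R]
  [Field K] [Algebra ℂ K] [Algebra R K] [IsScalarTower ℂ R K] [IsFractionRing R K]

omit [IsDomain R] [IsLocalRing R] [Algebra ℂ R] [IsScalarTower ℂ R K] in
/-- Clearing denominators. -/
theorem cb_clear [IsDomain R] {ω : (Fin n → Derivation ℂ K K) → K} (h : IsPluriForm n r ω) :
    ∃ (s2 q2 s : R) (p : Fin n → R), s2 ≠ 0 ∧ ∀ D : Fin n → Derivation ℂ K K,
      algebraMap R K s2 * ω D = algebraMap R K q2 *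
        Matrix.det (Matrix.of fun i j => algebraMap R K s * D i (algebraMap R K (p j)) -
          algebraMap R K (p j) * D i (algebraMap R K s)) ^ r := by
  obtain ⟨-, g, b, hg⟩ := h
  obtain ⟨s, hs⟩ := IsLocalization.exist_integer_multiples_of_finite (nonZeroDivisors R) b
  choose p hp using hs
  obtain ⟨⟨q2, s3⟩, hq⟩ := IsLocalization.surj (nonZeroDivisors R) g
  simp only at hq
  refine ⟨s3 * s ^ (2 * n * r), q2, s, p, mul_ne_zero (nonZeroDivisors.coe_ne_zero s3)
    (pow_ne_zero _ (nonZeroDivisors.coe_ne_zero s)), fun D => ?_⟩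
  have h1 : (Matrix.of fun i j => algebraMap R K s * D i (algebraMap R K (p j)) -
      algebraMap R K (p j) * D i (algebraMap R K s)) =
      (algebraMap R K s ^ 2) • Matrix.of fun i j => D i (b j) := by
    ext i j
    have h2 : algebraMap R K (p j) = algebraMap R K s * b j := by
      rw [hp j, Algebra.smul_def]
    simp only [Matrix.of_apply, Matrix.smul_apply, h2, Derivation.leibniz, smul_eq_mul]
    ring
  rw [h1, Matrix.det_smul, Fintype.card_fin, hg D, map_mul, map_pow, ← hq]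
  ring

/-- Derivations and powers of ideals. -/
theorem cb_der_pow {A : Type} [CommRing A] [Algebra ℂ A] (I : Ideal A) (D : Derivation ℂ A A)
    (N : ℕ) : ∀ f ∈ I ^ (N + 1), D f ∈ I ^ N := by
  induction N with
  | zero => intro f _; simp
  | succ N ih =>
    intro f hf
    rw [pow_succ] at hf
    refine Submodule.mul_induction_on hf ?_ ?_
    · intro a ha b hb
      rw [Derivation.leibniz, smul_eq_mul, smul_eq_mul]
      refine Ideal.add_mem _ (Ideal.mul_mem_right _ _ ha) ?_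
      rw [pow_succ']
      exact Ideal.mul_mem_mul hb (ih a ha)
    · intro a b ha hb
      rw [map_add]
      exact Ideal.add_mem _ ha hb

omit [Algebra ℂ R] in
/-- Artin-Rees for a principal ideal. -/
theorem cb_artin [IsNoetherianRing R] {s : R} (hs : s ≠ 0) :
    ∃ c0 : ℕ, ∀ (N : ℕ) (w : R), s * w ∈ maximalIdeal R ^ (N + c0) → w ∈ maximalIdeal R ^ N := by
  obtain ⟨c0, hc⟩ := Ideal.exists_pow_inf_eq_pow_smul (M := R) (maximalIdeal R) (Ideal.span {s})
  refine ⟨c0, fun N w hw => ?_⟩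
  have h1 : s * w ∈ (maximalIdeal R ^ (N + c0) • (⊤ : Submodule R R)) ⊓ Ideal.span {s} := by
    refine ⟨?_, Ideal.mul_mem_right _ _ (Ideal.mem_span_singleton_self s)⟩
    rw [smul_eq_mul, Ideal.mul_top]
    exact hw
  rw [hc (N + c0) (Nat.le_add_left _ _), Nat.add_sub_cancel] at h1
  have h2 : maximalIdeal R ^ N • (maximalIdeal R ^ c0 • (⊤ : Submodule R R) ⊓ Ideal.span {s}) ≤
      maximalIdeal R ^ N * Ideal.span {s} := by
    rw [smul_eq_mul]
    exact Ideal.mul_mono_right inf_le_right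
  have h3 := h2 h1
  rw [mul_comm, Ideal.mem_span_singleton_mul] at h3
  obtain ⟨z, hz, hz2⟩ := h3
  have := mul_left_cancel₀ hs hz2
  rwa [← this]

omit [IsDomain R] [Algebra ℂ R] [Algebra ℂ K] [IsScalarTower ℂ R K] [IsFractionRing R K] in
/-- A valuation on the powers of the maximal ideal. -/
theorem cb_mu [IsNoetherianRing R] {v : Valuation K ℝ≥0}
    (hv : HasCenter R v (maximalIdeal R)) :
    ∃ μ : ℝ≥0, μ < 1 ∧ ∀ (N : ℕ) (f : R), f ∈ maximalIdeal R ^ N → v (algebraMap R K f) ≤ μ ^ N := by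
  obtain ⟨S, hS⟩ := (IsNoetherian.noetherian (maximalIdeal R) : (maximalIdeal R).FG)
  obtain ⟨μ, hμ1, hμ⟩ : ∃ μ : ℝ≥0, μ < 1 ∧ ∀ s ∈ S, v (algebraMap R K s) ≤ μ := by
    refine ⟨S.sup fun s => v (algebraMap R K s), ?_, fun s hs => Finset.le_sup (f := fun s => v (algebraMap R K s)) hs⟩
    rw [Finset.sup_lt_iff (by simp)]
    intro s hs
    rw [(hv s).2, ← hS]
    exact Submodule.subset_span hs
  refine ⟨μ, hμ1, ?_⟩
  have h1 : ∀ f ∈ maximalIdeal R, v (algebraMap R K f) ≤ μ := by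
    intro f hf
    rw [← hS] at hf
    refine Submodule.span_induction ?_ ?_ ?_ ?_ hf
    · intro x hx
      exact hμ x hx
    · simp
    · intro x y _ _ hx hy
      rw [map_add]
      exact (v.map_add _ _).trans (max_le hx hy)
    · intro a x _ hx
      rw [smul_eq_mul, map_mul, map_mul]
      exact (mul_le_mul' (hv a).1 hx).trans (by rw [one_mul])
  intro N
  induction N with
  | zero => intro f _; rw [pow_zero]; exact (hv f).1
  | succ N ih =>
    intro f hf
    rw [pow_succ] at hf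
    refine Submodule.mul_induction_on hf ?_ ?_
    · intro a ha b hb
      rw [map_mul, map_mul, pow_succ]
      exact mul_le_mul' (ih a ha) (h1 b hb)
    · intro a b ha hb
      rw [map_add]
      exact (v.map_add _ _).trans (max_le ha hb)

/-- Congruent matrices have congruent determinants. -/
theorem cb_det_congr {A : Type} [CommRing A] (I : Ideal A) {n : ℕ} {P P' : Matrix (Fin n) (Fin n) A}
    (h : ∀ i l, P i l - P' i l ∈ I) : P.det - P'.det ∈ I := by
  rw [← Ideal.Quotient.mk_eq_mk_iff_sub_mem, RingHom.map_det, RingHom.map_det]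
  congr 1
  ext i l
  exact (Ideal.Quotient.mk_eq_mk_iff_sub_mem _ _).2 (h i l)

/-- Congruent elements have congruent powers. -/
theorem cb_pow_congr {A : Type} [CommRing A] (I : Ideal A) {a b : A} (h : a - b ∈ I) (r : ℕ) :
    a ^ r - b ^ r ∈ I := by
  rw [← Ideal.Quotient.mk_eq_mk_iff_sub_mem] at h ⊢
  rw [map_pow, map_pow, h]

/-- Congruences and products. -/
theorem cb_mul_congr {A : Type} [CommRing A] (I : Ideal A) {a b c d : A} (h : a - b ∈ I)
    (h' : c - d ∈ I) : a * c - b * d ∈ I := by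
  rw [← Ideal.Quotient.mk_eq_mk_iff_sub_mem] at h h' ⊢
  rw [map_mul, map_mul, h, h']

/-- The two values of the form are proportional. -/
theorem cb_cross {A : Type} [CommRing A] (I : Ideal A) {n r M : ℕ} (hM : M = (n - 1) * r)
    {S q2 Δ X Y ja jb x y : A} (k l : ℕ)
    (h1 : S * ja - q2 * ((-1) ^ k * X ^ (n - 1) * Δ) ^ r ∈ I)
    (h2 : S * jb - q2 * ((-1) ^ l * Y ^ (n - 1) * Δ) ^ r ∈ I)
    (hx : x - X ∈ I) (hy : y - Y ∈ I) :
    S * (y ^ M * ((-1) ^ (k * r) * ja) - x ^ M * ((-1) ^ (l * r) * jb)) ∈ I := by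
  rw [← Ideal.Quotient.mk_eq_mk_iff_sub_mem] at h1 h2 hx hy
  rw [← Ideal.Quotient.eq_zero_iff_mem]
  have e1 : ∀ k : ℕ, ((-1 : A ⧸ I) ^ (k * r)) * ((-1) ^ (k * r)) = 1 := by
    intro k
    rw [← mul_pow, mul_neg, mul_one, neg_neg, one_pow]
  have e2 : ∀ (k : ℕ) (X D : A ⧸ I),
      (-1) ^ (k * r) * ((-1) ^ k * X ^ (n - 1) * D) ^ r = X ^ M * D ^ r := by
    intro k X D
    rw [mul_pow, mul_pow, ← pow_mul, ← pow_mul, ← mul_assoc, ← mul_assoc, e1, one_mul, hM]
  simp only [map_mul, map_pow, map_neg, map_one, map_sub, hx, hy] at h1 h2 ⊢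
  generalize Ideal.Quotient.mk I S = S at *
  generalize Ideal.Quotient.mk I X = X at *
  generalize Ideal.Quotient.mk I Y = Y at *
  generalize Ideal.Quotient.mk I Δ = D at *
  generalize Ideal.Quotient.mk I ja = ja at *
  generalize Ideal.Quotient.mk I jb = jb at *
  generalize Ideal.Quotient.mk I q2 = q2 at *
  calc S * (Y ^ M * ((-1) ^ (k * r) * ja) - X ^ M * ((-1) ^ (l * r) * jb)) =
      Y ^ M * ((-1) ^ (k * r) * (S * ja)) - X ^ M * ((-1) ^ (l * r) * (S * jb)) := by ring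
    _ = Y ^ M * (q2 * ((-1) ^ (k * r) * ((-1) ^ k * X ^ (n - 1) * D) ^ r)) -
        X ^ M * (q2 * ((-1) ^ (l * r) * ((-1) ^ l * Y ^ (n - 1) * D) ^ r)) := by
      rw [h1, h2]; ring
    _ = 0 := by rw [e2, e2]; ring

/-- Change of the coordinates in the relation. -/
theorem cb_change {A : Type} [CommRing A] (I : Ideal A) {M : ℕ} {t u X Y x y : A}
    (h : y ^ M * t - x ^ M * u ∈ I) (hx : x - X ∈ I) (hy : y - Y ∈ I) :
    Y ^ M * t - X ^ M * u ∈ I := by
  rw [← Ideal.Quotient.mk_eq_mk_iff_sub_mem] at h hx hy ⊢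
  rw [map_mul, map_mul, map_pow, map_pow] at h ⊢
  rwa [← hx, ← hy]

/-- Change of the coordinates in the quotient. -/
theorem cb_change2 {A : Type} [CommRing A] (I : Ideal A) {M : ℕ} {t s f X x : A}
    (h : t - X ^ M * s ∈ I) (hx : x - X ∈ I) (hf : s - f ∈ I) :
    t - x ^ M * f ∈ I := by
  rw [← Ideal.Quotient.mk_eq_mk_iff_sub_mem] at h hx hf ⊢
  rw [map_mul, map_pow] at h ⊢
  rwa [hx, ← hf]

omit [IsDomain R] [IsLocalRing R] [IsScalarTower ℂ R K] in
/-- The value of the form on approximate vector fields. -/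
theorem cb_val {ω : (Fin n → Derivation ℂ K K) → K} {j : R →ₐ[ℂ] Q n}
    {s2 q2 s : R} {p : Fin n → R} (hcl : ∀ D : Fin n → Derivation ℂ K K,
      algebraMap R K s2 * ω D = algebraMap R K q2 *
        Matrix.det (Matrix.of fun i j => algebraMap R K s * D i (algebraMap R K (p j)) -
          algebraMap R K (p j) * D i (algebraMap R K s)) ^ r)
    {D₀ : Fin n → Derivation ℂ (Q n) (Q n)} {δ : Q n}
    (hδ : Matrix.det (Matrix.of fun i l : Fin n =>
      j s * D₀ i (j (p l)) - j (p l) * D₀ i (j s)) = δ)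
    {N : ℕ} {D' : Fin n → Derivation ℂ R R} (hD' : ∀ i f, j (D' i f) - D₀ i (j f) ∈ qm n ^ N)
    {D'' : Fin n → Derivation ℂ K K}
    (hD'' : ∀ i f, D'' i (algebraMap R K f) = algebraMap R K (D' i f))
    {a : R} (ha : algebraMap R K a = ω D'') :
    j s2 * j a - j q2 * δ ^ r ∈ qm n ^ N := by
  have h1 : s2 * a = q2 * Matrix.det (Matrix.of fun i l => s * D' i (p l) - p l * D' i s) ^ r := by
    apply IsFractionRing.injective R K
    rw [map_mul, ha, hcl, map_mul, map_pow, RingHom.map_det]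
    congr 3
    ext i l
    simp [hD'']
  have h2 : j (Matrix.det (Matrix.of fun i l => s * D' i (p l) - p l * D' i s)) - δ ∈ qm n ^ N := by
    rw [← hδ, AlgHom.map_det]
    apply cb_det_congr
    intro i l
    have e1 : j.mapMatrix (Matrix.of fun i l => s * D' i (p l) - p l * D' i s) i l -
        (Matrix.of fun i l : Fin n => j s * D₀ i (j (p l)) - j (p l) * D₀ i (j s)) i l =
        j s * (j (D' i (p l)) - D₀ i (j (p l))) - j (p l) * (j (D' i s) - D₀ i (j s)) := by
      simp only [AlgHom.mapMatrix_apply, Matrix.map_apply, Matrix.of_apply, map_sub, map_mul]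
      ring
    rw [e1]
    exact Ideal.sub_mem _ (Ideal.mul_mem_left _ _ (hD' _ _)) (Ideal.mul_mem_left _ _ (hD' _ _))
  have h3 : j s2 * j a - j q2 * δ ^ r = j q2 * (j (Matrix.det (Matrix.of fun i l =>
      s * D' i (p l) - p l * D' i s)) ^ r - δ ^ r) := by
    rw [← map_mul, h1, map_mul, map_pow]
    ring
  rw [h3]
  exact Ideal.mul_mem_left _ _ (cb_pow_congr _ h2 r)

/-- The value of the form is divisible by a power of the first coordinate. -/
theorem cb_bound (hn : 2 ≤ n) {ω : (Fin n → Derivation ℂ K K) → K} (h : IsKltGerm R n r ω)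
    {j : R →ₐ[ℂ] Q n} (hj : IsJet j) {v : Valuation K ℝ≥0}
    (hv : HasCenter R v (maximalIdeal R))
    {DD : Fin (n + 1) → Fin (n + 1) → Derivation ℂ (Q n) (Q n)}
    (hDD : ∀ (s : Q n) (p : Fin n → Q n), ∃ Δ : Q n, ∀ k : Fin (n + 1),
      Matrix.det (Matrix.of fun i j : Fin n =>
        s * DD k (k.succAbove i) (p j) - p j * DD k (k.succAbove i) s) =
      (-1) ^ (k : ℕ) * qx n k ^ (n - 1) * Δ)
    (τ : Equiv.Perm (Fin (n + 1))) {c : ℝ≥0} (hc : 0 < c) :
    ∃ N₀ : ℕ, ∀ N, N₀ ≤ N → ∀ x : Fin (n + 1) → R, (∀ i, j (x i) - qx n (τ i) ∈ qm n ^ N) →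
      c ≤ v (algebraMap R K (x 0)) → ∀ D' : Fin n → Derivation ℂ R R,
      (∀ i f, j (D' i f) - DD (τ 0) ((τ 0).succAbove i) (j f) ∈ qm n ^ N) →
      ∀ D'' : Fin n → Derivation ℂ K K,
      (∀ i f, D'' i (algebraMap R K f) = algebraMap R K (D' i f)) →
      v (ω D'') ≤ v (algebraMap R K (x 0)) ^ ((n - 1) * r) := by
  have hess := h.essFiniteType
  have hnoeth : IsNoetherianRing R := Algebra.EssFiniteType.isNoetherianRing ℂ R
  obtain ⟨s2, q2, s, p, hs2, hcl⟩ := cb_clear (R := R) h.form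
  obtain ⟨Δ, hΔ⟩ := hDD (j s) (fun i => j (p i))
  obtain ⟨c0, hc0⟩ := cb_artin hs2
  obtain ⟨μ, hμ1, hμ⟩ := cb_mu hv
  obtain ⟨M, hM⟩ : ∃ M, M = (n - 1) * r := ⟨_, rfl⟩
  rw [← hM]
  obtain ⟨N1, hN1⟩ := exists_pow_lt_of_lt_one (pow_pos hc M) hμ1
  refine ⟨N1 + M + c0, fun N hN x hx hcx D' hD' D'' hD'' => ?_⟩
  have hle : qm n ^ N ≤ qm n ^ (N1 + M + c0) := Ideal.pow_le_pow_right hN
  obtain ⟨m, hm⟩ : ∃ m : Fin (n + 1), m ≠ 0 := ⟨⟨1, by omega⟩, by simp [Fin.ext_iff]⟩
  -- the vector fields for the second coordinate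
  choose E' hE' using fun i : Fin n =>
    approx_der h.essFiniteType hj (DD (τ m) ((τ m).succAbove i)) (N1 + M + c0)
  choose E'' hE'' using fun i : Fin n => exists_ext_der (K := K) (E' i)
  obtain ⟨a, ha⟩ := form_mem (by omega) h (D := D'') (fun i f => ⟨D' i f, (hD'' i f).symm⟩)
  obtain ⟨b, hb⟩ := form_mem (by omega) h (D := E'') (fun i f => ⟨E' i f, (hE'' i f).symm⟩)
  have h1 := cb_val hcl (hΔ (τ 0)) (fun i f => hle (hD' i f)) hD'' ha
  have h2 := cb_val hcl (hΔ (τ m)) hE' hE'' hb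
  obtain ⟨t, ht⟩ : ∃ t : R, t = (-1) ^ ((τ 0 : ℕ) * r) * a := ⟨_, rfl⟩
  obtain ⟨u, hu⟩ : ∃ u : R, u = (-1) ^ ((τ m : ℕ) * r) * b := ⟨_, rfl⟩
  have h3 : s2 * (x m ^ M * t - x 0 ^ M * u) ∈ maximalIdeal R ^ (N1 + M + c0) := by
    have e1 := cb_cross _ hM _ _ h1 h2 (hle (hx 0)) (hle (hx m))
    rw [← hj.mem, ht, hu]
    simpa only [map_mul, map_sub, map_pow, map_neg, map_one] using e1
  have h4 := hc0 _ _ h3
  rw [← hj.mem] at h4
  have h5 : qx n (τ m) ^ M * j t - qx n (τ 0) ^ M * j u ∈ qm n ^ (N1 + M) := by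
    have hle2 : qm n ^ N ≤ qm n ^ (N1 + M) := Ideal.pow_le_pow_right (by omega)
    rw [map_sub, map_mul, map_mul, map_pow, map_pow] at h4
    exact cb_change _ h4 (hle2 (hx 0)) (hle2 (hx m))
  obtain ⟨s', hs'⟩ := qreg hn (fun h => hm (τ.injective h).symm) M N1 h5
  obtain ⟨f, hf⟩ := hj.dense N1 s'
  have h6 : t - x 0 ^ M * f ∈ maximalIdeal R ^ N1 := by
    have hle2 : qm n ^ N ≤ qm n ^ N1 := Ideal.pow_le_pow_right (by omega)
    rw [← hj.mem, map_sub, map_mul, map_pow]
    exact cb_change2 _ hs' (hle2 (hx 0)) hf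
  have h7 : v (algebraMap R K t) ≤ v (algebraMap R K (x 0)) ^ M := by
    have e1 : algebraMap R K t = algebraMap R K (t - x 0 ^ M * f) +
        algebraMap R K (x 0) ^ M * algebraMap R K f := by
      rw [map_sub, map_mul, map_pow]; ring
    rw [e1]
    refine (v.map_add _ _).trans (max_le ?_ ?_)
    · exact (hμ _ _ h6).trans (hN1.le.trans (pow_le_pow_left' hcx _))
    · rw [map_mul, map_pow]
      exact (mul_le_mul' le_rfl (hv f).1).trans (by rw [mul_one])
  have h8 : v (algebraMap R K t) = v (ω D'') := by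
    rw [← ha, ht, map_mul, map_mul, map_pow, map_neg, map_one, map_pow, Valuation.map_neg,
      map_one, one_pow, one_mul]
  rwa [h8] at h7

omit [IsDomain R] in
/-- The determinant of the derivatives of the coordinates. -/
theorem cb_detx {j : R →ₐ[ℂ] Q n} (hj : IsJet j)
    {DD : Fin (n + 1) → Fin (n + 1) → Derivation ℂ (Q n) (Q n)}
    (hDD : ∀ k i l, DD k i (qx n l) = (if i = l then qx n k else 0) -
      (if k = l then qx n i else 0))
    (τ : Equiv.Perm (Fin (n + 1))) {N : ℕ} {x : Fin (n + 1) → R}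
    (hx : ∀ i, j (x i) - qx n (τ i) ∈ qm n ^ (N + 1)) {D' : Fin n → Derivation ℂ R R}
    (hD' : ∀ i f, j (D' i f) - DD (τ 0) ((τ 0).succAbove i) (j f) ∈ qm n ^ (N + 1)) :
    ∃ e : ℤˣ, Matrix.det (Matrix.of fun i m : Fin n => D' i (x m.succ)) -
      ((e : ℤ) : R) * x 0 ^ n ∈ maximalIdeal R ^ N := by
  have h1 : ∀ m : Fin n, ∃ i : Fin n, (τ 0).succAbove i = τ m.succ := fun m =>
    Fin.exists_succAbove_eq (fun h => Fin.succ_ne_zero m (τ.injective h))
  choose σ₀ hσ₀ using h1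
  have hinj : Function.Injective σ₀ := by
    intro a b hab
    have : τ a.succ = τ b.succ := by rw [← hσ₀, ← hσ₀, hab]
    exact Fin.succ_injective _ (τ.injective this)
  obtain ⟨σ, hσ⟩ : ∃ σ : Equiv.Perm (Fin n), ∀ m, (τ 0).succAbove (σ m) = τ m.succ :=
    ⟨Equiv.ofBijective σ₀ (Finite.injective_iff_bijective.1 hinj), hσ₀⟩
  have hle : qm n ^ (N + 1) ≤ qm n ^ N := Ideal.pow_le_pow_right (Nat.le_succ N)
  have h2 : ∀ i m : Fin n, j (D' (σ i) (x m.succ)) -
      (Matrix.diagonal (fun _ : Fin n => qx n (τ 0))) i m ∈ qm n ^ N := by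
    intro i m
    have e1 : DD (τ 0) (τ i.succ) (qx n (τ m.succ)) =
        (Matrix.diagonal (fun _ : Fin n => qx n (τ 0))) i m := by
      rw [hDD, if_neg (fun h => Fin.succ_ne_zero m (τ.injective h).symm), sub_zero,
        Matrix.diagonal_apply]
      by_cases him : i = m
      · rw [if_pos him, if_pos (by rw [him])]
      · rw [if_neg him, if_neg fun h => him (Fin.succ_injective _ (τ.injective h))]
    have e2 : j (D' (σ i) (x m.succ)) - DD (τ 0) (τ i.succ) (j (x m.succ)) ∈ qm n ^ N := by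
      rw [← hσ]
      exact hle (hD' _ _)
    have e3 := cb_der_pow (qm n) (DD (τ 0) (τ i.succ)) N _ (hx m.succ)
    rw [map_sub, e1] at e3
    have e4 := Ideal.add_mem _ e2 e3
    rwa [sub_add_sub_cancel] at e4
  have h3 := cb_det_congr (qm n ^ N) (P := j.mapMatrix
    ((Matrix.of fun i m : Fin n => D' i (x m.succ)).submatrix σ id))
    (P' := Matrix.diagonal (fun _ : Fin n => qx n (τ 0))) h2
  rw [← AlgHom.map_det, Matrix.det_diagonal, Finset.prod_const, Finset.card_univ,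
    Fintype.card_fin, Matrix.det_permute] at h3
  have h4 := cb_pow_congr (qm n ^ N) (hle (hx 0)) n
  have h5 := Ideal.sub_mem _ h3 h4
  rw [sub_sub_sub_cancel_right, ← map_pow, ← map_sub, hj.mem] at h5
  refine ⟨Equiv.Perm.sign σ, ?_⟩
  have h6 := Ideal.mul_mem_left _ (((Equiv.Perm.sign σ : ℤˣ) : ℤ) : R) h5
  have h7 : (((Equiv.Perm.sign σ : ℤˣ) : ℤ) : R) * (((Equiv.Perm.sign σ : ℤˣ) : ℤ) : R) = 1 := by
    rw [← Int.cast_mul, ← Units.val_mul, Int.units_mul_self]
    simp
  rw [mul_sub, ← mul_assoc, h7, one_mul] at h6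
  exact h6

/-- The canonical form in the coordinates of the quadric cone. -/
theorem canon_ineq (hn : 2 ≤ n) {ω : (Fin n → Derivation ℂ K K) → K} (h : IsKltGerm R n r ω)
    {j : R →ₐ[ℂ] Q n} (hj : IsJet j) {v : Valuation K ℝ≥0}
    (hv : HasCenter R v (maximalIdeal R)) {L : Fin n → Derivation ℂ K K} {b : Fin n → K} {g : K}
    (hb : ∀ i, b i ≠ 0)
    (hω : ∀ D : Fin n → Derivation ℂ K K,
      (∏ i, b i) ^ r * ω D = g * Matrix.det (Matrix.of fun i j => D i (b j)) ^ r)
    (hspan : ∀ (D : Derivation ℂ K K) (f : K), D f = ∑ i, D (b i) / b i * L i f)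
    (τ : Equiv.Perm (Fin (n + 1))) {c : ℝ} (hc : 0 < c) :
    ∃ N₀ : ℕ, ∀ N, N₀ ≤ N → ∀ x : Fin (n + 1) → R, (∀ i, j (x i) - qx n (τ i) ∈ qm n ^ N) →
      c ≤ (v (algebraMap R K (x 0)) : ℝ) →
      (v (algebraMap R K (x 0)) : ℝ) ^ r * v g ≤
        (v (Matrix.det (Matrix.of fun i k : Fin n => L i (algebraMap R K (x k.succ)))) : ℝ) ^ r :=
  by
  have hess := h.essFiniteType
  have hnoeth : IsNoetherianRing R := Algebra.EssFiniteType.isNoetherianRing ℂ R
  obtain ⟨c', hc'0, hc'⟩ : ∃ c' : ℝ≥0, 0 < c' ∧ (c' : ℝ) = c := ⟨⟨c, hc.le⟩, hc, rfl⟩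
  obtain ⟨DD, hDD1, hDD2⟩ := exists_qder n
  obtain ⟨N₁, hN₁⟩ := cb_bound hn h hj hv hDD2 τ hc'0
  obtain ⟨μ, hμ1, hμ⟩ := cb_mu hv
  obtain ⟨N₂, hN₂⟩ := exists_pow_lt_of_lt_one (pow_pos hc'0 n) hμ1
  refine ⟨max N₁ (N₂ + 1), fun N hN x hx hcx => ?_⟩
  rw [← hc', NNReal.coe_le_coe] at hcx
  choose D' hD' using fun i : Fin n =>
    approx_der h.essFiniteType hj (DD (τ 0) ((τ 0).succAbove i)) N
  choose D'' hD'' using fun i : Fin n => exists_ext_der (K := K) (D' i)
  have h1 := hN₁ N ((le_max_left _ _).trans hN) x hx hcx D' hD' D'' hD''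
  have hle : qm n ^ N ≤ qm n ^ (N₂ + 1) := Ideal.pow_le_pow_right ((le_max_right _ _).trans hN)
  obtain ⟨e, he⟩ := cb_detx hj hDD1 τ (fun i => hle (hx i)) (fun i f => hle (hD' i f))
  obtain ⟨y, hy⟩ : ∃ y, y = v (algebraMap R K (x 0)) := ⟨_, rfl⟩
  rw [← hy] at h1 hcx ⊢
  -- the determinant of the derivatives
  have h2 : v (algebraMap R K (Matrix.det (Matrix.of fun i m : Fin n => D' i (x m.succ)))) =
      y ^ n := by
    have e1 := hμ _ _ he
    have e2 : v (algebraMap R K (((e : ℤ) : R) * x 0 ^ n)) = y ^ n := by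
      rw [map_mul, map_mul, map_pow, map_pow, ← hy]
      rcases Int.units_eq_one_or e with rfl | rfl
      · simp
      · simp
    have e3 : v (algebraMap R K (Matrix.det (Matrix.of fun i m : Fin n => D' i (x m.succ)) -
        ((e : ℤ) : R) * x 0 ^ n)) < v (algebraMap R K (((e : ℤ) : R) * x 0 ^ n)) := by
      rw [e2]
      exact e1.trans_lt (hN₂.trans_le (pow_le_pow_left' hcx _))
    rw [← e2]
    rw [map_sub] at e3
    exact Valuation.map_eq_of_sub_lt v e3
  obtain ⟨C, hC⟩ : ∃ C : Matrix (Fin n) (Fin n) K, C = Matrix.of fun i l => D'' i (b l) / b l :=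
    ⟨_, rfl⟩
  have h3 : algebraMap R K (Matrix.det (Matrix.of fun i m : Fin n => D' i (x m.succ))) =
      C.det * Matrix.det (Matrix.of fun i k : Fin n => L i (algebraMap R K (x k.succ))) := by
    rw [RingHom.map_det, ← Matrix.det_mul]
    congr 1
    ext i m
    rw [Matrix.mul_apply, RingHom.mapMatrix_apply, Matrix.map_apply, Matrix.of_apply, ← hD'',
      hspan (D'' i)]
    simp [hC]
  have h4 : ω D'' = g * C.det ^ r := by
    have hprod : (∏ i, b i) ≠ 0 := Finset.prod_ne_zero_iff.2 fun i _ => hb i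
    have e1 : Matrix.det (Matrix.of fun i l => D'' i (b l)) = C.det * ∏ i, b i := by
      rw [mul_comm, ← Matrix.det_mul_row]
      congr 1
      ext i l
      rw [Matrix.of_apply, Matrix.of_apply, hC, Matrix.of_apply, mul_div_cancel₀ _ (hb l)]
    have e2 := hω D''
    rw [e1, mul_pow] at e2
    have e3 : (∏ i, b i) ^ r * ω D'' = (∏ i, b i) ^ r * (g * C.det ^ r) := by
      rw [e2]; ring
    exact mul_left_cancel₀ (pow_ne_zero _ hprod) e3
  rw [h4, map_mul, map_pow] at h1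
  rw [h3, map_mul] at h2
  have hy0 : 0 < y := hc'0.trans_le hcx
  have hC0 : 0 < v C.det := by
    rw [pos_iff_ne_zero]
    intro h0
    rw [h0, zero_mul] at h2
    exact (pow_pos hy0 n).ne h2
  rw [← NNReal.coe_pow, ← NNReal.coe_pow, ← NNReal.coe_mul, NNReal.coe_le_coe]
  refine le_of_mul_le_mul_left ?_ (pow_pos hC0 r)
  calc v C.det ^ r * (y ^ r * v g) = y ^ r * (v g * v C.det ^ r) := by ring
    _ ≤ y ^ r * y ^ ((n - 1) * r) := mul_le_mul' le_rfl h1
    _ = (y ^ n) ^ r := by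
      rw [← pow_add, ← pow_mul]
      congr 1
      obtain ⟨k, rfl⟩ : ∃ k, n = k + 1 := ⟨n - 1, by omega⟩
      rw [Nat.add_sub_cancel]
      ring
    _ = v C.det ^ r * v (Matrix.det (Matrix.of fun i k : Fin n =>
        L i (algebraMap R K (x k.succ)))) ^ r := by rw [← h2, mul_pow]

end Vale.Agent.P282.Full
end

section

/-!
P282, converse: the set-up for the main inequality.
-/

open scoped NNReal ENNReal Nat
open IsLocalRing

namespace Vale.Agent.P282.Full

open Vale.Agent.P282.CV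

/-- products are continuous for a nonarchimedean valuation -/
theorem cvSe_prod {F ι : Type} [Field F] (w : Valuation F ℝ≥0) {M δ : ℝ≥0} (hM : 1 ≤ M)
    (s : Finset ι) (a b : ι → F) (ha : ∀ i, w (a i) ≤ M) (hb : ∀ i, w (b i) ≤ M)
    (hab : ∀ i, w (a i - b i) ≤ δ) :
    w (∏ i ∈ s, a i) ≤ M ^ s.card ∧ w (∏ i ∈ s, b i) ≤ M ^ s.card ∧
      w (∏ i ∈ s, a i - ∏ i ∈ s, b i) ≤ δ * M ^ s.card := by
  classical
  induction s using Finset.induction_on with
  | empty => simp
  | insert i s hi ih =>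
    obtain ⟨h1, h2, h3⟩ := ih
    rw [Finset.prod_insert hi, Finset.prod_insert hi, Finset.card_insert_of_notMem hi]
    refine ⟨?_, ?_, ?_⟩
    · rw [map_mul, pow_succ']
      exact mul_le_mul' (ha i) h1
    · rw [map_mul, pow_succ']
      exact mul_le_mul' (hb i) h2
    · have e : a i * ∏ i ∈ s, a i - b i * ∏ i ∈ s, b i =
          a i * (∏ i ∈ s, a i - ∏ i ∈ s, b i) + (a i - b i) * ∏ i ∈ s, b i := by ring
      rw [e]
      refine (w.map_add _ _).trans (max_le ?_ ?_)
      · rw [map_mul]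
        calc w (a i) * w (∏ i ∈ s, a i - ∏ i ∈ s, b i) ≤ M * (δ * M ^ s.card) :=
              mul_le_mul' (ha i) h3
          _ = δ * M ^ (s.card + 1) := by rw [pow_succ]; ring
      · rw [map_mul]
        calc w (a i - b i) * w (∏ i ∈ s, b i) ≤ δ * M ^ s.card := mul_le_mul' (hab i) h2
          _ ≤ δ * M ^ (s.card + 1) := by
              gcongr
              exact Nat.le_succ _

/-- determinants are continuous for a nonarchimedean valuation -/
theorem cvSe_det {F : Type} [Field F] (w : Valuation F ℝ≥0) {M δ : ℝ≥0} (hM : 1 ≤ M) {n : ℕ}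
    (A B : Matrix (Fin n) (Fin n) F) (hA : ∀ i j, w (A i j) ≤ M) (hB : ∀ i j, w (B i j) ≤ M)
    (hAB : ∀ i j, w (A i j - B i j) ≤ δ) : w (A.det - B.det) ≤ δ * M ^ n := by
  rw [Matrix.det_apply, Matrix.det_apply, ← Finset.sum_sub_distrib]
  refine w.map_sum_le fun σ _ => ?_
  rw [← smul_sub]
  have h1 := (cvSe_prod w hM Finset.univ (fun i => A (σ i) i) (fun i => B (σ i) i)
    (fun i => hA _ _) (fun i => hB _ _) (fun i => hAB _ _)).2.2
  rw [Finset.card_univ, Fintype.card_fin] at h1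
  rcases Int.units_eq_one_or (Equiv.Perm.sign σ) with h | h
  · rw [h, one_smul]; exact h1
  · rw [h, Units.neg_smul, one_smul, Valuation.map_neg]; exact h1

/-- The set-up for the main inequality. -/
theorem cv_setup {n r : ℕ} (hn : 2 ≤ n) {R K : Type} [CommRing R] [IsDomain R] [IsLocalRing R]
    [Algebra ℂ R] [Field K] [Algebra ℂ K] [Algebra R K] [IsScalarTower ℂ R K] [IsFractionRing R K]
    {ω : (Fin n → Derivation ℂ K K) → K} (h : IsKltGerm R n r ω) (hodp : IsODP R n)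
    {v : Valuation K ℝ≥0} (hv : HasCenter R v (maximalIdeal R)) {a : ℝ}
    (ha : IsLogDiscrepancy n r ω v a) {ε : ℝ} (hε : 0 < ε) :
    ∃ (F : Type) (_ : Field F) (_ : Algebra ℂ F) (w : Valuation F ℝ≥0) (ι : K →ₐ[ℂ] F)
      (L : Fin n → Derivation ℂ F F) (x : Fin (n + 1) → F) (h₀ : F),
      (∀ f, w (ι f) = v f) ∧ (∀ c : ℂ, c ≠ 0 → w (algebraMap ℂ F c) = 1) ∧
      (∀ (i : Fin n) (f : F), (w (L i f) : ℝ) ≤ Real.exp ε * w f) ∧
      ∑ i, x i ^ 2 = 0 ∧ x 0 ≠ 0 ∧ (∀ i, w (x i) ≤ w (x 0)) ∧ w (x 0) < 1 ∧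
      Matrix.det (Matrix.of fun i k : Fin n => L i (x k.succ)) = 2 * x 0 * h₀ ∧
      Real.exp (-a) ≤ (w h₀ : ℝ) ∧
      ∀ N : ℕ, ∃ x₁ : Fin (n + 1) → R, (∀ i, x₁ i ∈ maximalIdeal R) ∧
        ∑ i, x₁ i ^ 2 ∈ maximalIdeal R ^ N ∧
        ∀ i, w (x i - ι (algebraMap R K (x₁ i))) ≤ w (x 0) ^ N := by
  classical
  have hessR := h.essFiniteType
  have hnR : IsNoetherianRing R := Algebra.EssFiniteType.isNoetherianRing ℂ R
  have hessK : Algebra.EssFiniteType ℂ K := by
    have : Algebra.EssFiniteType R K :=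
      Algebra.EssFiniteType.of_isLocalization K (nonZeroDivisors R)
    exact Algebra.EssFiniteType.comp ℂ R K
  have hdimK : Algebra.trdeg ℂ K = n := by
    have hinj : Function.Injective (algebraMap R K) := IsFractionRing.injective R K
    have hfs : FaithfulSMul R K := (faithfulSMul_iff_algebraMap_injective R K).mpr hinj
    have hfs' : FaithfulSMul ℂ R := (faithfulSMul_iff_algebraMap_injective ℂ R).mpr
      (algebraMap ℂ R).injective
    have halg : Algebra.IsAlgebraic R K := IsLocalization.isAlgebraic K (nonZeroDivisors R)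
    have h2 := trdeg_add_eq ℂ R (A := K)
    have h3 : Algebra.trdeg R K = 0 := trdeg_eq_zero
    rw [h3, add_zero] at h2
    rw [← h2, h.dim]
  have hm : maximalIdeal R ≠ ⊥ := by
    intro h0
    have hsurj : ∀ f : R, ∃ c : ℂ, algebraMap ℂ R c = f := by
      intro f
      obtain ⟨c, hc⟩ := h.residue (residue R f)
      refine ⟨c, ?_⟩
      have h1 : residue R (algebraMap ℂ R c - f) = 0 := by
        rw [map_sub, sub_eq_zero, ← hc]
        rfl
      rw [residue_eq_zero_iff, h0, Ideal.mem_bot] at h1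
      exact sub_eq_zero.1 h1
    have halg : Algebra.IsAlgebraic ℂ R := by
      refine ⟨fun f => ?_⟩
      obtain ⟨c, rfl⟩ := hsurj f
      exact isAlgebraic_algebraMap c
    have h2 : Algebra.trdeg ℂ R = 0 := trdeg_eq_zero
    rw [h.dim] at h2
    have h3 : n = 0 := by exact_mod_cast h2
    omega
  obtain ⟨j, hj⟩ := exists_jet hodp
  obtain ⟨F, iF, iA, w, ι, hc⟩ := exists_comp v
  obtain ⟨τ, x, hq, hx0, hxle, hx1, -, happ⟩ := exists_pt hj hm hv hc
  obtain ⟨L, b, g, hb, hg0, hLb, hω, hg, hL, hspan⟩ :=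
    exists_frame hdimK hessK h.index_pos h.form ha hε
  choose L' hLι hL' using fun i => hc.extend (L i) (hL i)
  have hwC : ∀ c : ℂ, c ≠ 0 → w (algebraMap ℂ F c) = 1 := by
    have h1 : ∀ c : ℂ, w (algebraMap ℂ F c) ≤ 1 := by
      intro c
      rw [← ι.commutes, hc.val, IsScalarTower.algebraMap_apply ℂ R K]
      exact (hv _).1
    intro c hc0
    refine le_antisymm (h1 c) ?_
    have h2 : w (algebraMap ℂ F c) * w (algebraMap ℂ F c⁻¹) = 1 := by
      rw [← map_mul, ← map_mul, mul_inv_cancel₀ hc0, map_one, map_one]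
    calc (1 : ℝ≥0) = w (algebraMap ℂ F c) * w (algebraMap ℂ F c⁻¹) := h2.symm
      _ ≤ w (algebraMap ℂ F c) * 1 := mul_le_mul_right (h1 _) _
      _ = w (algebraMap ℂ F c) := mul_one _
  have hwx : 0 < w (x 0) := by
    rw [pos_iff_ne_zero]
    exact (Valuation.ne_zero_iff w).2 hx0
  have hw2 : w (2 : F) = 1 := by
    have h1 := hwC 2 two_ne_zero
    rwa [map_ofNat] at h1
  have h2ne : (2 : F) ≠ 0 := by
    intro h0
    rw [h0, map_zero] at hw2
    exact zero_ne_one hw2
  set D : F := Matrix.det (Matrix.of fun i k : Fin n => L' i (x k.succ)) with hD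
  refine ⟨F, iF, iA, w, ι, L', x, D / (2 * x 0), hc.val, hwC, hL', hq, hx0, hxle, hx1, ?_, ?_, ?_⟩
  · rw [mul_div_cancel₀]
    exact mul_ne_zero h2ne hx0
  · -- the main estimate
    obtain ⟨N₀, hN₀⟩ := canon_ineq hn h hj hv hb hω hspan τ (c := (w (x 0) : ℝ))
      (by exact_mod_cast hwx)
    set M : ℝ≥0 := ⟨Real.exp ε, (Real.exp_pos ε).le⟩ with hMdef
    have hM1 : 1 ≤ M := by
      rw [← NNReal.coe_le_coe]
      show (1 : ℝ) ≤ Real.exp ε
      exact Real.one_le_exp hε.le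
    have hL'' : ∀ i f, w (L' i f) ≤ M * w f := by
      intro i f
      rw [← NNReal.coe_le_coe, NNReal.coe_mul]
      exact hL' i f
    set θ : ℝ := w (x 0) * Real.exp (-a) with hθ
    have hθ0 : 0 < θ := mul_pos (by exact_mod_cast hwx) (Real.exp_pos _)
    have hMpos : (0 : ℝ) < (M : ℝ) ^ (n + 1) := by
      have : (0 : ℝ) < M := Real.exp_pos ε
      positivity
    obtain ⟨N₁, hN₁⟩ := exists_pow_lt_of_lt_one (div_pos hθ0 hMpos)
      (show ((w (x 0) : ℝ≥0) : ℝ) < 1 by exact_mod_cast hx1)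
    set N := max (max N₀ 2) N₁ with hN
    have hNN₀ : N₀ ≤ N := (le_max_left _ _).trans (le_max_left _ _)
    have hN2 : 2 ≤ N := (le_max_right _ _).trans (le_max_left _ _)
    have hNN₁ : N₁ ≤ N := le_max_right _ _
    obtain ⟨x₁, hx₁m, hx₁j, hx₁q, hx₁⟩ := happ N
    -- the valuation of the approximation
    have hvx : v (algebraMap R K (x₁ 0)) = w (x 0) := by
      rw [← hc.val]
      have h1 : w (x 0 - ι (algebraMap R K (x₁ 0))) < w (x 0) := by
        refine lt_of_le_of_lt (hx₁ 0) ?_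
        calc w (x 0) ^ N ≤ w (x 0) ^ 2 := pow_le_pow_of_le_one bot_le hx1.le hN2
          _ = w (x 0) * w (x 0) := sq _
          _ < w (x 0) * 1 := mul_lt_mul_of_pos_left hx1 hwx
          _ = w (x 0) := mul_one _
      have h2 := w.map_sub_eq_of_lt_right h1
      have e : x 0 - ι (algebraMap R K (x₁ 0)) - x 0 = -ι (algebraMap R K (x₁ 0)) := by ring
      rwa [e, Valuation.map_neg] at h2
    have hcan := hN₀ N hNN₀ x₁ hx₁j (by rw [hvx])
    set DK : K := Matrix.det (Matrix.of fun i k : Fin n => L i (algebraMap R K (x₁ k.succ)))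
      with hDK
    have hιD : ι DK = Matrix.det (Matrix.of fun i k : Fin n =>
        L' i (ι (algebraMap R K (x₁ k.succ)))) := by
      rw [hDK, AlgHom.map_det]
      congr 1
      ext i k
      exact (hLι i _).symm
    have hDKge : θ ≤ (w (ι DK) : ℝ) := by
      rw [hc.val]
      have h1 : θ ^ r ≤ ((v DK : ℝ≥0) : ℝ) ^ r := by
        refine le_trans ?_ hcan
        rw [hvx, hθ, mul_pow]
        refine mul_le_mul_of_nonneg_left ?_ (by positivity)
        refine le_trans (le_of_eq ?_) hg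
        rw [← Real.exp_nat_mul]
        congr 1
        ring
      exact le_of_pow_le_pow_left₀ h.index_pos.ne' (NNReal.coe_nonneg _) h1
    have hdiff : w (D - ι DK) ≤ (M * w (x 0) ^ N) * M ^ n := by
      rw [hιD, hD]
      refine cvSe_det w hM1 _ _ (fun i k => ?_) (fun i k => ?_) (fun i k => ?_)
      · refine (hL'' i _).trans ?_
        calc M * w (x k.succ) ≤ M * 1 :=
              mul_le_mul_right ((hxle _).trans hx1.le) _
          _ = M := mul_one _
      · refine (hL'' i _).trans ?_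
        rw [hc.val]
        calc M * v (algebraMap R K (x₁ k.succ)) ≤ M * 1 := mul_le_mul_right (hv _).1 _
          _ = M := mul_one _
      · show w (L' i (x k.succ) - L' i (ι (algebraMap R K (x₁ k.succ)))) ≤ _
        rw [← map_sub]
        exact (hL'' i _).trans (mul_le_mul_right (hx₁ _) _)
    have hlt : w (D - ι DK) < w (ι DK) := by
      rw [← NNReal.coe_lt_coe]
      refine lt_of_lt_of_le ?_ hDKge
      have h1 : ((w (D - ι DK) : ℝ≥0) : ℝ) ≤ (M * w (x 0) ^ N) * M ^ n := by exact_mod_cast hdiff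
      have h2 : ((w (x 0) : ℝ≥0) : ℝ) ^ N ≤ (w (x 0) : ℝ) ^ N₁ :=
        pow_le_pow_of_le_one (NNReal.coe_nonneg _) (by exact_mod_cast hx1.le) hNN₁
      calc ((w (D - ι DK) : ℝ≥0) : ℝ) ≤ (M * w (x 0) ^ N) * M ^ n := h1
        _ = (w (x 0) : ℝ) ^ N * (M : ℝ) ^ (n + 1) := by ring
        _ ≤ (w (x 0) : ℝ) ^ N₁ * (M : ℝ) ^ (n + 1) := mul_le_mul_of_nonneg_right h2 hMpos.le
        _ < θ := by
            rw [lt_div_iff₀ hMpos] at hN₁
            exact hN₁
    have hDeq : w D = w (ι DK) := by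
      have h1 := w.map_add_eq_of_lt_right hlt
      rwa [sub_add_cancel] at h1
    rw [map_div₀, map_mul, hw2, one_mul, hDeq, NNReal.coe_div,
      le_div_iff₀ (show (0 : ℝ) < ((w (x 0) : ℝ≥0) : ℝ) by exact_mod_cast hwx)]
    rw [hθ] at hDKge
    linarith only [hDKge]
  · intro N
    obtain ⟨x₁, h1, -, h2, h3⟩ := happ N
    exact ⟨x₁, h1, h2, h3⟩

end Vale.Agent.P282.Full
end

section

/-!
P282, converse: asymptotics of graded families of semigroup ideals.
-/

open Filter Topology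

namespace Vale.Agent.P282.CV

open MeasureTheory

theorem monLim_volume_cell {d : ℕ} {t : ℕ} (ht : 0 < t) (z : Fin d → ℤ) :
    volume {x : Fin d → ℝ | (fun i => ⌊(t : ℝ) * x i⌋) = z} = ENNReal.ofReal ((t : ℝ)⁻¹ ^ d) ∧
      MeasurableSet {x : Fin d → ℝ | (fun i => ⌊(t : ℝ) * x i⌋) = z} := by
  have ht' : (0 : ℝ) < t := by exact_mod_cast ht
  have h1 : {x : Fin d → ℝ | (fun i => ⌊(t : ℝ) * x i⌋) = z} =
      Set.pi Set.univ (fun i => Set.Ico ((z i : ℝ) / t) (((z i : ℝ) + 1) / t)) := by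
    ext x
    simp only [Set.mem_ofPred_eq, funext_iff, Set.mem_pi, Set.mem_univ, forall_true_left,
      Set.mem_Ico, Int.floor_eq_iff]
    refine forall_congr' fun i => ?_
    rw [div_le_iff₀ ht', lt_div_iff₀ ht', mul_comm (x i)]
  rw [h1]
  constructor
  · rw [Real.volume_pi_Ico]
    have h2 : ∀ i : Fin d, ENNReal.ofReal (((z i : ℝ) + 1) / t - (z i : ℝ) / t) =
        ENNReal.ofReal ((t : ℝ)⁻¹) := by
      intro i
      congr 1
      rw [← sub_div, add_sub_cancel_left, one_div]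
    rw [Finset.prod_congr rfl fun i _ => h2 i, Finset.prod_const, Finset.card_univ,
      Fintype.card_fin, ENNReal.ofReal_pow (by positivity)]
  · exact MeasurableSet.univ_pi fun i => measurableSet_Ico

/-- The finite set of the complement. -/
theorem monLim_finite {d : ℕ} {C : Set (Fin d → ℝ)} {S : ℕ → Set (Fin d → ℤ)} {c : ℕ}
    (hS : IsGraded C S c) (t : ℕ) : {z : Fin d → ℤ | toR z ∈ C ∧ z ∉ S t}.Finite := by
  refine Set.Finite.subset
    (Set.Finite.pi' (t := fun _ : Fin d => Set.Icc (-((c * (t + 1) : ℕ) : ℤ)) ((c * (t + 1) : ℕ) : ℤ))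
      fun i => Set.finite_Icc _ _) ?_
  rintro z ⟨h1, h2⟩ i
  have h3 := hS.lin t z h1 h2 i
  have h4 := abs_le.1 h3
  constructor
  · push_cast
    exact h4.1
  · push_cast
    exact h4.2

/-- The region. -/
def monLimA {d : ℕ} (C : Set (Fin d → ℝ)) (S : ℕ → Set (Fin d → ℤ)) (t : ℕ) :
    Set (Fin d → ℝ) :=
  {x | toR (fun i => ⌊(t : ℝ) * x i⌋) ∈ C ∧ (fun i => ⌊(t : ℝ) * x i⌋) ∉ S t}

theorem monLim_A_eq {d : ℕ} {C : Set (Fin d → ℝ)} {S : ℕ → Set (Fin d → ℤ)} {c : ℕ}
    (hS : IsGraded C S c) (t : ℕ) : monLimA C S t =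
      ⋃ z ∈ (monLim_finite hS t).toFinset, {x : Fin d → ℝ | (fun i => ⌊(t : ℝ) * x i⌋) = z} := by
  ext x
  simp only [monLimA, Set.mem_ofPred_eq, Set.mem_iUnion, Set.Finite.mem_toFinset, exists_prop,
    exists_eq_right']

theorem monLim_measurable {d : ℕ} {C : Set (Fin d → ℝ)} {S : ℕ → Set (Fin d → ℤ)} {c : ℕ}
    (hS : IsGraded C S c) {t : ℕ} (ht : 0 < t) : MeasurableSet (monLimA C S t) := by
  rw [monLim_A_eq hS t]
  exact Finset.measurableSet_biUnion _ fun z _ => (monLim_volume_cell ht z).2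

theorem monLim_volume {d : ℕ} {C : Set (Fin d → ℝ)} {S : ℕ → Set (Fin d → ℤ)} {c : ℕ}
    (hS : IsGraded C S c) {t : ℕ} (ht : 0 < t) : volume.real (monLimA C S t) =
      (Set.ncard {z : Fin d → ℤ | toR z ∈ C ∧ z ∉ S t} : ℝ) / (t : ℝ) ^ d := by
  have ht' : (0 : ℝ) < t := by exact_mod_cast ht
  have h1 : volume (monLimA C S t) =
      ((monLim_finite hS t).toFinset.card : ENNReal) * ENNReal.ofReal ((t : ℝ)⁻¹ ^ d) := by
    rw [monLim_A_eq hS t, measure_biUnion_finset]
    · rw [Finset.sum_congr rfl fun z _ => (monLim_volume_cell ht z).1, Finset.sum_const,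
        nsmul_eq_mul]
    · intro z _ z' _ hzz
      refine Set.disjoint_left.2 fun x hx hx' => hzz ?_
      exact (show (fun i => ⌊(t : ℝ) * x i⌋) = z from hx).symm.trans hx'
    · exact fun z _ => (monLim_volume_cell ht z).2
  rw [Measure.real, h1, ENNReal.toReal_mul, ENNReal.toReal_natCast,
    ENNReal.toReal_ofReal (by positivity), Set.ncard_eq_toFinset_card _ (monLim_finite hS t),
    inv_pow, div_eq_mul_inv]

theorem monLim_bound {d : ℕ} {C : Set (Fin d → ℝ)} {S : ℕ → Set (Fin d → ℤ)} {c : ℕ}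
    (hS : IsGraded C S c) {t : ℕ} (ht : 0 < t) :
    monLimA C S t ⊆ Metric.closedBall 0 (2 * c + 1) := by
  rintro x ⟨h1, h2⟩
  have ht' : (1 : ℝ) ≤ t := by exact_mod_cast ht
  rw [mem_closedBall_zero_iff, pi_norm_le_iff_of_nonneg (by positivity)]
  intro i
  have h3 := hS.lin t _ h1 h2 i
  have h4 : |((⌊(t : ℝ) * x i⌋ : ℤ) : ℝ)| ≤ c * (t + 1) := by exact_mod_cast h3
  have h5 := abs_le.1 h4
  have h6 := Int.floor_le ((t : ℝ) * x i)
  have h7 := Int.lt_floor_add_one ((t : ℝ) * x i)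
  have hc : (0 : ℝ) ≤ c := Nat.cast_nonneg c
  have hct : (c : ℝ) * (t + 1) + 1 ≤ (2 * c + 1) * t := by
    linarith only [ht', mul_nonneg hc (sub_nonneg.2 ht')]
  rw [Real.norm_eq_abs, abs_le]
  constructor
  · by_contra hcon
    push Not at hcon
    have h8 : (t : ℝ) * x i < t * -(2 * c + 1) :=
      mul_lt_mul_of_pos_left hcon (by linarith only [ht'])
    linarith only [h5.1, h6, h8, hct]
  · by_contra hcon
    push Not at hcon
    have h8 : t * (2 * c + 1) < (t : ℝ) * x i :=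
      mul_lt_mul_of_pos_left hcon (by linarith only [ht'])
    linarith only [h5.2, h7, h8, hct]

theorem monLim_tendsto_floor {d : ℕ} (x : Fin d → ℝ) :
    Tendsto (fun t : ℕ => (t : ℝ)⁻¹ • toR (fun i => ⌊(t : ℝ) * x i⌋)) atTop (𝓝 x) := by
  rw [tendsto_pi_nhds]
  intro i
  have h1 : Tendsto (fun t : ℕ => x i - (t : ℝ)⁻¹) atTop (𝓝 (x i)) := by
    have h2 : Tendsto (fun t : ℕ => x i - (t : ℝ)⁻¹) atTop (𝓝 (x i - 0)) :=
      tendsto_const_nhds.sub tendsto_inv_atTop_nhds_zero_nat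
    rwa [sub_zero] at h2
  refine tendsto_of_tendsto_of_tendsto_of_le_of_le' h1 tendsto_const_nhds ?_ ?_
  · filter_upwards [eventually_gt_atTop 0] with t ht
    have ht' : (0 : ℝ) < t := by exact_mod_cast ht
    have h2 := Int.lt_floor_add_one ((t : ℝ) * x i)
    change x i - (t : ℝ)⁻¹ ≤ (t : ℝ)⁻¹ * ((⌊(t : ℝ) * x i⌋ : ℤ) : ℝ)
    have h3 : (t : ℝ)⁻¹ * ((t : ℝ) * x i - 1) ≤ (t : ℝ)⁻¹ * ((⌊(t : ℝ) * x i⌋ : ℤ) : ℝ) :=
      mul_le_mul_of_nonneg_left (by linarith only [h2]) (by positivity)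
    have h4 : (t : ℝ)⁻¹ * ((t : ℝ) * x i - 1) = x i - (t : ℝ)⁻¹ := by
      field_simp
    rwa [h4] at h3
  · filter_upwards [eventually_gt_atTop 0] with t ht
    have ht' : (0 : ℝ) < t := by exact_mod_cast ht
    have h2 := Int.floor_le ((t : ℝ) * x i)
    change (t : ℝ)⁻¹ * ((⌊(t : ℝ) * x i⌋ : ℤ) : ℝ) ≤ x i
    have h3 : (t : ℝ)⁻¹ * ((⌊(t : ℝ) * x i⌋ : ℤ) : ℝ) ≤ (t : ℝ)⁻¹ * ((t : ℝ) * x i) :=
      mul_le_mul_of_nonneg_left h2 (by positivity)
    rwa [inv_mul_cancel_left₀ ht'.ne'] at h3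

/-- The number of elements of the complement has an asymptotic density. -/
theorem IsGraded.tendsto {d : ℕ} {C : Set (Fin d → ℝ)} (hC : IsCone C)
    {S : ℕ → Set (Fin d → ℤ)} {c : ℕ} (hS : IsGraded C S c) :
    ∃ V : ℝ, Tendsto (fun t : ℕ =>
      (Set.ncard {z : Fin d → ℤ | toR z ∈ C ∧ z ∉ S t} : ℝ) / (t : ℝ) ^ d) atTop (𝓝 V) := by
  set H : Set (Fin d → ℝ) := convexHull ℝ {y : Fin d → ℝ | ∃ s : ℕ, 0 < s ∧ ∃ z ∈ S s,
      y = (s : ℝ)⁻¹ • toR z} with hH
  have hCconv : Convex ℝ C := fun x hx y hy a b ha hb _ =>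
    hC.add _ (hC.smul x hx a ha) _ (hC.smul y hy b hb)
  have hHconv : Convex ℝ H := convex_convexHull ℝ _
  have hCn : ∀ᵐ x : Fin d → ℝ, x ∉ frontier C := by
    rw [ae_iff]
    simpa using hCconv.addHaar_frontier volume
  have hHn : ∀ᵐ x : Fin d → ℝ, x ∉ frontier H := by
    rw [ae_iff]
    simpa using hHconv.addHaar_frontier volume
  refine ⟨∫ x, (C \ closure H).indicator (fun _ => (1 : ℝ)) x, ?_⟩
  have key : Tendsto (fun t : ℕ => ∫ x, (monLimA C S t).indicator (fun _ => (1 : ℝ)) x) atTop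
      (𝓝 (∫ x, (C \ closure H).indicator (fun _ => (1 : ℝ)) x)) := by
    refine tendsto_integral_filter_of_dominated_convergence
      ((Metric.closedBall (0 : Fin d → ℝ) (2 * c + 1)).indicator fun _ => (1 : ℝ)) ?_ ?_ ?_ ?_
    · filter_upwards [eventually_gt_atTop 0] with t ht
      exact (measurable_const.indicator (monLim_measurable hS ht)).aestronglyMeasurable
    · filter_upwards [eventually_gt_atTop 0] with t ht
      refine Eventually.of_forall fun x => ?_
      rw [Real.norm_of_nonneg (Set.indicator_nonneg (fun _ _ => zero_le_one) x)]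
      exact Set.indicator_le_indicator_of_subset (monLim_bound hS ht)
        (fun _ => zero_le_one) x
    · refine (integrable_indicator_iff Metric.isClosed_closedBall.measurableSet).2 ?_
      exact integrableOn_const (isCompact_closedBall _ _).measure_lt_top.ne
    · filter_upwards [hCn, hHn] with x hx1 hx2
      have hlim := monLim_tendsto_floor x
      by_cases hxC : x ∈ C
      · have hxi : x ∈ interior C := by
          by_contra hcon
          exact hx1 ⟨subset_closure hxC, hcon⟩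
        have hev1 : ∀ᶠ t : ℕ in atTop, toR (fun i => ⌊(t : ℝ) * x i⌋) ∈ C := by
          filter_upwards [hlim.eventually (isOpen_interior.mem_nhds hxi),
            eventually_gt_atTop 0] with t h1 ht
          have ht' : (0 : ℝ) < t := by exact_mod_cast ht
          have h2 := hC.smul _ (interior_subset h1) (t : ℝ) ht'.le
          rwa [smul_smul, mul_inv_cancel₀ ht'.ne', one_smul] at h2
        by_cases hxH : x ∈ closure H
        · have hxHi : x ∈ interior H := by
            by_contra hcon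
            exact hx2 ⟨hxH, hcon⟩
          have hev2 := hS.eventually_mem hC hxHi
          refine tendsto_const_nhds.congr' ?_
          filter_upwards [hev2] with t h2
          rw [Set.indicator_of_notMem (fun h => h.2 hxH),
            Set.indicator_of_notMem (fun h => h.2 h2)]
        · have hev2 : ∀ᶠ t : ℕ in atTop, (fun i => ⌊(t : ℝ) * x i⌋) ∉ S t := by
            filter_upwards [hlim.eventually (isClosed_closure.isOpen_compl.mem_nhds hxH),
              eventually_gt_atTop 0] with t h1 ht h3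
            exact h1 (subset_closure (subset_convexHull ℝ _ ⟨t, ht, _, h3, rfl⟩))
          refine tendsto_const_nhds.congr' ?_
          filter_upwards [hev1, hev2] with t h1 h2
          rw [Set.indicator_of_mem (show x ∈ C \ closure H from ⟨hxC, hxH⟩),
            Set.indicator_of_mem (show x ∈ monLimA C S t from ⟨h1, h2⟩)]
      · refine tendsto_const_nhds.congr' ?_
        filter_upwards [hlim.eventually (hC.closed.isOpen_compl.mem_nhds hxC)] with t h1
        rw [Set.indicator_of_notMem (fun h => hxC h.1), Set.indicator_of_notMem]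
        intro h2
        exact h1 (hC.smul _ h2.1 _ (by positivity))
  refine key.congr' ?_
  filter_upwards [eventually_gt_atTop 0] with t ht
  rw [← monLim_volume hS ht]
  exact integral_indicator_one (monLim_measurable hS ht)

end Vale.Agent.P282.CV
end

section

/-!
P282, converse: on an ordinary double point the volume of a valuation is a limit.
-/

open scoped NNReal ENNReal Nat
open IsLocalRing

namespace Vale.Agent.P282.Full

open Vale.Agent.P282.CV

section pol

variable {σ F : Type} [Field F] [Algebra ℂ F] {w : Valuation F ℝ≥0}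

theorem lo_aeval_le_one (hC : ∀ c : ℂ, w (algebraMap ℂ F c) ≤ 1) {x : σ → F}
    (hx : ∀ i, w (x i) ≤ 1) (P : MvPolynomial σ ℂ) : w (MvPolynomial.aeval x P) ≤ 1 := by
  induction P using MvPolynomial.induction_on with
  | C c => rw [MvPolynomial.aeval_C]; exact hC c
  | add p q hp hq =>
    rw [map_add]
    exact (w.map_add _ _).trans (max_le hp hq)
  | mul_X p i hp =>
    rw [map_mul, map_mul, MvPolynomial.aeval_X]
    exact mul_le_one' hp (hx i)

theorem lo_sub_le (hC : ∀ c : ℂ, w (algebraMap ℂ F c) ≤ 1) {x y : σ → F}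
    (hx : ∀ i, w (x i) ≤ 1) (hy : ∀ i, w (y i) ≤ 1) {δ : ℝ≥0} (hxy : ∀ i, w (x i - y i) ≤ δ)
    (P : MvPolynomial σ ℂ) :
    w (MvPolynomial.aeval x P - MvPolynomial.aeval y P) ≤ δ := by
  induction P using MvPolynomial.induction_on with
  | C c => rw [MvPolynomial.aeval_C, MvPolynomial.aeval_C, sub_self, map_zero]; exact zero_le
  | add p q hp hq =>
    rw [map_add, map_add, add_sub_add_comm]
    exact (w.map_add _ _).trans (max_le hp hq)
  | mul_X p i hp =>
    rw [map_mul, map_mul, MvPolynomial.aeval_X, MvPolynomial.aeval_X]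
    have h : MvPolynomial.aeval x p * x i - MvPolynomial.aeval y p * y i =
        (MvPolynomial.aeval x p - MvPolynomial.aeval y p) * x i +
          MvPolynomial.aeval y p * (x i - y i) := by ring
    rw [h]
    refine (w.map_add _ _).trans (max_le ?_ ?_)
    · rw [map_mul]
      calc _ ≤ δ * 1 := mul_le_mul' hp (hx i)
        _ = δ := mul_one δ
    · rw [map_mul]
      calc _ ≤ 1 * δ := mul_le_mul' (lo_aeval_le_one hC hy p) (hxy i)
        _ = δ := one_mul δ

/-- The valuation ideals of the polynomial ring. -/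
theorem lo_exists_ideal (hC : ∀ c : ℂ, w (algebraMap ℂ F c) ≤ 1) {x : σ → F}
    (hx : ∀ i, w (x i) ≤ 1) :
    ∃ I : ℝ≥0 → Ideal (MvPolynomial σ ℂ), ∀ δ P, P ∈ I δ ↔ w (MvPolynomial.aeval x P) ≤ δ := by
  refine ⟨fun δ =>
    { carrier := {P | w (MvPolynomial.aeval x P) ≤ δ}
      add_mem' := ?_
      zero_mem' := ?_
      smul_mem' := ?_ }, fun δ P => Iff.rfl⟩
  · intro p q hp hq
    change w (MvPolynomial.aeval x (p + q)) ≤ δ
    rw [map_add]
    exact (w.map_add _ _).trans (max_le hp hq)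
  · change w (MvPolynomial.aeval x 0) ≤ δ
    rw [map_zero, map_zero]
    exact zero_le
  · intro p q hq
    change w (MvPolynomial.aeval x (p * q)) ≤ δ
    rw [map_mul, map_mul]
    calc _ ≤ 1 * δ := mul_le_mul' (lo_aeval_le_one hC hx p) hq
      _ = δ := one_mul δ

theorem lo_ideal_mul {x : σ → F} {I : ℝ≥0 → Ideal (MvPolynomial σ ℂ)}
    (hI : ∀ δ P, P ∈ I δ ↔ w (MvPolynomial.aeval x P) ≤ δ) (a b : ℝ≥0) : I a * I b ≤ I (a * b) := by
  rw [Ideal.mul_le]
  intro p hp q hq
  rw [hI] at hp hq ⊢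
  rw [map_mul, map_mul]
  exact mul_le_mul' hp hq

theorem lo_ideal_pow {x : σ → F} {I : ℝ≥0 → Ideal (MvPolynomial σ ℂ)}
    (hI : ∀ δ P, P ∈ I δ ↔ w (MvPolynomial.aeval x P) ≤ δ) {ρ : ℝ≥0} (hx : ∀ i, w (x i) ≤ ρ)
    (h1 : I 1 = ⊤) (N : ℕ) : MvPolynomial.idealOfVars σ ℂ ^ N ≤ I (ρ ^ N) := by
  induction N with
  | zero => rw [pow_zero, pow_zero, h1]; exact le_top
  | succ N ih =>
    rw [pow_succ, pow_succ]
    refine (Ideal.mul_mono ih ?_).trans (lo_ideal_mul hI _ _)
    rw [MvPolynomial.idealOfVars, Ideal.span_le]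
    rintro _ ⟨i, rfl⟩
    rw [SetLike.mem_coe, hI, MvPolynomial.aeval_X]
    exact hx i

theorem lo_finite {σ : Type} [Finite σ] {I : Ideal (MvPolynomial σ ℂ)} {N : ℕ}
    (h : MvPolynomial.idealOfVars σ ℂ ^ N ≤ I) : Module.Finite ℂ (MvPolynomial σ ℂ ⧸ I) := by
  classical
  refine Module.Finite.of_surjective ((Ideal.Quotient.mkₐ ℂ I).toLinearMap ∘ₗ
    (MvPolynomial.restrictTotalDegree σ ℂ N).subtype) ?_
  intro y
  obtain ⟨P, rfl⟩ := Ideal.Quotient.mk_surjective y
  refine ⟨⟨∑ d ∈ P.support with d.degree < N, MvPolynomial.monomial d (P.coeff d), ?_⟩, ?_⟩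
  · refine Submodule.sum_mem _ fun d hd => ?_
    rw [Finset.mem_filter] at hd
    rw [MvPolynomial.mem_restrictTotalDegree]
    refine (MvPolynomial.totalDegree_monomial_le _ _).trans ?_
    exact hd.2.le
  · symm
    refine Ideal.Quotient.eq.mpr (h ?_)
    rw [MvPolynomial.mem_pow_idealOfVars_iff']
    intro d hd
    rw [MvPolynomial.coeff_sub]
    simp only [Submodule.coe_subtype]
    rw [MvPolynomial.coeff_sum]
    simp only [MvPolynomial.coeff_monomial]
    by_cases h0 : d ∈ P.support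
    · rw [Finset.sum_eq_single d]
      · simp
      · intro b _ hb; rw [if_neg hb]
      · intro hd'
        exact absurd (Finset.mem_filter.mpr ⟨h0, hd⟩) hd'
    · rw [MvPolynomial.notMem_support_iff.mp h0, zero_sub, neg_eq_zero]
      refine Finset.sum_eq_zero fun b hb => ?_
      rw [Finset.mem_filter] at hb
      rw [if_neg]
      rintro rfl
      exact h0 hb.1

end pol

section loc

variable {R : Type} [CommRing R] [IsLocalRing R] [Algebra ℂ R]

omit [Algebra ℂ R] in
theorem lo_span [IsNoetherianRing R] {σ S : Type} [Fintype σ] [CommRing S] {j : R →+* S}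
    {q : σ → S} {𝔮 : Ideal S} (h𝔮 : 𝔮 = Ideal.span (Set.range q))
    (hmem : ∀ (N : ℕ) (f : R), j f ∈ 𝔮 ^ N ↔ f ∈ maximalIdeal R ^ N)
    (hdense : ∀ (N : ℕ) (s : S), ∃ f : R, s - j f ∈ 𝔮 ^ N)
    (τ : Equiv.Perm σ) {x : σ → R} (hx : ∀ i, x i ∈ maximalIdeal R)
    (hjx : ∀ i, j (x i) - q (τ i) ∈ 𝔮 ^ 2) :
    maximalIdeal R = Ideal.span (Set.range x) := by
  have hqx : ∀ i, q i ∈ 𝔮 := fun i => by rw [h𝔮]; exact Ideal.subset_span ⟨i, rfl⟩
  refine le_antisymm ?_ ?_
  · refine Submodule.le_of_le_smul_of_le_jacobson_bot (I := maximalIdeal R)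
      (IsNoetherian.noetherian _) (IsLocalRing.maximalIdeal_le_jacobson _) ?_
    intro f hf
    have h1 : j f ∈ 𝔮 := by
      have := (hmem 1 f).mpr (by rwa [pow_one])
      rwa [pow_one] at this
    rw [h𝔮, Ideal.mem_span_range_iff_exists_fun] at h1
    obtain ⟨s, hs⟩ := h1
    choose a ha using fun i => hdense 1 (s i)
    have h2 : j (f - ∑ i, a (τ i) * x i) ∈ 𝔮 ^ 2 := by
      have h3 : j (f - ∑ i, a (τ i) * x i) = ∑ i, ((s (τ i) - j (a (τ i))) * q (τ i) -
          j (a (τ i)) * (j (x i) - q (τ i))) := by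
        rw [map_sub, map_sum, ← hs, ← Equiv.sum_comp τ, ← Finset.sum_sub_distrib]
        refine Finset.sum_congr rfl fun i _ => ?_
        rw [map_mul]
        ring
      rw [h3]
      refine Submodule.sum_mem _ fun i _ => Ideal.sub_mem _ ?_ (Ideal.mul_mem_left _ _ (hjx i))
      rw [pow_two]
      have h4 := ha (τ i)
      rw [pow_one] at h4
      exact Ideal.mul_mem_mul h4 (hqx _)
    have h5 := (hmem 2 _).mp h2
    rw [pow_two] at h5
    have h6 : f = ∑ i, a (τ i) * x i + (f - ∑ i, a (τ i) * x i) := by ring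
    rw [h6]
    refine Submodule.add_mem_sup ?_ ?_
    · exact Submodule.sum_mem _ fun i _ => Ideal.mul_mem_left _ _ (Ideal.subset_span ⟨i, rfl⟩)
    · exact h5
  · rw [Ideal.span_le]
    rintro _ ⟨i, rfl⟩
    exact hx i

theorem lo_surj (hres : Function.Surjective (algebraMap ℂ (ResidueField R))) {σ : Type} [Fintype σ]
    {x : σ → R} (hx : maximalIdeal R = Ideal.span (Set.range x)) (k : ℕ) (f : R) :
    ∃ P : MvPolynomial σ ℂ, f - MvPolynomial.aeval x P ∈ maximalIdeal R ^ k := by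
  classical
  induction k generalizing f with
  | zero => exact ⟨0, by simp⟩
  | succ k ih =>
    obtain ⟨c, hc⟩ := hres (residue R f)
    have h1 : f - algebraMap ℂ R c ∈ maximalIdeal R := by
      rw [← residue_eq_zero_iff, map_sub, ← hc, sub_eq_zero]
      rfl
    rw [hx, Ideal.mem_span_range_iff_exists_fun] at h1
    obtain ⟨b, hb⟩ := h1
    choose P hP using fun i => ih (b i)
    refine ⟨MvPolynomial.C c + ∑ i, P i * MvPolynomial.X i, ?_⟩
    have h2 : f - MvPolynomial.aeval x (MvPolynomial.C c + ∑ i, P i * MvPolynomial.X i) =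
        ∑ i, (b i - MvPolynomial.aeval x (P i)) * x i := by
      rw [map_add, MvPolynomial.aeval_C, ← sub_sub, ← hb, map_sum, ← Finset.sum_sub_distrib]
      refine Finset.sum_congr rfl fun i _ => ?_
      rw [map_mul, MvPolynomial.aeval_X]
      ring
    rw [h2]
    refine Submodule.sum_mem _ fun i _ => ?_
    rw [pow_succ]
    refine Ideal.mul_mem_mul (hP i) ?_
    rw [hx]
    exact Ideal.subset_span ⟨i, rfl⟩

/-- The length of a quotient as a codimension in a polynomial ring. -/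
theorem lo_length (hres : Function.Surjective (algebraMap ℂ (ResidueField R))) {σ : Type}
    [Fintype σ] {x : σ → R} (hx : maximalIdeal R = Ideal.span (Set.range x)) {J : Ideal R} {k : ℕ}
    (hk : maximalIdeal R ^ k ≤ J) {I : Ideal (MvPolynomial σ ℂ)} {N : ℕ}
    (hN : MvPolynomial.idealOfVars σ ℂ ^ N ≤ I)
    (hIJ : ∀ P, MvPolynomial.aeval x P ∈ J ↔ P ∈ I) :
    Module.length R (R ⧸ J) = (Module.finrank ℂ (MvPolynomial σ ℂ ⧸ I) : ℕ∞) := by
  have := lo_finite hN
  rw [← half_length_eq hres, ← Module.length_eq_finrank]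
  let Φ : MvPolynomial σ ℂ →ₐ[ℂ] (R ⧸ J) := (Ideal.Quotient.mkₐ ℂ J).comp (MvPolynomial.aeval x)
  have hΦ : Function.Surjective Φ := by
    intro y
    obtain ⟨f, rfl⟩ := Ideal.Quotient.mk_surjective y
    obtain ⟨P, hP⟩ := lo_surj hres hx k f
    refine ⟨P, ?_⟩
    symm
    exact Ideal.Quotient.eq.mpr (hk hP)
  have hker : RingHom.ker Φ = I := by
    ext P
    rw [RingHom.mem_ker, ← hIJ]
    exact Ideal.Quotient.eq_zero_iff_mem
  have e := (Ideal.quotientEquivAlgOfEq ℂ hker.symm).trans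
    (Ideal.quotientKerAlgEquivOfSurjective hΦ)
  exact e.toLinearEquiv.length_eq.symm

end loc

theorem lo_tendsto {n : ℕ} {L : ℕ → ℕ∞} {a : ℕ → ℕ} (hL : ∀ t, L t = (a t : ℕ∞)) {V : ℝ}
    (h : Filter.Tendsto (fun t : ℕ => (a t : ℝ) / (t : ℝ) ^ n) Filter.atTop (nhds V)) :
    Filter.Tendsto (fun t : ℕ => (n ! : ℝ≥0∞) * (L t : ℝ≥0∞) / (t : ℝ≥0∞) ^ n) Filter.atTop
      (nhds (ENNReal.ofReal ((n ! : ℝ) * V))) := by
  refine (ENNReal.tendsto_ofReal (h.const_mul (n ! : ℝ))).congr' ?_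
  filter_upwards [Filter.eventually_ge_atTop 1] with t ht
  have ht0 : (0 : ℝ) < t := by exact_mod_cast ht
  rw [hL t, ← mul_div_assoc, ENNReal.ofReal_div_of_pos (by positivity), ENNReal.ofReal_pow ht0.le,
      ENNReal.ofReal_natCast, ENNReal.ofReal_mul (by positivity), ENNReal.ofReal_natCast,
      ENNReal.ofReal_natCast]
  simp

/-- On an ordinary double point the volume is a limit. -/
theorem vol_eq_volI {n : ℕ} (hn : 2 ≤ n) {R K : Type} [CommRing R] [IsDomain R] [IsLocalRing R]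
    [Algebra ℂ R] [IsNoetherianRing R] (hres : Function.Surjective (algebraMap ℂ (ResidueField R)))
    [Field K] [Algebra ℂ K] [Algebra R K] [IsScalarTower ℂ R K] [IsFractionRing R K]
    (hodp : IsODP R n) (hm : maximalIdeal R ≠ ⊥) {v : Valuation K ℝ≥0}
    (hv : HasCenter R v (maximalIdeal R)) : vol R n v = volI R n v := by
  obtain ⟨j, hj⟩ := exists_jet hodp
  obtain ⟨F, _, _, w, ι, hc⟩ := exists_comp v
  obtain ⟨τ, x, hx0, hxne, hxle, hx1, hvm, happ⟩ := exists_pt hj hm hv hc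
  obtain ⟨C, E, c, hC, hEC, hmono, hmul, hideal, hbound, hcard⟩ := exists_exponents hn
  have hv1 : ∀ f : R, v (algebraMap R K f) ≤ 1 := fun f => (hv f).1
  have hιw : ∀ f : R, w (ι (algebraMap R K f)) = v (algebraMap R K f) := fun f => hc.val _
  have hwC : ∀ a : ℂ, w (algebraMap ℂ F a) ≤ 1 := by
    intro a
    have h1 : algebraMap ℂ F a = ι (algebraMap R K (algebraMap ℂ R a)) := by
      rw [← IsScalarTower.algebraMap_apply ℂ R K, AlgHom.commutes]
    rw [h1, hιw]
    exact hv1 _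
  have hxw1 : ∀ i, w (x i) ≤ 1 := fun i => (hxle i).trans hx1.le
  obtain ⟨I, hI⟩ := lo_exists_ideal hwC hxw1
  have hI1 : I 1 = ⊤ := by
    rw [Ideal.eq_top_iff_one, hI, map_one, map_one]
  -- the constants
  obtain ⟨ε, hε⟩ : ∃ ε : ℝ≥0, (ε : ℝ) = Real.exp (-1) := ⟨⟨Real.exp (-1), (Real.exp_pos _).le⟩, rfl⟩
  have hεpow : ∀ t : ℕ, ((ε ^ t : ℝ≥0) : ℝ) = Real.exp (-(t : ℝ)) := by
    intro t
    rw [NNReal.coe_pow, hε, ← Real.exp_nat_mul]
    congr 1
    ring
  have hε0 : 0 < ε := by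
    rw [← NNReal.coe_pos, hε]
    exact Real.exp_pos _
  have hε1 : ε ≤ 1 := by
    rw [← NNReal.coe_le_coe, hε, NNReal.coe_one]
    exact Real.exp_le_one_iff.mpr (by norm_num)
  obtain ⟨c₁, hc₁⟩ : ∃ c₁ : ℕ, w (x 0) ^ c₁ ≤ ε := by
    obtain ⟨c₁, hc₁⟩ := exists_pow_lt_of_lt_one hε0 hx1
    exact ⟨c₁, hc₁.le⟩
  have hIN : ∀ t N : ℕ, c₁ * t ≤ N → w (x 0) ^ N ≤ ε ^ t := by
    intro t N hN
    calc w (x 0) ^ N ≤ w (x 0) ^ (c₁ * t) := pow_le_pow_right_of_le_one' hx1.le hN
      _ = (w (x 0) ^ c₁) ^ t := pow_mul _ _ _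
      _ ≤ ε ^ t := pow_le_pow_left' hc₁ t
  have hImono : ∀ a b : ℝ≥0, a ≤ b → I a ≤ I b := by
    intro a b hab P hP
    rw [hI] at hP ⊢
    exact hP.trans hab
  have hIpow : ∀ t N : ℕ, c₁ * t ≤ N → MvPolynomial.idealOfVars (Fin (n + 1)) ℂ ^ N ≤ I (ε ^ t) :=
    fun t N hN => (lo_ideal_pow hI hxle hI1 N).trans (hImono _ _ (hIN t N hN))
  -- the graded family
  have hgr : IsGraded C (fun t => E (I (ε ^ t))) (c * c₁) := by
    refine ⟨fun t z hz => hEC _ z hz, ?_, fun t z hz z' hz' => hideal _ z hz z' hz', ?_, ?_⟩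
    · intro s t z hz z' hz'
      have h1 := hmul _ _ z hz z' hz'
      refine hmono _ _ ?_ h1
      rw [pow_add]
      exact lo_ideal_mul hI _ _
    · intro t
      refine hmono _ _ (hImono _ _ ?_)
      exact pow_le_pow_right_of_le_one' hε1 (Nat.le_succ t)
    · intro t z hz hzt i
      have h1 : z ∉ E (MvPolynomial.idealOfVars (Fin (n + 1)) ℂ ^ (c₁ * t)) :=
        fun h => hzt (hmono _ _ (hIpow t _ le_rfl) h)
      have h2 := hbound _ z hz h1 i
      refine h2.trans ?_
      push_cast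
      have h3 : (0 : ℤ) ≤ c := Int.natCast_nonneg c
      have h4 : (0 : ℤ) ≤ c₁ := Int.natCast_nonneg c₁
      linarith only [mul_nonneg h3 h4]
  obtain ⟨V, hV⟩ := hgr.tendsto hC
  -- the lengths
  have hlen : ∀ t : ℕ, Module.length R (R ⧸ valIdeal R v t) =
      (Set.ncard {z : Fin n → ℤ | toR z ∈ C ∧ z ∉ E (I (ε ^ t))} : ℕ∞) := by
    intro t
    obtain ⟨x₁, hx₁m, hx₁j, -, hx₁w⟩ := happ (c₁ * t + 2)
    have hspan : maximalIdeal R = Ideal.span (Set.range x₁) := by
      refine lo_span (j := (j : R →+* Q n)) (q := qx n) (𝔮 := qm n) rfl hj.mem hj.dense τ hx₁m ?_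
      intro i
      exact Ideal.pow_le_pow_right (by omega) (hx₁j i)
    have hq : ∑ i, MvPolynomial.X i ^ 2 ∈ I (ε ^ t) := by
      rw [hI]
      simp only [map_sum, map_pow, MvPolynomial.aeval_X]
      rw [hx0, map_zero]
      exact zero_le
    rw [hcard (I (ε ^ t)) (c₁ * t) hq (hIpow t _ le_rfl)]
    refine lo_length hres hspan (k := c₁ * t) ?_ (hIpow t _ le_rfl) ?_
    · have h1 : ∀ N : ℕ, ∀ f ∈ maximalIdeal R ^ N, v (algebraMap R K f) ≤ w (x 0) ^ N := by
        intro N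
        induction N with
        | zero => intro f _; rw [pow_zero]; exact hv1 f
        | succ N ih =>
          intro f hf
          rw [pow_succ] at hf
          refine Submodule.mul_induction_on hf ?_ ?_
          · intro a ha b hb
            rw [map_mul, map_mul, pow_succ]
            exact mul_le_mul' (ih a ha) (hvm b hb)
          · intro a b ha hb
            rw [map_add]
            exact (v.map_add _ _).trans (max_le ha hb)
      intro f hf
      rw [half_mem_valIdeal hv1, ← hεpow, NNReal.coe_le_coe]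
      exact (h1 _ f hf).trans (hIN t _ le_rfl)
    · intro P
      rw [half_mem_valIdeal hv1, ← hεpow, NNReal.coe_le_coe, hI, ← hιw]
      have h1 : ι (algebraMap R K (MvPolynomial.aeval x₁ P)) =
          MvPolynomial.aeval (fun i => ι (algebraMap R K (x₁ i))) P := by
        have h2 := MvPolynomial.map_aeval x₁ ((ι.comp (IsScalarTower.toAlgHom ℂ R K)) : R →+* F) P
        have h3 : (ι.comp (IsScalarTower.toAlgHom ℂ R K) : R →+* F).comp (algebraMap ℂ R) =
            algebraMap ℂ F := AlgHom.comp_algebraMap _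
        rw [h3] at h2
        exact h2
      rw [h1]
      have hy1 : ∀ i, w (ι (algebraMap R K (x₁ i))) ≤ 1 := fun i => by rw [hιw]; exact hv1 _
      have hd : ∀ i, w (x i - ι (algebraMap R K (x₁ i))) ≤ ε ^ t :=
        fun i => (hx₁w i).trans (hIN t _ (by omega))
      have h4 := lo_sub_le hwC hxw1 hy1 hd P
      constructor
      · intro h
        have h5 : MvPolynomial.aeval x P = (MvPolynomial.aeval x P -
            MvPolynomial.aeval (fun i => ι (algebraMap R K (x₁ i))) P) +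
            MvPolynomial.aeval (fun i => ι (algebraMap R K (x₁ i))) P := by ring
        rw [h5]
        exact (w.map_add _ _).trans (max_le h4 h)
      · intro h
        have h5 : MvPolynomial.aeval (fun i => ι (algebraMap R K (x₁ i))) P =
            MvPolynomial.aeval x P - (MvPolynomial.aeval x P -
            MvPolynomial.aeval (fun i => ι (algebraMap R K (x₁ i))) P) := by ring
        rw [h5]
        exact (w.map_sub _ _).trans (max_le h h4)
  have hlim := lo_tendsto hlen hV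
  unfold vol volI
  rw [hlim.limsup_eq, hlim.liminf_eq]

end Vale.Agent.P282.Full
end

section

/-!
P282-WR-3: the change of basis from the standard basis to the adapted basis.
-/

open scoped NNReal Nat
open MvPolynomial

namespace Vale.Agent.P282.WR

variable {n : ℕ} {F : Type} [Field F]

private theorem ch_sum (m : ℕ) (P : MvPolynomial (Fin n) F) (hP : P.totalDegree < m) :
    P = ∑ β : ↥(mon n m), C (coeff β.1 P) * monomial β.1 1 := by
  have hs : P.support ⊆ mon n m := by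
    intro κ hκ
    rw [mem_mon]
    refine lt_of_le_of_lt ?_ hP
    have h1 := le_totalDegree hκ
    rwa [Finsupp.degree_eq_sum, ← Finsupp.sum_fintype κ (fun _ e => e) (fun _ => rfl)]
  conv_lhs => rw [P.as_sum]
  rw [Finset.sum_subset hs (fun κ _ hκ => by rw [notMem_support_iff.1 hκ, monomial_zero]),
    ← Finset.sum_coe_sort (mon n m)]
  refine Finset.sum_congr rfl fun β _ => ?_
  rw [C_mul_monomial, mul_one]

private theorem ch_wco (A : Matrix (Fin n) (Fin n) F) (x : Fin (n + 1) → F) (i : Fin n) :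
    wco A x i = rename Fin.succ (∑ j, C (A i j) * X j + C (-∑ j, A i j * x j.succ)) := by
  rw [wco, map_add, map_sum, rename_C, C_neg, map_sum, ← sub_eq_add_neg, ← Finset.sum_sub_distrib]
  refine Finset.sum_congr rfl fun j _ => ?_
  rw [map_mul, rename_C, rename_X, C_mul, mul_sub]

private theorem ch_deg (A : Matrix (Fin n) (Fin n) F) (τ : Fin n → F) (α : Fin n →₀ ℕ) :
    (∏ i, (∑ j, C (A i j) * X j + C (τ i) : MvPolynomial (Fin n) F) ^ (α i)).totalDegree ≤
      α.degree := by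
  rw [Finsupp.degree_eq_sum]
  refine (totalDegree_finsetProd _ _).trans (Finset.sum_le_sum fun i _ => ?_)
  refine (totalDegree_pow _ _).trans ?_
  have h1 : (∑ j, C (A i j) * X j + C (τ i) : MvPolynomial (Fin n) F).totalDegree ≤ 1 := by
    refine (totalDegree_add _ _).trans (max_le ?_ ?_)
    · refine (totalDegree_finsetSum _ _).trans (Finset.sup_le fun j _ => ?_)
      refine (totalDegree_mul _ _).trans ?_
      rw [totalDegree_C, totalDegree_X]
    · rw [totalDegree_C]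
      exact Nat.zero_le _
  calc α i * _ ≤ α i * 1 := Nat.mul_le_mul_left _ h1
    _ = α i := mul_one _

theorem exists_change [CharZero F] (hn : 0 < n) (A : Matrix (Fin n) (Fin n) F) (hA : A.det ≠ 0)
    (x : Fin (n + 1) → F) (hq : ∑ j, x j ^ 2 = 0) (d : ℕ) :
    ∃ Cm : Matrix (Idx n d) (Idx n d) F,
      (∀ b, ∃ r, adp A x d b = ∑ c, C (Cm b c) * stdMon n d F c + r * quad n F) ∧
      Cm.det = A.det ^ E₁ n d * ∏ γ ∈ mon n d, (x 0 * (-2 * x 0 ^ 2) ^ (d - γ.degree - 1)) := by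
  classical
  have hb : ∀ γ : ↥(mon n d), 0 < d - γ.1.degree := by
    intro γ
    have := mem_mon.1 γ.2
    omega
  choose p c hr hp hc hev using fun γ : ↥(mon n d) => exists_gpow x hq (hb γ)
  choose r hr using hr
  set τ : Fin n → F := fun i => -∑ j, A i j * x j.succ with hτ
  set W : (Fin n →₀ ℕ) → MvPolynomial (Fin n) F :=
    fun α => ∏ i, (∑ j, C (A i j) * X j + C (τ i)) ^ (α i) with hW
  have hWw : ∀ α : Fin n →₀ ℕ, ∏ i, wco A x i ^ (α i) = rename Fin.succ (W α) := by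
    intro α
    rw [hW]
    simp only [map_prod, map_pow]
    refine Finset.prod_congr rfl fun i _ => ?_
    rw [ch_wco]
  have hWd : ∀ α : Fin n →₀ ℕ, (W α).totalDegree ≤ α.degree := fun α => ch_deg A τ α
  refine ⟨Matrix.fromBlocks
    (Matrix.of fun α β : ↥(mon n (d + 1)) => coeff β.1 (W α.1)) 0
    (Matrix.of fun (γ : ↥(mon n d)) (β : ↥(mon n (d + 1))) => coeff β.1 (p γ * W γ.1))
    (Matrix.of fun γ δ : ↥(mon n d) => coeff δ.1 (c γ * W γ.1)), ?_, ?_⟩
  · intro b
    rw [Fintype.sum_sum_type]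
    cases b with
    | inl α =>
      refine ⟨0, ?_⟩
      simp only [Matrix.fromBlocks_apply₁₁, Matrix.fromBlocks_apply₁₂, Matrix.zero_apply,
        Matrix.of_apply, C_0, zero_mul, Finset.sum_const_zero, add_zero, adp, stdMon,
        Sum.elim_inl]
      rw [hWw]
      have h1 := ch_sum (d + 1) (W α.1)
        (lt_of_le_of_lt (hWd α.1) (mem_mon.1 α.2))
      have h2 := congrArg (rename Fin.succ) h1
      rw [map_sum] at h2
      rw [h2]
      refine Finset.sum_congr rfl fun β _ => ?_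
      rw [map_mul, rename_C]
    | inr γ =>
      refine ⟨r γ * rename Fin.succ (W γ.1), ?_⟩
      simp only [Matrix.fromBlocks_apply₂₁, Matrix.fromBlocks_apply₂₂,
        Matrix.of_apply, adp, stdMon, Sum.elim_inl, Sum.elim_inr]
      rw [hWw, hr γ]
      have hγ := mem_mon.1 γ.2
      have h1 := ch_sum (d + 1) (p γ * W γ.1) (by
        refine lt_of_le_of_lt (totalDegree_mul _ _) ?_
        have := hWd γ.1
        have := hp γ
        omega)
      have h2 := ch_sum d (c γ * W γ.1) (by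
        refine lt_of_le_of_lt (totalDegree_mul _ _) ?_
        have := hWd γ.1
        have := hc γ
        omega)
      have h3 : rename Fin.succ (p γ * W γ.1) = ∑ β : ↥(mon n (d + 1)),
          C (coeff β.1 (p γ * W γ.1)) * rename Fin.succ (monomial β.1 (1 : F)) := by
        conv_lhs => rw [h1]
        rw [map_sum]
        refine Finset.sum_congr rfl fun β _ => ?_
        rw [map_mul, rename_C]
      have h4 : X 0 * rename Fin.succ (c γ * W γ.1) = ∑ β : ↥(mon n d),
          C (coeff β.1 (c γ * W γ.1)) * (X 0 * rename Fin.succ (monomial β.1 (1 : F))) := by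
        conv_lhs => rw [h2]
        rw [map_sum, Finset.mul_sum]
        refine Finset.sum_congr rfl fun β _ => ?_
        rw [map_mul, rename_C]
        ring
      rw [← h3, ← h4, map_mul, map_mul]
      ring
  · rw [Matrix.det_fromBlocks_zero₁₂]
    have h1 := det_affine A hA τ (d + 1)
    have hu : ∀ i, ∑ j, A i j * (fun j : Fin n => x j.succ) j + τ i = 0 := by
      intro i
      rw [hτ]
      simp
    have h2 := det_affine_mul A hA τ (fun j => x j.succ) hu d c (by
      intro γ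
      have hγ := mem_mon.1 γ.2
      have := hc γ
      omega)
    rw [h1, h2, E₁, pow_add, mul_assoc]
    rw [show n + (d + 1) - 1 = n + d by omega]
    congr 2
    rw [← Finset.prod_coe_sort (mon n d)]
    exact Finset.prod_congr rfl fun γ _ => hev γ

end Vale.Agent.P282.WR
end

section

/-!
P282-WR-4: the Taylor homomorphism of a bounded frame.
-/

open scoped NNReal Nat
open MvPolynomial

namespace Vale.Agent.P282.WR

/-- The coefficientwise map. -/
private noncomputable def tcw {n : ℕ} {F : Type} [Field F] [Algebra ℂ F]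
    (L : Derivation ℂ F F) (p : MvPolynomial (Fin n) F) : MvPolynomial (Fin n) F :=
  ∑ a ∈ p.support, monomial a (L (coeff a p))

private theorem coeff_tcw {n : ℕ} {F : Type} [Field F] [Algebra ℂ F]
    (L : Derivation ℂ F F) (p : MvPolynomial (Fin n) F) (β : Fin n →₀ ℕ) :
    coeff β (tcw L p) = L (coeff β p) := by
  classical
  unfold tcw
  rw [coeff_sum]
  simp only [coeff_monomial]
  rw [Finset.sum_ite_eq' p.support β (fun a => L (coeff a p))]
  split_ifs with h
  · rfl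
  · rw [notMem_support_iff.1 h, map_zero]

private theorem tcw_C {n : ℕ} {F : Type} [Field F] [Algebra ℂ F]
    (L : Derivation ℂ F F) (c : F) : tcw (n := n) L (C c) = C (L c) := by
  classical
  ext β
  rw [coeff_tcw, coeff_C, coeff_C]
  split_ifs
  · rfl
  · exact map_zero L

/-- The coefficientwise derivation. -/
private noncomputable def tcwD {n : ℕ} {F : Type} [Field F] [Algebra ℂ F]
    (L : Derivation ℂ F F) :
    Derivation ℤ (MvPolynomial (Fin n) F) (MvPolynomial (Fin n) F) :=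
  Derivation.mk'
    (AddMonoidHom.toIntLinearMap
      { toFun := tcw L
        map_zero' := by
          ext β
          rw [coeff_tcw, coeff_zero, map_zero]
        map_add' := fun p q => by
          ext β
          rw [coeff_add, coeff_tcw, coeff_tcw, coeff_tcw, coeff_add, map_add] })
    (fun p q => by
      change tcw L (p * q) = p * tcw L q + q * tcw L p
      ext β
      rw [coeff_tcw, coeff_mul, map_sum, mul_comm q, coeff_add, coeff_mul, coeff_mul,
        ← Finset.sum_add_distrib]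
      refine Finset.sum_congr rfl fun x _ => ?_
      rw [Derivation.leibniz, coeff_tcw, coeff_tcw, smul_eq_mul, smul_eq_mul,
        mul_comm (coeff x.2 q)])

private theorem tcwD_apply {n : ℕ} {F : Type} [Field F] [Algebra ℂ F]
    (L : Derivation ℂ F F) (p : MvPolynomial (Fin n) F) : tcwD L p = tcw L p := rfl

/-- The derivation `∑ tᵢ Lᵢ`. -/
private noncomputable def tD {n : ℕ} {F : Type} [Field F] [Algebra ℂ F]
    (L : Fin n → Derivation ℂ F F) :
    Derivation ℤ (MvPolynomial (Fin n) F) (MvPolynomial (Fin n) F) :=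
  ∑ i, (X i : MvPolynomial (Fin n) F) • tcwD (L i)

/-- The derivation `∑ tᵢ Lᵢ`, as a function. -/
private noncomputable def tF {n : ℕ} {F : Type} [Field F] [Algebra ℂ F]
    (L : Fin n → Derivation ℂ F F) (p : MvPolynomial (Fin n) F) : MvPolynomial (Fin n) F :=
  ∑ i, X i * tcw (L i) p

private theorem tD_coe {n : ℕ} {F : Type} [Field F] [Algebra ℂ F]
    (L : Fin n → Derivation ℂ F F) : ⇑(tD L) = tF L := by
  funext p
  unfold tD tF
  rw [← Derivation.coeFnAddMonoidHom_apply, map_sum, Finset.sum_apply]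
  rfl

private theorem tD_bound {n : ℕ} {F : Type} [Field F] [Algebra ℂ F] (w : Valuation F ℝ≥0)
    (L : Fin n → Derivation ℂ F F) {B : ℝ≥0} (hL : ∀ i f, w (L i f) ≤ B * w f)
    (p : MvPolynomial (Fin n) F) (r : ℝ≥0) (hp : ∀ β, w (coeff β p) ≤ r) (β : Fin n →₀ ℕ) :
    w (coeff β (tF L p)) ≤ B * r := by
  classical
  unfold tF
  rw [coeff_sum]
  refine Valuation.map_sum_le w fun i _ => ?_
  rw [coeff_X_mul']
  split_ifs
  · rw [coeff_tcw]
    exact (hL i _).trans (mul_le_mul_right (hp _) _)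
  · rw [map_zero]; exact zero_le

private theorem tD_iter_bound {n : ℕ} {F : Type} [Field F] [Algebra ℂ F] (w : Valuation F ℝ≥0)
    (L : Fin n → Derivation ℂ F F) {B : ℝ≥0} (hL : ∀ i f, w (L i f) ≤ B * w f) (f : F) (k : ℕ)
    (β : Fin n →₀ ℕ) :
    w (coeff β ((tF L)^[k] (C f))) ≤ B ^ k * w f := by
  classical
  induction k generalizing β with
  | zero =>
    rw [Function.iterate_zero_apply, pow_zero, one_mul, coeff_C]
    split_ifs
    · exact le_rfl
    · rw [map_zero]; exact zero_le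
  | succ k ih =>
    rw [Function.iterate_succ_apply', pow_succ', mul_assoc]
    exact tD_bound w L hL _ _ ih β

private theorem tD_C {n : ℕ} {F : Type} [Field F] [Algebra ℂ F]
    (L : Fin n → Derivation ℂ F F) (c : F) :
    tF L (C c) = ∑ i, C (L i c) * X i := by
  unfold tF
  refine Finset.sum_congr rfl fun i _ => ?_
  rw [tcw_C, mul_comm]

/-- The Taylor homomorphism. -/
theorem exists_taylor {n : ℕ} {F : Type} [Field F] [Algebra ℂ F] (w : Valuation F ℝ≥0)
    (hw : ∀ c : ℂ, c ≠ 0 → w (algebraMap ℂ F c) = 1) (L : Fin n → Derivation ℂ F F) {B : ℝ≥0}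
    (hB : 1 ≤ B) (hL : ∀ i f, w (L i f) ≤ B * w f) (x : Fin (n + 1) → F) :
    ∃ Φ : MvPolynomial (Fin (n + 1)) F →ₐ[F] PowerSeries (MvPolynomial (Fin n) F),
      (∀ (P : MvPolynomial (Fin (n + 1)) ℂ) (k : ℕ) (β : Fin n →₀ ℕ),
        w (coeff β (PowerSeries.coeff k (Φ (MvPolynomial.map (algebraMap ℂ F) P)))) ≤
          B ^ k * w (aeval x P)) ∧
      (∀ j, PowerSeries.coeff 0 (Φ (X j)) = C (x j)) ∧
      (∀ j, PowerSeries.coeff 1 (Φ (X j)) = ∑ i, C (L i (x j)) * X i) := by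
  have : CharZero F := charZero_of_injective_algebraMap (algebraMap ℂ F).injective
  obtain ⟨T, hT0⟩ := exists_exp (tD L)
  have hT : ∀ (k : ℕ) (f : MvPolynomial (Fin n) F),
      PowerSeries.coeff k (T f) = ((k ! : ℚ)⁻¹) • (tF L)^[k] f := by
    intro k f
    rw [← tD_coe]
    exact hT0 k f
  have hTc : ∀ c : ℂ, T (C (algebraMap ℂ F c)) = PowerSeries.C (C (algebraMap ℂ F c)) := by
    intro c
    ext1 k
    rw [hT]
    cases k with
    | zero => simp
    | succ k =>
      have h0 : tF L (C (algebraMap ℂ F c)) = 0 := by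
        rw [tD_C]
        simp
      have h1 : tF L (0 : MvPolynomial (Fin n) F) = 0 := by
        simp [tF, tcw]
      rw [Function.iterate_succ_apply, h0, Function.iterate_fixed h1, smul_zero,
        PowerSeries.coeff_C, if_neg (Nat.succ_ne_zero k)]
  refine ⟨aeval fun j => T (C (x j)), ?_, ?_, ?_⟩
  · intro P k β
    have key : (aeval fun j => T (C (x j))) (MvPolynomial.map (algebraMap ℂ F) P) =
        T (C (aeval x P)) := by
      have : ((aeval (R := F) fun j => T (C (x j))).toRingHom.comp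
          (MvPolynomial.map (algebraMap ℂ F))) =
          (T.comp (C : F →+* MvPolynomial (Fin n) F)).comp (aeval (R := ℂ) x).toRingHom := by
        refine MvPolynomial.ringHom_ext (fun c => ?_) (fun j => ?_)
        · simp [hTc, PowerSeries.algebraMap_apply]
        · simp
      exact congrArg (fun g => g P) this
    rw [key, hT, coeff_smul]
    have h1 : ∀ (q : ℚ) (z : F), q ≠ 0 → w (q • z) = w z := by
      intro q z hq
      have : q • z = algebraMap ℂ F (q : ℂ) * z := by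
        rw [map_ratCast, Rat.smul_def]
      rw [this, map_mul, hw _ (by exact_mod_cast hq), one_mul]
    rw [h1 _ _ (inv_ne_zero (by exact_mod_cast (Nat.factorial_ne_zero k)))]
    exact tD_iter_bound w L hL _ k β
  · intro j
    rw [aeval_X, hT]
    simp
  · intro j
    rw [aeval_X, hT]
    simp [tD_C]

end Vale.Agent.P282.WR
end

section

/-!
P282-WR-6: the determinant inequality.
-/

open scoped NNReal Nat
open MvPolynomial

namespace Vale.Agent.P282.WR

/-- The ultrametric bound of a determinant by row bounds and column weights. -/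
theorem det_le_prod {ι F : Type} [Fintype ι] [DecidableEq ι] [Field F] (w : Valuation F ℝ≥0)
    (M : Matrix ι ι F) (r c : ι → ℝ≥0) (h : ∀ i j, w (M i j) ≤ r i * c j) :
    w M.det ≤ (∏ i, r i) * ∏ j, c j := by
  rw [Matrix.det_apply']
  apply Valuation.map_sum_le
  intro σ _
  rw [map_mul, map_prod]
  have h1 : w ((Equiv.Perm.sign σ : ℤ) : F) = 1 := by
    rcases Int.units_eq_one_or (Equiv.Perm.sign σ) with h | h <;> rw [h] <;> simp
  rw [h1, one_mul]
  calc ∏ i, w (M (σ i) i) ≤ ∏ i, (r (σ i) * c i) :=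
        Finset.prod_le_prod' fun i _ => h (σ i) i
    _ = (∏ i, r i) * ∏ j, c j := by
        rw [Finset.prod_mul_distrib, Equiv.prod_comp σ r]

private theorem md_jet {n : ℕ} [NeZero n] {F : Type} [Field F]
    (Φ : MvPolynomial (Fin (n + 1)) F →ₐ[F] PowerSeries (MvPolynomial (Fin n) F)) (d : ℕ)
    (a : Idx n d) {ι : Type} (s : Finset ι) (k : ι → F)
    (P : ι → MvPolynomial (Fin (n + 1)) F) :
    jet Φ d a (∑ c ∈ s, C (k c) * P c) = ∑ c ∈ s, k c * jet Φ d a (P c) := by
  unfold jet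
  rw [map_sum, map_sum, coeff_sum]
  refine Finset.sum_congr rfl fun c _ => ?_
  have h1 : Φ (C (k c) * P c) = (C (k c) : MvPolynomial (Fin n) F) • Φ (P c) := by
    rw [map_mul]
    have h2 : Φ (C (k c)) = PowerSeries.C (C (k c)) :=
      (Φ.commutes (k c)).trans PowerSeries.algebraMap_apply
    rw [h2, PowerSeries.smul_eq_C_mul]
  rw [h1, map_smul, smul_eq_mul, coeff_C_mul]

private theorem md_jet_add {n : ℕ} [NeZero n] {F : Type} [Field F]
    (Φ : MvPolynomial (Fin (n + 1)) F →ₐ[F] PowerSeries (MvPolynomial (Fin n) F)) (d : ℕ)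
    (a : Idx n d) (P Q : MvPolynomial (Fin (n + 1)) F) (hQ : Φ Q = 0) :
    jet Φ d a (P + Q) = jet Φ d a P := by
  unfold jet
  rw [map_add, hQ, add_zero]

theorem main_det {n : ℕ} [NeZero n] {F : Type} [Field F] [Algebra ℂ F] (w : Valuation F ℝ≥0)
    (hw : ∀ c : ℂ, c ≠ 0 → w (algebraMap ℂ F c) = 1) (L : Fin n → Derivation ℂ F F) {B : ℝ≥0}
    (hB : 1 ≤ B) (hL : ∀ i f, w (L i f) ≤ B * w f) (x : Fin (n + 1) → F)
    (hq : ∑ j, x j ^ 2 = 0) (hx0 : x 0 ≠ 0) {h0 : F} (hh : h0 ≠ 0)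
    (hdet : Matrix.det (Matrix.of fun i j : Fin n => L i (x j.succ)) = 2 * x 0 * h0) (d : ℕ)
    (m : Matrix (Idx n d) (Idx n d) ℂ) (hm : m.det ≠ 0) :
    w h0 ^ E₁ n d * w (∑ j, L 0 (x j) ^ 2) ^ E₂ n d ≤
      B ^ tot n d * ∏ i, w (∑ a, algebraMap ℂ F (m i a) * stdVal d x a) := by
  classical
  have hn : 0 < n := Nat.pos_of_ne_zero (NeZero.ne n)
  have hchar : CharZero F := charZero_of_injective_algebraMap (algebraMap ℂ F).injective
  have hw2 : w 2 = 1 := by
    have h1 := hw 2 two_ne_zero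
    rwa [map_ofNat] at h1
  -- the matrices
  set Λ : Matrix (Fin n) (Fin (n + 1)) F := Matrix.of fun i j => L i (x j) with hΛ
  set Λ' : Matrix (Fin n) (Fin n) F := Matrix.of fun i j => L i (x j.succ) with hΛ'
  have hdet0 : Λ'.det ≠ 0 := by
    rw [hdet]
    exact mul_ne_zero (mul_ne_zero two_ne_zero hx0) hh
  have hunit : IsUnit Λ'.transpose.det := by
    rw [Matrix.det_transpose]
    exact hdet0.isUnit
  set A : Matrix (Fin n) (Fin n) F := Λ'.transpose⁻¹ with hAdef
  have hA1 : A * Λ'.transpose = 1 := Matrix.nonsing_inv_mul _ hunit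
  have hAdet : A.det * (2 * x 0 * h0) = 1 := by
    rw [← hdet, ← Matrix.det_transpose Λ', ← Matrix.det_mul, hA1, Matrix.det_one]
  have hAdet0 : A.det ≠ 0 := left_ne_zero_of_mul (hAdet ▸ one_ne_zero)
  have hA : ∀ i k, ∑ j, A i j * Λ k j.succ = if i = k then 1 else 0 := by
    intro i k
    have h1 := congrFun (congrFun hA1 i) k
    rw [Matrix.mul_apply, Matrix.one_apply] at h1
    exact h1
  obtain ⟨Φ, hΦ1, hΦ2, hΦ3⟩ := exists_taylor w hw L hB hL x
  have hΦq : Φ (quad n F) = 0 := by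
    have h1 : aeval x (quad n ℂ) = 0 := by
      unfold quad
      rw [map_sum]
      simp only [map_pow, aeval_X]
      exact hq
    ext k β
    have h2 := hΦ1 (quad n ℂ) k β
    rw [map_quad, h1, map_zero, mul_zero] at h2
    have h3 := (w.zero_iff).1 (le_antisymm h2 zero_le)
    rw [h3, map_zero, coeff_zero]
  -- the jets
  obtain ⟨Cm, hCm, hCmdet⟩ := exists_change hn A hAdet0 x hq d
  set Ψ : Matrix (Idx n d) (Idx n d) F :=
    Matrix.of fun a c => jet Φ d a (stdMon n d F c) with hΨ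
  have hJ := det_jet Φ x Λ hΦ2 hΦ3 hΦq A hA d
  have hJ' : (Matrix.of fun a b => jet Φ d a (adp A x d b)) = Ψ * Cm.transpose := by
    ext a b
    obtain ⟨r, hr⟩ := hCm b
    rw [Matrix.of_apply, Matrix.mul_apply, hr,
      md_jet_add Φ d a _ _ (by rw [map_mul, hΦq, mul_zero]), md_jet]
    refine Finset.sum_congr rfl fun c _ => ?_
    rw [Matrix.transpose_apply, hΨ, Matrix.of_apply, mul_comm]
  rw [hJ', Matrix.det_mul, Matrix.det_transpose, hCmdet] at hJ
  -- values of the determinants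
  have hE₁ : ∑ γ ∈ mon n d, (2 * (d - γ.degree - 1) + 1) = E₁ n d := by
    have h1 : ∑ γ ∈ mon n d, (2 * (d - γ.degree - 1) + 1) =
        ∑ γ ∈ mon n d, ((d - γ.degree) + (d - γ.degree - 1)) := by
      refine Finset.sum_congr rfl fun γ hγ => ?_
      rw [mem_mon] at hγ
      omega
    rw [h1, Finset.sum_add_distrib, sum_codeg hn, sum_codeg' hn]
    rfl
  have hE₂ : ∑ γ ∈ mon n d, (d - γ.degree) = E₂ n d := sum_codeg hn d
  have hwneg : w (-1) = 1 := by rw [Valuation.map_neg, map_one]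
  have hv1 : w (∏ γ ∈ mon n d, (x 0 * (-2 * x 0 ^ 2) ^ (d - γ.degree - 1))) =
      w (x 0) ^ E₁ n d := by
    rw [map_prod, ← hE₁, ← Finset.prod_pow_eq_pow_sum]
    refine Finset.prod_congr rfl fun γ _ => ?_
    rw [map_mul, map_pow, map_mul, Valuation.map_neg, hw2, one_mul, map_pow, ← pow_mul, pow_succ,
      mul_comm]
  have hv2 : w (∏ γ ∈ mon n d, (-(∑ j, Λ 0 j ^ 2) / 2) ^ (d - γ.degree)) =
      w (∑ j, L 0 (x j) ^ 2) ^ E₂ n d := by
    rw [map_prod, ← hE₂, ← Finset.prod_pow_eq_pow_sum]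
    refine Finset.prod_congr rfl fun γ _ => ?_
    rw [map_pow, map_div₀, hw2, div_one, Valuation.map_neg]
    rfl
  have hwx : w (x 0) ≠ 0 := (w.ne_zero_iff).2 hx0
  have hwh : w h0 ≠ 0 := (w.ne_zero_iff).2 hh
  have hwA : w A.det * (w (x 0) * w h0) = 1 := by
    have h1 := congrArg w hAdet
    rwa [map_mul, map_mul, map_mul, hw2, one_mul, map_one] at h1
  have hΨv : w Ψ.det = w h0 ^ E₁ n d * w (∑ j, L 0 (x j) ^ 2) ^ E₂ n d := by
    have h1 := congrArg w hJ
    rw [map_mul, map_mul, map_pow, hv1, hv2] at h1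
    rw [← h1]
    have h2 : (w A.det * (w (x 0) * w h0)) ^ E₁ n d = 1 := by rw [hwA, one_pow]
    calc w Ψ.det = w Ψ.det * (w A.det * (w (x 0) * w h0)) ^ E₁ n d := by rw [h2, mul_one]
      _ = w h0 ^ E₁ n d * (w Ψ.det * (w A.det ^ E₁ n d * w (x 0) ^ E₁ n d)) := by
          rw [mul_pow, mul_pow]
          ring
  -- the matrix of the family
  have hN : (Matrix.of fun i a => jet Φ d a (MvPolynomial.map (algebraMap ℂ F)
      (∑ c, C (m i c) * stdMon n d ℂ c))) = (m.map (algebraMap ℂ F)) * Ψ.transpose := by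
    ext i a
    rw [Matrix.of_apply, Matrix.mul_apply, map_sum]
    have h1 : ∀ c, MvPolynomial.map (algebraMap ℂ F) (C (m i c) * stdMon n d ℂ c) =
        C (algebraMap ℂ F (m i c)) * stdMon n d F c := by
      intro c
      rw [map_mul, map_C, map_stdMon]
    simp only [h1]
    rw [md_jet]
    rfl
  have hmdet : w (m.map (algebraMap ℂ F)).det = 1 := by
    have h1 : (m.map (algebraMap ℂ F)).det = algebraMap ℂ F m.det :=
      (RingHom.map_det (algebraMap ℂ F) m).symm
    rw [h1]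
    exact hw _ hm
  have hfin := det_le_prod w (Matrix.of fun i a => jet Φ d a (MvPolynomial.map (algebraMap ℂ F)
      (∑ c, C (m i c) * stdMon n d ℂ c)))
    (fun i => w (∑ a, algebraMap ℂ F (m i a) * stdVal d x a)) (fun a => B ^ ord n d a)
    (fun i a => by
      have h1 := hΦ1 (∑ c, C (m i c) * stdMon n d ℂ c) (ord n d a) (expo d a)
      have h2 : aeval x (∑ c, C (m i c) * stdMon n d ℂ c) =
          ∑ a, algebraMap ℂ F (m i a) * stdVal d x a := by
        rw [map_sum]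
        refine Finset.sum_congr rfl fun c _ => ?_
        rw [map_mul, aeval_stdMon, aeval_C]
      rw [h2] at h1
      rw [mul_comm]
      exact h1)
  rw [hN, Matrix.det_mul, Matrix.det_transpose, map_mul, hmdet, one_mul, hΨv,
    Finset.prod_pow_eq_pow_sum] at hfin
  rw [mul_comm (B ^ tot n d)]
  exact hfin

end Vale.Agent.P282.WR
end

section

/-!
P282-WR-7: change of the frame.
-/

open scoped NNReal Nat

namespace Vale.Agent.P282.WR

/-- The diagonal case: the `i`-th derivation instead of the zeroth. -/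
theorem frame_diag {n : ℕ} [NeZero n] {F : Type} [Field F] [Algebra ℂ F] (w : Valuation F ℝ≥0)
    (hw : ∀ c : ℂ, c ≠ 0 → w (algebraMap ℂ F c) = 1) (L : Fin n → Derivation ℂ F F) {B : ℝ≥0}
    (hB : 1 ≤ B) (hL : ∀ i f, w (L i f) ≤ B * w f) (x : Fin (n + 1) → F)
    (hq : ∑ j, x j ^ 2 = 0) (hx0 : x 0 ≠ 0) {h0 : F} (hh : h0 ≠ 0)
    (hdet : Matrix.det (Matrix.of fun i j : Fin n => L i (x j.succ)) = 2 * x 0 * h0) (d : ℕ)
    (m : Matrix (Idx n d) (Idx n d) ℂ) (hm : m.det ≠ 0) (i : Fin n) :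
    w h0 ^ E₁ n d * w (∑ j, L i (x j) ^ 2) ^ E₂ n d ≤
      B ^ tot n d * ∏ i, w (∑ a, algebraMap ℂ F (m i a) * stdVal d x a) := by
  classical
  set σ : Equiv.Perm (Fin n) := Equiv.swap 0 i with hσ
  have hs : w ((Equiv.Perm.sign σ : ℤ) : F) = 1 := by
    rcases Int.units_eq_one_or (Equiv.Perm.sign σ) with h | h
    · rw [h]; simp
    · rw [h]; simp
  have hs0 : ((Equiv.Perm.sign σ : ℤ) : F) ≠ 0 := by
    intro h
    rw [h, map_zero] at hs
    exact zero_ne_one hs
  have h1 := main_det w hw (fun a => L (σ a)) hB (fun a f => hL (σ a) f) x hq hx0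
    (h0 := ((Equiv.Perm.sign σ : ℤ) : F) * h0) (mul_ne_zero hs0 hh) (by
      have h2 := Matrix.det_permute σ (Matrix.of fun i j : Fin n => L i (x j.succ))
      have h3 : (Matrix.of fun a j : Fin n => L (σ a) (x j.succ)) =
          (Matrix.of fun i j : Fin n => L i (x j.succ)).submatrix σ id := rfl
      rw [h3, h2, hdet]
      ring) d m hm
  rw [map_mul, hs, one_mul] at h1
  have h4 : σ 0 = i := Equiv.swap_apply_left 0 i
  rw [h4] at h1
  exact h1

theorem main_ineq {n : ℕ} [NeZero n] {F : Type} [Field F] [Algebra ℂ F] (w : Valuation F ℝ≥0)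
    (hw : ∀ c : ℂ, c ≠ 0 → w (algebraMap ℂ F c) = 1) (L : Fin n → Derivation ℂ F F) {B : ℝ≥0}
    (hB : 1 ≤ B) (hL : ∀ i f, w (L i f) ≤ B * w f) (x : Fin (n + 1) → F)
    (hq : ∑ j, x j ^ 2 = 0) (hx0 : x 0 ≠ 0) {h0 : F} (hh : h0 ≠ 0)
    (hdet : Matrix.det (Matrix.of fun i j : Fin n => L i (x j.succ)) = 2 * x 0 * h0) (d : ℕ)
    (m : Matrix (Idx n d) (Idx n d) ℂ) (hm : m.det ≠ 0) (i k : Fin n) :
    w h0 ^ E₁ n d * w (∑ j, L i (x j) * L k (x j)) ^ E₂ n d ≤
      B ^ tot n d * ∏ i, w (∑ a, algebraMap ℂ F (m i a) * stdVal d x a) := by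
  classical
  by_cases hik : i = k
  · subst hik
    have h := frame_diag w hw L hB hL x hq hx0 hh hdet d m hm i
    have e : ∑ j, L i (x j) * L i (x j) = ∑ j, L i (x j) ^ 2 :=
      Finset.sum_congr rfl fun j _ => (sq _).symm
    rw [e]
    exact h
  · -- the two perturbed frames
    have key : ∀ s : ℂ, s = 1 ∨ s = -1 →
        w h0 ^ E₁ n d * w (∑ j, (L i (x j) + algebraMap ℂ F s * L k (x j)) ^ 2) ^ E₂ n d ≤
          B ^ tot n d * ∏ i, w (∑ a, algebraMap ℂ F (m i a) * stdVal d x a) := by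
      intro s hs
      have hs1 : w (algebraMap ℂ F s) ≤ 1 := by
        rw [hw s (by rcases hs with h | h <;> rw [h] <;> norm_num)]
      set L' : Fin n → Derivation ℂ F F := Function.update L i (L i + s • L k) with hL'
      have hLi : ∀ f, L' i f = L i f + algebraMap ℂ F s * L k f := by
        intro f
        rw [hL', Function.update_self]
        change L i f + s • L k f = _
        rw [Algebra.smul_def]
      have hLa : ∀ a, a ≠ i → L' a = L a := fun a ha => Function.update_of_ne ha _ _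
      have hbound : ∀ a f, w (L' a f) ≤ B * w f := by
        intro a f
        by_cases ha : a = i
        · rw [ha, hLi]
          refine (w.map_add _ _).trans (max_le (hL i f) ?_)
          rw [map_mul]
          calc w (algebraMap ℂ F s) * w (L k f) ≤ 1 * (B * w f) :=
                mul_le_mul hs1 (hL k f) zero_le zero_le
            _ = B * w f := one_mul _
        · rw [hLa a ha]
          exact hL a f
      have hd : Matrix.det (Matrix.of fun a j : Fin n => L' a (x j.succ)) = 2 * x 0 * h0 := by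
        rw [← hdet, ← Matrix.det_updateRow_add_smul_self
          (Matrix.of fun i j : Fin n => L i (x j.succ)) hik (algebraMap ℂ F s)]
        congr 1
        ext a j
        by_cases ha : a = i
        · subst ha
          simp only [Matrix.updateRow_self, Matrix.of_apply, hLi, Pi.add_apply, Pi.smul_apply,
            smul_eq_mul]
        · simp [Matrix.updateRow_ne ha, hLa a ha]
      have h := frame_diag w hw L' hB hbound x hq hx0 hh hd d m hm i
      have e : ∑ j, L' i (x j) ^ 2 = ∑ j, (L i (x j) + algebraMap ℂ F s * L k (x j)) ^ 2 :=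
        Finset.sum_congr rfl fun j _ => by rw [hLi]
      rw [e] at h
      exact h
    have hp := key 1 (Or.inl rfl)
    have hn := key (-1) (Or.inr rfl)
    set P := ∑ j, (L i (x j) + algebraMap ℂ F 1 * L k (x j)) ^ 2 with hP
    set Q := ∑ j, (L i (x j) + algebraMap ℂ F (-1) * L k (x j)) ^ 2 with hQ
    have hdiff : P - Q = algebraMap ℂ F 4 * ∑ j, L i (x j) * L k (x j) := by
      rw [hP, hQ, ← Finset.sum_sub_distrib, Finset.mul_sum]
      refine Finset.sum_congr rfl fun j _ => ?_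
      have h4 : algebraMap ℂ F 4 = 4 := by
        rw [show (4 : ℂ) = ((4 : ℕ) : ℂ) by norm_num, map_natCast]
        norm_num
      rw [h4, map_one, map_neg, map_one]
      ring
    have hw4 : w (∑ j, L i (x j) * L k (x j)) ≤ max (w P) (w Q) := by
      have h1 : w (P - Q) = w (∑ j, L i (x j) * L k (x j)) := by
        rw [hdiff, map_mul, hw 4 (by norm_num), one_mul]
      rw [← h1]
      exact w.map_sub P Q
    rcases le_max_iff.1 hw4 with h | h
    · exact (mul_le_mul le_rfl (pow_le_pow_left₀ zero_le h _) zero_le zero_le).trans hp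
    · exact (mul_le_mul le_rfl (pow_le_pow_left₀ zero_le h _) zero_le zero_le).trans hn

end Vale.Agent.P282.WR
end

section

/-!
P282-WR-9: the main inequality in logarithmic form.
-/

open scoped NNReal Nat

namespace Vale.Agent.P282.WR

/-- The real inequality behind `log_ineq`. -/
theorem logIneq_real {n E F t : ℕ} (hn : 2 ≤ n) {ε a l g s : ℝ}
    (h1 : E * l + F * g ≤ t * ε + s) (h2 : 2 * l ≤ 2 * ε + ((n : ℝ) - 1) * g) (hl : -l ≤ a) :
    -s ≤ a * (E + 2 / ((n : ℝ) - 1) * F) + ε * (t + 2 / ((n : ℝ) - 1) * F) := by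
  have hn1 : (0 : ℝ) < (n : ℝ) - 1 := by
    have : (2 : ℝ) ≤ n := by exact_mod_cast hn
    linarith
  have hE : (0 : ℝ) ≤ E := Nat.cast_nonneg _
  have hF : (0 : ℝ) ≤ F := Nat.cast_nonneg _
  have h3 : -g ≤ 2 / ((n : ℝ) - 1) * (ε + a) := by
    rw [div_mul_eq_mul_div, le_div_iff₀ hn1]
    linarith
  have h4 : (F : ℝ) * -g ≤ F * (2 / ((n : ℝ) - 1) * (ε + a)) := mul_le_mul_of_nonneg_left h3 hF
  have h5 : (E : ℝ) * -l ≤ E * a := mul_le_mul_of_nonneg_left hl hE
  linarith only [h5, h4, h1]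

theorem log_ineq {n : ℕ} [NeZero n] (hn : 2 ≤ n) {F : Type} [Field F] [Algebra ℂ F]
    (w : Valuation F ℝ≥0)
    (hw : ∀ c : ℂ, c ≠ 0 → w (algebraMap ℂ F c) = 1) (L : Fin n → Derivation ℂ F F) {ε : ℝ}
    (hε : 0 ≤ ε) (hL : ∀ i f, (w (L i f) : ℝ) ≤ Real.exp ε * w f) (x : Fin (n + 1) → F)
    (hq : ∑ j, x j ^ 2 = 0) (hx0 : x 0 ≠ 0) {h0 : F} {a : ℝ} (ha : Real.exp (-a) ≤ w h0)
    (hdet : Matrix.det (Matrix.of fun i j : Fin n => L i (x j.succ)) = 2 * x 0 * h0) (d : ℕ)
    (m : Matrix (Idx n d) (Idx n d) ℂ) (hm : m.det ≠ 0) :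
    (∀ i, w (∑ a, algebraMap ℂ F (m i a) * stdVal d x a) ≠ 0) ∧
    ∑ i, -Real.log (w (∑ a, algebraMap ℂ F (m i a) * stdVal d x a)) ≤
      a * Kd n d + ε * Cd n d := by
  -- the constant
  let B : ℝ≥0 := ⟨Real.exp ε, (Real.exp_pos ε).le⟩
  have hBc : (B : ℝ) = Real.exp ε := rfl
  have hB : 1 ≤ B := by
    rw [← NNReal.coe_le_coe, hBc, NNReal.coe_one]
    exact Real.one_le_exp hε
  have hB0 : (0 : ℝ) < B := Real.exp_pos ε
  have hL' : ∀ i f, w (L i f) ≤ B * w f := by
    intro i f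
    rw [← NNReal.coe_le_coe, NNReal.coe_mul, hBc]
    exact hL i f
  have hw0 : (0 : ℝ) < w h0 := (Real.exp_pos _).trans_le ha
  have hw0' : w h0 ≠ 0 := fun h => by simp [h] at hw0
  have hh : h0 ≠ 0 := fun h => hw0' (by rw [h, map_zero])
  -- the maximal entry of the Gram matrix
  obtain ⟨p, -, hp⟩ := Finset.exists_max_image (Finset.univ : Finset (Fin n × Fin n))
    (fun p => w (∑ j, L p.1 (x j) * L p.2 (x j))) ⟨(0, 0), Finset.mem_univ _⟩
  set γ : ℝ≥0 := w (∑ j, L p.1 (x j) * L p.2 (x j)) with hγ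
  have hgram := gram_bound w hw L hL' x hq hx0 hh hdet (γ := γ)
    (fun i k => hp (i, k) (Finset.mem_univ _))
  have hγ0 : γ ≠ 0 := by
    intro h
    rw [h, zero_pow (by omega), mul_zero, le_zero_iff] at hgram
    exact hw0' (pow_eq_zero_iff (two_ne_zero) |>.1 hgram)
  have hmain := main_ineq w hw L hB hL' x hq hx0 hh hdet d m hm p.1 p.2
  rw [← hγ] at hmain
  have hlhs : w h0 ^ E₁ n d * γ ^ E₂ n d ≠ 0 := mul_ne_zero (pow_ne_zero _ hw0') (pow_ne_zero _ hγ0)
  have hprod : ∏ i, w (∑ a, algebraMap ℂ F (m i a) * stdVal d x a) ≠ 0 := by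
    intro h
    rw [h, mul_zero, le_zero_iff] at hmain
    exact hlhs hmain
  have hne : ∀ i, w (∑ a, algebraMap ℂ F (m i a) * stdVal d x a) ≠ 0 := fun i =>
    Finset.prod_ne_zero_iff.1 hprod i (Finset.mem_univ _)
  refine ⟨hne, ?_⟩
  -- logarithms
  have hγr : (0 : ℝ) < γ := by
    rw [NNReal.coe_pos]
    exact pos_iff_ne_zero.2 hγ0
  have h1 : (E₁ n d : ℝ) * Real.log (w h0) + (E₂ n d : ℝ) * Real.log γ ≤ (tot n d : ℝ) * ε +
      ∑ i, Real.log (w (∑ a, algebraMap ℂ F (m i a) * stdVal d x a)) := by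
    have h2 : ((w h0 ^ E₁ n d * γ ^ E₂ n d : ℝ≥0) : ℝ) ≤
        ((B ^ tot n d * ∏ i, w (∑ a, algebraMap ℂ F (m i a) * stdVal d x a) : ℝ≥0) : ℝ) :=
      NNReal.coe_le_coe.2 hmain
    have h3 := Real.log_le_log (by
      rw [NNReal.coe_pos]
      exact pos_iff_ne_zero.2 hlhs) h2
    rw [NNReal.coe_mul, NNReal.coe_mul, NNReal.coe_pow, NNReal.coe_pow, NNReal.coe_pow,
      NNReal.coe_prod, Real.log_mul (pow_ne_zero _ hw0.ne') (pow_ne_zero _ hγr.ne'),
      Real.log_mul (pow_ne_zero _ hB0.ne') (by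
        rw [← NNReal.coe_prod]
        exact NNReal.coe_ne_zero.2 hprod), Real.log_pow, Real.log_pow, Real.log_pow,
      Real.log_prod (fun i _ => NNReal.coe_ne_zero.2 (hne i)), hBc, Real.log_exp] at h3
    exact h3
  have h2 : 2 * Real.log (w h0) ≤ 2 * ε + ((n : ℝ) - 1) * Real.log γ := by
    have h3 : ((w h0 ^ 2 : ℝ≥0) : ℝ) ≤ ((B ^ 2 * γ ^ (n - 1) : ℝ≥0) : ℝ) :=
      NNReal.coe_le_coe.2 hgram
    have h4 := Real.log_le_log (by
      rw [NNReal.coe_pow]
      exact pow_pos hw0 2) h3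
    rw [NNReal.coe_mul, NNReal.coe_pow, NNReal.coe_pow, NNReal.coe_pow,
      Real.log_mul (pow_ne_zero _ hB0.ne') (pow_ne_zero _ hγr.ne'), Real.log_pow, Real.log_pow,
      Real.log_pow, hBc, Real.log_exp, Nat.cast_sub (by omega), Nat.cast_one,
      Nat.cast_ofNat] at h4
    exact h4
  have h3 : -Real.log (w h0) ≤ a := by
    have h4 := Real.log_le_log (Real.exp_pos (-a)) ha
    rw [Real.log_exp] at h4
    linarith
  rw [Finset.sum_neg_distrib]
  exact logIneq_real hn h1 h2 h3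

end Vale.Agent.P282.WR
end

section

/-!
P282-WR-10: bases adapted to the filtration.
-/

open scoped NNReal Nat

namespace Vale.Agent.P282.WR

/-- Independent sets adapted to a decreasing chain of subspaces. -/
theorem flag_aux {E : Type} [AddCommGroup E] [Module ℂ E] (T : ℕ) :
    ∀ V : ℕ → Submodule ℂ E, Antitone V →
    ∃ b : Set E, b ⊆ V 0 ∧ LinearIndepOn ℂ id b ∧
      ∀ k ≤ T, V k ≤ Submodule.span ℂ (b ∩ V k) := by
  induction T with
  | zero =>
    intro V _
    obtain ⟨b, hb, -, hb1, hb2⟩ := exists_linearIndepOn_id_extension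
      (linearIndepOn_empty ℂ (id : E → E)) (Set.empty_subset (V 0 : Set E))
    refine ⟨b, hb, hb2, fun k hk => ?_⟩
    obtain rfl : k = 0 := by omega
    rw [Set.inter_eq_left.2 hb]
    exact hb1
  | succ T ih =>
    intro V hV
    obtain ⟨b', hb', hb1', hb2'⟩ := ih (fun k => V (k + 1)) fun k l h => hV (by omega)
    obtain ⟨b, hb, hbb, hb1, hb2⟩ := exists_linearIndepOn_id_extension hb1'
      (hb'.trans (hV (by omega : (0 : ℕ) ≤ 0 + 1)))
    refine ⟨b, hb, hb2, fun k hk => ?_⟩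
    cases k with
    | zero =>
      rw [Set.inter_eq_left.2 hb]
      exact hb1
    | succ k =>
      exact (hb2' k (by omega)).trans (Submodule.span_mono (Set.inter_subset_inter_left _ hbb))

/-- A basis adapted to a decreasing chain of subspaces. -/
theorem exists_adapted {ι : Type} [Fintype ι] [DecidableEq ι] (T : ℕ)
    (V : ℕ → Submodule ℂ (ι → ℂ)) (hV : Antitone V) :
    ∃ m : Matrix ι ι ℂ, m.det ≠ 0 ∧
      ∀ k ≤ T, Module.finrank ℂ (V k) ≤ Nat.card {i // m i ∈ V k} := by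
  obtain ⟨b₀, -, hb₀, hb1⟩ := flag_aux T V hV
  obtain ⟨b, -, hbb, hspan, hli⟩ := exists_linearIndepOn_id_extension hb₀ (Set.subset_univ b₀)
  have hli' : LinearIndependent ℂ (fun v : b => (v : ι → ℂ)) := hli
  have htop : ⊤ ≤ Submodule.span ℂ (Set.range fun v : b => (v : ι → ℂ)) := by
    rw [Subtype.range_coe]
    exact fun v _ => hspan (Set.mem_univ v)
  let B : Module.Basis b ℂ (ι → ℂ) := Module.Basis.mk hli' htop
  have : Finite b := Module.Finite.finite_basis B
  have : Fintype b := Fintype.ofFinite b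
  have hcard : Fintype.card ι = Fintype.card b := by
    rw [← Module.finrank_eq_card_basis B, Module.finrank_fintype_fun_eq_card]
  obtain ⟨e⟩ := Fintype.card_eq.1 hcard
  refine ⟨fun i => (e i : ι → ℂ), ?_, fun k hk => ?_⟩
  · have h1 : LinearIndependent ℂ (fun i => ((e i : b) : ι → ℂ)) :=
      hli'.comp e e.injective
    have h2 := (Matrix.linearIndependent_rows_iff_isUnit
      (A := fun i => ((e i : b) : ι → ℂ))).1 h1
    exact ((Matrix.isUnit_iff_isUnit_det _).1 h2).ne_zero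
  · have h1 : V k ≤ Submodule.span ℂ (Set.range fun i : {i // ((e i : b) : ι → ℂ) ∈ V k} =>
        ((e i : b) : ι → ℂ)) := by
      refine (hb1 k hk).trans (Submodule.span_mono ?_)
      rintro v ⟨hv, hvk⟩
      obtain ⟨i, hi⟩ := e.surjective ⟨v, hbb hv⟩
      refine ⟨⟨i, ?_⟩, ?_⟩
      · rw [hi]; exact hvk
      · show ((e i : b) : ι → ℂ) = v
        rw [hi]
    have : Fintype {i // ((e i : b) : ι → ℂ) ∈ V k} := Fintype.ofFinite _
    rw [Nat.card_eq_fintype_card]
    exact (Submodule.finrank_mono h1).trans (finrank_range_le_card _)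

section space

variable {n : ℕ} {F : Type} [Field F] [Algebra ℂ F]

/-- The polynomials (in the span of the standard basis) with `ord P(x) ≥ k`. -/
def wspace (w : Valuation F ℝ≥0) (hw : ∀ c : ℂ, c ≠ 0 → w (algebraMap ℂ F c) = 1) (d : ℕ)
    (x : Fin (n + 1) → F) (k : ℕ) : Submodule ℂ (Idx n d → ℂ) where
  carrier := {c | (w (∑ a, algebraMap ℂ F (c a) * stdVal d x a) : ℝ) ≤ Real.exp (-(k : ℝ))}
  add_mem' := by
    intro c c' h h'
    rw [Set.mem_ofPred_eq] at h h' ⊢
    have e : ∑ a, algebraMap ℂ F ((c + c') a) * stdVal d x a =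
        ∑ a, algebraMap ℂ F (c a) * stdVal d x a + ∑ a, algebraMap ℂ F (c' a) * stdVal d x a := by
      rw [← Finset.sum_add_distrib]
      refine Finset.sum_congr rfl fun a _ => ?_
      rw [Pi.add_apply, map_add, add_mul]
    rw [e]
    have := w.map_add (∑ a, algebraMap ℂ F (c a) * stdVal d x a)
      (∑ a, algebraMap ℂ F (c' a) * stdVal d x a)
    refine le_trans (NNReal.coe_le_coe.2 this) ?_
    rw [NNReal.coe_max]
    exact max_le h h'
  zero_mem' := by
    rw [Set.mem_ofPred_eq]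
    simp only [Pi.zero_apply, map_zero, zero_mul, Finset.sum_const_zero, NNReal.coe_zero]
    exact (Real.exp_pos _).le
  smul_mem' := by
    intro z c h
    rw [Set.mem_ofPred_eq] at h ⊢
    have e : ∑ a, algebraMap ℂ F ((z • c) a) * stdVal d x a =
        algebraMap ℂ F z * ∑ a, algebraMap ℂ F (c a) * stdVal d x a := by
      rw [Finset.mul_sum]
      refine Finset.sum_congr rfl fun a _ => ?_
      rw [Pi.smul_apply, smul_eq_mul, map_mul, mul_assoc]
    rw [e, map_mul]
    by_cases hz : z = 0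
    · rw [hz, map_zero, map_zero, zero_mul, NNReal.coe_zero]
      exact (Real.exp_pos _).le
    · rw [hw z hz, one_mul]
      exact h

/-- The sum of the dimensions of the spaces `ord P(x) ≥ k`, `1 ≤ k ≤ T`, is at most
`a K_d + ε C_d`. -/
theorem sum_finrank_le [NeZero n] (hn : 2 ≤ n)
    (w : Valuation F ℝ≥0)
    (hw : ∀ c : ℂ, c ≠ 0 → w (algebraMap ℂ F c) = 1) (L : Fin n → Derivation ℂ F F) {ε : ℝ}
    (hε : 0 ≤ ε) (hL : ∀ i f, (w (L i f) : ℝ) ≤ Real.exp ε * w f) (x : Fin (n + 1) → F)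
    (hq : ∑ j, x j ^ 2 = 0) (hx0 : x 0 ≠ 0) (hx1 : ∀ j, w (x j) ≤ 1)
    {h0 : F} {a : ℝ} (ha : Real.exp (-a) ≤ w h0)
    (hdet : Matrix.det (Matrix.of fun i j : Fin n => L i (x j.succ)) = 2 * x 0 * h0) (d T : ℕ) :
    ∑ k ∈ Finset.Icc 1 T, (Module.finrank ℂ (wspace w hw d x k) : ℝ) ≤ a * Kd n d + ε * Cd n d := by
  have hanti : Antitone (wspace w hw d x) := by
    intro k l hkl c hc
    refine le_trans hc (Real.exp_le_exp.2 ?_)
    have : (k : ℝ) ≤ l := by exact_mod_cast hkl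
    linarith
  classical
  obtain ⟨m, hm, hcard⟩ := exists_adapted T (wspace w hw d x) hanti
  obtain ⟨hne, hlog⟩ := log_ineq hn w hw L hε hL x hq hx0 ha hdet d m hm
  have hstd : ∀ b, w (stdVal d x b) ≤ 1 := by
    intro b
    have hp : ∀ α : Fin n →₀ ℕ, w (∏ j, x j.succ ^ (α j)) ≤ 1 := by
      intro α
      rw [map_prod]
      refine Finset.prod_le_one' fun j _ => ?_
      rw [map_pow]
      exact pow_le_one' (hx1 _) _
    cases b with
    | inl α => exact hp _
    | inr γ =>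
      rw [stdVal, Sum.elim_inr, map_mul]
      exact mul_le_one' (hx1 0) (hp _)
  have hle : ∀ i, w (∑ b, algebraMap ℂ F (m i b) * stdVal d x b) ≤ 1 := by
    intro i
    refine w.map_sum_le fun b _ => ?_
    rw [map_mul]
    by_cases hz : m i b = 0
    · rw [hz, map_zero, map_zero, zero_mul]
      exact zero_le_one
    · rw [hw _ hz, one_mul]
      exact hstd b
  refine le_trans ?_ hlog
  have hcount : ∀ i, ((((Finset.Icc 1 T).filter fun k : ℕ =>
      m i ∈ wspace w hw d x k).card : ℕ) : ℝ) ≤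
        -Real.log (w (∑ b, algebraMap ℂ F (m i b) * stdVal d x b)) := by
    intro i
    have hpos : (0 : ℝ) < w (∑ b, algebraMap ℂ F (m i b) * stdVal d x b) := by
      rw [NNReal.coe_pos]
      exact pos_iff_ne_zero.2 (hne i)
    have hl0 : 0 ≤ -Real.log (w (∑ b, algebraMap ℂ F (m i b) * stdVal d x b)) := by
      rw [neg_nonneg]
      exact Real.log_nonpos hpos.le (by exact_mod_cast hle i)
    refine le_trans ?_ (Nat.floor_le hl0)
    rw [Nat.cast_le]
    have hsub : ((Finset.Icc 1 T).filter fun k : ℕ => m i ∈ wspace w hw d x k) ⊆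
        Finset.Icc 1 ⌊-Real.log (w (∑ b, algebraMap ℂ F (m i b) * stdVal d x b))⌋₊ := by
      intro k hk
      rw [Finset.mem_filter, Finset.mem_Icc] at hk
      rw [Finset.mem_Icc]
      refine ⟨hk.1.1, Nat.le_floor ?_⟩
      have h1 : (w (∑ b, algebraMap ℂ F (m i b) * stdVal d x b) : ℝ) ≤
          Real.exp (-(k : ℝ)) := hk.2
      have h2 := Real.log_le_log hpos h1
      rw [Real.log_exp] at h2
      linarith
    refine (Finset.card_le_card hsub).trans ?_
    rw [Nat.card_Icc, Nat.add_sub_cancel]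
  have h1 : ∀ k ∈ Finset.Icc 1 T, (Module.finrank ℂ (wspace w hw d x k) : ℝ) ≤
      ∑ i, if m i ∈ wspace w hw d x k then (1 : ℝ) else 0 := by
    intro k hk
    have h2 := hcard k (Finset.mem_Icc.1 hk).2
    rw [Nat.card_eq_fintype_card, Fintype.card_subtype] at h2
    rw [Finset.sum_boole]
    exact_mod_cast h2
  refine (Finset.sum_le_sum h1).trans ?_
  rw [Finset.sum_comm]
  refine Finset.sum_le_sum fun i _ => ?_
  rw [Finset.sum_boole]
  exact hcount i

end space

end Vale.Agent.P282.WR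
end

section

/-!
P282-WR-11: the dimension of the standard space and the length of `R / a_k`.
-/

open scoped NNReal ENNReal Nat
open IsLocalRing

namespace Vale.Agent.P282.WR

open Vale.Agent.P282.Full

section ideals

variable {R K : Type} [CommRing R] [Field K] [Algebra R K] {v : Valuation K ℝ≥0}

private theorem wln_span_le (hv : ∀ f : R, v (algebraMap R K f) ≤ 1) {s : Set R} {a : ℝ≥0}
    (h : ∀ f ∈ s, v (algebraMap R K f) ≤ a) : ∀ f ∈ Ideal.span s, v (algebraMap R K f) ≤ a := by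
  intro f hf
  refine Submodule.span_induction (p := fun f _ => v (algebraMap R K f) ≤ a) h (by simp) ?_ ?_ hf
  · intro x y _ _ hx hy
    rw [map_add]
    exact (v.map_add _ _).trans (max_le hx hy)
  · intro c x _ hx
    rw [smul_eq_mul, map_mul, map_mul]
    calc v (algebraMap R K c) * v (algebraMap R K x) ≤ 1 * a := mul_le_mul' (hv c) hx
      _ = a := one_mul a

private theorem wln_mul_le {I J : Ideal R} {a b : ℝ≥0}
    (hI : ∀ f ∈ I, v (algebraMap R K f) ≤ a) (hJ : ∀ f ∈ J, v (algebraMap R K f) ≤ b) :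
    ∀ f ∈ I * J, v (algebraMap R K f) ≤ a * b := by
  intro f hf
  refine Submodule.mul_induction_on hf (fun i hi j hj => ?_) fun x y hx hy => ?_
  · rw [map_mul, map_mul]
    exact mul_le_mul' (hI i hi) (hJ j hj)
  · rw [map_add]
    exact (v.map_add _ _).trans (max_le hx hy)

private theorem wln_pow_le (hv : ∀ f : R, v (algebraMap R K f) ≤ 1) {I : Ideal R} {a : ℝ≥0}
    (hI : ∀ f ∈ I, v (algebraMap R K f) ≤ a) (N : ℕ) :
    ∀ f ∈ I ^ N, v (algebraMap R K f) ≤ a ^ N := by
  induction N with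
  | zero =>
    intro f _
    rw [pow_zero]
    exact hv f
  | succ N ih =>
    rw [pow_succ, pow_succ]
    exact wln_mul_le ih hI

private theorem wln_mem {v : Valuation K ℝ≥0} (hv : ∀ f : R, v (algebraMap R K f) ≤ 1) {t : ℝ}
    {f : R} (hf : f ∈ Full.valIdeal R v t) : (v (algebraMap R K f) : ℝ) ≤ Real.exp (-t) := by
  have h1 : v (algebraMap R K f) ≤ (Real.exp (-t)).toNNReal := by
    refine wln_span_le hv (s := {f | (v (algebraMap R K f) : ℝ) ≤ Real.exp (-t)}) ?_ f hf
    intro g hg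
    exact NNReal.le_toNNReal_of_coe_le hg
  have h2 := NNReal.coe_le_coe.mpr h1
  rwa [Real.coe_toNNReal _ (Real.exp_pos _).le] at h2

end ideals


theorem length_lt_top {R K : Type} [CommRing R] [IsDomain R] [IsLocalRing R] [IsNoetherianRing R]
    [Field K] [Algebra R K] (v : Valuation K ℝ≥0) (hv : HasCenter R v (maximalIdeal R)) (k : ℕ) :
    Module.length R (R ⧸ Full.valIdeal R v k) < ⊤ := by
  obtain ⟨s, hs⟩ := (IsNoetherian.noetherian (maximalIdeal R) : (maximalIdeal R).FG)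
  let ρ : ℝ≥0 := s.sup fun f => v (algebraMap R K f)
  have hρ : ρ < 1 := by
    rw [Finset.sup_lt_iff (by simp)]
    intro f hf
    refine (hv f).2.2 ?_
    rw [← hs]
    exact Submodule.subset_span hf
  have hm : ∀ f ∈ maximalIdeal R, v (algebraMap R K f) ≤ ρ := by
    intro f hf
    rw [← hs] at hf
    refine wln_span_le (fun f => (hv f).1) (s := (s : Set R)) ?_ f hf
    intro g hg
    exact Finset.le_sup (f := fun f => v (algebraMap R K f)) hg
  have hlim := tendsto_pow_atTop_nhds_zero_of_lt_one (NNReal.coe_nonneg ρ)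
    (by exact_mod_cast hρ : (ρ : ℝ) < 1)
  obtain ⟨N, hN⟩ := ((tendsto_order.1 hlim).2 _ (Real.exp_pos (-(k : ℝ)))).exists
  have hle : maximalIdeal R ^ (N + 1) ≤ Full.valIdeal R v k := by
    intro f hf
    have h1 := wln_pow_le (fun f => (hv f).1) hm N f (Ideal.pow_le_pow_right (Nat.le_succ N) hf)
    refine Ideal.subset_span ?_
    rw [Set.mem_ofPred_eq]
    refine (NNReal.coe_le_coe.2 h1).trans ?_
    rw [NNReal.coe_pow]
    exact hN.le
  have hmin : maximalIdeal R ∈ (maximalIdeal R ^ (N + 1)).minimalPrimes :=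
    ⟨⟨(maximalIdeal.isMaximal R).isPrime, Ideal.pow_le_self (Nat.succ_ne_zero N)⟩,
      fun q hq _ => hq.1.le_of_pow_le hq.2⟩
  have hart : IsArtinianRing (R ⧸ maximalIdeal R ^ (N + 1)) :=
    IsLocalRing.quotient_artinian_of_mem_minimalPrimes_of_isLocalRing _ hmin
  have hfin : Module.length R (R ⧸ maximalIdeal R ^ (N + 1)) < ⊤ := by
    rw [Module.length_eq_of_surjective (S := R) (R := R ⧸ maximalIdeal R ^ (N + 1))
      (M := R ⧸ maximalIdeal R ^ (N + 1)) Ideal.Quotient.mk_surjective]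
    exact Module.length_ne_top.lt_top
  exact (Module.length_le_of_surjective
    (Submodule.factor hle : (R ⧸ maximalIdeal R ^ (N + 1)) →ₗ[R] (R ⧸ Full.valIdeal R v k))
    (Submodule.factor_surjective hle)).trans_lt hfin

section point

variable {n : ℕ} {F : Type} [Field F]

private theorem wln_map {R : Type} [CommRing R] (f : R →+* F) (d : ℕ) (x : Fin (n + 1) → R)
    (a : Idx n d) : f (stdVal d x a) = stdVal d (fun j => f (x j)) a := by
  cases a with
  | inl α => simp [stdVal, map_prod]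
  | inr γ => simp [stdVal, map_prod]

private theorem wln_mul (w : Valuation F ℝ≥0) {δ : ℝ≥0} {p q p' q' : F}
    (h : w p ≤ 1 ∧ w q ≤ 1 ∧ w (p - q) ≤ δ) (h' : w p' ≤ 1 ∧ w q' ≤ 1 ∧ w (p' - q') ≤ δ) :
    w (p * p') ≤ 1 ∧ w (q * q') ≤ 1 ∧ w (p * p' - q * q') ≤ δ := by
  refine ⟨?_, ?_, ?_⟩
  · rw [map_mul]
    exact mul_le_one' h.1 h'.1
  · rw [map_mul]
    exact mul_le_one' h.2.1 h'.2.1
  · have e : p * p' - q * q' = p * (p' - q') + (p - q) * q' := by ring
    rw [e]
    refine (w.map_add _ _).trans (max_le ?_ ?_)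
    · rw [map_mul]
      calc w p * w (p' - q') ≤ 1 * δ := mul_le_mul' h.1 h'.2.2
        _ = δ := one_mul δ
    · rw [map_mul]
      calc w (p - q) * w q' ≤ δ * 1 := mul_le_mul' h.2.2 h'.2.1
        _ = δ := mul_one δ

private theorem wln_pow (w : Valuation F ℝ≥0) {δ : ℝ≥0} {p q : F}
    (h : w p ≤ 1 ∧ w q ≤ 1 ∧ w (p - q) ≤ δ) (m : ℕ) :
    w (p ^ m) ≤ 1 ∧ w (q ^ m) ≤ 1 ∧ w (p ^ m - q ^ m) ≤ δ := by
  induction m with
  | zero => simp
  | succ m ih =>
    rw [pow_succ, pow_succ]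
    exact wln_mul w ih h

private theorem wln_prod (w : Valuation F ℝ≥0) {δ : ℝ≥0} {ι : Type} (s : Finset ι) {p q : ι → F}
    (h : ∀ i, w (p i) ≤ 1 ∧ w (q i) ≤ 1 ∧ w (p i - q i) ≤ δ) :
    w (∏ i ∈ s, p i) ≤ 1 ∧ w (∏ i ∈ s, q i) ≤ 1 ∧ w (∏ i ∈ s, p i - ∏ i ∈ s, q i) ≤ δ := by
  classical
  induction s using Finset.induction_on with
  | empty => simp
  | insert a s ha ih =>
    rw [Finset.prod_insert ha, Finset.prod_insert ha]
    exact wln_mul w (h a) ih

private theorem wln_std (w : Valuation F ℝ≥0) {δ : ℝ≥0} {x y : Fin (n + 1) → F}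
    (h : ∀ i, w (x i) ≤ 1 ∧ w (y i) ≤ 1 ∧ w (x i - y i) ≤ δ) (d : ℕ) (a : Idx n d) :
    w (stdVal d x a - stdVal d y a) ≤ δ := by
  cases a with
  | inl α =>
    simp only [stdVal, Sum.elim_inl]
    exact (wln_prod w _ fun j => wln_pow w (h j.succ) (α.1 j)).2.2
  | inr γ =>
    simp only [stdVal, Sum.elim_inr]
    exact (wln_mul w (h 0) (wln_prod w _ fun j => wln_pow w (h j.succ) (γ.1 j))).2.2

end point

private theorem wln_length {R : Type} [CommRing R] [IsDomain R] [IsLocalRing R] [Algebra ℂ R]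
    (hres : Function.Surjective (algebraMap ℂ (ResidueField R))) (I : Ideal R) :
    Module.length ℂ (R ⧸ I) = Module.length R (R ⧸ I) := by
  have hloc : IsLocalHom (algebraMap ℂ R) := inferInstance
  have h1 := IsLocalRing.length_restrictScalars ℂ R (R ⧸ I)
  have h2 : Function.Surjective (algebraMap (ResidueField ℂ) (ResidueField R)) := by
    intro y
    obtain ⟨z, rfl⟩ := hres y
    exact ⟨residue ℂ z, rfl⟩
  have h3 : Module.length (ResidueField ℂ) (ResidueField R) = 1 := by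
    rw [Module.length_eq_of_surjective (S := ResidueField ℂ) (R := ResidueField R)
      (M := ResidueField R) h2]
    exact Module.length_eq_one _ _
  rw [h1, h3, mul_one]

theorem card_le_add {n : ℕ} {R K : Type} [CommRing R] [IsDomain R] [IsLocalRing R] [Algebra ℂ R]
    [Field K] [Algebra ℂ K] [Algebra R K] [IsScalarTower ℂ R K]
    (hres : Function.Surjective (algebraMap ℂ (ResidueField R))) (v : Valuation K ℝ≥0)
    (hv : HasCenter R v (maximalIdeal R)) {F : Type} [Field F] [Algebra ℂ F]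
    (w : Valuation F ℝ≥0) (hw : ∀ c : ℂ, c ≠ 0 → w (algebraMap ℂ F c) = 1) (ι : K →ₐ[ℂ] F)
    (hι : ∀ f, w (ι f) = v f) (x : Fin (n + 1) → F) (hx1 : ∀ j, w (x j) ≤ 1)
    (happ : ∀ N : ℕ, ∃ x1 : Fin (n + 1) → R, ∀ j,
      (w (x j - ι (algebraMap R K (x1 j))) : ℝ) ≤ Real.exp (-(N : ℝ))) (d k : ℕ) :
    (Fintype.card (Idx n d) : ℕ∞) ≤
      (Module.finrank ℂ (wspace w hw d x k) : ℕ∞) + Module.length R (R ⧸ Full.valIdeal R v k) := by
  obtain ⟨x1, hx⟩ := happ k
  let δ : ℝ≥0 := (Real.exp (-(k : ℝ))).toNNReal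
  have hδ : (δ : ℝ) = Real.exp (-(k : ℝ)) := Real.coe_toNNReal _ (Real.exp_pos _).le
  have hwc : ∀ c : ℂ, w (algebraMap ℂ F c) ≤ 1 := by
    intro c
    by_cases hc : c = 0
    · rw [hc, map_zero, map_zero]
      exact zero_le_one
    · exact (hw c hc).le
  let ψ : R →+* F := (ι : K →+* F).comp (algebraMap R K)
  have hψ : ∀ f : R, w (ψ f) = v (algebraMap R K f) := fun f => hι _
  have hψc : ∀ c : ℂ, ψ (algebraMap ℂ R c) = algebraMap ℂ F c := by
    intro c
    change ι (algebraMap R K (algebraMap ℂ R c)) = _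
    rw [← IsScalarTower.algebraMap_apply ℂ R K, AlgHom.commutes]
  have hclose : ∀ j, w (x j) ≤ 1 ∧ w (ψ (x1 j)) ≤ 1 ∧ w (x j - ψ (x1 j)) ≤ δ := by
    intro j
    refine ⟨hx1 j, ?_, ?_⟩
    · rw [hψ]
      exact (hv _).1
    · rw [← NNReal.coe_le_coe, hδ]
      exact hx j
  let T : (Idx n d → ℂ) →ₗ[ℂ] (R ⧸ Full.valIdeal R v k) :=
    (Ideal.Quotient.mkₐ ℂ (Full.valIdeal R v k)).toLinearMap ∘ₗ
      Fintype.linearCombination ℂ (fun a : Idx n d => stdVal d x1 a)
  have hker : LinearMap.ker T ≤ wspace w hw d x k := by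
    intro c hc
    have hmem : (∑ a, algebraMap ℂ R (c a) * stdVal d x1 a) ∈ Full.valIdeal R v k := by
      have h1 : Ideal.Quotient.mk (Full.valIdeal R v k) (Fintype.linearCombination ℂ
          (fun a : Idx n d => stdVal d x1 a) c) = 0 := hc
      rw [Ideal.Quotient.eq_zero_iff_mem, Fintype.linearCombination_apply] at h1
      simpa only [Algebra.smul_def] using h1
    have h2 : w (ψ (∑ a, algebraMap ℂ R (c a) * stdVal d x1 a)) ≤ δ := by
      rw [hψ, ← NNReal.coe_le_coe, hδ]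
      exact wln_mem (fun f => (hv f).1) hmem
    have h3 : w (∑ a, algebraMap ℂ F (c a) * stdVal d x a) ≤ δ := by
      have e : ∑ a, algebraMap ℂ F (c a) * stdVal d x a =
          ∑ a, algebraMap ℂ F (c a) * (stdVal d x a - stdVal d (fun j => ψ (x1 j)) a) +
            ψ (∑ a, algebraMap ℂ R (c a) * stdVal d x1 a) := by
        rw [map_sum, ← Finset.sum_add_distrib]
        refine Finset.sum_congr rfl fun a _ => ?_
        rw [map_mul, hψc, wln_map]
        ring
      rw [e]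
      refine (w.map_add _ _).trans (max_le ?_ h2)
      refine w.map_sum_le fun a _ => ?_
      rw [map_mul]
      calc w (algebraMap ℂ F (c a)) * w (stdVal d x a - stdVal d (fun j => ψ (x1 j)) a)
          ≤ 1 * δ := mul_le_mul' (hwc _) (wln_std w hclose d a)
        _ = δ := one_mul δ
    change (w (∑ a, algebraMap ℂ F (c a) * stdVal d x a) : ℝ) ≤ Real.exp (-(k : ℝ))
    rw [← hδ]
    exact NNReal.coe_le_coe.2 h3
  have hrk := LinearMap.finrank_range_add_finrank_ker T
  rw [Module.finrank_fintype_fun_eq_card] at hrk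
  have h4 : Module.finrank ℂ (LinearMap.ker T) ≤ Module.finrank ℂ (wspace w hw d x k) :=
    Submodule.finrank_mono hker
  have h5 : (Module.finrank ℂ (LinearMap.range T) : ℕ∞) ≤
      Module.length R (R ⧸ Full.valIdeal R v k) := by
    rw [← wln_length hres, ← Module.length_eq_finrank]
    exact Module.length_le_of_injective (LinearMap.range T).subtype
      (LinearMap.range T).subtype_injective
  calc (Fintype.card (Idx n d) : ℕ∞)
      = ((Module.finrank ℂ (LinearMap.range T) + Module.finrank ℂ (LinearMap.ker T) : ℕ) : ℕ∞) := by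
        rw [hrk]
    _ = (Module.finrank ℂ (LinearMap.ker T) : ℕ∞) +
        (Module.finrank ℂ (LinearMap.range T) : ℕ∞) := by
        rw [Nat.cast_add, add_comm]
    _ ≤ _ := add_le_add (by exact_mod_cast h4) h5

end Vale.Agent.P282.WR
end

section

/-!
P282-WR-12: from the counting inequality to the volume.
-/

open scoped NNReal ENNReal Nat
open Filter

namespace Vale.Agent.P282.WR

private theorem vn_pow_step (x : ℝ) (hx : 0 ≤ x) (n : ℕ) :
    x ^ (n + 1) + (n + 1) * x ^ n ≤ (x + 1) ^ (n + 1) := by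
  induction n with
  | zero => simp
  | succ n ih =>
    have h1 : (x ^ (n + 1) + (n + 1) * x ^ n) * (x + 1) ≤ (x + 1) ^ (n + 1) * (x + 1) :=
      mul_le_mul_of_nonneg_right ih (by linarith)
    have h2 : 0 ≤ ((n : ℝ) + 1) * x ^ n := by positivity
    have h3 : (x + 1) ^ (n + 1 + 1) = (x + 1) ^ (n + 1) * (x + 1) := pow_succ _ _
    rw [h3]
    refine le_trans ?_ h1
    push_cast
    have h4 : (x ^ (n + 1) + (n + 1) * x ^ n) * (x + 1) =
      x ^ (n + 1 + 1) + ((n : ℝ) + 1 + 1) * x ^ (n + 1) + ((n : ℝ) + 1) * x ^ n := by ring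
    rw [h4]
    linarith

private theorem vn_sum_pow (n T : ℕ) :
    ∑ k ∈ Finset.Icc 1 T, (k : ℝ) ^ n ≤ ((T : ℝ) + 1) ^ (n + 1) / (n + 1) := by
  induction T with
  | zero => simp; positivity
  | succ T ih =>
    rw [Finset.sum_Icc_succ_top (by omega)]
    have h := vn_pow_step ((T : ℝ) + 1) (by positivity) n
    have hn : (0 : ℝ) < (n : ℝ) + 1 := by positivity
    push_cast
    have h2 : ((T : ℝ) + 1) ^ (n + 1) / (n + 1) + ((T : ℝ) + 1) ^ n ≤
        ((T : ℝ) + 1 + 1) ^ (n + 1) / (n + 1) := by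
      rw [le_div_iff₀ hn, add_mul, div_mul_cancel₀ _ hn.ne']
      linarith
    linarith

private theorem vn_choose_low (n d : ℕ) :
    2 * (d : ℝ) ^ n / n ! ≤ (((n + d).choose n + (n + d - 1).choose n : ℕ) : ℝ) := by
  have h1 : (d : ℝ) ^ n / n ! ≤ ((n + d - 1).choose n : ℕ) := by
    have h : d ^ n ≤ n ! * (d + n - 1).choose n := by
      rw [← Nat.ascFactorial_eq_factorial_mul_choose']
      exact Nat.pow_succ_le_ascFactorial d n
    rw [div_le_iff₀ (by positivity), add_comm n d, mul_comm]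
    exact_mod_cast h
  have h2 : (((n + d - 1).choose n : ℕ) : ℝ) ≤ ((n + d).choose n : ℕ) := by
    exact_mod_cast Nat.choose_le_choose n (Nat.sub_le _ _)
  push_cast
  have : 2 * (d : ℝ) ^ n / n ! = (d : ℝ) ^ n / n ! + (d : ℝ) ^ n / n ! := by ring
  rw [this]
  linarith only [h2, h1]

private theorem vn_Kd_le {n : ℕ} (hn : 2 ≤ n) (d : ℕ) :
    Kd n d ≤ 2 * n / ((n : ℝ) - 1) * (((n : ℝ) + d) ^ (n + 1) / (n + 1)!) := by
  have hn' : (2 : ℝ) ≤ n := by exact_mod_cast hn
  have hE2 : ((E₂ n d : ℕ) : ℝ) ≤ ((n : ℝ) + d) ^ (n + 1) / (n + 1)! := by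
    have := Nat.choose_le_pow_div (α := ℝ) (n + 1) (n + d)
    simpa [E₂] using this
  have hE1 : ((E₁ n d : ℕ) : ℝ) ≤ 2 * (((n : ℝ) + d) ^ (n + 1) / (n + 1)!) := by
    have h1 : (((n + d - 1).choose (n + 1) : ℕ) : ℝ) ≤ ((n + d).choose (n + 1) : ℕ) := by
      exact_mod_cast Nat.choose_le_choose (n + 1) (Nat.sub_le _ _)
    have h2 : (((n + d).choose (n + 1) : ℕ) : ℝ) ≤ ((n : ℝ) + d) ^ (n + 1) / (n + 1)! := by
      simpa [E₂] using hE2
    unfold E₁
    push_cast
    linarith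
  unfold Kd
  have hpos : 0 ≤ 2 / ((n : ℝ) - 1) := by
    apply div_nonneg <;> linarith
  have h3 := mul_le_mul_of_nonneg_left hE2 hpos
  set X := ((n : ℝ) + d) ^ (n + 1) / (n + 1)! with hX
  have h4 : 2 * (n : ℝ) / ((n : ℝ) - 1) * X = 2 * X + 2 / ((n : ℝ) - 1) * X := by
    have : (n : ℝ) - 1 ≠ 0 := by linarith
    field_simp
    ring
  rw [h4]
  linarith only [h3, hE1]

private theorem vn_Kd_nonneg {n : ℕ} (hn : 2 ≤ n) (d : ℕ) : 0 ≤ Kd n d := by
  have hn' : (2 : ℝ) ≤ n := by exact_mod_cast hn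
  unfold Kd
  have : 0 ≤ 2 / ((n : ℝ) - 1) := by
    apply div_nonneg <;> linarith
  positivity

/-- The real form. -/
private theorem vn_real {n : ℕ} (hn : 2 ≤ n) {a : ℝ} (ha : 0 < a) (m : ℕ → ℝ) (hm : ∀ k, 0 ≤ m k)
    (h : ∀ d T : ℕ, (T : ℝ) * (((n + d).choose n + (n + d - 1).choose n : ℕ) : ℝ) ≤
      a * Kd n d + ∑ k ∈ Finset.Icc 1 T, m k) (V : ℝ)
    (hV : ∀ᶠ t : ℕ in atTop, (n ! : ℝ) * m t ≤ V * (t : ℝ) ^ n) :
    2 * ((n : ℝ) - 1) ^ n ≤ a ^ n * V := by
  have hn' : (2 : ℝ) ≤ n := by exact_mod_cast hn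
  have hn1 : (0 : ℝ) < (n : ℝ) - 1 := by linarith
  have hf : (0 : ℝ) < n ! := by positivity
  obtain ⟨K, hK⟩ := eventually_atTop.1 hV
  have hV0 : 0 ≤ V := by
    have h1 := hK (K + 1) (by omega)
    have h2 : 0 ≤ (n ! : ℝ) * m (K + 1) := mul_nonneg hf.le (hm _)
    have h3 : (0 : ℝ) < ((K + 1 : ℕ) : ℝ) ^ n := by positivity
    by_contra hneg
    push Not at hneg
    have := mul_neg_of_neg_of_pos hneg h3
    linarith
  set C0 : ℝ := ∑ k ∈ Finset.range K, m k with hC0
  have hC0n : 0 ≤ C0 := Finset.sum_nonneg fun k _ => hm k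
  have hm' : ∀ k, m k ≤ V / n ! * (k : ℝ) ^ n + if k < K then m k else 0 := by
    intro k
    by_cases hk : k < K
    · rw [if_pos hk]
      have : 0 ≤ V / n ! * (k : ℝ) ^ n := by positivity
      linarith
    · rw [if_neg hk, add_zero]
      have := hK k (by omega)
      rw [div_mul_eq_mul_div, le_div_iff₀ hf]
      linarith
  have hsum : ∀ T : ℕ, ∑ k ∈ Finset.Icc 1 T, m k ≤
      V / n ! * (((T : ℝ) + 1) ^ (n + 1) / (n + 1)) + C0 := by
    intro T
    calc ∑ k ∈ Finset.Icc 1 T, m k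
        ≤ ∑ k ∈ Finset.Icc 1 T, (V / n ! * (k : ℝ) ^ n + if k < K then m k else 0) :=
          Finset.sum_le_sum fun k _ => hm' k
      _ = V / n ! * ∑ k ∈ Finset.Icc 1 T, (k : ℝ) ^ n +
          ∑ k ∈ Finset.Icc 1 T, (if k < K then m k else 0) := by
          rw [Finset.sum_add_distrib, Finset.mul_sum]
      _ ≤ _ := by
          refine add_le_add (mul_le_mul_of_nonneg_left (vn_sum_pow n T) (by positivity)) ?_
          rw [← Finset.sum_filter]
          refine Finset.sum_le_sum_of_subset_of_nonneg ?_ fun k _ _ => hm k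
          intro k hk
          rw [Finset.mem_filter] at hk
          exact Finset.mem_range.2 hk.2
  set τ : ℝ := ((n : ℝ) - 1) / a with hτ
  have hτ0 : 0 < τ := div_pos hn1 ha
  -- the sequences
  have hx : Tendsto (fun T : ℕ => ((⌊τ * (T : ℝ)⌋₊ : ℕ) : ℝ) / (T : ℝ)) atTop (nhds τ) :=
    (tendsto_nat_floor_mul_div_atTop hτ0.le).comp tendsto_natCast_atTop_atTop
  have hinv : Tendsto (fun T : ℕ => (1 : ℝ) / (T : ℝ)) atTop (nhds 0) :=
    tendsto_one_div_atTop_nhds_zero_nat
  have hL : Tendsto (fun T : ℕ => 2 * (((⌊τ * (T : ℝ)⌋₊ : ℕ) : ℝ) / (T : ℝ)) ^ n / n !) atTop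
      (nhds (2 * τ ^ n / n !)) := ((hx.pow n).const_mul 2).div_const _
  have hR : Tendsto (fun T : ℕ => a * (2 * n / ((n : ℝ) - 1) *
      ((n * ((1 : ℝ) / (T : ℝ)) + ((⌊τ * (T : ℝ)⌋₊ : ℕ) : ℝ) / (T : ℝ)) ^ (n + 1) / (n + 1)!)) +
      (V / n ! * ((1 + (1 : ℝ) / (T : ℝ)) ^ (n + 1) / (n + 1)) +
        C0 * ((1 : ℝ) / (T : ℝ)) ^ (n + 1))) atTop
      (nhds (a * (2 * n / ((n : ℝ) - 1) * ((n * (0 : ℝ) + τ) ^ (n + 1) / (n + 1)!)) +
        (V / n ! * ((1 + (0 : ℝ)) ^ (n + 1) / (n + 1)) + C0 * (0 : ℝ) ^ (n + 1)))) := by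
    refine Tendsto.add ?_ (Tendsto.add ?_ ?_)
    · exact (((((hinv.const_mul _).add hx).pow (n + 1)).div_const _).const_mul _).const_mul _
    · exact (((hinv.const_add 1).pow (n + 1)).div_const _).const_mul _
    · exact (hinv.pow (n + 1)).const_mul _
  have hle : ∀ᶠ T : ℕ in atTop, 2 * (((⌊τ * (T : ℝ)⌋₊ : ℕ) : ℝ) / (T : ℝ)) ^ n / n ! ≤
      a * (2 * n / ((n : ℝ) - 1) *
      ((n * ((1 : ℝ) / (T : ℝ)) + ((⌊τ * (T : ℝ)⌋₊ : ℕ) : ℝ) / (T : ℝ)) ^ (n + 1) / (n + 1)!)) +
      (V / n ! * ((1 + (1 : ℝ) / (T : ℝ)) ^ (n + 1) / (n + 1)) +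
        C0 * ((1 : ℝ) / (T : ℝ)) ^ (n + 1)) := by
    filter_upwards [eventually_ge_atTop 1] with T hT
    have hT0 : (0 : ℝ) < T := by exact_mod_cast hT
    set d : ℕ := ⌊τ * (T : ℝ)⌋₊ with hd
    have h1 := h d T
    have h2 := vn_choose_low n d
    have h3 := vn_Kd_le hn d
    have h4 := hsum T
    have h5 : (T : ℝ) * (2 * (d : ℝ) ^ n / n !) ≤
        a * (2 * n / ((n : ℝ) - 1) * (((n : ℝ) + d) ^ (n + 1) / (n + 1)!)) +
        (V / n ! * (((T : ℝ) + 1) ^ (n + 1) / (n + 1)) + C0) := by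
      have h6 := mul_le_mul_of_nonneg_left h2 hT0.le
      have h7 := mul_le_mul_of_nonneg_left h3 ha.le
      linarith only [h7, h6, h4, h1]
    have hTp : (0 : ℝ) < (T : ℝ) ^ (n + 1) := by positivity
    have e1 : 2 * ((d : ℝ) / (T : ℝ)) ^ n / n ! =
        ((T : ℝ) * (2 * (d : ℝ) ^ n / n !)) / (T : ℝ) ^ (n + 1) := by
      rw [div_pow, pow_succ]
      field_simp
    have e2 : (n : ℝ) * ((1 : ℝ) / (T : ℝ)) + (d : ℝ) / (T : ℝ) = ((n : ℝ) + d) / T := by
      field_simp
    have e3 : 1 + (1 : ℝ) / (T : ℝ) = ((T : ℝ) + 1) / T := by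
      field_simp
    rw [e1, e2, e3, div_le_iff₀ hTp]
    refine h5.trans (le_of_eq ?_)
    rw [div_pow, div_pow, div_pow, one_pow]
    field_simp
  have hfin := le_of_tendsto_of_tendsto hL hR hle
  rw [mul_zero, zero_add, add_zero, one_pow, zero_pow (Nat.succ_ne_zero n), mul_zero, add_zero]
    at hfin
  have hfac : ((n + 1)! : ℝ) = ((n : ℝ) + 1) * n ! := by
    rw [Nat.factorial_succ]; push_cast; ring
  have haτ : a * τ = (n : ℝ) - 1 := by
    rw [hτ]; field_simp
  have hkey : a * (2 * n / ((n : ℝ) - 1) * (τ ^ (n + 1) / (n + 1)!)) =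
      2 * n * τ ^ n / (((n : ℝ) + 1) * n !) := by
    rw [hfac, pow_succ]
    have : a * (2 * n / ((n : ℝ) - 1) * (τ ^ n * τ / (((n : ℝ) + 1) * n !))) =
      (a * τ) * (2 * n / ((n : ℝ) - 1) * (τ ^ n / (((n : ℝ) + 1) * n !))) := by ring
    rw [this, haτ]
    field_simp
  rw [hkey] at hfin
  have hn2 : (0 : ℝ) < (n : ℝ) + 1 := by positivity
  have h8 : 2 * τ ^ n ≤ V := by
    have h9 : 2 * τ ^ n / n ! * (((n : ℝ) + 1) * n !) ≤
        (2 * n * τ ^ n / (((n : ℝ) + 1) * n !) + V / n ! * (1 / ((n : ℝ) + 1))) *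
          (((n : ℝ) + 1) * n !) := mul_le_mul_of_nonneg_right hfin (by positivity)
    have e4 : 2 * τ ^ n / n ! * (((n : ℝ) + 1) * n !) = 2 * τ ^ n * ((n : ℝ) + 1) := by
      field_simp
    have e5 : (2 * n * τ ^ n / (((n : ℝ) + 1) * n !) + V / n ! * (1 / ((n : ℝ) + 1))) *
          (((n : ℝ) + 1) * n !) = 2 * n * τ ^ n + V := by
      field_simp
    rw [e4, e5] at h9
    linarith only [h9]
  have h10 := mul_le_mul_of_nonneg_left h8 (pow_pos ha n).le
  calc 2 * ((n : ℝ) - 1) ^ n = a ^ n * (2 * τ ^ n) := by rw [← haτ, mul_pow]; ring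
    _ ≤ a ^ n * V := h10

theorem vol_ge_of_counting {n : ℕ} (hn : 2 ≤ n) {a : ℝ} (ha : 0 < a) (l : ℕ → ℝ≥0∞) (hl : ∀ k, l k < ⊤)
    (h : ∀ d T : ℕ, (T : ℝ≥0∞) * (((n + d).choose n + (n + d - 1).choose n : ℕ) : ℝ≥0∞) ≤
      ENNReal.ofReal (a * Kd n d) + ∑ k ∈ Finset.Icc 1 T, l k) :
    2 * ((n : ℝ≥0∞) - 1) ^ n ≤ ENNReal.ofReal a ^ n *
      limsup (fun t : ℕ => (n ! : ℝ≥0∞) * l t / (t : ℝ≥0∞) ^ n) atTop := by
  set L : ℝ≥0∞ := limsup (fun t : ℕ => (n ! : ℝ≥0∞) * l t / (t : ℝ≥0∞) ^ n) atTop with hL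
  by_cases hT : L = ⊤
  · rw [hT, ENNReal.mul_top]
    · exact le_top
    · exact pow_ne_zero _ (ENNReal.ofReal_pos.2 ha).ne'
  set m : ℕ → ℝ := fun k => (l k).toReal with hm
  have hlm : ∀ k, l k = ENNReal.ofReal (m k) := fun k => (ENNReal.ofReal_toReal (hl k).ne).symm
  have hm0 : ∀ k, 0 ≤ m k := fun k => ENNReal.toReal_nonneg
  have hreal : ∀ d T : ℕ, (T : ℝ) * (((n + d).choose n + (n + d - 1).choose n : ℕ) : ℝ) ≤
      a * Kd n d + ∑ k ∈ Finset.Icc 1 T, m k := by
    intro d T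
    have h1 := h d T
    have h2 : ∑ k ∈ Finset.Icc 1 T, l k = ENNReal.ofReal (∑ k ∈ Finset.Icc 1 T, m k) := by
      rw [ENNReal.ofReal_sum_of_nonneg fun k _ => hm0 k]
      exact Finset.sum_congr rfl fun k _ => hlm k
    have hs : 0 ≤ ∑ k ∈ Finset.Icc 1 T, m k := Finset.sum_nonneg fun k _ => hm0 k
    have hk : 0 ≤ a * Kd n d := mul_nonneg ha.le (vn_Kd_nonneg hn d)
    rw [h2, ← ENNReal.ofReal_add hk hs, ← ENNReal.ofReal_natCast T, ← ENNReal.ofReal_natCast,
      ← ENNReal.ofReal_mul (Nat.cast_nonneg T), ENNReal.ofReal_le_ofReal_iff (by positivity)] at h1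
    exact h1
  have hev : ∀ V : ℝ, L.toReal < V → 2 * ((n : ℝ) - 1) ^ n ≤ a ^ n * V := by
    intro V hV
    refine vn_real hn ha m hm0 hreal V ?_
    have hLV : L < ENNReal.ofReal V := (ENNReal.lt_ofReal_iff_toReal_lt hT).2 hV
    have hV0 : 0 < V := lt_of_le_of_lt ENNReal.toReal_nonneg hV
    have h1 := eventually_lt_of_limsup_lt hLV
    filter_upwards [h1, eventually_ge_atTop 1] with t ht ht1
    have ht0 : (0 : ℝ) < t := by exact_mod_cast ht1
    have h2 : (n ! : ℝ≥0∞) * l t ≤ ENNReal.ofReal V * (t : ℝ≥0∞) ^ n := by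
      have hne : (t : ℝ≥0∞) ^ n ≠ 0 := pow_ne_zero _ (by exact_mod_cast (by omega : t ≠ 0))
      have hnt : (t : ℝ≥0∞) ^ n ≠ ⊤ := ENNReal.pow_ne_top (ENNReal.natCast_ne_top t)
      exact (ENNReal.div_le_iff hne hnt).1 ht.le
    rw [hlm t, ← ENNReal.ofReal_natCast t, ← ENNReal.ofReal_natCast (n !),
      ← ENNReal.ofReal_pow ht0.le, ← ENNReal.ofReal_mul (by positivity),
      ← ENNReal.ofReal_mul hV0.le, ENNReal.ofReal_le_ofReal_iff (by positivity)] at h2
    exact h2
  have hfin : 2 * ((n : ℝ) - 1) ^ n ≤ a ^ n * L.toReal := by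
    have han : 0 < a ^ n := pow_pos ha n
    rw [mul_comm (a ^ n), ← div_le_iff₀ han]
    refine le_of_forall_gt_imp_ge_of_dense fun V hV => ?_
    rw [div_le_iff₀ han, mul_comm V]
    exact hev V hV
  have hn' : (1 : ℝ) ≤ n := by exact_mod_cast (by omega : 1 ≤ n)
  have e1 : ((n : ℝ≥0∞) - 1) = ENNReal.ofReal ((n : ℝ) - 1) := by
    rw [ENNReal.ofReal_sub _ zero_le_one, ENNReal.ofReal_natCast, ENNReal.ofReal_one]
  have e2 : (2 : ℝ≥0∞) = ENNReal.ofReal 2 := by simp
  have e3 : L = ENNReal.ofReal L.toReal := (ENNReal.ofReal_toReal hT).symm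
  rw [e1, e2, e3, ← ENNReal.ofReal_pow (by linarith), ← ENNReal.ofReal_mul (by norm_num),
    ← ENNReal.ofReal_pow ha.le, ← ENNReal.ofReal_mul (by positivity)]
  exact ENNReal.ofReal_le_ofReal hfin

end Vale.Agent.P282.WR
end

section

/-!
P282-WR-13: the lower bound for the volume (upper limit).
-/

open scoped NNReal ENNReal Nat
open IsLocalRing

namespace Vale.Agent.P282.WR

open Vale.Agent.P282.Full

/-- The maximal ideal of a klt germ of positive dimension is not zero. -/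
private theorem vs_ne_bot {n r : ℕ} (hn : 2 ≤ n) {R K : Type} [CommRing R] [IsDomain R]
    [IsLocalRing R] [Algebra ℂ R] [Field K] [Algebra ℂ K] [Algebra R K]
    {ω : (Fin n → Derivation ℂ K K) → K} (h : IsKltGerm R n r ω) : maximalIdeal R ≠ ⊥ := by
  intro hb
  have hsurj : Function.Surjective (algebraMap ℂ R) := by
    intro f
    obtain ⟨c, hc⟩ := h.residue (IsLocalRing.residue R f)
    refine ⟨c, ?_⟩
    have h1 : IsLocalRing.residue R (algebraMap ℂ R c - f) = 0 := by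
      rw [map_sub, sub_eq_zero, ← hc]
      rfl
    rw [IsLocalRing.residue_eq_zero_iff, hb, Ideal.mem_bot, sub_eq_zero] at h1
    exact h1
  have halg : Algebra.IsAlgebraic ℂ R := by
    refine ⟨fun f => ?_⟩
    obtain ⟨c, rfl⟩ := hsurj f
    exact isAlgebraic_algebraMap c
  have h0 : Algebra.trdeg ℂ R = 0 := trdeg_eq_zero
  rw [h.dim] at h0
  have : n = 0 := by exact_mod_cast h0
  omega

/-- The lower bound for the volume from the set-up of sections 1-3 (`cv_setup`). -/
theorem volS_of_setup {n r : ℕ} (hn : 2 ≤ n) {R K : Type} [CommRing R] [IsDomain R]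
    [IsLocalRing R] [Algebra ℂ R] [Field K] [Algebra ℂ K] [Algebra R K] [IsScalarTower ℂ R K]
    [IsFractionRing R K] {ω : (Fin n → Derivation ℂ K K) → K} (h : IsKltGerm R n r ω)
    (v : Valuation K ℝ≥0) (hv : HasCenter R v (maximalIdeal R)) {a : ℝ}
    (ha : Full.IsLogDiscrepancy n r ω v a)
    (hsetup : ∀ ε : ℝ, 0 < ε → ∃ (F : Type) (_ : Field F) (_ : Algebra ℂ F)
      (w : Valuation F ℝ≥0) (ι : K →ₐ[ℂ] F) (L : Fin n → Derivation ℂ F F)
      (x : Fin (n + 1) → F) (h₀ : F),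
      (∀ f, w (ι f) = v f) ∧ (∀ c : ℂ, c ≠ 0 → w (algebraMap ℂ F c) = 1) ∧
      (∀ (i : Fin n) (f : F), (w (L i f) : ℝ) ≤ Real.exp ε * w f) ∧
      ∑ i, x i ^ 2 = 0 ∧ x 0 ≠ 0 ∧ (∀ i, w (x i) ≤ w (x 0)) ∧ w (x 0) < 1 ∧
      Matrix.det (Matrix.of fun i k : Fin n => L i (x k.succ)) = 2 * x 0 * h₀ ∧
      Real.exp (-a) ≤ (w h₀ : ℝ) ∧
      ∀ N : ℕ, ∃ x₁ : Fin (n + 1) → R, (∀ i, x₁ i ∈ maximalIdeal R) ∧
        ∑ i, x₁ i ^ 2 ∈ maximalIdeal R ^ N ∧
        ∀ i, w (x i - ι (algebraMap R K (x₁ i))) ≤ w (x 0) ^ N) :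
    2 * ((n : ℝ≥0∞) - 1) ^ n ≤ ENNReal.ofReal a ^ n * Full.vol R n v := by
  have hess : Algebra.EssFiniteType ℂ R := h.essFiniteType
  have hnoeth : IsNoetherianRing R := Algebra.EssFiniteType.isNoetherianRing ℂ R
  have hNe : NeZero n := ⟨by omega⟩
  have ha0 : 0 < a := h.klt v (maximalIdeal R) a hv (vs_ne_bot hn h) ha
  refine vol_ge_of_counting hn ha0
    (fun k => (Module.length R (R ⧸ Full.valIdeal R v k) : ℝ≥0∞))
    (fun k => by
      have h1 := length_lt_top v hv k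
      rw [← ENat.toENNReal_lt] at h1
      simpa using h1) ?_
  intro d T
  -- it is enough to prove it up to `ε`
  have key : ∀ ε : ℝ, 0 < ε → (T : ℝ≥0∞) * (((n + d).choose n + (n + d - 1).choose n : ℕ) : ℝ≥0∞) ≤
      ENNReal.ofReal (a * Kd n d + ε * Cd n d) +
        ∑ k ∈ Finset.Icc 1 T, (Module.length R (R ⧸ Full.valIdeal R v k) : ℝ≥0∞) := by
    intro ε hε
    obtain ⟨F, instF, instA, w, ι, L, x, h₀, hι, hw, hL, hq, hx0, hx, hx1, hdet, hh, happ⟩ :=
      hsetup ε hε
    have hxle : ∀ j, w (x j) ≤ 1 := fun j => (hx j).trans hx1.le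
    have happ' : ∀ N : ℕ, ∃ x1 : Fin (n + 1) → R, ∀ j,
        (w (x j - ι (algebraMap R K (x1 j))) : ℝ) ≤ Real.exp (-(N : ℝ)) := by
      intro N
      have hx1' : (w (x 0) : ℝ) < 1 := by exact_mod_cast hx1
      obtain ⟨M, hM⟩ := exists_pow_lt_of_lt_one (Real.exp_pos (-(N : ℝ))) hx1'
      obtain ⟨x₁, -, -, h3⟩ := happ M
      refine ⟨x₁, fun j => ?_⟩
      have h4 := h3 j
      have h5 : (w (x j - ι (algebraMap R K (x₁ j))) : ℝ) ≤ (w (x 0) : ℝ) ^ M := by
        exact_mod_cast h4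
      exact h5.trans hM.le
    have hsum := sum_finrank_le hn w hw L hε.le hL x hq hx0 hxle hh hdet d T
    have hcard : ∀ k : ℕ, (((n + d).choose n + (n + d - 1).choose n : ℕ) : ℝ≥0∞) ≤
        (Module.finrank ℂ (wspace w hw d x k) : ℝ≥0∞) +
          (Module.length R (R ⧸ Full.valIdeal R v k) : ℝ≥0∞) := by
      intro k
      have h1 := card_le_add (n := n) h.residue v hv w hw ι hι x hxle happ' d k
      rw [card_idx (by omega)] at h1
      have h2 := ENat.toENNReal_mono h1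
      rw [ENat.toENNReal_add] at h2
      simpa using h2
    calc (T : ℝ≥0∞) * (((n + d).choose n + (n + d - 1).choose n : ℕ) : ℝ≥0∞)
        = ∑ k ∈ Finset.Icc 1 T, (((n + d).choose n + (n + d - 1).choose n : ℕ) : ℝ≥0∞) := by
          rw [Finset.sum_const, Nat.card_Icc, nsmul_eq_mul, Nat.add_sub_cancel]
      _ ≤ ∑ k ∈ Finset.Icc 1 T, ((Module.finrank ℂ (wspace w hw d x k) : ℝ≥0∞) +
            (Module.length R (R ⧸ Full.valIdeal R v k) : ℝ≥0∞)) :=
          Finset.sum_le_sum fun k _ => hcard k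
      _ = ∑ k ∈ Finset.Icc 1 T, (Module.finrank ℂ (wspace w hw d x k) : ℝ≥0∞) +
            ∑ k ∈ Finset.Icc 1 T, (Module.length R (R ⧸ Full.valIdeal R v k) : ℝ≥0∞) :=
          Finset.sum_add_distrib
      _ ≤ _ := by
          refine add_le_add ?_ le_rfl
          have h3 : (∑ k ∈ Finset.Icc 1 T, (Module.finrank ℂ (wspace w hw d x k) : ℝ≥0∞)) =
              ENNReal.ofReal (∑ k ∈ Finset.Icc 1 T,
                (Module.finrank ℂ (wspace w hw d x k) : ℝ)) := by
            rw [ENNReal.ofReal_sum_of_nonneg fun k _ => by positivity]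
            refine Finset.sum_congr rfl fun k _ => ?_
            rw [ENNReal.ofReal_natCast]
          rw [h3]
          exact ENNReal.ofReal_le_ofReal hsum
  -- let `ε → 0`
  have htend : Filter.Tendsto (fun ε : ℝ => ENNReal.ofReal (a * Kd n d + ε * Cd n d) +
      ∑ k ∈ Finset.Icc 1 T, (Module.length R (R ⧸ Full.valIdeal R v k) : ℝ≥0∞))
      (nhdsWithin 0 (Set.Ioi 0)) (nhds (ENNReal.ofReal (a * Kd n d) +
        ∑ k ∈ Finset.Icc 1 T, (Module.length R (R ⧸ Full.valIdeal R v k) : ℝ≥0∞))) := by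
    refine Filter.Tendsto.add ?_ tendsto_const_nhds
    refine ENNReal.tendsto_ofReal ?_
    have h1 : Filter.Tendsto (fun ε : ℝ => a * Kd n d + ε * Cd n d) (nhds 0)
        (nhds (a * Kd n d + 0 * Cd n d)) := by
      refine Filter.Tendsto.add tendsto_const_nhds ?_
      exact (Filter.tendsto_id).mul_const _
    rw [zero_mul, add_zero] at h1
    exact h1.mono_left nhdsWithin_le_nhds
  refine ge_of_tendsto htend ?_
  filter_upwards [self_mem_nhdsWithin] with ε hε using key ε hε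

end Vale.Agent.P282.WR
end

section

/-!
P282, converse: assembly.
-/

open scoped NNReal ENNReal Nat
open IsLocalRing

namespace Vale.Agent.P282.Full

open Vale.Agent.P282.CV Vale.Agent.P282.WR

/-- The normalized volume of an ordinary double point is at least `2 (n - 1) ^ n`. -/
theorem nVolGe_of_odp {n r : ℕ} (hn : 2 ≤ n) {R K : Type} [CommRing R] [IsDomain R]
    [IsLocalRing R] [Algebra ℂ R] [Field K] [Algebra ℂ K] [Algebra R K] [IsScalarTower ℂ R K]
    [IsFractionRing R K] {ω : (Fin n → Derivation ℂ K K) → K} (h : IsKltGerm R n r ω)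
    (hreg : ¬ IsRegularLocalRing R) (hodp : IsODP R n) :
    NVolGe R n r ω (2 * ((n : ℝ≥0∞) - 1) ^ n) := by
  intro v a hv ha
  have hess := h.essFiniteType
  have hnR : IsNoetherianRing R := Algebra.EssFiniteType.isNoetherianRing ℂ R
  have hbot : maximalIdeal R ≠ ⊥ := by
    intro h0
    have hF : IsField R := IsLocalRing.isField_iff_maximalIdeal_eq.mpr h0
    have : IsPrincipalIdealRing R := hF.isPrincipalIdealRing
    exact hreg inferInstance
  rw [← vol_eq_volI hn h.residue hodp hbot hv]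
  exact volS_of_setup hn h v hv ha fun ε hε => cv_setup hn h hodp hv ha hε

end Vale.Agent.P282.Full
end

section

open scoped NNReal ENNReal Nat
open IsLocalRing

namespace Vale.Agent.P282.Gap

variable {n r : ℕ} {R : Type} [CommRing R] [IsDomain R] [IsLocalRing R] [Algebra ℂ R]
  {ω : (Fin n → Derivation ℂ (FractionRing R) (FractionRing R)) → FractionRing R}

/-- The value on an ordinary double point. -/
theorem normalizedVolume_odp (hn : 2 ≤ n) (h : IsKltGerm R n r ω)
    (hreg : ¬ IsRegularLocalRing R) (hodp : IsODP R n) :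
    normalizedVolume R n r ω = 2 * ((n : ℝ≥0∞) - 1) ^ n := by
  refine le_antisymm (normalizedVolume_le hn h hreg) ?_
  have hge := Full.nVolGe_of_odp hn h.toFull hreg hodp
  exact le_iInf fun v => le_iInf fun hv => le_iInf fun a => le_iInf fun ha => hge v a hv ha

end Vale.Agent.P282.Gap
end
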